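import Vale.Agent.P365.T1a.Cost
import Vale.Agent.P365.T1a.Bump
import Vale.Agent.P365.T1G.TorE

/-!
# P365-T1: definitions of the chain (labels, nested blocks, cells, profiles, functional)

`W x = (v x - E) - i e x`, `e` = absorption profile, `v` = real potential with a product law.
-/

set_option linter.all false

namespace P365T1

open P365L P365O MeasureTheory

/-! ### general finite systems -/

section general

variable {ι : Type*} [Fintype ι] [DecidableEq ι]

/-- complex potential at energy `E`, absorption profile `e`, real potential `v` -/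
noncomputable def WV (E : ℝ) (e v : ι → ℝ) : ι → ℂ :=
  fun x => ((v x - E : ℝ) : ℂ) - (e x : ℂ) * Complex.I

/-- off-resonant energy of `z` (77's `Y_z`); independent of `W z` -/
noncomputable def Yf (A : Matrix ι ι ℝ) (W : ι → ℂ) (f : ι → ℝ) (z : ι) : ℝ :=
  Nf A W f z / (1 + ‖sg A W z‖ ^ 2)

/-- expectation under the product law `ν` -/
noncomputable def Ex (ν : ι → Measure ℝ) (E : ℝ) (e : ι → ℝ) (F : (ι → ℂ) → ℝ) : ℝ :=
  ∫ v, F (WV E e v) ∂(Measure.pi ν)

/-- admissible laws: probability measures carried by `[-lam, lam]` -/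
structure Law (lam : ℝ) (ν : Measure ℝ) : Prop where
  prob : IsProbabilityMeasure ν
  supp : ν (Set.Icc (-lam) lam)ᶜ = 0

/-- density at most `D` -/
def DensLe (D : ℝ) (ν : Measure ℝ) : Prop := ν ≤ ENNReal.ofReal D • (volume : Measure ℝ)

/-- density at least `κ` on `[-a, a]` -/
def DensGe (κ a : ℝ) (ν : Measure ℝ) : Prop :=
  ENNReal.ofReal κ • (volume : Measure ℝ).restrict (Set.Icc (-a) a) ≤ ν

/-- cost constant `C` at energy `E`: the law error of a site with law `ν` is at most `C * Yf` -/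
def CostLe (E C : ℝ) (ν : Measure ℝ) : Prop :=
  ∀ (ι : Type) [Fintype ι] [DecidableEq ι] (A : Matrix ι ι ℝ) (W : ι → ℂ) (f : ι → ℝ) (z : ι),
    A.IsSymm → (∀ x, (W x).im < 0) →
      -(∫ v, dEn A (rez W z (v - E)) f z ∂ν) ≤ C * Yf A W f z

/-- graphs of degree at most four -/
structure Gph (A : Matrix ι ι ℝ) : Prop where
  symm : A.IsSymm
  zo : ∀ x y, A x y = 0 ∨ A x y = 1
  diag : ∀ x, A x x = 0
  deg : ∀ x, ∑ y, A x y ≤ 4

end general

/-! ### local coordinates of a block -/

/-- local coordinates -/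
abbrev Loc := ℕ × ℕ

/-- the block `[0, m)²` -/
def blk (m : ℕ) : Finset Loc := Finset.range m ×ˢ Finset.range m

/-- sites of the block `[0, m)²` at depth at least `k` : `[k, m - k)²` -/
def dep (m k : ℕ) : Finset Loc :=
  (blk m).filter fun a => k ≤ a.1 ∧ a.1 + k < m ∧ k ≤ a.2 ∧ a.2 + k < m

/-- adjacency of `ℤ²` in local coordinates -/
def adj2 (a b : Loc) : ℝ :=
  if (a.1 = b.1 ∧ (a.2 + 1 = b.2 ∨ b.2 + 1 = a.2)) ∨
    (a.2 = b.2 ∧ (a.1 + 1 = b.1 ∨ b.1 + 1 = a.1)) then 1 else 0

/-- the block `[0, m)²` sits in the graph `A` through `φ`: isometric adjacency, and no edge from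
the sites at depth `1` to the outside -/
structure Emb {ι : Type*} (A : Matrix ι ι ℝ) (m : ℕ) (φ : Loc → ι) : Prop where
  inj : ∀ a ∈ blk m, ∀ b ∈ blk m, φ a = φ b → a = b
  adj : ∀ a ∈ blk m, ∀ b ∈ blk m, A (φ a) (φ b) = adj2 a b
  ext : ∀ a ∈ dep m 1, ∀ z, (∀ b ∈ blk m, φ b ≠ z) → A (φ a) z = 0

/-- a cell: side `m`, frozen sites `S` (windows of half width `w` around `Vs`, bump law `nuB`),
weights `wt` of the moving absorption (`1` at the centre `y`), maximal absorption `e0` -/
structure Cell where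
  m : ℕ
  S : Finset Loc
  y : Loc
  Vs : Loc → ℝ
  w : ℝ
  wt : Loc → ℝ
  e0 : ℝ

/-- well-formed cells: `S` and the weights live at depth at least `k` of the block, centres of the
windows in `[-lam1, lam1]` -/
structure Cell.Ok (c : Cell) (k : ℕ) (lam1 : ℝ) : Prop where
  S_sub : c.S ⊆ dep c.m k
  S_ne : c.S.Nonempty
  y_mem : c.y ∈ dep c.m k
  y_S : c.y ∉ c.S
  Vs_le : ∀ a ∈ c.S, |c.Vs a| ≤ lam1
  w_pos : 0 < c.w
  w_le : c.w ≤ 1
  wt_nonneg : ∀ a, 0 ≤ c.wt a
  wt_le : ∀ a, c.wt a ≤ 1
  wt_y : c.wt c.y = 1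
  wt_out : ∀ a, a ∉ dep c.m k → c.wt a = 0
  e0_pos : 0 < c.e0
  e0_le : c.e0 ≤ 1

/-- law of the site `a` of the block of a cell (`ρ` = good law) -/
noncomputable def Cell.law (c : Cell) (ρ : Measure ℝ) (a : Loc) : Measure ℝ :=
  if a ∈ c.S then Bump.nuB (c.Vs a) c.w else ρ


/-! ### the torus: nested grids of blocks -/

section torus

variable {N : ℕ} [NeZero N]

/-- index of the block of side `m` which contains `x` -/
def bi (m : ℕ) (x : Tor N) : Loc := (x.1.val / m, x.2.val / m)

/-- local coordinates in the block of side `m` -/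
def lc (m : ℕ) (x : Tor N) : Loc := (x.1.val % m, x.2.val % m)

/-- the site with local coordinates `a` in the block `c` of side `m` -/
def st (N m : ℕ) (c a : Loc) : Tor N :=
  (((c.1 * m + a.1 : ℕ) : ZMod N), ((c.2 * m + a.2 : ℕ) : ZMod N))

end torus

/-! ### labels -/

/-- site labels: `good` (smooth law `ρ`, movable), `rest` (never in a pattern), `win k` -/
inductive Lab (K : ℕ) where
  | good : Lab K
  | rest : Lab K
  | win : Fin K → Lab K
  deriving DecidableEq, Fintype

/-- a family of cells: its cell and its window labels -/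
structure Fam (K : ℕ) where
  c : Cell
  lab : Loc → Fin K

/-- pattern of a family -/
def Fam.pat {K : ℕ} (F : Fam K) (a : Loc) : Lab K :=
  if a ∈ F.c.S then Lab.win (F.lab a) else Lab.good

/-- the chain: families `0, …, I`, label weights and laws, background absorption `b` -/
structure Chain where
  K : ℕ
  I : ℕ
  F : ℕ → Fam K
  p : Lab K → ℝ
  ν : Lab K → Measure ℝ
  b : ℝ

section chain

variable (D : Chain) {N : ℕ} [NeZero N]

/-- the block of family `i` which contains `x` carries its pattern -/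
def Chain.Mat (i : ℕ) (l : Tor N → Lab D.K) (x : Tor N) : Prop :=
  ∀ z, bi (D.F i).c.m z = bi (D.F i).c.m x → l z = (D.F i).pat (lc (D.F i).c.m z)

open Classical in
/-- weight of level `j` at `x`: level `0` = bulk = good sites in no matched block; level `i + 1` =
weights of the matched cells of family `i` -/
noncomputable def Chain.wt (j : ℕ) (l : Tor N → Lab D.K) (x : Tor N) : ℝ :=
  match j with
  | 0 => if l x = Lab.good ∧ ∀ i ≤ D.I, ¬ D.Mat i l x then 1 else 0
  | i + 1 => if D.Mat i l x then (D.F i).c.wt (lc (D.F i).c.m x) else 0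

/-- absorption profile: background `b` + `∑_j e_j * (weight of level j)`, `j = 0, …, I + 1` -/
noncomputable def Chain.prof (e : ℕ → ℝ) (l : Tor N → Lab D.K) (x : Tor N) : ℝ :=
  D.b + ∑ j ∈ Finset.range (D.I + 2), e j * D.wt j l x

/-- probability of a label configuration -/
noncomputable def Chain.pr (l : Tor N → Lab D.K) : ℝ := ∏ x, D.p (l x)

/-- average over labels and potentials -/
noncomputable def Chain.Av (N : ℕ) [NeZero N] (E : ℝ) (e : ℕ → ℝ)
    (G : (Tor N → Lab D.K) → (Tor N → ℂ) → ℝ) : ℝ :=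
  ∑ l : Tor N → Lab D.K, D.pr l * Ex (fun x => D.ν (l x)) E (D.prof e l) (G l)

/-- **the functional**: average total energy of the four angle functions -/
noncomputable def Chain.Phi (N : ℕ) [NeZero N] (E : ℝ) (e : ℕ → ℝ) : ℝ :=
  D.Av N E e fun _ W => ∑ k : Fin 4, En (AT N) W (phi N k)

/-- `− (average of ∑_x w_j(x) ∂En/∂e_x)` -/
noncomputable def Chain.Cost (N : ℕ) [NeZero N] (E : ℝ) (e : ℕ → ℝ) (j : ℕ) : ℝ :=
  D.Av N E e fun l W => ∑ x, D.wt j l x * ∑ k : Fin 4, - dEn (AT N) W (phi N k) x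

/-- average of `∑_x w_j(x) Y_x` -/
noncomputable def Chain.Yc (N : ℕ) [NeZero N] (E : ℝ) (e : ℕ → ℝ) (j : ℕ) : ℝ :=
  D.Av N E e fun l W => ∑ x, D.wt j l x * ∑ k : Fin 4, Yf (AT N) W (phi N k) x

/-- average of `∑_x w_j(x) M_x` -/
noncomputable def Chain.Mc (N : ℕ) [NeZero N] (E : ℝ) (e : ℕ → ℝ) (j : ℕ) : ℝ :=
  D.Av N E e fun l W => ∑ x, D.wt j l x * ∑ k : Fin 4, Mf (AT N) W (phi N k) x

/-- initial strength of level `j`: `32` for the bulk, `e0` of the family `j - 1` otherwise -/
noncomputable def Chain.ini (j : ℕ) : ℝ :=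
  match j with
  | 0 => 32
  | i + 1 => (D.F i).c.e0

/-- strengths when level `j` is being lowered and has strength `s`: lower levels are off, higher
levels are at their initial strength -/
noncomputable def Chain.ev (j : ℕ) (s : ℝ) (k : ℕ) : ℝ :=
  if k < j then 0 else if k = j then s else D.ini k

end chain

end P365T1
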