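import Mathlib.MeasureTheory.Integral.Marginal
import Mathlib.MeasureTheory.Integral.Lebesgue.Markov
import Mathlib.MeasureTheory.Measure.Lebesgue.Basic

/-!
# P365-T1, chapter C: the Markov–Fubini repair (372 / 417 / 256)

`cp μ Q R V` = probability of `R` when the coordinates of `Q` are resampled.
`badSet μ Q R θ = {V | θ ≤ cp μ Q R V}` does not depend on the coordinates of `Q`, and all its
slices in a direction `k ∉ Q` are short if those of `R` are.
-/

set_option autoImplicit false
set_option linter.unusedSectionVars false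
set_option linter.unusedVariables false
set_option linter.style.header false

open MeasureTheory Finset Function
open scoped ENNReal

namespace P365T1.Bad

variable {ι : Type*} [DecidableEq ι] (μ : ι → Measure ℝ) [∀ i, IsProbabilityMeasure (μ i)]

/-- probability of `R` when the coordinates of `Q` are resampled -/
noncomputable def cp (Q : Finset ι) (R : Set (ι → ℝ)) : (ι → ℝ) → ℝ≥0∞ :=
  ∫⋯∫⁻_Q, R.indicator 1 ∂μ

theorem measurable_cp (Q : Finset ι) {R : Set (ι → ℝ)} (hR : MeasurableSet R) :
    Measurable (cp μ Q R) :=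
  Measurable.lmarginal μ (measurable_one.indicator hR)

theorem cp_update_of_mem {Q : Finset ι} {R : Set (ι → ℝ)} {i : ι} (hi : i ∈ Q) (V : ι → ℝ)
    (t : ℝ) : cp μ Q R (update V i t) = cp μ Q R V := by
  rw [cp, lmarginal_update_of_mem μ hi]

theorem cp_congr {Q : Finset ι} {R : Set (ι → ℝ)} {V V' : ι → ℝ} (h : ∀ i ∉ Q, V i = V' i) :
    cp μ Q R V = cp μ Q R V' := by
  unfold cp
  exact lmarginal_congr μ _ h

theorem cp_mono {Q : Finset ι} {R R' : Set (ι → ℝ)} (h : R ⊆ R') (V : ι → ℝ) :
    cp μ Q R V ≤ cp μ Q R' V := by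
  refine lmarginal_mono (fun x => ?_) V
  exact Set.indicator_le_indicator_of_subset h (fun _ => zero_le) x

theorem cp_union_le {Q : Finset ι} {R R' : Set (ι → ℝ)} (hR : MeasurableSet R) (V : ι → ℝ) :
    cp μ Q (R ∪ R') V ≤ cp μ Q R V + cp μ Q R' V := by
  unfold cp lmarginal
  rw [← lintegral_add_left]
  · refine lintegral_mono fun y => ?_
    by_cases h1 : updateFinset V Q y ∈ R <;> by_cases h2 : updateFinset V Q y ∈ R' <;>
      simp [h1, h2, Set.indicator]
  · exact (measurable_one.indicator hR).comp measurable_updateFinset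

theorem cp_biUnion_le {α : Type*} {Q : Finset ι} (s : Finset α) (R : α → Set (ι → ℝ))
    (hR : ∀ a ∈ s, MeasurableSet (R a)) (V : ι → ℝ) :
    cp μ Q (⋃ a ∈ s, R a) V ≤ ∑ a ∈ s, cp μ Q (R a) V := by
  classical
  induction s using Finset.induction_on with
  | empty => simp [cp, lmarginal]
  | insert a s ha ih =>
    rw [Finset.set_biUnion_insert, Finset.sum_insert ha]
    refine (cp_union_le μ (hR a (Finset.mem_insert_self a s)) V).trans ?_
    gcongr
    exact ih fun b hb => hR b (Finset.mem_insert_of_mem hb)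

theorem cp_le_one {Q : Finset ι} (R : Set (ι → ℝ)) (V : ι → ℝ) : cp μ Q R V ≤ 1 := by
  unfold cp lmarginal
  calc ∫⁻ y, R.indicator 1 (updateFinset V Q y) ∂(Measure.pi fun i : Q => μ i)
      ≤ ∫⁻ _y, 1 ∂(Measure.pi fun i : Q => μ i) := by
        refine lintegral_mono fun y => ?_
        exact Set.indicator_le_self' (fun _ _ => zero_le) _
    _ = 1 := by simp

/-- a set all of whose slices in a direction `k ∈ Q` are small has small conditional probability -/
theorem cp_le_of_slice {Q : Finset ι} {R : Set (ι → ℝ)} (hR : MeasurableSet R) {k : ι}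
    (hk : k ∈ Q) {r : ℝ≥0∞} (h : ∀ V : ι → ℝ, μ k {v | update V k v ∈ R} ≤ r) (V : ι → ℝ) :
    cp μ Q R V ≤ r := by
  have hm : Measurable (R.indicator (1 : (ι → ℝ) → ℝ≥0∞)) := measurable_one.indicator hR
  rw [cp, lmarginal_erase' _ hm hk]
  have h2 : (fun x : ι → ℝ => ∫⁻ v, R.indicator (1 : (ι → ℝ) → ℝ≥0∞) (update x k v) ∂μ k) ≤
      fun _ => r := by
    intro x
    have h3 : (fun v => R.indicator (1 : (ι → ℝ) → ℝ≥0∞) (update x k v)) =
        ((fun v => update x k v) ⁻¹' R).indicator 1 := by
      ext v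
      by_cases hv : update x k v ∈ R <;> simp [Set.indicator, hv]
    simp only [h3]
    rw [lintegral_indicator_one ((measurable_update x) hR)]
    exact h x
  refine (lmarginal_mono h2 V).trans ?_
  unfold lmarginal
  simp

/-- the exceptional set: the event `R` has conditional probability at least `θ` -/
def badSet (Q : Finset ι) (R : Set (ι → ℝ)) (θ : ℝ≥0∞) : Set (ι → ℝ) := {V | θ ≤ cp μ Q R V}

theorem measurableSet_badSet (Q : Finset ι) {R : Set (ι → ℝ)} (hR : MeasurableSet R)
    (θ : ℝ≥0∞) : MeasurableSet (badSet μ Q R θ) :=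
  measurableSet_le measurable_const (measurable_cp μ Q hR)

theorem mem_badSet_congr {Q : Finset ι} {R : Set (ι → ℝ)} {θ : ℝ≥0∞} {V V' : ι → ℝ}
    (h : ∀ i ∉ Q, V i = V' i) : V ∈ badSet μ Q R θ ↔ V' ∈ badSet μ Q R θ := by
  simp only [badSet, Set.mem_ofPred_eq, cp_congr μ h]

theorem mem_badSet_update {Q : Finset ι} {R : Set (ι → ℝ)} {θ : ℝ≥0∞} {i : ι} (hi : i ∈ Q)
    (V : ι → ℝ) (t : ℝ) : update V i t ∈ badSet μ Q R θ ↔ V ∈ badSet μ Q R θ := by
  simp only [badSet, Set.mem_ofPred_eq, cp_update_of_mem μ hi]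

theorem updateFinset_update_comm {Q : Finset ι} {k : ι} (hk : k ∉ Q) (V : ι → ℝ) (v : ℝ)
    (y : (i : Q) → ℝ) :
    updateFinset (update V k v) Q y = update (updateFinset V Q y) k v := by
  ext i
  by_cases hi : i = k
  · subst hi
    simp [updateFinset, hk]
  · by_cases hQ : i ∈ Q
    · simp [updateFinset, hQ, hi]
    · simp [updateFinset, hQ, hi]

/-- **the slices of the exceptional set are short** -/
theorem volume_badSet_le {Q : Finset ι} {R : Set (ι → ℝ)} (hR : MeasurableSet R) {k : ι}
    (hk : k ∉ Q) {ε : ℝ≥0∞} (h : ∀ V : ι → ℝ, volume {v : ℝ | update V k v ∈ R} ≤ ε)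
    {θ : ℝ≥0∞} (h0 : θ ≠ 0) (h1 : θ ≠ ⊤) (V : ι → ℝ) :
    volume {v : ℝ | update V k v ∈ badSet μ Q R θ} ≤ ε / θ := by
  have hm : Measurable fun v : ℝ => cp μ Q R (update V k v) :=
    (measurable_cp μ Q hR).comp (measurable_update V)
  have h2 := mul_meas_ge_le_lintegral (μ := volume) hm θ
  rw [ENNReal.le_div_iff_mul_le (Or.inl h0) (Or.inl h1), mul_comm]
  refine h2.trans ?_
  have h3 : ∀ v : ℝ, cp μ Q R (update V k v) =
      ∫⁻ y, R.indicator 1 (update (updateFinset V Q y) k v) ∂(Measure.pi fun i : Q => μ i) := by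
    intro v
    unfold cp lmarginal
    refine lintegral_congr fun y => ?_
    rw [updateFinset_update_comm hk]
  simp only [h3]
  rw [lintegral_lintegral_swap]
  · calc ∫⁻ y, ∫⁻ v, R.indicator 1 (update (updateFinset V Q y) k v) ∂volume
          ∂(Measure.pi fun i : Q => μ i)
        ≤ ∫⁻ _y, ε ∂(Measure.pi fun i : Q => μ i) := by
          refine lintegral_mono fun y => ?_
          have h4 : (fun v => R.indicator (1 : (ι → ℝ) → ℝ≥0∞)
              (update (updateFinset V Q y) k v)) =
              ((fun v => update (updateFinset V Q y) k v) ⁻¹' R).indicator 1 := by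
            ext v
            by_cases hv : update (updateFinset V Q y) k v ∈ R <;> simp [Set.indicator, hv]
          rw [h4, lintegral_indicator_one ((measurable_update _) hR)]
          exact h _
      _ = ε := by simp
  · refine Measurable.aemeasurable ?_
    refine (measurable_one.indicator hR).comp ?_
    refine measurable_pi_lambda _ fun i => ?_
    by_cases hi : i = k
    · subst hi
      simp only [update_self]
      exact measurable_fst
    · simp only [update_of_ne hi]
      by_cases hQ : i ∈ Q
      · simp only [updateFinset, hQ, dif_pos]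
        exact (measurable_pi_apply _).comp measurable_snd
      · simp only [updateFinset, hQ, dif_neg, not_false_eq_true]
        exact measurable_const

end P365T1.Bad
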