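import Vale.Agent.P365.H417.Cell
import Vale.Agent.P365.T1.Defs
import Vale.Agent.P365.T1.Bad

/-!
# P365-T1, chapter C: resonance events of the ports, in the system with `y` removed

`cut A y` = the graph with `y` decoupled; `Gr (cut A y) W p q = Gi A W y p q` for `p, q ≠ y`.
-/

set_option autoImplicit false
set_option linter.all false

open MeasureTheory Finset Function Matrix Complex P365L P365O P365T1.H417
open scoped ENNReal ComplexConjugate

namespace P365T1.Bad

variable {ι : Type*} [Fintype ι] [DecidableEq ι] {A : Matrix ι ι ℝ} {W : ι → ℂ}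

/-- the site `y` decoupled from the graph -/
def cut (A : Matrix ι ι ℝ) (y : ι) : Matrix ι ι ℝ := fun a b => if a = y ∨ b = y then 0 else A a b

theorem cut_symm (hA : A.IsSymm) (y : ι) : (cut A y).IsSymm := by
  ext a b
  simp only [Matrix.transpose_apply, cut]
  by_cases h1 : a = y <;> by_cases h2 : b = y <;> simp [h1, h2, hA.apply]

theorem Kmat_apply (A : Matrix ι ι ℝ) (W : ι → ℂ) (g : ι → ℂ) (x : ι) :
    (Kmat A W).mulVec g x = ∑ b, (A x b : ℂ) * g b + W x * g x := by
  rw [Kmat, Matrix.add_mulVec, Pi.add_apply, Matrix.mulVec_diagonal]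
  congr 1

theorem Gr_cut (hA : A.IsSymm) (hW : ∀ x, (W x).im < 0) {y p q : ι} (hp : p ≠ y) (hq : q ≠ y) :
    Gr (cut A y) W p q = Gi A W y p q := by
  have hWy : W y ≠ 0 := fun h => by
    have := hW y
    rw [h] at this
    simp at this
  let X : Matrix ι ι ℂ := fun p q =>
    if q = y then (if p = y then (W y)⁻¹ else 0) else Gi A W y p q
  have hX : Kmat (cut A y) W * X = 1 := by
    ext a b
    have h1 : (Kmat (cut A y) W * X) a b = (Kmat (cut A y) W).mulVec (fun z => X z b) a := rfl
    rw [h1, Kmat_apply]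
    by_cases hb : b = y
    · subst hb
      by_cases ha : a = b
      · subst ha
        simp [X, cut, hWy]
      · have : ∀ c, ((cut A b a c : ℝ) : ℂ) * X c b = 0 := by
          intro c
          by_cases hc : c = b
          · simp [cut, hc]
          · simp [X, hc]
        rw [Finset.sum_eq_zero fun c _ => this c]
        simp [X, ha]
    · by_cases ha : a = y
      · subst ha
        simp only [cut, true_or, if_true, Complex.ofReal_zero, zero_mul, Finset.sum_const_zero,
          zero_add, X, hb, if_false, Gi_left hA hW, mul_zero]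
        rw [Matrix.one_apply_ne (Ne.symm hb)]
      · have h2 := K_Gi hA hW y b a
        rw [Kmat_apply, if_neg ha, sub_zero] at h2
        have h3 : ∑ c, ((cut A y a c : ℝ) : ℂ) * X c b = ∑ c, (A a c : ℂ) * Gi A W y c b := by
          refine Finset.sum_congr rfl fun c _ => ?_
          by_cases hc : c = y
          · subst hc
            simp [cut, Gi_left hA hW]
          · simp [cut, X, ha, hc, hb]
        rw [h3]
        simp only [X, hb, if_false]
        rw [h2, Matrix.one_apply]
  have h := Matrix.inv_eq_right_inv hX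
  have h2 : Gr (cut A y) W = X := h
  rw [h2]
  simp [X, hq]

/-- off-diagonal entries are controlled by diagonal ones, one site removed -/
theorem sq_Gr_le (hA : A.IsSymm) (hW : ∀ x, (W x).im < 0) (k l : ι) :
    ‖Gr A W k l‖ ^ 2 ≤ ‖Gr A W k k‖ * (‖Gr A W l l‖ + ‖Gi A W k l l‖) := by
  have h0 := Gr_self_ne_zero hA hW k
  have h1 : Gr A W k l ^ 2 = Gr A W k k * (Gr A W l l - Gi A W k l l) := by
    rw [Gi, gw, Gr_symm hA l k]
    field_simp
    ring
  rw [← norm_pow, h1, norm_mul]
  gcongr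
  exact norm_sub_le _ _

/-- slice of the resonance event of a site -/
theorem volume_res_le (hA : A.IsSymm) (hW : ∀ x, (W x).im < 0) (l : ι) {L : ℝ} (hL : 0 < L) :
    volume {v : ℝ | L < ‖Gr A (rez W l v) l l‖} ≤ ENNReal.ofReal (2 / L) := by
  have hsub : {v : ℝ | L < ‖Gr A (rez W l v) l l‖} ⊆
      Set.Icc ((sz A W l).re - 1 / L) ((sz A W l).re + 1 / L) := by
    intro v hv
    rw [Set.mem_ofPred_eq, Gr_rez hA hW, norm_inv] at hv
    have h1 : 0 < ‖(v : ℂ) - sz A W l‖ := by
      rcases (norm_nonneg ((v : ℂ) - sz A W l)).eq_or_lt with h | h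
      · rw [← h, _root_.inv_zero] at hv
        linarith
      · exact h
    have h2 : ‖(v : ℂ) - sz A W l‖ < 1 / L := by
      rw [lt_inv_comm₀ hL h1] at hv
      rwa [one_div]
    have h3 : |v - (sz A W l).re| ≤ ‖(v : ℂ) - sz A W l‖ := by
      have := Complex.abs_re_le_norm ((v : ℂ) - sz A W l)
      simpa using this
    have h4 := abs_le.1 (h3.trans h2.le)
    exact ⟨by linarith [h4.1], by linarith [h4.2]⟩
  refine (measure_mono hsub).trans ?_
  rw [Real.volume_Icc]
  exact ENNReal.ofReal_le_ofReal (by ring_nf; rfl)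

/-! ### configurations -/

private theorem WV_im (E : ℝ) (e v : ι → ℝ) (x : ι) : (WV E e v x).im = -e x := by
  simp [WV]

theorem WV_neg {E : ℝ} {e : ι → ℝ} (he : ∀ x, 0 < e x) (v : ι → ℝ) (x : ι) :
    (WV E e v x).im < 0 := by
  rw [WV_im]
  linarith [he x]

theorem WV_update (E : ℝ) (e V : ι → ℝ) (l : ι) (v : ℝ) :
    WV E e (update V l v) = rez (WV E e V) l (v - E) := by
  ext x
  by_cases hx : x = l
  · subst hx
    simp [WV, rez]
    ring
  · simp [WV, rez, hx]

theorem measurable_Gr_WV (A : Matrix ι ι ℝ) (E : ℝ) (e : ι → ℝ) (x y : ι) :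
    Measurable fun V : ι → ℝ => Gr A (WV E e V) x y := by
  refine measurable_Gr (fun V => WV E e V) (fun z => ?_) x y
  unfold WV
  have h : Measurable fun V : ι → ℝ => V z - E := (measurable_pi_apply z).sub measurable_const
  exact (Complex.measurable_ofReal.comp h).sub measurable_const

/-- resonance of the site `l` in the graph `A` -/
def Res (A : Matrix ι ι ℝ) (E : ℝ) (e : ι → ℝ) (L : ℝ) (l : ι) : Set (ι → ℝ) :=
  {V | L < ‖Gr A (WV E e V) l l‖}

theorem measurableSet_Res (A : Matrix ι ι ℝ) (E : ℝ) (e : ι → ℝ) (L : ℝ) (l : ι) :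
    MeasurableSet (Res A E e L l) :=
  measurableSet_lt measurable_const (measurable_Gr_WV A E e l l).norm

theorem volume_Res_le (hA : A.IsSymm) {E : ℝ} {e : ι → ℝ} (he : ∀ x, 0 < e x) (l : ι) {L : ℝ}
    (hL : 0 < L) (V : ι → ℝ) :
    volume {v : ℝ | update V l v ∈ Res A E e L l} ≤ ENNReal.ofReal (2 / L) := by
  have h1 : {v : ℝ | update V l v ∈ Res A E e L l} =
      (fun v : ℝ => v + -E) ⁻¹' {v : ℝ | L < ‖Gr A (rez (WV E e V) l v) l l‖} := by
    ext v
    simp only [Res, Set.mem_ofPred_eq, Set.mem_preimage, WV_update, sub_eq_add_neg]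
  rw [h1, measure_preimage_add_right]
  exact volume_res_le hA (WV_neg he V) l hL

/-- all entries of the Green matrix without `y` on the ports are at most `2 L` -/
def NR (A : Matrix ι ι ℝ) (E : ℝ) (e : ι → ℝ) (y : ι) (L : ℝ) (D : Finset ι) : Set (ι → ℝ) :=
  {V | ∀ p ∈ D, ∀ q ∈ D, ‖Gi A (WV E e V) y p q‖ ≤ 2 * L}

theorem measurableSet_NR (A : Matrix ι ι ℝ) (E : ℝ) (e : ι → ℝ) (y : ι) (L : ℝ) (D : Finset ι) :
    MeasurableSet (NR A E e y L D) := by
  have : NR A E e y L D = ⋂ p ∈ D, ⋂ q ∈ D, {V | ‖Gi A (WV E e V) y p q‖ ≤ 2 * L} := by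
    ext V
    simp [NR]
  rw [this]
  refine Finset.measurableSet_biInter _ fun p _ => Finset.measurableSet_biInter _ fun q _ => ?_
  refine measurableSet_le (Measurable.norm ?_) measurable_const
  unfold Gi gw
  exact (measurable_Gr_WV A E e p q).sub (((measurable_Gr_WV A E e p y).div
    (measurable_Gr_WV A E e y y)).mul (measurable_Gr_WV A E e y q))

/-- the events in the direction `l`: resonance of `l` in the graph without `y`, and without `y` and
`k`, for the other ports `k` -/
def ResD (A : Matrix ι ι ℝ) (E : ℝ) (e : ι → ℝ) (y : ι) (L : ℝ) (D : Finset ι) (l : ι) :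
    Set (ι → ℝ) :=
  Res (cut A y) E e L l ∪ ⋃ k ∈ D.erase l, Res (cut (cut A y) k) E e L l

theorem measurableSet_ResD (A : Matrix ι ι ℝ) (E : ℝ) (e : ι → ℝ) (y : ι) (L : ℝ) (D : Finset ι)
    (l : ι) : MeasurableSet (ResD A E e y L D l) :=
  (measurableSet_Res _ _ _ _ _).union
    (Finset.measurableSet_biUnion _ fun k _ => measurableSet_Res _ _ _ _ _)

theorem volume_ResD_le (hA : A.IsSymm) {E : ℝ} {e : ι → ℝ} (he : ∀ x, 0 < e x) (y : ι)
    {D : Finset ι} {l : ι} (hl : l ∈ D) {L : ℝ} (hL : 0 < L) (V : ι → ℝ) :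
    volume {v : ℝ | update V l v ∈ ResD A E e y L D l} ≤ D.card * ENNReal.ofReal (2 / L) := by
  have h1 : {v : ℝ | update V l v ∈ ResD A E e y L D l} ⊆
      {v : ℝ | update V l v ∈ Res (cut A y) E e L l} ∪
        ⋃ k ∈ D.erase l, {v : ℝ | update V l v ∈ Res (cut (cut A y) k) E e L l} := by
    intro v hv
    simpa [ResD] using hv
  refine (measure_mono h1).trans ((measure_union_le _ _).trans ?_)
  have h2 : ∑ k ∈ D.erase l, volume {v : ℝ | update V l v ∈ Res (cut (cut A y) k) E e L l} ≤
      ∑ _k ∈ D.erase l, ENNReal.ofReal (2 / L) :=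
    Finset.sum_le_sum fun k _ => volume_Res_le (cut_symm (cut_symm hA y) k) he l hL V
  have h3 := (measure_biUnion_finset_le (μ := volume) (D.erase l)
    fun k => {v : ℝ | update V l v ∈ Res (cut (cut A y) k) E e L l}).trans h2
  refine (add_le_add (volume_Res_le (cut_symm hA y) he l hL V) h3).trans ?_
  rw [Finset.sum_const, nsmul_eq_mul, ← Finset.card_erase_add_one hl]
  push_cast
  rw [add_mul, one_mul, add_comm]

/-- off the events `ResD` all the entries on the ports are small -/
theorem mem_NR (hA : A.IsSymm) {E : ℝ} {e : ι → ℝ} (he : ∀ x, 0 < e x) {y : ι}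
    {D : Finset ι} (hy : y ∉ D) {L : ℝ} (hL : 0 < L) {V : ι → ℝ}
    (hV : ∀ l ∈ D, V ∉ ResD A E e y L D l) : V ∈ NR A E e y L D := by
  have hW := WV_neg (E := E) he V
  have hd : ∀ l ∈ D, ‖Gr (cut A y) (WV E e V) l l‖ ≤ L := by
    intro l hl
    by_contra hc
    exact hV l hl (Or.inl (not_le.1 hc))
  intro p hp q hq
  have hpy : p ≠ y := fun h => hy (h ▸ hp)
  have hqy : q ≠ y := fun h => hy (h ▸ hq)
  rw [← Gr_cut hA hW hpy hqy]
  by_cases hpq : p = q
  · subst hpq
    linarith [hd p hp]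
  · have h1 := sq_Gr_le (cut_symm hA y) hW p q
    rw [← Gr_cut (cut_symm hA y) hW (Ne.symm hpq) (Ne.symm hpq)] at h1
    have h2 : ‖Gr (cut (cut A y) p) (WV E e V) q q‖ ≤ L := by
      by_contra hc
      refine hV q hq (Or.inr ?_)
      simp only [Set.mem_iUnion]
      exact ⟨p, Finset.mem_erase.2 ⟨hpq, hp⟩, not_le.1 hc⟩
    have h3 : ‖Gr (cut A y) (WV E e V) p q‖ ^ 2 ≤ (2 * L) ^ 2 := by
      refine h1.trans ?_
      have := mul_le_mul (hd p hp) (add_le_add (hd q hq) h2) (by positivity) hL.le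
      nlinarith
    exact (pow_le_pow_iff_left₀ (norm_nonneg _) (by positivity) two_ne_zero).1 h3

end P365T1.Bad
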