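import Vale.Agent.P365.Torus.Base

/-!
# P365-T1 (B7): lattice animals

Weighted count of the finite connected sets (range 5 on the torus) containing a given site:
`∑_{S ∋ v connected} 400^{-|S|} ≤ 1 / 120`, hence at most `400 ^ s` such sets of size `s`.
-/

set_option linter.all false

namespace P365T1.Ani

open Finset

variable {ι : Type*} [DecidableEq ι]

/-- `a` and `b` are both in `S` and related -/
def Lk (R : ι → ι → Prop) (S : Finset ι) (a b : ι) : Prop := a ∈ S ∧ b ∈ S ∧ R a b

/-- `S` contains `v` and is connected -/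
def Con (R : ι → ι → Prop) (S : Finset ι) (v : ι) : Prop :=
  v ∈ S ∧ ∀ a ∈ S, Relation.ReflTransGen (Lk R S) v a

theorem Lk.symm {R : ι → ι → Prop} (hR : ∀ a b, R a b → R b a) {S : Finset ι} {a b : ι}
    (h : Lk R S a b) : Lk R S b a := ⟨h.2.1, h.1, hR _ _ h.2.2⟩

theorem reach_symm {R : ι → ι → Prop} (hR : ∀ a b, R a b → R b a) {S : Finset ι} {a b : ι}
    (h : Relation.ReflTransGen (Lk R S) a b) : Relation.ReflTransGen (Lk R S) b a := by
  induction h with
  | refl => exact Relation.ReflTransGen.refl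
  | tail _ h2 ih => exact Relation.ReflTransGen.head (h2.symm hR) ih

/-- the component of `a` -/
noncomputable def Kc (R : ι → ι → Prop) (S : Finset ι) (a : ι) : Finset ι :=
  open Classical in S.filter fun b => Relation.ReflTransGen (Lk R S) a b

theorem mem_Kc {R : ι → ι → Prop} {S : Finset ι} {a b : ι} :
    b ∈ Kc R S a ↔ b ∈ S ∧ Relation.ReflTransGen (Lk R S) a b := by
  classical
  simp [Kc]

theorem Kc_eq {R : ι → ι → Prop} (hR : ∀ a b, R a b → R b a) {S : Finset ι} {a b : ι}
    (h : Relation.ReflTransGen (Lk R S) a b) : Kc R S a = Kc R S b := by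
  ext c
  rw [mem_Kc, mem_Kc]
  exact ⟨fun h1 => ⟨h1.1, (reach_symm hR h).trans h1.2⟩, fun h1 => ⟨h1.1, h.trans h1.2⟩⟩

/-- the component is connected -/
theorem Con_Kc {R : ι → ι → Prop} {S : Finset ι} {a : ι} (ha : a ∈ S) : Con R (Kc R S a) a := by
  refine ⟨mem_Kc.2 ⟨ha, Relation.ReflTransGen.refl⟩, ?_⟩
  intro b hb
  have h := (mem_Kc.1 hb).2
  clear hb
  induction h with
  | refl => exact Relation.ReflTransGen.refl
  | tail h1 h2 ih =>
    exact ih.tail ⟨mem_Kc.2 ⟨h2.1, h1⟩, mem_Kc.2 ⟨h2.2.1, h1.tail h2⟩, h2.2.2⟩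

/-- the first step of a path from `v` -/
theorem exists_first {R : ι → ι → Prop} {S : Finset ι} {v a : ι}
    (h : Relation.ReflTransGen (Lk R S) v a) :
    a = v ∨ ∃ u, R v u ∧ u ∈ S.erase v ∧ Relation.ReflTransGen (Lk R (S.erase v)) u a := by
  induction h with
  | refl => exact Or.inl rfl
  | @tail b c h1 h2 ih =>
    by_cases hc : c = v
    · exact Or.inl hc
    right
    have hcS : c ∈ S.erase v := mem_erase.2 ⟨hc, h2.2.1⟩
    by_cases hb : b = v
    · subst hb
      exact ⟨c, h2.2.2, hcS, Relation.ReflTransGen.refl⟩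
    · rcases ih with h | ⟨u, h3, h4, h5⟩
      · exact absurd h hb
      · exact ⟨u, h3, h4, h5.tail ⟨mem_erase.2 ⟨hb, h2.1⟩, hcS, h2.2.2⟩⟩

/-- decomposition of a connected set -/
theorem decomp {R : ι → ι → Prop} (hR : ∀ a b, R a b → R b a) {nb : ι → Finset ι}
    (hnb : ∀ a b, R a b → b ∈ nb a) {S : Finset ι} {v : ι} (h : Con R S v) :
    ∃ c : ι → Finset ι, (∀ u, c u = ∅ ∨ (c u ⊆ S.erase v ∧ Con R (c u) u)) ∧
      S = insert v ((nb v).biUnion c) ∧ S.card = 1 + ∑ u ∈ nb v, (c u).card := by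
  classical
  set S' := S.erase v with hS'
  let rep : Finset ι → ι := fun K => if h : ∃ u ∈ nb v, u ∈ K then h.choose else v
  have hrep : ∀ K : Finset ι, (∃ u ∈ nb v, u ∈ K) → rep K ∈ nb v ∧ rep K ∈ K := by
    intro K hK
    simp only [rep, dif_pos hK]
    exact hK.choose_spec
  let c : ι → Finset ι := fun u => if u ∈ S' ∧ rep (Kc R S' u) = u then Kc R S' u else ∅
  have hc1 : ∀ u, c u = ∅ ∨ (u ∈ S' ∧ rep (Kc R S' u) = u ∧ c u = Kc R S' u) := by
    intro u
    by_cases hu : u ∈ S' ∧ rep (Kc R S' u) = u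
    · exact Or.inr ⟨hu.1, hu.2, if_pos hu⟩
    · exact Or.inl (if_neg hu)
  have hsub : ∀ u, c u ⊆ S' := by
    intro u
    rcases hc1 u with h1 | ⟨_, _, h1⟩
    · rw [h1]; exact empty_subset _
    · rw [h1]; intro b hb; exact (mem_Kc.1 hb).1
  have hun : S = insert v ((nb v).biUnion c) := by
    ext a
    rw [mem_insert, mem_biUnion]
    constructor
    · intro ha
      rcases exists_first (h.2 a ha) with h1 | ⟨u, h1, h2, h3⟩
      · exact Or.inl h1
      · by_cases hav : a = v
        · exact Or.inl hav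
        right
        have haS : a ∈ S' := mem_erase.2 ⟨hav, ha⟩
        have hK : Kc R S' u = Kc R S' a := Kc_eq hR h3
        have hex : ∃ u' ∈ nb v, u' ∈ Kc R S' a :=
          ⟨u, hnb _ _ h1, by rw [← hK]; exact mem_Kc.2 ⟨h2, Relation.ReflTransGen.refl⟩⟩
        obtain ⟨h4, h5⟩ := hrep _ hex
        refine ⟨rep (Kc R S' a), h4, ?_⟩
        have h6 := mem_Kc.1 h5
        have h7 : Kc R S' (rep (Kc R S' a)) = Kc R S' a := (Kc_eq hR h6.2).symm
        have h8 : c (rep (Kc R S' a)) = Kc R S' a := by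
          simp only [c]
          rw [if_pos ⟨h6.1, by rw [h7]⟩, h7]
        rw [h8]
        exact mem_Kc.2 ⟨haS, Relation.ReflTransGen.refl⟩
    · rintro (rfl | ⟨u, _, h2⟩)
      · exact h.1
      · exact (mem_erase.1 (hsub u h2)).2
  have hdis : ∀ u ∈ nb v, ∀ u' ∈ nb v, u ≠ u' → Disjoint (c u) (c u') := by
    intro u _ u' _ hne
    rw [Finset.disjoint_left]
    intro b hb hb'
    rcases hc1 u with h1 | ⟨h1, h2, h3⟩
    · rw [h1] at hb; simp at hb
    rcases hc1 u' with h1' | ⟨h1', h2', h3'⟩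
    · rw [h1'] at hb'; simp at hb'
    rw [h3] at hb
    rw [h3'] at hb'
    have e1 := Kc_eq hR (mem_Kc.1 hb).2
    have e2 := Kc_eq hR (mem_Kc.1 hb').2
    apply hne
    rw [← h2, ← h2', e1, e2]
  refine ⟨c, ?_, hun, ?_⟩
  · intro u
    rcases hc1 u with h1 | ⟨h1, h2, h3⟩
    · exact Or.inl h1
    · right
      rw [h3]
      exact ⟨fun b hb => (mem_Kc.1 hb).1, Con_Kc h1⟩
  · have hv : v ∉ (nb v).biUnion c := by
      rw [mem_biUnion]
      rintro ⟨u, _, hu⟩
      exact (mem_erase.1 (hsub u hu)).1 rfl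
    have h9 : ((nb v).biUnion c).card = ∑ u ∈ nb v, (c u).card := card_biUnion hdis
    calc S.card = (insert v ((nb v).biUnion c)).card := by rw [← hun]
      _ = ((nb v).biUnion c).card + 1 := card_insert_of_notMem hv
      _ = 1 + ∑ u ∈ nb v, (c u).card := by rw [h9, add_comm]

/-- the weighted count -/
theorem sum_le {R : ι → ι → Prop} (hR : ∀ a b, R a b → R b a) {nb : ι → Finset ι}
    (hnb : ∀ a b, R a b → b ∈ nb a) {Δ : ℕ} (hΔ : ∀ a, (nb a).card ≤ Δ) {z t : ℝ} (hz : 0 ≤ z)
    (ht : 0 ≤ t) (hzt : z * (1 + t) ^ Δ ≤ t) (n : ℕ) :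
    ∀ U : Finset ι, U.card ≤ n → ∀ v : ι,
      ∑ S ∈ (open Classical in U.powerset.filter fun S => Con R S v), z ^ S.card ≤ t := by
  classical
  induction n with
  | zero =>
    intro U hU v
    have hU0 : U = ∅ := card_eq_zero.1 (Nat.le_zero.1 hU)
    subst hU0
    have : (((∅ : Finset ι).powerset.filter fun S => Con R S v)) = ∅ := by
      rw [filter_eq_empty_iff]
      intro S hS hcon
      have hS0 : S = ∅ := by simpa using hS
      have := hcon.1
      rw [hS0] at this
      simp at this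
    rw [this, sum_empty]
    exact ht
  | succ n ih =>
    intro U hU v
    by_cases hv : v ∈ U
    swap
    · have : ((U.powerset.filter fun S => Con R S v)) = ∅ := by
        rw [filter_eq_empty_iff]
        intro S hS hcon
        exact hv (mem_powerset.1 hS hcon.1)
      rw [this, sum_empty]
      exact ht
    set U' := U.erase v with hU'
    have hU'c : U'.card ≤ n := by
      rw [hU', card_erase_of_mem hv]; omega
    let A : ι → Finset (Finset ι) := fun u => insert ∅ (U'.powerset.filter fun S => Con R S u)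
    have hA : ∀ u, ∑ C ∈ A u, z ^ C.card ≤ 1 + t := by
      intro u
      have hne : (∅ : Finset ι) ∉ U'.powerset.filter fun S => Con R S u := by
        intro h
        have := (mem_filter.1 h).2.1
        simp at this
      simp only [A]
      rw [sum_insert hne, card_empty, pow_zero]
      have := ih U' hU'c u
      linarith
    -- the decomposition as a map
    set L := U.powerset.filter fun S => Con R S v with hL
    have hdec : ∀ S ∈ L, ∃ c : ι → Finset ι, (∀ u, c u ∈ A u) ∧
        S = insert v ((nb v).biUnion c) ∧ S.card = 1 + ∑ u ∈ nb v, (c u).card := by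
      intro S hS
      obtain ⟨hS1, hS2⟩ := mem_filter.1 hS
      obtain ⟨c, h1, h2, h3⟩ := decomp hR hnb hS2
      refine ⟨c, ?_, h2, h3⟩
      intro u
      rcases h1 u with h4 | ⟨h4, h5⟩
      · rw [h4]; exact mem_insert_self _ _
      · refine mem_insert_of_mem (mem_filter.2 ⟨mem_powerset.2 ?_, h5⟩)
        exact h4.trans (erase_subset_erase _ (mem_powerset.1 hS1))
    choose! c hc1 hc2 hc3 using hdec
    let Φ : Finset ι → ((u : ι) → u ∈ nb v → Finset ι) := fun S u _ => c S u
    have hΦinj : Set.InjOn Φ (L : Set (Finset ι)) := by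
      intro S hS S' hS' he
      have he' : ∀ u ∈ nb v, c S u = c S' u := by
        intro u hu
        exact congrFun (congrFun he u) hu
      rw [hc2 S hS, hc2 S' hS']
      congr 1
      exact Finset.biUnion_congr rfl he'
    have hsum : ∑ S ∈ L, z ^ S.card =
        ∑ p ∈ L.image Φ, z * ∏ x ∈ (nb v).attach, z ^ (p x.1 x.2).card := by
      rw [sum_image hΦinj]
      refine sum_congr rfl fun S hS => ?_
      rw [hc3 S hS, pow_add, pow_one, ← prod_pow_eq_pow_sum]
      congr 1
      rw [← prod_attach]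
    calc ∑ S ∈ L, z ^ S.card
        = ∑ p ∈ L.image Φ, z * ∏ x ∈ (nb v).attach, z ^ (p x.1 x.2).card := hsum
      _ ≤ ∑ p ∈ (nb v).pi A, z * ∏ x ∈ (nb v).attach, z ^ (p x.1 x.2).card := by
          refine sum_le_sum_of_subset_of_nonneg ?_ fun p _ _ => by positivity
          intro p hp
          obtain ⟨S, hS, rfl⟩ := mem_image.1 hp
          rw [mem_pi]
          intro u hu
          exact hc1 S hS u
      _ = z * ∏ u ∈ nb v, ∑ C ∈ A u, z ^ C.card := by
          rw [← mul_sum, prod_sum]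
      _ ≤ z * ∏ u ∈ nb v, (1 + t) := by
          refine mul_le_mul_of_nonneg_left ?_ hz
          refine prod_le_prod (fun u _ => sum_nonneg fun C _ => by positivity) fun u _ => hA u
      _ = z * (1 + t) ^ (nb v).card := by rw [prod_const]
      _ ≤ z * (1 + t) ^ Δ := by
          refine mul_le_mul_of_nonneg_left ?_ hz
          exact pow_le_pow_right₀ (by linarith) (hΔ v)
      _ ≤ t := hzt

/-! ### the torus with range 5 -/

section torus

open P365L

variable {N : ℕ} [NeZero N]

/-- range five relation -/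
def R5 (a b : Tor N) : Prop := nrm (b - a) ≤ 5

theorem R5_symm (a b : Tor N) (h : R5 a b) : R5 b a := by
  unfold R5 at *; rwa [nrm_sub_comm]

/-- the sup norm ball of radius five around `a` -/
def nb5 (a : Tor N) : Finset (Tor N) := univ.filter fun b => nrm (b - a) ≤ 5

theorem card_nb5_le (a : Tor N) : (nb5 a).card ≤ 121 := by
  have h : nb5 a ⊆ (pbox 5).image fun p => a + tor N p := by
    intro b hb
    have hb' : nrm (b - a) ≤ 5 := by simpa [nb5] using hb
    unfold nrm at hb'
    have h1 := (le_max_left _ _).trans hb'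
    have h2 := (le_max_right _ _).trans hb'
    refine mem_image.2 ⟨((b - a).1.valMinAbs, (b - a).2.valMinAbs), ?_, ?_⟩
    · simp only [pbox, mem_product, mem_Icc]
      omega
    · ext <;> simp [tor, ZMod.coe_valMinAbs]
  calc (nb5 a).card ≤ ((pbox 5).image fun p => a + tor N p).card := card_le_card h
    _ ≤ (pbox 5).card := card_image_le
    _ = 121 := by rw [card_pbox]; norm_num

theorem animals (U : Finset (Tor N)) (v : Tor N) :
    ∑ S ∈ (open Classical in U.powerset.filter fun S => Con R5 S v), (1 / 400 : ℝ) ^ S.card ≤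
      1 / 120 :=
  sum_le (z := 1 / 400) (t := 1 / 120) R5_symm (nb := nb5)
    (fun a b h => mem_filter.2 ⟨mem_univ _, h⟩) card_nb5_le (by norm_num) (by norm_num)
    (by norm_num) U.card U le_rfl v

/-- the connected sets (range 5) containing `v`, with at least `s` sites -/
noncomputable def Anm (v : Tor N) (s : ℕ) : Finset (Finset (Tor N)) :=
  open Classical in univ.filter fun S => Con R5 S v ∧ s ≤ S.card

theorem mem_Anm {v : Tor N} {s : ℕ} {S : Finset (Tor N)} :
    S ∈ Anm v s ↔ (v ∈ S ∧ ∀ a ∈ S, Relation.ReflTransGen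
      (fun a b => a ∈ S ∧ b ∈ S ∧ nrm (b - a) ≤ 5) v a) ∧ s ≤ S.card := by
  classical
  unfold Anm
  rw [mem_filter]
  simp only [mem_univ, true_and]
  exact Iff.rfl

/-- tail of the animal sum with any weight `w ≤ 1/400` per site -/
theorem tail (v : Tor N) {w : ℝ} (hw : 0 ≤ w) (hw1 : 400 * w ≤ 1) (s : ℕ) :
    ∑ S ∈ Anm v s, w ^ S.card ≤ (400 * w) ^ s / 120 := by
  classical
  have h1 : ∀ S ∈ Anm v s, w ^ S.card ≤ (400 * w) ^ s * (1 / 400) ^ S.card := by
    intro S hS
    have hs := (mem_Anm.1 hS).2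
    have e : w ^ S.card = (400 * w) ^ S.card * (1 / 400) ^ S.card := by
      rw [← mul_pow]; congr 1; ring
    rw [e]
    refine mul_le_mul_of_nonneg_right ?_ (by positivity)
    exact pow_le_pow_of_le_one (by positivity) hw1 hs
  calc ∑ S ∈ Anm v s, w ^ S.card
      ≤ ∑ S ∈ Anm v s, (400 * w) ^ s * (1 / 400) ^ S.card := sum_le_sum h1
    _ = (400 * w) ^ s * ∑ S ∈ Anm v s, (1 / 400 : ℝ) ^ S.card := by rw [mul_sum]
    _ ≤ (400 * w) ^ s * (1 / 120) := by
        refine mul_le_mul_of_nonneg_left ?_ (by positivity)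
        refine le_trans ?_ (animals (univ : Finset (Tor N)) v)
        refine sum_le_sum_of_subset_of_nonneg ?_ fun S _ _ => by positivity
        intro S hS
        unfold Anm at hS
        rw [mem_filter] at hS
        rw [mem_filter]
        exact ⟨mem_powerset.2 (subset_univ _), hS.2.1⟩
    _ = (400 * w) ^ s / 120 := by ring

/-- at most `400 ^ s` connected sets with exactly `s` sites containing `v` -/
theorem count (v : Tor N) (s : ℕ) :
    ((open Classical in (univ : Finset (Finset (Tor N))).filter fun S =>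
      Con R5 S v ∧ S.card = s).card : ℝ) ≤ 400 ^ s / 120 := by
  classical
  have h := tail v (w := 1 / 400) (by norm_num) (by norm_num) s
  have h2 : ∑ S ∈ ((univ : Finset (Finset (Tor N))).filter fun S => Con R5 S v ∧ S.card = s),
      (1 / 400 : ℝ) ^ S.card ≤ ∑ S ∈ Anm v s, (1 / 400 : ℝ) ^ S.card := by
    refine sum_le_sum_of_subset_of_nonneg ?_ fun S _ _ => by positivity
    intro S hS
    rw [mem_filter] at hS
    unfold Anm
    rw [mem_filter]
    exact ⟨mem_univ _, hS.2.1, hS.2.2.ge⟩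
  have h3 : ∑ S ∈ ((univ : Finset (Finset (Tor N))).filter fun S => Con R5 S v ∧ S.card = s),
      (1 / 400 : ℝ) ^ S.card = ((univ : Finset (Finset (Tor N))).filter fun S =>
        Con R5 S v ∧ S.card = s).card * (1 / 400) ^ s := by
    rw [sum_congr rfl (g := fun _ => (1 / 400 : ℝ) ^ s)
      (fun S hS => by rw [(mem_filter.1 hS).2.2]), sum_const, nsmul_eq_mul]
  rw [h3] at h2
  have h4 := h2.trans h
  rw [show (400 * (1 / 400) : ℝ) = 1 by norm_num, one_pow] at h4
  have h5 : (0 : ℝ) < (1 / 400) ^ s := by positivity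
  rw [← le_div_iff₀ h5] at h4
  refine h4.trans (le_of_eq ?_)
  rw [one_div_pow]
  field_simp

/-- the same with two extra factors `|S|` -/
theorem tail_sq (v : Tor N) {w : ℝ} (hw : 0 ≤ w) (hw1 : 1600 * w ≤ 1) (s : ℕ) :
    ∑ S ∈ Anm v s, (S.card : ℝ) ^ 2 * w ^ S.card ≤ (1600 * w) ^ s / 120 := by
  have h1 : ∀ n : ℕ, ((n : ℝ)) ^ 2 ≤ 4 ^ n := by
    intro n
    have h2 : (n : ℝ) ≤ 2 ^ n := by
      exact_mod_cast (Nat.lt_two_pow_self (n := n)).le
    calc ((n : ℝ)) ^ 2 ≤ (2 ^ n) ^ 2 := by gcongr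
      _ = 4 ^ n := by rw [← pow_mul, mul_comm, pow_mul]; norm_num
  calc ∑ S ∈ Anm v s, (S.card : ℝ) ^ 2 * w ^ S.card
      ≤ ∑ S ∈ Anm v s, (4 * w) ^ S.card := by
        refine sum_le_sum fun S _ => ?_
        rw [mul_pow]
        exact mul_le_mul_of_nonneg_right (h1 _) (by positivity)
    _ ≤ (400 * (4 * w)) ^ s / 120 := tail v (by positivity) (by linarith) s
    _ = (1600 * w) ^ s / 120 := by rw [show (400 * (4 * w) : ℝ) = 1600 * w by ring]

/-- extended nonnegative form of `tail` -/
theorem tail_ennreal (v : Tor N) {w : ℝ} (hw : 0 ≤ w) (hw1 : 400 * w ≤ 1) (s : ℕ) :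
    ∑ S ∈ Anm v s, ENNReal.ofReal w ^ S.card ≤ ENNReal.ofReal ((400 * w) ^ s / 120) := by
  have h : ∑ S ∈ Anm v s, ENNReal.ofReal w ^ S.card =
      ENNReal.ofReal (∑ S ∈ Anm v s, w ^ S.card) := by
    rw [ENNReal.ofReal_sum_of_nonneg fun S _ => by positivity]
    exact sum_congr rfl fun S _ => (ENNReal.ofReal_pow hw _).symm
  rw [h]
  exact ENNReal.ofReal_le_ofReal (tail v hw hw1 s)

/-- extended nonnegative form of `tail_sq` -/
theorem tail_sq_ennreal (v : Tor N) {w : ℝ} (hw : 0 ≤ w) (hw1 : 1600 * w ≤ 1) (s : ℕ) :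
    ∑ S ∈ Anm v s, (S.card : ENNReal) ^ 2 * ENNReal.ofReal w ^ S.card ≤
      ENNReal.ofReal ((1600 * w) ^ s / 120) := by
  have h : ∑ S ∈ Anm v s, (S.card : ENNReal) ^ 2 * ENNReal.ofReal w ^ S.card =
      ENNReal.ofReal (∑ S ∈ Anm v s, (S.card : ℝ) ^ 2 * w ^ S.card) := by
    rw [ENNReal.ofReal_sum_of_nonneg fun S _ => by positivity]
    refine sum_congr rfl fun S _ => ?_
    rw [ENNReal.ofReal_mul (by positivity), ENNReal.ofReal_pow hw,
      ENNReal.ofReal_pow (Nat.cast_nonneg _), ENNReal.ofReal_natCast]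
  rw [h]
  exact ENNReal.ofReal_le_ofReal (tail_sq v hw hw1 s)

/-- a connected set of `s` sites has radius at most `5 (s - 1)` -/
theorem nrm_le_of_con {S : Finset (Tor N)} {v a : Tor N} (h : Con R5 S v) (ha : a ∈ S) :
    nrm (a - v) + 5 ≤ 5 * S.card := by
  classical
  set g : Tor N → ℕ := fun b => (nrm (b - v) + 4) / 5 with hg
  have key : ∀ c, Relation.ReflTransGen (Lk R5 S) v c → ∀ m ≤ g c, ∃ b ∈ S, g b = m := by
    intro c hc
    induction hc with
    | refl =>
      intro m hm
      have h0 : g v = 0 := by simp [hg, nrm_zero]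
      exact ⟨v, h.1, by omega⟩
    | @tail b c _ h2 ih =>
      intro m hm
      by_cases hmb : m ≤ g b
      · exact ih m hmb
      · refine ⟨c, h2.2.1, ?_⟩
        have h3 : nrm (c - v) ≤ nrm (b - v) + 5 := by
          calc nrm (c - v) = nrm ((b - v) + (c - b)) := by congr 1; abel
            _ ≤ nrm (b - v) + nrm (c - b) := nrm_add_le _ _
            _ ≤ nrm (b - v) + 5 := Nat.add_le_add_left h2.2.2 _
        simp only [hg] at hm hmb ⊢
        omega
  have h4 : Finset.range (g a + 1) ⊆ S.image g := by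
    intro m hm
    obtain ⟨b, hb, hbm⟩ := key a (h.2 a ha) m (by have := mem_range.1 hm; omega)
    exact mem_image.2 ⟨b, hb, hbm⟩
  have h5 : g a + 1 ≤ S.card := by
    calc g a + 1 = (Finset.range (g a + 1)).card := (card_range _).symm
      _ ≤ (S.image g).card := card_le_card h4
      _ ≤ S.card := card_image_le
  have h6 : nrm (a - v) ≤ 5 * g a := by simp only [hg]; omega
  omega

/-- the cluster of `v` in `ns` (range 5) is a connected set in the sense of `Con` -/
theorem con_cluster {ns : Finset (Tor N)} {v : Tor N} (hv : v ∈ ns) : Con R5 (Kc R5 ns v) v :=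
  Con_Kc hv

end torus

end P365T1.Ani
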