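import Mathlib

/-!
# Multi-affine functions: Remez / small-value / second-moment inequalities (P365 T1, chapters C, D)

`MAff f` : `f : (ι → ℂ) → F` is affine in each complex variable separately.
* `measurePreserving_resample`, `lintegral_resample` : resampling one coordinate of a product law.
* `small_subset`, `volume_small_le` : one variable, `{t : ‖a + t b‖ < ε ‖a + z b‖}` is short.
* `Jset`, `le_norm_of_notMem`, `volume_section_Jset_le` : `n` one-variable exceptional events.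
* `prob_small_le` : the probability of `‖f V‖ < ε^n ‖f z‖` is at most `n K 8 L ε`.
* `lintegral_sq_ge` : second moment over windows dominates the sup over the polydisc.
* `lintegral_log_ge`-type bounds: `log_ge`.
-/

set_option autoImplicit false
set_option linter.unusedSectionVars false
set_option linter.unusedVariables false
set_option linter.dupNamespace false
set_option linter.style.header false

open MeasureTheory Finset Function
open scoped ENNReal NNReal BigOperators

namespace P365T1.MAff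

section Resample

variable {ι : Type*} [Fintype ι] [DecidableEq ι] (μ : ι → Measure ℝ)
  [∀ i, IsProbabilityMeasure (μ i)]

/-- resampling one coordinate preserves a product of probability measures -/
theorem measurePreserving_resample (x : ι) :
    MeasurePreserving (fun p : (ι → ℝ) × ℝ => Function.update p.1 x p.2)
      ((Measure.pi μ).prod (μ x)) (Measure.pi μ) := by
  have hm : Measurable (fun p : (ι → ℝ) × ℝ => Function.update p.1 x p.2) := by
    refine measurable_pi_lambda _ fun i => ?_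
    by_cases hi : i = x
    · subst hi
      simp only [Function.update_self]
      exact measurable_snd
    · simp only [Function.update_of_ne hi]
      exact (measurable_pi_apply i).comp measurable_fst
  refine ⟨hm, ?_⟩
  symm
  refine Measure.pi_eq fun s hs => ?_
  rw [Measure.map_apply hm (MeasurableSet.univ_pi hs)]
  have h1 : (fun p : (ι → ℝ) × ℝ => Function.update p.1 x p.2) ⁻¹' Set.univ.pi s =
      (Set.univ.pi (Function.update s x Set.univ)) ×ˢ (s x) := by
    ext ⟨c, t⟩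
    simp only [Set.mem_preimage, Set.mem_univ_pi, Set.mem_prod]
    constructor
    · intro h
      refine ⟨fun i => ?_, ?_⟩
      · by_cases hi : i = x
        · subst hi
          rw [Function.update_self]
          exact Set.mem_univ _
        · have := h i
          rw [Function.update_of_ne hi] at this
          rwa [Function.update_of_ne hi]
      · have := h x
        rwa [Function.update_self] at this
    · rintro ⟨h, ht⟩ i
      by_cases hi : i = x
      · subst hi
        rwa [Function.update_self]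
      · have := h i
        rw [Function.update_of_ne hi] at this
        rwa [Function.update_of_ne hi]
  rw [h1, Measure.prod_prod, Measure.pi_pi, ← Finset.mul_prod_erase _ _ (Finset.mem_univ x),
    ← Finset.mul_prod_erase Finset.univ (fun i => μ i (s i)) (Finset.mem_univ x),
    Function.update_self, measure_univ, one_mul, mul_comm]
  congr 1
  refine Finset.prod_congr rfl fun i hi => ?_
  rw [Function.update_of_ne (Finset.ne_of_mem_erase hi)]

theorem lintegral_resample (z : ι) {F : (ι → ℝ) → ℝ≥0∞} (hF : Measurable F) :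
    ∫⁻ c, F c ∂(Measure.pi μ) =
      ∫⁻ c, ∫⁻ t, F (Function.update c z t) ∂(μ z) ∂(Measure.pi μ) := by
  have hmp := measurePreserving_resample μ z
  rw [← hmp.lintegral_comp hF]
  exact lintegral_prod _ (hF.comp hmp.measurable).aemeasurable

/-- an event all of whose `z`-sections have small probability has small probability -/
theorem pi_le_of_sections (z : ι) {J : Set (ι → ℝ)} (hJ : MeasurableSet J) {r : ℝ≥0∞}
    (h : ∀ c, μ z {t | Function.update c z t ∈ J} ≤ r) : (Measure.pi μ) J ≤ r := by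
  have h1 := lintegral_resample μ z (F := J.indicator 1) (measurable_one.indicator hJ)
  rw [lintegral_indicator_one hJ] at h1
  rw [h1]
  calc ∫⁻ c, ∫⁻ t, J.indicator 1 (Function.update c z t) ∂(μ z) ∂(Measure.pi μ)
      ≤ ∫⁻ _c, r ∂(Measure.pi μ) := by
        refine lintegral_mono fun c => ?_
        have hm : Measurable fun t : ℝ => Function.update c z t := measurable_update c
        have h2 : (fun t : ℝ => J.indicator (1 : (ι → ℝ) → ℝ≥0∞) (Function.update c z t)) =
            ((fun t => Function.update c z t) ⁻¹' J).indicator 1 := by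
          ext t
          by_cases h : Function.update c z t ∈ J
          · simp [Set.indicator, h]
          · simp [Set.indicator, h]
        rw [h2, lintegral_indicator_one (hm hJ)]
        exact h c
    _ = r := by rw [lintegral_const, measure_univ, mul_one]

end Resample

section OneVar

variable {F : Type*} [NormedAddCommGroup F] [NormedSpace ℂ F]

/-- One variable: the real `t` in `[-L, L]` with `‖a + t b‖ < ε ‖a + z b‖` lie in an interval of
length `8 L ε` (`‖z‖ ≤ L`, `ε ≤ 1/2`). -/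
theorem small_subset (a b : F) {z : ℂ} {L ε : ℝ} (hL : 0 ≤ L) (hz : ‖z‖ ≤ L) (h0 : 0 ≤ ε)
    (h1 : ε ≤ 1 / 2) :
    ∃ r : ℝ, {t : ℝ | |t| ≤ L ∧ ‖a + (t : ℂ) • b‖ < ε * ‖a + z • b‖} ⊆
      Set.Icc (r - 4 * L * ε) (r + 4 * L * ε) := by
  obtain ⟨φ, hφ, hφ2⟩ := exists_dual_vector'' ℂ (a + z • b)
  have hφle : ∀ t : ℝ, ‖φ a + (t : ℂ) * φ b‖ ≤ ‖a + (t : ℂ) • b‖ := fun t => by
    have : φ a + (t : ℂ) * φ b = φ (a + (t : ℂ) • b) := by simp
    rw [this]
    exact (φ.le_opNorm _).trans (by nlinarith [norm_nonneg (a + (t : ℂ) • b)])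
  have hφz : ‖φ a + z * φ b‖ = ‖a + z • b‖ := by
    have : φ a + z * φ b = φ (a + z • b) := by simp
    rw [this, hφ2]
    simp
  by_cases hb : φ b = 0
  · refine ⟨0, fun t ht => ?_⟩
    exfalso
    obtain ⟨-, ht2⟩ := ht
    have e1 := hφle t
    rw [hb, mul_zero, add_zero] at e1 hφz
    rw [← hφz] at ht2
    nlinarith [norm_nonneg (φ a)]
  · set r : ℂ := -(φ a / φ b) with hr
    have hfac : ∀ w : ℂ, φ a + w * φ b = (w - r) * φ b := fun w => by
      rw [hr]; field_simp; ring
    refine ⟨r.re, fun t ht => ?_⟩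
    obtain ⟨ht1, ht2⟩ := ht
    have e1 := hφle t
    rw [hfac, norm_mul] at e1
    rw [← hφz, hfac, norm_mul] at ht2
    have hbp : 0 < ‖φ b‖ := norm_pos_iff.mpr hb
    have e2 : ‖(t : ℂ) - r‖ < ε * ‖z - r‖ := by
      have : ‖(t : ℂ) - r‖ * ‖φ b‖ < (ε * ‖z - r‖) * ‖φ b‖ := by linarith
      exact lt_of_mul_lt_mul_right this hbp.le
    have e3 : ‖z - r‖ ≤ 2 * L + ‖(t : ℂ) - r‖ := by
      have : z - r = (z - t) + (t - r) := by ring
      rw [this]
      refine (norm_add_le _ _).trans ?_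
      have h3 : ‖z - (t : ℂ)‖ ≤ ‖z‖ + ‖(t : ℂ)‖ := norm_sub_le _ _
      have h4 : ‖(t : ℂ)‖ = |t| := by simp
      linarith
    have e4 : ‖(t : ℂ) - r‖ ≤ 4 * L * ε := by
      nlinarith [norm_nonneg ((t : ℂ) - r)]
    have e5 : |t - r.re| ≤ ‖(t : ℂ) - r‖ := by
      have := Complex.abs_re_le_norm ((t : ℂ) - r)
      simpa using this
    have e6 := abs_le.mp (e5.trans e4)
    constructor <;> linarith [e6.1, e6.2]

theorem volume_small_le (a b : F) {z : ℂ} {L ε : ℝ} (hL : 0 ≤ L) (hz : ‖z‖ ≤ L) (h0 : 0 ≤ ε)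
    (h1 : ε ≤ 1 / 2) :
    volume {t : ℝ | |t| ≤ L ∧ ‖a + (t : ℂ) • b‖ < ε * ‖a + z • b‖} ≤
      ENNReal.ofReal (8 * L * ε) := by
  obtain ⟨r, hr⟩ := small_subset a b hL hz h0 h1
  refine (measure_mono hr).trans ?_
  rw [Real.volume_Icc]
  exact ENNReal.ofReal_le_ofReal (by linarith)

/-- scalar shape with an additive constant: needed for `E log` -/
theorem norm_ratio_le (a b : F) {z : ℂ} {t L : ℝ} (hz : ‖z‖ ≤ L) (ht : |t| ≤ L) :
    ‖a + z • b‖ ≤ ‖a + (t : ℂ) • b‖ + 2 * L * ‖b‖ := by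
  have : a + z • b = (a + (t : ℂ) • b) + (z - t) • b := by
    rw [sub_smul]; abel
  rw [this]
  refine (norm_add_le _ _).trans ?_
  rw [norm_smul]
  have h3 : ‖z - (t : ℂ)‖ ≤ ‖z‖ + ‖(t : ℂ)‖ := norm_sub_le _ _
  have h4 : ‖(t : ℂ)‖ = |t| := by simp
  nlinarith [norm_nonneg b, norm_nonneg (a + (t : ℂ) • b)]

end OneVar

section Hyb

variable {ι : Type*} [DecidableEq ι] {n : ℕ} (e : ι ≃ Fin n)

/-- hybrid point: coordinates of index `< k` are those of `z`, the others those of `x` -/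
def hyb (k : ℕ) (x z : ι → ℂ) : ι → ℂ := fun i => if (e i : ℕ) < k then z i else x i

theorem hyb_zero (x z : ι → ℂ) : hyb e 0 x z = x := by
  ext i; simp [hyb]

theorem hyb_top (x z : ι → ℂ) : hyb e n x z = z := by
  ext i; simp [hyb, (e i).isLt]

theorem hyb_succ (k : ℕ) (hk : k < n) (x z : ι → ℂ) :
    hyb e (k + 1) x z = update (hyb e k x z) (e.symm ⟨k, hk⟩) (z (e.symm ⟨k, hk⟩)) := by
  ext i
  by_cases hi : i = e.symm ⟨k, hk⟩
  · subst hi
    simp [hyb]
  · rw [update_of_ne hi]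
    have hne : (e i : ℕ) ≠ k := fun h => hi (by
      rw [Equiv.eq_symm_apply]; exact Fin.ext h)
    simp only [hyb]
    congr 1
    exact propext ⟨fun h => by omega, fun h => by omega⟩

theorem hyb_update_self (k : ℕ) (hk : k < n) (x z : ι → ℂ) (w : ℂ) :
    hyb e k (update x (e.symm ⟨k, hk⟩) w) z = update (hyb e k x z) (e.symm ⟨k, hk⟩) w := by
  ext i
  by_cases hi : i = e.symm ⟨k, hk⟩
  · subst hi
    simp [hyb]
  · rw [update_of_ne hi]
    simp only [hyb, update_of_ne hi]

/-- the coordinates of index `< k` of `x` do not matter -/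
theorem hyb_congr (k : ℕ) {x x' : ι → ℂ} (z : ι → ℂ) (h : ∀ i, k ≤ (e i : ℕ) → x i = x' i) :
    hyb e k x z = hyb e k x' z := by
  ext i
  by_cases hi : (e i : ℕ) < k
  · simp [hyb, hi]
  · simp [hyb, hi, h i (not_lt.mp hi)]

end Hyb

section Multi

variable {ι : Type*} [DecidableEq ι] {n : ℕ} (e : ι ≃ Fin n)
variable {F : Type*} [NormedAddCommGroup F] [NormedSpace ℂ F]

/-- affine in each complex variable separately -/
def MAff (f : (ι → ℂ) → F) : Prop :=
  ∀ (x : ι → ℂ) (i : ι), ∃ a b : F, ∀ z : ℂ, f (update x i z) = a + z • b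

/-- the real configuration as a complex one -/
def cx (V : ι → ℝ) : ι → ℂ := fun i => (V i : ℂ)

theorem cx_update (V : ι → ℝ) (i : ι) (t : ℝ) : cx (update V i t) = update (cx V) i (t : ℂ) := by
  ext j
  by_cases hj : j = i
  · subst hj; simp [cx]
  · simp [cx, update_of_ne hj]

theorem measurable_cx : Measurable (cx : (ι → ℝ) → ι → ℂ) :=
  measurable_pi_lambda _ fun i => Complex.measurable_ofReal.comp (measurable_pi_apply i)

theorem measurable_hyb_cx (k : ℕ) (z : ι → ℂ) : Measurable fun V : ι → ℝ => hyb e k (cx V) z := by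
  refine measurable_pi_lambda _ fun i => ?_
  by_cases hi : (e i : ℕ) < k
  · simp only [hyb, hi, if_true]; exact measurable_const
  · simp only [hyb, hi, if_false]
    exact Complex.measurable_ofReal.comp (measurable_pi_apply i)

/-- `k`-th exceptional event: when the `k`-th coordinate is moved from its real value to `z_k` (all
earlier ones being at `z` already) the value gets multiplied by more than `1/ε`.  It depends on the
coordinates of index `≥ k` only, and its section in the `k`-th coordinate is short. -/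
def Jset (f : (ι → ℂ) → F) (z : ι → ℂ) (ε : ℝ) (k : ℕ) : Set (ι → ℝ) :=
  {V | ‖f (hyb e k (cx V) z)‖ < ε * ‖f (hyb e (k + 1) (cx V) z)‖}

theorem measurableSet_Jset {f : (ι → ℂ) → F} [MeasurableSpace F] [BorelSpace F]
    (hf : Measurable f) (z : ι → ℂ) (ε : ℝ) (k : ℕ) : MeasurableSet (Jset e f z ε k) := by
  refine measurableSet_lt ?_ ?_
  · exact (hf.comp (measurable_hyb_cx e k z)).norm
  · exact (hf.comp (measurable_hyb_cx e (k + 1) z)).norm.const_mul ε

/-- the event depends on the coordinates of index `≥ k` only -/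
theorem mem_Jset_congr {f : (ι → ℂ) → F} (z : ι → ℂ) (ε : ℝ) (k : ℕ) {V V' : ι → ℝ}
    (h : ∀ i, k ≤ (e i : ℕ) → V i = V' i) : V ∈ Jset e f z ε k ↔ V' ∈ Jset e f z ε k := by
  have h1 : hyb e k (cx V) z = hyb e k (cx V') z :=
    hyb_congr e k z fun i hi => by simp [cx, h i hi]
  have h2 : hyb e (k + 1) (cx V) z = hyb e (k + 1) (cx V') z :=
    hyb_congr e (k + 1) z fun i hi => by simp [cx, h i (by omega)]
  simp only [Jset, Set.mem_ofPred_eq, h1, h2]

/-- the section of the `k`-th exceptional event in the `k`-th coordinate is contained in an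
interval of length `8 L ε` -/
theorem section_Jset_subset {f : (ι → ℂ) → F} (hf : MAff f) {z : ι → ℂ} {L ε : ℝ} (hL : 0 ≤ L)
    (hz : ∀ i, ‖z i‖ ≤ L) (h0 : 0 ≤ ε) (h1 : ε ≤ 1 / 2) {k : ℕ} (hk : k < n) (V : ι → ℝ) :
    ∃ r : ℝ, {t : ℝ | |t| ≤ L ∧ update V (e.symm ⟨k, hk⟩) t ∈ Jset e f z ε k} ⊆
      Set.Icc (r - 4 * L * ε) (r + 4 * L * ε) := by
  obtain ⟨a, b, hab⟩ := hf (hyb e k (cx V) z) (e.symm ⟨k, hk⟩)
  obtain ⟨r, hr⟩ := small_subset a b hL (hz (e.symm ⟨k, hk⟩)) h0 h1
  refine ⟨r, fun t ht => hr ⟨ht.1, ?_⟩⟩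
  have h2 := ht.2
  simp only [Jset, Set.mem_ofPred_eq] at h2
  rw [hyb_succ e k hk, cx_update, hyb_update_self, update_idem, hab, hab] at h2
  exact h2

theorem volume_section_Jset_le {f : (ι → ℂ) → F} (hf : MAff f) {z : ι → ℂ} {L ε : ℝ} (hL : 0 ≤ L)
    (hz : ∀ i, ‖z i‖ ≤ L) (h0 : 0 ≤ ε) (h1 : ε ≤ 1 / 2) {k : ℕ} (hk : k < n) (V : ι → ℝ) :
    volume {t : ℝ | |t| ≤ L ∧ update V (e.symm ⟨k, hk⟩) t ∈ Jset e f z ε k} ≤
      ENNReal.ofReal (8 * L * ε) := by
  obtain ⟨r, hr⟩ := section_Jset_subset e hf hL hz h0 h1 hk V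
  refine (measure_mono hr).trans ?_
  rw [Real.volume_Icc]
  exact ENNReal.ofReal_le_ofReal (by linarith)

/-- off the exceptional events `‖f V‖ ≥ ε^n ‖f z‖` -/
theorem le_norm_of_notMem {f : (ι → ℂ) → F} {z : ι → ℂ} {ε : ℝ} (h0 : 0 ≤ ε) {V : ι → ℝ}
    (hV : ∀ k < n, V ∉ Jset e f z ε k) : ε ^ n * ‖f z‖ ≤ ‖f (cx V)‖ := by
  have key : ∀ k ≤ n, ε ^ k * ‖f (hyb e k (cx V) z)‖ ≤ ‖f (cx V)‖ := by
    intro k hk
    induction k with
    | zero => simp [hyb_zero]
    | succ k ih =>
      have h2 := hV k (by omega)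
      simp only [Jset, Set.mem_ofPred_eq, not_lt] at h2
      have h3 := ih (by omega)
      calc ε ^ (k + 1) * ‖f (hyb e (k + 1) (cx V) z)‖
          = ε ^ k * (ε * ‖f (hyb e (k + 1) (cx V) z)‖) := by ring
        _ ≤ ε ^ k * ‖f (hyb e k (cx V) z)‖ := by gcongr
        _ ≤ _ := h3
  have := key n le_rfl
  rwa [hyb_top] at this

/-- **Remez / small values.**  Product law with densities bounded by `K`, carried by `[-L, L]`. -/
theorem prob_small_le [Fintype ι] {f : (ι → ℂ) → F} [MeasurableSpace F] [BorelSpace F] (hf : MAff f)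
    (hfm : Measurable f) (μ : ι → Measure ℝ) [∀ i, IsProbabilityMeasure (μ i)] {K : ℝ≥0∞}
    {L : ℝ} (hL : 0 ≤ L) (hK : ∀ i (S : Set ℝ), μ i S ≤ K * volume S)
    (hsupp : ∀ i, μ i {t | |t| ≤ L}ᶜ = 0) {z : ι → ℂ} (hz : ∀ i, ‖z i‖ ≤ L) {ε : ℝ}
    (h0 : 0 ≤ ε) (h1 : ε ≤ 1 / 2) :
    (Measure.pi μ) {V | ‖f (cx V)‖ < ε ^ (Fintype.card ι) * ‖f z‖} ≤
      Fintype.card ι * (K * ENNReal.ofReal (8 * L * ε)) := by
  set e := Fintype.equivFin ι with he
  have hsub : {V : ι → ℝ | ‖f (cx V)‖ < ε ^ (Fintype.card ι) * ‖f z‖} ⊆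
      ⋃ k : Fin (Fintype.card ι), Jset e f z ε k := by
    intro V hV
    by_contra hn
    simp only [Set.mem_iUnion, not_exists] at hn
    exact absurd hV (not_lt.mpr (le_norm_of_notMem e h0 fun k hk => hn ⟨k, hk⟩))
  refine (measure_mono hsub).trans ((measure_iUnion_le _).trans ?_)
  rw [tsum_fintype]
  refine (Finset.sum_le_card_nsmul _ _ (K * ENNReal.ofReal (8 * L * ε)) fun k _ => ?_).trans ?_
  · refine pi_le_of_sections μ (e.symm k) (measurableSet_Jset e hfm z ε k) fun c => ?_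
    have h2 : μ (e.symm k) {t | update c (e.symm k) t ∈ Jset e f z ε k} ≤
        μ (e.symm k) {t | |t| ≤ L ∧ update c (e.symm k) t ∈ Jset e f z ε k} +
          μ (e.symm k) {t | |t| ≤ L}ᶜ := by
      refine (measure_mono fun t ht => ?_).trans (measure_union_le _ _)
      by_cases h : |t| ≤ L
      · exact Or.inl ⟨h, ht⟩
      · exact Or.inr h
    rw [hsupp, add_zero] at h2
    refine h2.trans ((hK _ _).trans ?_)
    gcongr
    exact volume_section_Jset_le e hf hL hz h0 h1 k.isLt c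
  · rw [Finset.card_univ, Fintype.card_fin, nsmul_eq_mul]

end Multi

section Exists

variable {ι : Type*} [Fintype ι] [DecidableEq ι]
variable {F : Type*} [NormedAddCommGroup F] [NormedSpace ℂ F]

/-- **A common large point.**  For finitely many multi-affine functions and every product of windows
`W i ⊆ [-L, L]` of Lebesgue measure `> m * 8 L ε` there is a real point of the product of the windows
where every function is at least `ε^n` times its value at its own reference point. -/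
theorem exists_large {κ : Type*} [Fintype κ] (f : κ → (ι → ℂ) → F) (hf : ∀ j, MAff (f j))
    {L ε : ℝ} (hL : 0 ≤ L) (h0 : 0 ≤ ε) (h1 : ε ≤ 1 / 2) (z : κ → ι → ℂ)
    (hz : ∀ j i, ‖z j i‖ ≤ L) (W : ι → Set ℝ) (hW : ∀ i, W i ⊆ {t | |t| ≤ L})
    (hvol : ∀ i, Fintype.card κ * ENNReal.ofReal (8 * L * ε) < volume (W i)) :
    ∃ V : ι → ℝ, (∀ i, V i ∈ W i) ∧
      ∀ j, ε ^ (Fintype.card ι) * ‖f j (z j)‖ ≤ ‖f j (cx V)‖ := by
  classical
  -- build the point one coordinate at a time
  have key : ∀ S : Finset ι, ∃ V : ι → ℝ, (∀ i ∈ S, V i ∈ W i) ∧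
      ∀ j, ε ^ S.card * ‖f j (z j)‖ ≤ ‖f j (fun i => if i ∈ S then (V i : ℂ) else z j i)‖ := by
    intro S
    induction S using Finset.induction_on with
    | empty => exact ⟨fun _ => 0, by simp, fun j => by simp⟩
    | insert i S hi ih =>
      obtain ⟨V, hV1, hV2⟩ := ih
      -- the bad set of the new coordinate
      let bad : κ → Set ℝ := fun j => {t : ℝ | |t| ≤ L ∧
        ‖f j (update (fun l => if l ∈ S then (V l : ℂ) else z j l) i (t : ℂ))‖ <
          ε * ‖f j (fun l => if l ∈ S then (V l : ℂ) else z j l)‖}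
      have hbad : ∀ j, volume (bad j) ≤ ENNReal.ofReal (8 * L * ε) := by
        intro j
        obtain ⟨a, b, hab⟩ := hf j (fun l => if l ∈ S then (V l : ℂ) else z j l) i
        have h2 : f j (fun l => if l ∈ S then (V l : ℂ) else z j l) = a + z j i • b := by
          rw [← hab]
          congr 1
          ext l
          by_cases hl : l = i
          · subst hl; simp [hi]
          · simp [update_of_ne hl]
        have h3 := volume_small_le a b hL (hz j i) h0 h1
        refine (measure_mono fun t ht => ?_).trans h3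
        refine ⟨ht.1, ?_⟩
        have h4 := ht.2
        rw [hab, h2] at h4
        exact h4
      have hne : ∃ t ∈ W i, ∀ j, t ∉ bad j := by
        by_contra hcon
        push Not at hcon
        have hsub : W i ⊆ ⋃ j, bad j := fun t ht => by
          obtain ⟨j, hj⟩ := hcon t ht
          exact Set.mem_iUnion.mpr ⟨j, hj⟩
        have h5 := (measure_mono hsub).trans (measure_iUnion_le (μ := volume) bad)
        rw [tsum_fintype] at h5
        have h6 := h5.trans (Finset.sum_le_card_nsmul _ _ (ENNReal.ofReal (8 * L * ε))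
          fun j _ => hbad j)
        rw [Finset.card_univ, nsmul_eq_mul] at h6
        exact absurd (hvol i) (not_lt.mpr h6)
      obtain ⟨t, htW, ht⟩ := hne
      refine ⟨update V i t, ?_, fun j => ?_⟩
      · intro l hl
        by_cases hli : l = i
        · subst hli; simpa using htW
        · rw [update_of_ne hli]
          exact hV1 l ((Finset.mem_insert.mp hl).resolve_left hli)
      · have h7 : (fun l => if l ∈ insert i S then ((update V i t l : ℝ) : ℂ) else z j l) =
            update (fun l => if l ∈ S then (V l : ℂ) else z j l) i (t : ℂ) := by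
          ext l
          by_cases hli : l = i
          · subst hli; simp
          · simp [hli]
        rw [h7]
        have h8 := ht j
        have h9 : |t| ≤ L := hW i htW
        have h10 : ε * ‖f j (fun l => if l ∈ S then (V l : ℂ) else z j l)‖ ≤
            ‖f j (update (fun l => if l ∈ S then (V l : ℂ) else z j l) i (t : ℂ))‖ := by
          by_contra hc
          exact h8 ⟨h9, not_le.mp hc⟩
        rw [Finset.card_insert_of_notMem hi]
        calc ε ^ (S.card + 1) * ‖f j (z j)‖ = ε * (ε ^ S.card * ‖f j (z j)‖) := by ring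
          _ ≤ ε * ‖f j (fun l => if l ∈ S then (V l : ℂ) else z j l)‖ := by gcongr; exact hV2 j
          _ ≤ _ := h10
  obtain ⟨V, h2, h3⟩ := key Finset.univ
  refine ⟨V, fun i => h2 i (Finset.mem_univ i), fun j => ?_⟩
  have h4 := h3 j
  simp only [Finset.mem_univ, if_true, Finset.card_univ] at h4
  exact h4

end Exists

section Window

variable {F : Type*} [NormedAddCommGroup F] [NormedSpace ℂ F]

/-- `‖u + τ b‖² + ‖u - τ b‖² ≥ 2 max(‖u‖², τ²‖b‖²)` in any normed space -/
theorem sq_add_sq_ge (u b : F) (τ : ℝ) :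
    2 * ‖u‖ ^ 2 ≤ ‖u + (τ : ℂ) • b‖ ^ 2 + ‖u - (τ : ℂ) • b‖ ^ 2 ∧
    2 * (τ ^ 2 * ‖b‖ ^ 2) ≤ ‖u + (τ : ℂ) • b‖ ^ 2 + ‖u - (τ : ℂ) • b‖ ^ 2 := by
  set p := ‖u + (τ : ℂ) • b‖
  set q := ‖u - (τ : ℂ) • b‖
  have h1 : 2 * ‖u‖ ≤ p + q := by
    have : (2 : ℂ) • u = (u + (τ : ℂ) • b) + (u - (τ : ℂ) • b) := by
      rw [two_smul]; abel
    calc 2 * ‖u‖ = ‖(2 : ℂ) • u‖ := by rw [norm_smul]; simp
      _ ≤ p + q := by rw [this]; exact norm_add_le _ _
  have h2 : 2 * (|τ| * ‖b‖) ≤ p + q := by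
    have : (2 : ℂ) • ((τ : ℂ) • b) = (u + (τ : ℂ) • b) - (u - (τ : ℂ) • b) := by
      rw [two_smul]; abel
    calc 2 * (|τ| * ‖b‖) = ‖(2 : ℂ) • ((τ : ℂ) • b)‖ := by
          rw [norm_smul, norm_smul]; simp
      _ ≤ p + q := by rw [this]; exact norm_sub_le _ _
  have hp : 0 ≤ p := norm_nonneg _
  have hq : 0 ≤ q := norm_nonneg _
  have h3 : (p + q) ^ 2 ≤ 2 * (p ^ 2 + q ^ 2) := by nlinarith [sq_nonneg (p - q)]
  constructor
  · have : (2 * ‖u‖) ^ 2 ≤ (p + q) ^ 2 := pow_le_pow_left₀ (by positivity) h1 2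
    nlinarith
  · have : (2 * (|τ| * ‖b‖)) ^ 2 ≤ (p + q) ^ 2 := pow_le_pow_left₀ (by positivity) h2 2
    have h4 : |τ| ^ 2 = τ ^ 2 := sq_abs τ
    nlinarith

/-- second moment over a real window of half-length `σ` centred at `c`, real integrals -/
theorem integral_window_ge (a b : F) {z : ℂ} {L σ c : ℝ} (hσ : 0 < σ) (hσL : σ ≤ L)
    (hc : |c| ≤ L) (hz : ‖z‖ ≤ L) :
    2 * σ * (σ ^ 2 / (26 * L ^ 2)) * ‖a + z • b‖ ^ 2 ≤
      ∫ t in Set.Icc (c - σ) (c + σ), ‖a + (t : ℂ) • b‖ ^ 2 := by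
  have hL : 0 < L := hσ.trans_le hσL
  set u : F := a + (c : ℂ) • b with hu
  have hcont : Continuous fun t : ℝ => ‖a + (t : ℂ) • b‖ ^ 2 := by fun_prop
  have hcont2 : Continuous fun τ : ℝ => ‖u + (τ : ℂ) • b‖ ^ 2 := by fun_prop
  have hcont3 : Continuous fun τ : ℝ => ‖u - (τ : ℂ) • b‖ ^ 2 := by fun_prop
  have h1 : ∫ t in Set.Icc (c - σ) (c + σ), ‖a + (t : ℂ) • b‖ ^ 2 =
      ∫ τ in (-σ)..σ, ‖u + (τ : ℂ) • b‖ ^ 2 := by
    rw [integral_Icc_eq_integral_Ioc, ← intervalIntegral.integral_of_le (by linarith)]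
    have := intervalIntegral.integral_comp_add_left (a := -σ) (b := σ)
      (fun t : ℝ => ‖a + (t : ℂ) • b‖ ^ 2) c
    have e1 : c + -σ = c - σ := by ring
    rw [e1] at this
    rw [← this]
    refine intervalIntegral.integral_congr fun τ _ => ?_
    simp only [hu]
    congr 2
    push_cast
    rw [add_smul]
    abel
  have h2 : ∫ τ in (-σ)..σ, ‖u - (τ : ℂ) • b‖ ^ 2 = ∫ τ in (-σ)..σ, ‖u + (τ : ℂ) • b‖ ^ 2 := by
    have := intervalIntegral.integral_comp_neg (a := -σ) (b := σ)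
      (fun t : ℝ => ‖u + (t : ℂ) • b‖ ^ 2)
    rw [neg_neg] at this
    rw [← this]
    refine intervalIntegral.integral_congr fun τ _ => ?_
    have : u + ((-τ : ℝ) : ℂ) • b = u - (τ : ℂ) • b := by
      push_cast
      rw [neg_smul]
      abel
    simp only [this]
  have h3 : ∫ τ in (-σ)..σ, (‖u + (τ : ℂ) • b‖ ^ 2 + ‖u - (τ : ℂ) • b‖ ^ 2) =
      2 * ∫ τ in (-σ)..σ, ‖u + (τ : ℂ) • b‖ ^ 2 := by
    rw [intervalIntegral.integral_add (hcont2.intervalIntegrable _ _)
      (hcont3.intervalIntegrable _ _), h2]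
    ring
  have h4 : 2 * σ * ‖u‖ ^ 2 ≤ ∫ τ in (-σ)..σ, ‖u + (τ : ℂ) • b‖ ^ 2 := by
    have h5 : ∫ τ in (-σ)..σ, 2 * ‖u‖ ^ 2 ≤
        ∫ τ in (-σ)..σ, (‖u + (τ : ℂ) • b‖ ^ 2 + ‖u - (τ : ℂ) • b‖ ^ 2) :=
      intervalIntegral.integral_mono_on (by linarith)
        (Continuous.intervalIntegrable (by fun_prop) _ _)
        ((hcont2.add hcont3).intervalIntegrable _ _) fun τ _ => (sq_add_sq_ge u b τ).1
    rw [h3, intervalIntegral.integral_const, smul_eq_mul] at h5
    linarith
  have h6 : 2 * σ * (σ ^ 2 / 3 * ‖b‖ ^ 2) ≤ ∫ τ in (-σ)..σ, ‖u + (τ : ℂ) • b‖ ^ 2 := by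
    have h5 : ∫ τ in (-σ)..σ, 2 * (τ ^ 2 * ‖b‖ ^ 2) ≤
        ∫ τ in (-σ)..σ, (‖u + (τ : ℂ) • b‖ ^ 2 + ‖u - (τ : ℂ) • b‖ ^ 2) :=
      intervalIntegral.integral_mono_on (by linarith)
        (Continuous.intervalIntegrable (by fun_prop) _ _)
        ((hcont2.add hcont3).intervalIntegrable _ _) fun τ _ => (sq_add_sq_ge u b τ).2
    rw [h3, intervalIntegral.integral_const_mul, intervalIntegral.integral_mul_const,
      integral_pow] at h5
    nlinarith [h5]
  rw [h1]
  have h7 : ‖a + z • b‖ ≤ ‖u‖ + 2 * L * ‖b‖ := norm_ratio_le a b hz hc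
  have h8 : ‖a + z • b‖ ^ 2 ≤ 2 * ‖u‖ ^ 2 + 8 * L ^ 2 * ‖b‖ ^ 2 := by
    have h9 : ‖a + z • b‖ ^ 2 ≤ (‖u‖ + 2 * L * ‖b‖) ^ 2 :=
      pow_le_pow_left₀ (norm_nonneg _) h7 2
    nlinarith [sq_nonneg (‖u‖ - 2 * L * ‖b‖)]
  set I := ∫ τ in (-σ)..σ, ‖u + (τ : ℂ) • b‖ ^ 2 with hI
  have hI0 : 0 ≤ I := le_trans (by positivity) h4
  have hk : 0 ≤ 2 * σ * (σ ^ 2 / (26 * L ^ 2)) := by positivity
  calc 2 * σ * (σ ^ 2 / (26 * L ^ 2)) * ‖a + z • b‖ ^ 2
      ≤ 2 * σ * (σ ^ 2 / (26 * L ^ 2)) * (2 * ‖u‖ ^ 2 + 8 * L ^ 2 * ‖b‖ ^ 2) :=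
        mul_le_mul_of_nonneg_left h8 hk
    _ = (σ ^ 2 / (13 * L ^ 2)) * (2 * σ * ‖u‖ ^ 2) +
          (24 / 26) * (2 * σ * (σ ^ 2 / 3 * ‖b‖ ^ 2)) := by
        field_simp; ring
    _ ≤ (1 / 13) * I + (24 / 26) * I := by
        have h10 : σ ^ 2 / (13 * L ^ 2) ≤ 1 / 13 := by
          rw [div_le_div_iff₀ (by positivity) (by norm_num)]
          nlinarith
        have h11 : 0 ≤ 2 * σ * ‖u‖ ^ 2 := by positivity
        have h12 : (σ ^ 2 / (13 * L ^ 2)) * (2 * σ * ‖u‖ ^ 2) ≤ (1 / 13) * I :=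
          mul_le_mul h10 h4 h11 (by norm_num)
        have h13 : (24 / 26 : ℝ) * (2 * σ * (σ ^ 2 / 3 * ‖b‖ ^ 2)) ≤ (24 / 26) * I := by
          gcongr
        linarith
    _ = I := by ring

/-- `μ` spreads affine functions: second moment at least `κ` times the squared sup over the disc -/
def WinLaw (F : Type*) [NormedAddCommGroup F] [NormedSpace ℂ F] (κ : ℝ≥0∞) (L : ℝ)
    (μ : Measure ℝ) : Prop :=
  ∀ (a b : F) (z : ℂ), ‖z‖ ≤ L → κ * ‖a + z • b‖ₑ ^ 2 ≤ ∫⁻ t, ‖a + (t : ℂ) • b‖ₑ ^ 2 ∂μ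

/-- a law with density at least `ρ` on a window of half-length `σ` inside `[-L, L]` -/
theorem winLaw_of_density {μ : Measure ℝ} {ρ : ℝ≥0∞} {L σ c : ℝ} (hσ : 0 < σ) (hσL : σ ≤ L)
    (hc : |c| ≤ L) (hμ : ρ • volume.restrict (Set.Icc (c - σ) (c + σ)) ≤ μ) :
    WinLaw F (ρ * ENNReal.ofReal (2 * σ * (σ ^ 2 / (26 * L ^ 2)))) L μ := by
  intro a b z hz
  have hcont : Continuous fun t : ℝ => ‖a + (t : ℂ) • b‖ ^ 2 := by fun_prop
  have h1 := integral_window_ge a b hσ hσL hc hz
  have h2 : ENNReal.ofReal (2 * σ * (σ ^ 2 / (26 * L ^ 2))) * ‖a + z • b‖ₑ ^ 2 ≤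
      ∫⁻ t in Set.Icc (c - σ) (c + σ), ‖a + (t : ℂ) • b‖ₑ ^ 2 := by
    have h3 : ∫⁻ t in Set.Icc (c - σ) (c + σ), ‖a + (t : ℂ) • b‖ₑ ^ 2 =
        ENNReal.ofReal (∫ t in Set.Icc (c - σ) (c + σ), ‖a + (t : ℂ) • b‖ ^ 2) := by
      rw [ofReal_integral_eq_lintegral_ofReal]
      · refine lintegral_congr fun t => ?_
        rw [ENNReal.ofReal_pow (norm_nonneg _), ofReal_norm]
      · exact hcont.continuousOn.integrableOn_compact isCompact_Icc
      · exact Filter.Eventually.of_forall fun t => by positivity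
    rw [h3, ← ofReal_norm, ← ENNReal.ofReal_pow (norm_nonneg _),
      ← ENNReal.ofReal_mul (by positivity)]
    exact ENNReal.ofReal_le_ofReal h1
  calc ρ * ENNReal.ofReal (2 * σ * (σ ^ 2 / (26 * L ^ 2))) * ‖a + z • b‖ₑ ^ 2
      = ρ * (ENNReal.ofReal (2 * σ * (σ ^ 2 / (26 * L ^ 2))) * ‖a + z • b‖ₑ ^ 2) := mul_assoc _ _ _
    _ ≤ ρ * ∫⁻ t in Set.Icc (c - σ) (c + σ), ‖a + (t : ℂ) • b‖ₑ ^ 2 := by gcongr
    _ = ∫⁻ t, ‖a + (t : ℂ) • b‖ₑ ^ 2 ∂(ρ • volume.restrict (Set.Icc (c - σ) (c + σ))) := by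
        rw [lintegral_smul_measure, smul_eq_mul]
    _ ≤ ∫⁻ t, ‖a + (t : ℂ) • b‖ₑ ^ 2 ∂μ := lintegral_mono' hμ le_rfl

variable {ι : Type*} [Fintype ι] [DecidableEq ι]

/-- replace the coordinates in `S` by those of `z` -/
def mix (S : Finset ι) (x z : ι → ℂ) : ι → ℂ := fun i => if i ∈ S then z i else x i

theorem measurable_mix_cx (S : Finset ι) (z : ι → ℂ) :
    Measurable fun V : ι → ℝ => mix S (cx V) z := by
  refine measurable_pi_lambda _ fun i => ?_
  by_cases hi : i ∈ S
  · simp only [mix, hi, if_true]; exact measurable_const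
  · simp only [mix, hi, if_false]
    exact Complex.measurable_ofReal.comp (measurable_pi_apply i)

/-- **Second moment over windows.**  `E ‖f V‖² ≥ κ^{|S|} E ‖f (z on S, V off S)‖²`. -/
theorem lintegral_sq_ge [MeasurableSpace F] [BorelSpace F] {f : (ι → ℂ) → F} (hf : MAff f)
    (hfm : Measurable f) (μ : ι → Measure ℝ) [∀ i, IsProbabilityMeasure (μ i)] {κ : ℝ≥0∞} {L : ℝ}
    {z : ι → ℂ} (hz : ∀ i, ‖z i‖ ≤ L) (S : Finset ι) (hμ : ∀ i ∈ S, WinLaw F κ L (μ i)) :
    κ ^ S.card * ∫⁻ V, ‖f (mix S (cx V) z)‖ₑ ^ 2 ∂(Measure.pi μ) ≤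
      ∫⁻ V, ‖f (cx V)‖ₑ ^ 2 ∂(Measure.pi μ) := by
  induction S using Finset.induction_on with
  | empty =>
    have : ∀ V : ι → ℝ, mix ∅ (cx V) z = cx V := fun V => by ext i; simp [mix]
    simp [this]
  | insert i S hi ih =>
    refine le_trans ?_ (ih fun j hj => hμ j (Finset.mem_insert_of_mem hj))
    rw [Finset.card_insert_of_notMem hi, pow_succ, mul_assoc]
    refine mul_le_mul_of_nonneg_left ?_ zero_le
    have hm : Measurable fun V : ι → ℝ => ‖f (mix S (cx V) z)‖ₑ ^ 2 :=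
      ((hfm.comp (measurable_mix_cx S z)).enorm).pow_const 2
    have hm2 : Measurable fun V : ι → ℝ => ‖f (mix (insert i S) (cx V) z)‖ₑ ^ 2 :=
      ((hfm.comp (measurable_mix_cx (insert i S) z)).enorm).pow_const 2
    rw [lintegral_resample μ i hm, ← lintegral_const_mul _ hm2]
    refine lintegral_mono fun V => ?_
    obtain ⟨a, b, hab⟩ := hf (mix S (cx V) z) i
    have h1 : mix (insert i S) (cx V) z = update (mix S (cx V) z) i (z i) := by
      ext l
      by_cases hli : l = i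
      · subst hli; simp [mix]
      · simp [mix, hli]
    have h2 : ∀ t : ℝ, mix S (cx (update V i t)) z = update (mix S (cx V) z) i (t : ℂ) := by
      intro t
      ext l
      by_cases hli : l = i
      · subst hli; simp [mix, hi, cx]
      · simp [mix, cx, hli]
    simp only [h1, h2, hab]
    exact hμ i (Finset.mem_insert_self i S) a b (z i) (hz i)

/-- all coordinates at once -/
theorem lintegral_sq_ge_univ [MeasurableSpace F] [BorelSpace F] {f : (ι → ℂ) → F} (hf : MAff f)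
    (hfm : Measurable f) (μ : ι → Measure ℝ) [∀ i, IsProbabilityMeasure (μ i)] {κ : ℝ≥0∞} {L : ℝ}
    {z : ι → ℂ} (hz : ∀ i, ‖z i‖ ≤ L) (hμ : ∀ i, WinLaw F κ L (μ i)) :
    κ ^ Fintype.card ι * ‖f z‖ₑ ^ 2 ≤ ∫⁻ V, ‖f (cx V)‖ₑ ^ 2 ∂(Measure.pi μ) := by
  have h := lintegral_sq_ge hf hfm μ hz Finset.univ fun i _ => hμ i
  have h1 : ∀ V : ι → ℝ, mix Finset.univ (cx V) z = z := fun V => by ext i; simp [mix]
  simp only [h1, lintegral_const, measure_univ, mul_one, Finset.card_univ] at h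
  exact h

end Window

section Stable

variable {ι : Type*} [Fintype ι] [DecidableEq ι]

/-- one variable: a zero in the closed upper half plane is at distance at most `√2` times further
from `-iL` than from any real point of `[-L, L]` -/
theorem sq_le_two_mul {s : ℂ} (hs : 0 ≤ s.im) {t L : ℝ} (hL : 0 ≤ L) (ht : |t| ≤ L) :
    ‖(t : ℂ) - s‖ ^ 2 ≤ 2 * ‖-(L : ℂ) * Complex.I - s‖ ^ 2 := by
  rw [← Complex.normSq_eq_norm_sq, ← Complex.normSq_eq_norm_sq, Complex.normSq_apply,
    Complex.normSq_apply]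
  simp only [Complex.sub_re, Complex.ofReal_re, Complex.sub_im, Complex.ofReal_im, Complex.mul_re,
    Complex.neg_re, Complex.I_re, Complex.neg_im, Complex.I_im, Complex.mul_im]
  have h1 : t ^ 2 ≤ L ^ 2 := by
    rw [← sq_abs t]; exact pow_le_pow_left₀ (abs_nonneg t) ht 2
  nlinarith [sq_nonneg (s.re + t), mul_nonneg hL hs, sq_nonneg s.im]

/-- no zero in the open product of lower half planes -/
def Stable (f : (ι → ℂ) → ℂ) : Prop := ∀ x : ι → ℂ, (∀ i, (x i).im < 0) → f x ≠ 0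

/-- the point `-iL` in every coordinate of `S` -/
theorem stable_one {f : (ι → ℂ) → ℂ} (hf : MAff f) (hc : Continuous f) (hs : Stable f)
    {L : ℝ} (hL : 0 < L) (x : ι → ℂ) (hx : ∀ i, (x i).im ≤ 0) (i : ι) {t : ℝ} (ht : |t| ≤ L) :
    ‖f (update x i (t : ℂ))‖ ^ 2 ≤ 2 * ‖f (update x i (-(L : ℂ) * Complex.I))‖ ^ 2 := by
  -- approximate `x` from inside
  have h1 : ∀ δ : ℝ, 0 < δ →
      ‖f (update (fun j => x j - δ * Complex.I) i (t : ℂ))‖ ^ 2 ≤
        2 * ‖f (update (fun j => x j - δ * Complex.I) i (-(L : ℂ) * Complex.I))‖ ^ 2 := by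
    intro δ hδ
    obtain ⟨a, b, hab⟩ := hf (fun j => x j - δ * Complex.I) i
    rw [hab, hab, smul_eq_mul, smul_eq_mul]
    by_cases hb : b = 0
    · subst hb
      simp only [mul_zero, add_zero]
      nlinarith [sq_nonneg ‖a‖]
    · set s : ℂ := -(a / b) with hsdef
      have hfac : ∀ w : ℂ, a + w * b = (w - s) * b := fun w => by
        rw [hsdef]; field_simp; ring
      have hsim : 0 ≤ s.im := by
        by_contra hneg
        push Not at hneg
        have h2 := hs (update (fun j => x j - δ * Complex.I) i s) (fun j => by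
          by_cases hj : j = i
          · subst hj; simpa using hneg
          · rw [update_of_ne hj]
            have := hx j
            simp only [Complex.sub_im, Complex.mul_im, Complex.ofReal_re, Complex.I_im, mul_one,
              Complex.ofReal_im, Complex.I_re, mul_zero, add_zero]
            linarith)
        rw [hab, smul_eq_mul, hfac, sub_self, zero_mul] at h2
        exact h2 rfl
      rw [hfac, hfac, norm_mul, norm_mul, mul_pow, mul_pow]
      have h3 := sq_le_two_mul hsim hL.le ht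
      nlinarith [sq_nonneg ‖b‖]
  have hlim : ∀ w : ℂ, Filter.Tendsto
      (fun δ : ℝ => ‖f (update (fun j => x j - δ * Complex.I) i w)‖ ^ 2)
      (nhdsWithin 0 (Set.Ioi 0)) (nhds (‖f (update x i w)‖ ^ 2)) := by
    intro w
    have hcont : Continuous fun δ : ℝ => ‖f (update (fun j => x j - δ * Complex.I) i w)‖ ^ 2 := by
      have h4 : Continuous fun δ : ℝ => update (fun j => x j - (δ : ℂ) * Complex.I) i w :=
        (continuous_pi fun j => by fun_prop).update i continuous_const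
      exact (hc.comp h4).norm.pow 2
    have h5 := (hcont.tendsto 0).mono_left (nhdsWithin_le_nhds (s := Set.Ioi 0))
    simpa using h5
  refine le_of_tendsto_of_tendsto (hlim _) ((hlim _).const_mul 2) ?_
  exact eventually_nhdsWithin_of_forall fun δ hδ => h1 δ hδ

/-- **Upper bound for stable multi-affine functions**: `|f V|² ≤ 2^n |f (-iL)|²` on the real cube. -/
theorem stable_le {f : (ι → ℂ) → ℂ} (hf : MAff f) (hc : Continuous f) (hs : Stable f)
    {L : ℝ} (hL : 0 < L) {V : ι → ℝ} (hV : ∀ i, |V i| ≤ L) :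
    ‖f (cx V)‖ ^ 2 ≤ 2 ^ Fintype.card ι * ‖f (fun _ => -(L : ℂ) * Complex.I)‖ ^ 2 := by
  have key : ∀ S : Finset ι, ‖f (cx V)‖ ^ 2 ≤
      2 ^ S.card * ‖f (mix S (cx V) fun _ => -(L : ℂ) * Complex.I)‖ ^ 2 := by
    intro S
    induction S using Finset.induction_on with
    | empty =>
      have : mix ∅ (cx V) (fun _ => -(L : ℂ) * Complex.I) = cx V := by ext i; simp [mix]
      rw [this]; simp
    | insert i S hi ih =>
      refine ih.trans ?_
      rw [Finset.card_insert_of_notMem hi, pow_succ (2 : ℝ) S.card, mul_assoc ((2 : ℝ) ^ S.card)]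
      gcongr
      set x := mix S (cx V) fun _ => -(L : ℂ) * Complex.I with hx
      have h1 : x = update x i (V i : ℂ) := by
        ext l
        by_cases hli : l = i
        · subst hli; simp [hx, mix, hi, cx]
        · simp [hli]
      have h2 : mix (insert i S) (cx V) (fun _ => -(L : ℂ) * Complex.I) =
          update x i (-(L : ℂ) * Complex.I) := by
        ext l
        by_cases hli : l = i
        · subst hli; simp [mix]
        · simp [mix, hx, hli]
      rw [h2]
      conv_lhs => rw [h1]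
      refine stable_one hf hc hs hL x (fun j => ?_) i (hV i)
      by_cases hj : j ∈ S
      · simp [hx, mix, hj, hL.le]
      · simp [hx, mix, hj, cx]
  have h := key Finset.univ
  have h3 : mix Finset.univ (cx V) (fun _ => -(L : ℂ) * Complex.I) = fun _ => -(L : ℂ) * Complex.I := by
    ext i; simp [mix]
  rwa [h3, Finset.card_univ] at h

end Stable

end P365T1.MAff
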