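import Vale.Agent.P365.T1.Defs
import Vale.Agent.P365.T1a.StartLab

/-!
# P365-T1: START on the definitions of the chain.
-/

set_option linter.all false

namespace P365T1

open P365L P365O MeasureTheory

variable {N : ℕ} [NeZero N]

theorem val_lt (x : ZMod N) : x.val < N := ZMod.val_lt x

/-- the torus site with given block index and local coordinates -/
theorem bi_st {m : ℕ} (hm : 0 < m) {c a : Loc} (hc : (c.1 + 1) * m ≤ N ∧ (c.2 + 1) * m ≤ N)
    (ha : a ∈ blk m) : bi m (st N m c a) = c := by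
  simp only [blk, Finset.mem_product, Finset.mem_range] at ha
  have e1 : c.1 * m + a.1 < N := by
    have := hc.1
    rw [add_mul, one_mul] at this
    omega
  have e2 : c.2 * m + a.2 < N := by
    have := hc.2
    rw [add_mul, one_mul] at this
    omega
  unfold bi st
  simp only [ZMod.val_natCast_of_lt e1, ZMod.val_natCast_of_lt e2]
  have h1 : ∀ q r : ℕ, r < m → (q * m + r) / m = q := fun q r hr => by
    rw [Nat.mul_comm, Nat.mul_add_div hm, Nat.div_eq_of_lt hr, add_zero]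
  exact Prod.ext (h1 _ _ ha.1) (h1 _ _ ha.2)

theorem lc_st {m : ℕ} {c a : Loc} (hc : (c.1 + 1) * m ≤ N ∧ (c.2 + 1) * m ≤ N)
    (ha : a ∈ blk m) : lc m (st N m c a) = a := by
  simp only [blk, Finset.mem_product, Finset.mem_range] at ha
  have e1 : c.1 * m + a.1 < N := by
    have := hc.1
    rw [add_mul, one_mul] at this
    omega
  have e2 : c.2 * m + a.2 < N := by
    have := hc.2
    rw [add_mul, one_mul] at this
    omega
  unfold lc st
  simp only [ZMod.val_natCast_of_lt e1, ZMod.val_natCast_of_lt e2]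
  have h1 : ∀ q r : ℕ, r < m → (q * m + r) % m = r := fun q r hr => by
    rw [Nat.mul_comm, Nat.mul_add_mod, Nat.mod_eq_of_lt hr]
  exact Prod.ext (h1 _ _ ha.1) (h1 _ _ ha.2)

/-- the block index of a site is admissible when `m ∣ N` -/
theorem bi_adm {m : ℕ} (hm : 0 < m) (hN : m ∣ N) (x : Tor N) :
    ((bi m x).1 + 1) * m ≤ N ∧ ((bi m x).2 + 1) * m ≤ N := by
  obtain ⟨q, hq⟩ := hN
  have h1 : ∀ t : ℕ, t < N → (t / m + 1) * m ≤ N := by
    intro t ht
    have h2 : t / m < q := by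
      rw [Nat.div_lt_iff_lt_mul hm, Nat.mul_comm]
      rwa [← hq]
    calc (t / m + 1) * m ≤ q * m := Nat.mul_le_mul_right _ h2
      _ = N := by rw [hq, Nat.mul_comm]
  exact ⟨h1 _ (val_lt _), h1 _ (val_lt _)⟩

theorem card_block_le (m : ℕ) (hm : 0 < m) (c : Loc) :
    (Finset.univ.filter fun x : Tor N => bi m x = c).card ≤ m ^ 2 := by
  classical
  have h : ((Finset.univ.filter fun x : Tor N => bi m x = c).image (lc m)) ⊆ blk m := by
    intro a ha
    rw [Finset.mem_image] at ha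
    obtain ⟨x, -, rfl⟩ := ha
    simp only [blk, Finset.mem_product, Finset.mem_range, lc]
    exact ⟨Nat.mod_lt _ hm, Nat.mod_lt _ hm⟩
  have hinj : Set.InjOn (lc m) ((Finset.univ.filter fun x : Tor N => bi m x = c : Finset (Tor N)) :
      Set (Tor N)) := by
    intro x hx y hy hxy
    simp only [Finset.coe_filter, Finset.mem_univ, true_and, Set.mem_setOf_eq] at hx hy
    rw [← hy] at hx
    simp only [bi, lc, Prod.mk.injEq] at hx hxy
    have e1 : x.1.val = y.1.val := by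
      rw [← Nat.div_add_mod x.1.val m, ← Nat.div_add_mod y.1.val m, hx.1, hxy.1]
    have e2 : x.2.val = y.2.val := by
      rw [← Nat.div_add_mod x.2.val m, ← Nat.div_add_mod y.2.val m, hx.2, hxy.2]
    exact Prod.ext (ZMod.val_injective N e1) (ZMod.val_injective N e2)
  calc (Finset.univ.filter fun x : Tor N => bi m x = c).card
      = ((Finset.univ.filter fun x : Tor N => bi m x = c).image (lc m)).card :=
        (Finset.card_image_of_injOn hinj).symm
    _ ≤ (blk m).card := Finset.card_le_card h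
    _ = m ^ 2 := by simp [blk, sq]

theorem Ex_le {ι : Type*} [Fintype ι] {ν : ι → Measure ℝ} [∀ x, IsProbabilityMeasure (ν x)]
    {E : ℝ} {e : ι → ℝ} {F : (ι → ℂ) → ℝ} {C : ℝ} (h0 : ∀ v, 0 ≤ F (WV E e v))
    (h1 : ∀ v, F (WV E e v) ≤ C) : Ex ν E e F ≤ C := by
  unfold Ex
  refine (integral_mono_of_nonneg (Filter.Eventually.of_forall h0) (integrable_const C)
    (Filter.Eventually.of_forall h1)).trans ?_
  simp

theorem WV_im {ι : Type*} (E : ℝ) (e v : ι → ℝ) (x : ι) : (WV E e v x).im = -e x := by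
  simp [WV]

theorem En_nonneg' {ι : Type*} [Fintype ι] [DecidableEq ι] {A : Matrix ι ι ℝ} {W : ι → ℂ}
    (hW : ∀ x, (W x).im < 0) (f : ι → ℝ) : 0 ≤ En A W f :=
  Finset.sum_nonneg fun x _ => Finset.sum_nonneg fun y _ =>
    mul_nonneg (mul_nonneg (mul_nonneg (by linarith [hW x]) (by linarith [hW y]))
      (KK_nonneg _ _)) (sq_nonneg _)

/-- the set of sites which carry only small absorption at the start -/
noncomputable def Chain.badS (D : Chain) (l : Tor N → Lab D.K) : Finset (Tor N) := by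
  classical
  exact Finset.univ.filter fun x => ¬ (l x = Lab.good ∧ ∀ i ≤ D.I, ¬ D.Mat i l x)

theorem Chain.mem_badS (D : Chain) (l : Tor N → Lab D.K) (x : Tor N) :
    x ∈ D.badS l ↔ ¬ (l x = Lab.good ∧ ∀ i ≤ D.I, ¬ D.Mat i l x) := by
  classical
  simp [Chain.badS]

/-- label average of the START majorant -/
theorem Chain.sum_FB_le (D : Chain) (hp : ∀ k, 0 ≤ D.p k) (hp1 : ∑ k, D.p k = 1)
    {τ : ℝ} (hτ : 0 < τ) (hτ1 : τ ≤ 1) (hgood : 1 - D.p Lab.good ≤ τ)
    (hm : ∀ i ≤ D.I, 0 < (D.F i).c.m) (hN : ∀ i ≤ D.I, (D.F i).c.m ∣ N)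
    (a : ℕ → Loc) (ha : ∀ i ≤ D.I, a i ∈ (D.F i).c.S) (hab : ∀ i ≤ D.I, a i ∈ blk (D.F i).c.m)
    (hlab : ∀ i ≤ D.I, ∀ j ≤ D.I, (D.F i).lab (a i) = (D.F j).lab (a j) → i = j)
    (hsum : τ * 4096 + ∑ i ∈ Finset.range (D.I + 1),
      D.p (Lab.win ((D.F i).lab (a i))) / τ * (4096 : ℝ) ^ ((D.F i).c.m ^ 2) ≤ 1) :
    ∑ l : Tor N → Lab D.K, D.pr l * FB N (D.badS l) ≤ 22 * Fintype.card (Tor N) := by
  classical
  -- index set of the blocks
  let Kt := Σ i : Fin (D.I + 1), {c : Fin (N + 1) × Fin (N + 1) //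
    ((c.1 : ℕ) + 1) * (D.F i).c.m ≤ N ∧ ((c.2 : ℕ) + 1) * (D.F i).c.m ≤ N}
  have hi : ∀ k : Kt, (k.1 : ℕ) ≤ D.I := fun k => Nat.lt_succ_iff.1 k.1.2
  let cc : Kt → Loc := fun k => ((k.2.1.1 : ℕ), (k.2.1.2 : ℕ))
  let z : Kt → Tor N := fun k => st N (D.F k.1).c.m (cc k) (a k.1)
  let w : Kt → Lab D.K := fun k => Lab.win ((D.F k.1).lab (a k.1))
  let bx : Kt → Finset (Tor N) := fun k => Finset.univ.filter fun x => bi (D.F k.1).c.m x = cc k
  have hbz : ∀ k : Kt, bi (D.F k.1).c.m (z k) = cc k := fun k =>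
    bi_st (hm _ (hi k)) k.2.2 (hab _ (hi k))
  have hlz : ∀ k : Kt, lc (D.F k.1).c.m (z k) = a k.1 := fun k =>
    lc_st k.2.2 (hab _ (hi k))
  refine FB_sum_labels (K := Kt) (fun _ k => D.p k) (fun _ => hp) (fun _ => hp1) Lab.good z w ?_
    hτ hτ1 (fun _ => hgood) bx ?_ ?_
  · rintro ⟨i, c, hc⟩ ⟨j, c', hc'⟩ hz hw
    have hij : i = j := by
      have := hlab i (hi ⟨i, c, hc⟩) j (hi ⟨j, c', hc'⟩) (by
        simp only [w, Lab.win.injEq] at hw; exact hw)
      exact Fin.ext this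
    subst hij
    have h1 := hbz ⟨i, c, hc⟩
    have h2 := hbz ⟨i, c', hc'⟩
    rw [hz] at h1
    have h3 : cc ⟨i, c, hc⟩ = cc ⟨i, c', hc'⟩ := by
      rw [← h1, ← h2]
    simp only [cc, Prod.mk.injEq] at h3
    have h4 : c = c' := Prod.ext (Fin.ext h3.1) (Fin.ext h3.2)
    subst h4
    rfl
  · intro x
    refine le_trans (add_le_add_right ?_ _) hsum
    have hsig : ∑ k : Kt, (if x ∈ bx k then D.p (w k) / τ * (4096 : ℝ) ^ (bx k).card else 0) =
        ∑ i : Fin (D.I + 1), ∑ c : {c : Fin (N + 1) × Fin (N + 1) //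
          ((c.1 : ℕ) + 1) * (D.F i).c.m ≤ N ∧ ((c.2 : ℕ) + 1) * (D.F i).c.m ≤ N},
          (if x ∈ bx ⟨i, c⟩ then D.p (w ⟨i, c⟩) / τ * (4096 : ℝ) ^ (bx ⟨i, c⟩).card else 0) :=
      Fintype.sum_sigma _
    rw [hsig, Finset.sum_range]
    refine Finset.sum_le_sum fun i _ => ?_
    have hile : (i : ℕ) ≤ D.I := Nat.lt_succ_iff.1 i.2
    have hterm : ∀ c : {c : Fin (N + 1) × Fin (N + 1) //
          ((c.1 : ℕ) + 1) * (D.F i).c.m ≤ N ∧ ((c.2 : ℕ) + 1) * (D.F i).c.m ≤ N},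
        (if x ∈ bx ⟨i, c⟩ then D.p (w ⟨i, c⟩) / τ * (4096 : ℝ) ^ (bx ⟨i, c⟩).card else 0) ≤
        (if bi (D.F i).c.m x = ((c.1.1 : ℕ), (c.1.2 : ℕ)) then
          D.p (Lab.win ((D.F i).lab (a i))) / τ * (4096 : ℝ) ^ ((D.F i).c.m ^ 2) else 0) := by
      intro c
      have hmem : x ∈ bx ⟨i, c⟩ ↔ bi (D.F i).c.m x = ((c.1.1 : ℕ), (c.1.2 : ℕ)) := by
        simp only [bx, Finset.mem_filter, Finset.mem_univ, true_and]
        exact Iff.rfl
      by_cases h : bi (D.F i).c.m x = ((c.1.1 : ℕ), (c.1.2 : ℕ))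
      · rw [if_pos (hmem.2 h), if_pos h]
        have h5 : (bx ⟨i, c⟩).card ≤ (D.F i).c.m ^ 2 := card_block_le _ (hm _ hile) _
        have h6 : 0 ≤ D.p (Lab.win ((D.F i).lab (a i))) / τ := div_nonneg (hp _) hτ.le
        exact mul_le_mul_of_nonneg_left (pow_le_pow_right₀ (by norm_num) h5) h6
      · rw [if_neg (fun h' => h (hmem.1 h')), if_neg h]
    refine (Finset.sum_le_sum fun c _ => hterm c).trans ?_
    rw [← Finset.sum_filter, Finset.sum_const, nsmul_eq_mul]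
    have hcard : (Finset.univ.filter fun c : {c : Fin (N + 1) × Fin (N + 1) //
          ((c.1 : ℕ) + 1) * (D.F i).c.m ≤ N ∧ ((c.2 : ℕ) + 1) * (D.F i).c.m ≤ N} =>
          bi (D.F i).c.m x = ((c.1.1 : ℕ), (c.1.2 : ℕ))).card ≤ 1 := by
      rw [Finset.card_le_one]
      intro c hc c' hc'
      simp only [Finset.mem_filter, Finset.mem_univ, true_and] at hc hc'
      rw [hc] at hc'
      simp only [Prod.mk.injEq] at hc'
      exact Subtype.ext (Prod.ext (Fin.ext hc'.1) (Fin.ext hc'.2))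
    have h7 : 0 ≤ D.p (Lab.win ((D.F i).lab (a i))) / τ * (4096 : ℝ) ^ ((D.F i).c.m ^ 2) :=
      mul_nonneg (div_nonneg (hp _) hτ.le) (by positivity)
    refine mul_le_of_le_one_left h7 ?_
    exact_mod_cast hcard
  · intro L x hx
    rw [Chain.mem_badS] at hx
    by_cases hg : L x = Lab.good
    · right
      have hx' : ∃ i ≤ D.I, D.Mat i L x := by
        by_contra hcon
        push Not at hcon
        exact hx ⟨hg, hcon⟩
      obtain ⟨i, hil, hmat⟩ := hx'
      have hadm := bi_adm (hm i hil) (hN i hil) x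
      have hlt : ∀ t : ℕ, (t + 1) * (D.F i).c.m ≤ N → t < N + 1 := by
        intro t ht
        have h8 : t + 1 ≤ (t + 1) * (D.F i).c.m := Nat.le_mul_of_pos_right _ (hm i hil)
        omega
      let k : Kt := ⟨⟨i, Nat.lt_succ_iff.2 hil⟩, ⟨(⟨(bi (D.F i).c.m x).1, hlt _ hadm.1⟩,
        ⟨(bi (D.F i).c.m x).2, hlt _ hadm.2⟩), hadm⟩⟩
      refine ⟨k, ?_, ?_⟩
      · have h9 : bi (D.F i).c.m (z k) = bi (D.F i).c.m x := hbz k
        have h10 := hmat (z k) h9
        have h11 : lc (D.F i).c.m (z k) = a i := hlz k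
        rw [h11] at h10
        rw [h10, Fam.pat, if_pos (ha i hil)]
      · simp only [bx, Finset.mem_filter, Finset.mem_univ, true_and]
        rfl
    · exact Or.inl hg

/-- weights of the levels are nonnegative -/
theorem Chain.wt_nonneg (D : Chain) (hw : ∀ i ≤ D.I, ∀ c, 0 ≤ (D.F i).c.wt c)
    {j : ℕ} (hj : j ≤ D.I + 1) (l : Tor N → Lab D.K) (x : Tor N) : 0 ≤ D.wt j l x := by
  classical
  cases j with
  | zero => simp only [Chain.wt]; split_ifs <;> norm_num
  | succ i =>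
    simp only [Chain.wt]
    split_ifs
    · exact hw i (by omega) _
    · exact le_rfl

/-- **START on the chain** -/
theorem Chain.start (D : Chain) (E : ℝ) (hb : 0 < D.b) (hν : ∀ k, IsProbabilityMeasure (D.ν k))
    (hp : ∀ k, 0 ≤ D.p k) (hp1 : ∑ k, D.p k = 1)
    {τ : ℝ} (hτ : 0 < τ) (hτ1 : τ ≤ 1) (hgood : 1 - D.p Lab.good ≤ τ)
    (hm : ∀ i ≤ D.I, 0 < (D.F i).c.m) (hN : ∀ i ≤ D.I, (D.F i).c.m ∣ N)
    (hw : ∀ i ≤ D.I, ∀ c, 0 ≤ (D.F i).c.wt c) (he0 : ∀ i ≤ D.I, 0 ≤ (D.F i).c.e0)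
    (a : ℕ → Loc) (ha : ∀ i ≤ D.I, a i ∈ (D.F i).c.S) (hab : ∀ i ≤ D.I, a i ∈ blk (D.F i).c.m)
    (hlab : ∀ i ≤ D.I, ∀ j ≤ D.I, (D.F i).lab (a i) = (D.F j).lab (a j) → i = j)
    (hsum : τ * 4096 + ∑ i ∈ Finset.range (D.I + 1),
      D.p (Lab.win ((D.F i).lab (a i))) / τ * (4096 : ℝ) ^ ((D.F i).c.m ^ 2) ≤ 1) :
    D.Phi N E (D.ev 0 32) ≤ 88 * Fintype.card (Tor N) := by
  classical
  have h1 := D.sum_FB_le (N := N) hp hp1 hτ hτ1 hgood hm hN a ha hab hlab hsum
  unfold Chain.Phi Chain.Av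
  have hprof : ∀ (l : Tor N → Lab D.K) (x : Tor N), D.b + 32 * D.wt 0 l x ≤
      D.prof (D.ev 0 32) l x := by
    intro l x
    unfold Chain.prof
    refine add_le_add_right ?_ _
    have h2 : D.ev 0 32 0 * D.wt 0 l x ≤ ∑ j ∈ Finset.range (D.I + 2), D.ev 0 32 j * D.wt j l x := by
      refine Finset.single_le_sum (f := fun j => D.ev 0 32 j * D.wt j l x) (fun j hj => ?_)
        (Finset.mem_range.2 (by omega))
      rw [Finset.mem_range] at hj
      refine mul_nonneg ?_ (D.wt_nonneg hw (by omega) l x)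
      cases j with
      | zero => simp [Chain.ev]
      | succ i =>
        simp only [Chain.ev, Chain.ini]
        rw [if_neg (by omega), if_neg (by omega)]
        exact he0 i (by omega)
    refine le_trans (le_of_eq ?_) h2
    simp [Chain.ev]
  have hEx : ∀ l : Tor N → Lab D.K, Ex (fun x => D.ν (l x)) E (D.prof (D.ev 0 32) l)
      (fun W => ∑ k : Fin 4, En (AT N) W (phi N k)) ≤ 4 * FB N (D.badS l) := by
    intro l
    haveI : ∀ x : Tor N, IsProbabilityMeasure (D.ν (l x)) := fun x => hν _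
    have hwt0 : ∀ x, 0 ≤ D.wt 0 l x := fun x => D.wt_nonneg hw (Nat.zero_le _) l x
    have him : ∀ v x, (WV E (D.prof (D.ev 0 32) l) v x).im < 0 := by
      intro v x
      rw [WV_im]
      have := hprof l x
      have := hwt0 x
      linarith
    refine Ex_le (fun v => Finset.sum_nonneg fun k _ => En_nonneg' (him v) _) fun v => ?_
    have h3 : ∀ k : Fin 4, En (AT N) (WV E (D.prof (D.ev 0 32) l) v) (phi N k) ≤
        FB N (D.badS l) := by
      intro k
      refine En_le_FB (him v) _ (fun x hx => ?_) (phi_lip k)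
      rw [WV_im, neg_neg]
      rw [Chain.mem_badS, not_not] at hx
      have h4 := hprof l x
      have h5 : D.wt 0 l x = 1 := by
        simp only [Chain.wt]
        rw [if_pos hx]
      rw [h5] at h4
      linarith
    calc ∑ k : Fin 4, En (AT N) (WV E (D.prof (D.ev 0 32) l) v) (phi N k)
        ≤ ∑ k : Fin 4, FB N (D.badS l) := Finset.sum_le_sum fun k _ => h3 k
      _ = 4 * FB N (D.badS l) := by simp
  calc ∑ l : Tor N → Lab D.K, D.pr l * Ex (fun x => D.ν (l x)) E (D.prof (D.ev 0 32) l)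
        (fun W => ∑ k : Fin 4, En (AT N) W (phi N k))
      ≤ ∑ l : Tor N → Lab D.K, D.pr l * (4 * FB N (D.badS l)) :=
        Finset.sum_le_sum fun l _ => mul_le_mul_of_nonneg_left (hEx l)
          (Finset.prod_nonneg fun x _ => hp _)
    _ = 4 * ∑ l : Tor N → Lab D.K, D.pr l * FB N (D.badS l) := by
        rw [Finset.mul_sum]
        exact Finset.sum_congr rfl fun l _ => by ring
    _ ≤ 4 * (22 * Fintype.card (Tor N)) := mul_le_mul_of_nonneg_left h1 (by norm_num)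
    _ = 88 * Fintype.card (Tor N) := by ring

end P365T1
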