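import Vale.Agent.P365.T1.MDet

/-!
# Dissipative matrices: determinants and cofactors with sites removed (P365 T1, chapters C, D)

`Diss B` : `Im ⟨v, B v⟩ ≤ 0`.  `Coer M c` : `Im ⟨v, M v⟩ ≤ - ∑ c i |v i|²`.
For `M = Mz B z = diagonal z + B`, `Diss B`:
* `det_del_ne_zero`, `stable_det_del`, `stable_adj_del`;
* `norm_adj_diag_le` : `|adj_xx N| ≤ |det N| / lam`, `N = del S M`, `x ∉ S`, `lam ≤ c x`;
* `norm_det_le_del` : `|det N| ≤ (2 m + h²/lam) |det (del {x} N)|` (`lam ≤ c` at the neighbours);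
* `norm_det_chain` : `|det (del S M)| ≤ (2 m + h²/lam)^|T| |det (del (T ∪ S) M)|`;
* `norm_det_Mz_chain` : the same for `Mz B z`, `Im z ≤ -lam` on `Q ⊇` the neighbours of `T`.
-/

set_option autoImplicit false
set_option linter.unusedSectionVars false
set_option linter.unusedVariables false
set_option linter.dupNamespace false
set_option linter.style.header false
set_option linter.unusedSimpArgs false

open MeasureTheory Finset Function Matrix
open scoped ENNReal NNReal BigOperators ComplexConjugate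

namespace P365T1.MAff

section Diss

variable {ι : Type*} [Fintype ι] [DecidableEq ι]

/-- dissipative matrix: `Im ⟨v, B v⟩ ≤ 0` -/
def Diss (B : Matrix ι ι ℂ) : Prop := ∀ v : ι → ℂ, (star v ⬝ᵥ (B *ᵥ v)).im ≤ 0

/-- `Im ⟨v, M v⟩ ≤ - ∑ c i |v i|²` -/
def Coer (M : Matrix ι ι ℂ) (c : ι → ℝ) : Prop :=
  ∀ v : ι → ℂ, (star v ⬝ᵥ (M *ᵥ v)).im ≤ -∑ i, c i * ‖v i‖ ^ 2

omit [DecidableEq ι] in
theorem Diss.add {B C : Matrix ι ι ℂ} (hB : Diss B) (hC : Diss C) : Diss (B + C) := by
  intro v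
  rw [add_mulVec, dotProduct_add, Complex.add_im]
  have h1 := hB v
  have h2 := hC v
  linarith

omit [DecidableEq ι] in
theorem Diss.zero : Diss (0 : Matrix ι ι ℂ) := by
  intro v
  simp [zero_mulVec]

omit [DecidableEq ι] in
/-- the quadratic form of a Hermitian matrix is real -/
theorem im_quad_of_isHermitian {B : Matrix ι ι ℂ} (hB : B.IsHermitian) (v : ι → ℂ) :
    (star v ⬝ᵥ (B *ᵥ v)).im = 0 := by
  have h : star (star v ⬝ᵥ (B *ᵥ v)) = star v ⬝ᵥ (B *ᵥ v) := by
    simp only [dotProduct, mulVec, star_sum, star_mul', Pi.star_apply, star_star, Finset.mul_sum]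
    rw [Finset.sum_comm]
    refine Finset.sum_congr rfl fun i _ => Finset.sum_congr rfl fun j _ => ?_
    rw [hB.apply]
    ring
  exact Complex.conj_eq_iff_im.1 h

omit [DecidableEq ι] in
theorem Diss.of_isHermitian {B : Matrix ι ι ℂ} (hB : B.IsHermitian) : Diss B := fun v =>
  (im_quad_of_isHermitian hB v).le

omit [DecidableEq ι] in
/-- a real symmetric matrix is dissipative -/
theorem Diss.of_real {A : Matrix ι ι ℝ} (hA : A.IsSymm) : Diss (A.map ((↑) : ℝ → ℂ)) := by
  refine Diss.of_isHermitian ?_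
  ext i j
  simp [conjTranspose_apply, hA.apply]

omit [DecidableEq ι] in
/-- minus a matrix with nonnegative imaginary quadratic form -/
theorem Diss.neg {B : Matrix ι ι ℂ} (hB : ∀ v : ι → ℂ, 0 ≤ (star v ⬝ᵥ (B *ᵥ v)).im) :
    Diss (-B) := by
  intro v
  rw [neg_mulVec, dotProduct_neg, Complex.neg_im]
  linarith [hB v]

theorem im_quad_diagonal (z v : ι → ℂ) :
    (star v ⬝ᵥ (Matrix.diagonal z *ᵥ v)).im = ∑ i, (z i).im * ‖v i‖ ^ 2 := by
  rw [dotProduct, Complex.im_sum]
  refine Finset.sum_congr rfl fun i _ => ?_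
  rw [mulVec_diagonal, Pi.star_apply, Complex.star_def]
  have h : conj (v i) * (z i * v i) = z i * ((‖v i‖ ^ 2 : ℝ) : ℂ) := by
    rw [← Complex.normSq_eq_norm_sq, Complex.normSq_eq_conj_mul_self]
    ring
  rw [h, Complex.im_mul_ofReal]

theorem Diss.diagonal {z : ι → ℂ} (hz : ∀ i, (z i).im ≤ 0) : Diss (Matrix.diagonal z) := by
  intro v
  rw [im_quad_diagonal]
  exact Finset.sum_nonpos fun i _ => mul_nonpos_of_nonpos_of_nonneg (hz i) (sq_nonneg _)

theorem coer_Mz {B : Matrix ι ι ℂ} (hB : Diss B) {z : ι → ℂ} {c : ι → ℝ}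
    (hz : ∀ i, (z i).im ≤ -c i) : Coer (Mz B z) c := by
  intro v
  rw [Mz, add_mulVec, dotProduct_add, Complex.add_im, im_quad_diagonal, ← Finset.sum_neg_distrib]
  have h1 := hB v
  have h2 : ∑ i, (z i).im * ‖v i‖ ^ 2 ≤ ∑ i, -(c i * ‖v i‖ ^ 2) :=
    Finset.sum_le_sum fun i _ => by
      have h3 := mul_le_mul_of_nonneg_right (hz i) (sq_nonneg ‖v i‖)
      linarith
  linarith

/-- entries of `del S M` acting on a vector vanishing on `S` -/
theorem del_mulVec_off {S : Finset ι} {M : Matrix ι ι ℂ} {v : ι → ℂ} (hv : ∀ i ∈ S, v i = 0)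
    {i : ι} (hi : i ∉ S) : (del S M *ᵥ v) i = (M *ᵥ v) i := by
  rw [mulVec, mulVec, dotProduct, dotProduct]
  refine Finset.sum_congr rfl fun j _ => ?_
  by_cases hj : j ∈ S
  · rw [hv j hj, mul_zero, mul_zero]
  · rw [del_apply_off hi hj]

theorem del_mulVec_on {S : Finset ι} {M : Matrix ι ι ℂ} (v : ι → ℂ) {i : ι} (hi : i ∈ S) :
    (del S M *ᵥ v) i = v i := by
  rw [mulVec, del_row hi, single_one_dotProduct]

theorem quad_del {S : Finset ι} {M : Matrix ι ι ℂ} {v : ι → ℂ} (hv : ∀ i ∈ S, v i = 0) :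
    star v ⬝ᵥ (del S M *ᵥ v) = star v ⬝ᵥ (M *ᵥ v) := by
  rw [dotProduct, dotProduct]
  refine Finset.sum_congr rfl fun i _ => ?_
  by_cases hi : i ∈ S
  · rw [Pi.star_apply, hv i hi, star_zero, zero_mul, zero_mul]
  · rw [del_mulVec_off hv hi]

/-- (a) -/
theorem det_del_ne_zero_of_coer {M : Matrix ι ι ℂ} {c : ι → ℝ} (hM : Coer M c)
    (hc : ∀ i, 0 < c i) (S : Finset ι) : (del S M).det ≠ 0 := by
  intro h0
  obtain ⟨v, hv0, hv⟩ := exists_mulVec_eq_zero_iff.2 h0
  have hS : ∀ i ∈ S, v i = 0 := fun i hi => by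
    rw [← del_mulVec_on (M := M) v hi, hv, Pi.zero_apply]
  have h1 := hM v
  rw [← quad_del hS, hv, dotProduct_zero, Complex.zero_im] at h1
  have h2 : ∑ i, c i * ‖v i‖ ^ 2 ≤ 0 := by linarith
  have h3 : ∀ i ∈ (Finset.univ : Finset ι), 0 ≤ c i * ‖v i‖ ^ 2 := fun i _ =>
    mul_nonneg (hc i).le (sq_nonneg _)
  have h4 := (Finset.sum_eq_zero_iff_of_nonneg h3).1 (le_antisymm h2 (Finset.sum_nonneg h3))
  apply hv0
  funext i
  have h5 := h4 i (Finset.mem_univ i)
  have h6 : ‖v i‖ ^ 2 = 0 := (mul_eq_zero.1 h5).resolve_left (hc i).ne'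
  simpa using h6

theorem det_del_ne_zero {B : Matrix ι ι ℂ} (hB : Diss B) {z : ι → ℂ} (hz : ∀ i, (z i).im < 0)
    (S : Finset ι) : (del S (Mz B z)).det ≠ 0 :=
  det_del_ne_zero_of_coer (coer_Mz hB (c := fun i => -(z i).im) fun i => by simp)
    (fun i => neg_pos.2 (hz i)) S

theorem det_ne_zero_of_diss {B : Matrix ι ι ℂ} (hB : Diss B) {z : ι → ℂ} (hz : ∀ i, (z i).im < 0) :
    (Mz B z).det ≠ 0 := by
  have h := det_del_ne_zero hB hz ∅
  rwa [del_empty] at h

/-- (a) stability of all the determinants with sites removed -/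
theorem stable_det_del {B : Matrix ι ι ℂ} (hB : Diss B) (S : Finset ι) :
    Stable fun z => (del S (Mz B z)).det := fun _ hz => det_del_ne_zero hB hz S

theorem stable_det_diss {B : Matrix ι ι ℂ} (hB : Diss B) : Stable fun z => (Mz B z).det :=
  fun _ hz => det_ne_zero_of_diss hB hz

theorem stable_adj_del {B : Matrix ι ι ℂ} (hB : Diss B) (S : Finset ι) (x : ι) :
    Stable fun z => (del S (Mz B z)).adjugate x x := by
  intro z hz
  show (del S (Mz B z)).adjugate x x ≠ 0
  rw [← det_del_singleton, ← del_insert]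
  exact det_del_ne_zero hB hz _

theorem stable_adj {B : Matrix ι ι ℂ} (hB : Diss B) (x : ι) :
    Stable fun z => (Mz B z).adjugate x x := by
  intro z hz
  show (Mz B z).adjugate x x ≠ 0
  rw [← det_del_singleton]
  exact det_del_ne_zero hB hz _

/-! ### multi-affinity and continuity with sites removed -/

theorem maff_det_del (B : Matrix ι ι ℂ) (S : Finset ι) :
    MAff fun z => (del S (Mz B z)).det := by
  have h := maff_det_rows
    (fun i j => if i ∈ S ∨ j ∈ S then (if i = j then (1 : ℂ) else 0) else B i j)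
    fun i j => if i ∈ S then (0 : ℂ) else if i = j then (1 : ℂ) else 0
  have h2 : (fun z : ι → ℂ => (del S (Mz B z)).det) = fun z => (Matrix.of fun i j =>
      (if i ∈ S ∨ j ∈ S then (if i = j then (1 : ℂ) else 0) else B i j) +
        z i * (if i ∈ S then (0 : ℂ) else if i = j then (1 : ℂ) else 0)).det := by
    ext z
    congr 1
    ext i j
    by_cases hi : i ∈ S
    · simp [del, hi]
    · by_cases hj : j ∈ S
      · have hij : i ≠ j := fun h => hi (h ▸ hj)
        simp [del, hi, hj, hij]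
      · by_cases hij : i = j
        · subst hij; simp [del, hi, Mz, add_comm]
        · simp [del, hi, hj, Mz, hij]
  rw [h2]
  exact h

theorem maff_adj_del (B : Matrix ι ι ℂ) (S : Finset ι) (x y : ι) :
    MAff fun z => (del S (Mz B z)).adjugate x y := by
  have h := maff_det_rows
    (fun i j => if i = y then (Pi.single x 1 : ι → ℂ) j else
      if i ∈ S ∨ j ∈ S then (if i = j then (1 : ℂ) else 0) else B i j)
    fun i j => if i = y ∨ i ∈ S then (0 : ℂ) else if i = j then (1 : ℂ) else 0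
  have h2 : (fun z : ι → ℂ => (del S (Mz B z)).adjugate x y) = fun z => (Matrix.of fun i j =>
      (if i = y then (Pi.single x 1 : ι → ℂ) j else
        if i ∈ S ∨ j ∈ S then (if i = j then (1 : ℂ) else 0) else B i j) +
        z i * (if i = y ∨ i ∈ S then (0 : ℂ) else if i = j then (1 : ℂ) else 0)).det := by
    ext z
    rw [adjugate_apply]
    congr 1
    ext i j
    by_cases hy : i = y
    · subst hy; simp
    · rw [updateRow_ne hy]
      by_cases hi : i ∈ S
      · simp [del, hi, hy]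
      · by_cases hj : j ∈ S
        · have hij : i ≠ j := fun h => hi (h ▸ hj)
          simp [del, hi, hj, hij, hy]
        · by_cases hij : i = j
          · subst hij; simp [del, hi, Mz, add_comm, hy]
          · simp [del, hi, hj, Mz, hij, hy]
  rw [h2]
  exact h

theorem continuous_del (B : Matrix ι ι ℂ) (S : Finset ι) :
    Continuous fun z : ι → ℂ => del S (Mz B z) := by
  refine continuous_matrix fun i j => ?_
  by_cases h : i ∈ S ∨ j ∈ S
  · simp only [del, Matrix.of_apply, h, if_true]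
    exact continuous_const
  · simp only [del, Matrix.of_apply, h, if_false]
    exact (continuous_Mz B).matrix_elem i j

theorem continuous_det_del (B : Matrix ι ι ℂ) (S : Finset ι) :
    Continuous fun z : ι → ℂ => (del S (Mz B z)).det := (continuous_del B S).matrix_det

theorem continuous_adj_del (B : Matrix ι ι ℂ) (S : Finset ι) (x y : ι) :
    Continuous fun z : ι → ℂ => (del S (Mz B z)).adjugate x y :=
  ((continuous_del B S).matrix_adjugate).matrix_elem x y

/-! ### quantitative bounds -/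

/-- the column `x` of `adj (del S M)`, `x ∉ S` -/
theorem adj_col_on {S : Finset ι} {M : Matrix ι ι ℂ} {x : ι} (hx : x ∉ S) {i : ι} (hi : i ∈ S) :
    (del S M).adjugate i x = 0 := by
  have h1 : (del S M * (del S M).adjugate) i x = (del S M).adjugate i x := by
    rw [mul_apply]
    have h2 : del S M i = Pi.single i 1 := del_row hi
    calc ∑ j, del S M i j * (del S M).adjugate j x
        = ∑ j, (Pi.single i 1 : ι → ℂ) j * (del S M).adjugate j x := by rw [h2]
      _ = (del S M).adjugate i x := by simp [Pi.single_apply]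
  rw [← h1, mul_adjugate, Matrix.smul_apply, one_apply_ne, smul_zero]
  rintro rfl
  exact hx hi

/-- the energy identity for the column `x` of the adjugate -/
theorem quad_adj_col {S : Finset ι} {M : Matrix ι ι ℂ} {x : ι} (hx : x ∉ S) :
    star (fun i => (del S M).adjugate i x) ⬝ᵥ (M *ᵥ fun i => (del S M).adjugate i x) =
      star ((del S M).adjugate x x) * (del S M).det := by
  rw [← quad_del fun i hi => adj_col_on hx hi]
  have h1 : (del S M *ᵥ fun i => (del S M).adjugate i x) = (del S M).det • Pi.single x 1 := by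
    funext i
    have h2 : (del S M *ᵥ fun i => (del S M).adjugate i x) i =
        (del S M * (del S M).adjugate) i x := by
      rw [mul_apply]
      rfl
    rw [h2, mul_adjugate, Matrix.smul_apply, Pi.smul_apply, one_apply, Pi.single_apply]
  rw [h1, dotProduct_smul, dotProduct_single, Pi.star_apply]
  simp only [smul_eq_mul, mul_one]
  ring

theorem sum_adj_col_le {M : Matrix ι ι ℂ} {c : ι → ℝ} (hM : Coer M c)
    {S : Finset ι} {x : ι} (hx : x ∉ S) :
    ∑ i, c i * ‖(del S M).adjugate i x‖ ^ 2 ≤ ‖(del S M).adjugate x x‖ * ‖(del S M).det‖ := by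
  have h1 := hM fun i => (del S M).adjugate i x
  rw [quad_adj_col hx] at h1
  have h2 : -(star ((del S M).adjugate x x) * (del S M).det).im ≤
      ‖(del S M).adjugate x x‖ * ‖(del S M).det‖ := by
    refine (neg_le_abs _).trans ((Complex.abs_im_le_norm _).trans ?_)
    rw [norm_mul, norm_star]
  linarith

theorem adj_entry_le {M : Matrix ι ι ℂ} {c : ι → ℝ} (hM : Coer M c) (hc : ∀ i, 0 ≤ c i)
    {S : Finset ι} {x : ι} (hx : x ∉ S) (j : ι) :
    c j * ‖(del S M).adjugate j x‖ ^ 2 ≤ ‖(del S M).adjugate x x‖ * ‖(del S M).det‖ :=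
  (Finset.single_le_sum (f := fun i => c i * ‖(del S M).adjugate i x‖ ^ 2)
    (fun i _ => mul_nonneg (hc i) (sq_nonneg _)) (Finset.mem_univ j)).trans (sum_adj_col_le hM hx)

/-- (b) -/
theorem norm_adj_diag_le {M : Matrix ι ι ℂ} {c : ι → ℝ} (hM : Coer M c) (hc : ∀ i, 0 ≤ c i)
    {S : Finset ι} {x : ι} (hx : x ∉ S) {lam : ℝ} (hlam : 0 < lam) (hl : lam ≤ c x) :
    ‖(del S M).adjugate x x‖ ≤ ‖(del S M).det‖ / lam := by
  have h1 := adj_entry_le hM hc hx x
  rw [le_div_iff₀ hlam]
  rcases (norm_nonneg ((del S M).adjugate x x)).eq_or_lt with h3 | h3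
  · rw [← h3, zero_mul]
    exact norm_nonneg _
  · have h4 : lam * ‖(del S M).adjugate x x‖ ^ 2 ≤
        ‖(del S M).adjugate x x‖ * ‖(del S M).det‖ :=
      (mul_le_mul_of_nonneg_right hl (sq_nonneg _)).trans h1
    have h5 : ‖(del S M).adjugate x x‖ * (‖(del S M).adjugate x x‖ * lam) ≤
        ‖(del S M).adjugate x x‖ * ‖(del S M).det‖ := by nlinarith
    exact le_of_mul_le_mul_left h5 h3

/-- all the entries of the column `x` -/
theorem norm_adj_le {M : Matrix ι ι ℂ} {c : ι → ℝ} (hM : Coer M c) (hc : ∀ i, 0 ≤ c i)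
    {S : Finset ι} {x : ι} (hx : x ∉ S) {lam : ℝ} (hlam : 0 < lam) (hl : lam ≤ c x)
    {i : ι} (hi : lam ≤ c i) :
    ‖(del S M).adjugate i x‖ ≤ ‖(del S M).det‖ / lam := by
  have h1 := adj_entry_le hM hc hx i
  have h3 := norm_adj_diag_le hM hc hx hlam hl
  rw [le_div_iff₀ hlam] at h3
  have hn := norm_nonneg (del S M).det
  have h4 : (lam * ‖(del S M).adjugate i x‖) ^ 2 ≤ ‖(del S M).det‖ ^ 2 := by
    calc (lam * ‖(del S M).adjugate i x‖) ^ 2
        = lam * (lam * ‖(del S M).adjugate i x‖ ^ 2) := by ring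
      _ ≤ lam * (‖(del S M).adjugate x x‖ * ‖(del S M).det‖) := by
          refine mul_le_mul_of_nonneg_left ?_ hlam.le
          exact (mul_le_mul_of_nonneg_right hi (sq_nonneg _)).trans h1
      _ = (‖(del S M).adjugate x x‖ * lam) * ‖(del S M).det‖ := by ring
      _ ≤ ‖(del S M).det‖ * ‖(del S M).det‖ := mul_le_mul_of_nonneg_right h3 hn
      _ = ‖(del S M).det‖ ^ 2 := by ring
  have h5 := (pow_le_pow_iff_left₀ (by positivity) hn (by norm_num)).1 h4
  rw [le_div_iff₀ hlam]
  linarith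

/-- (c) removing one site `x` with a bounded row costs a bounded factor, provided the
neighbours of `x` are coercive -/
theorem norm_det_le_del {M : Matrix ι ι ℂ} {c : ι → ℝ} (hM : Coer M c) (hc : ∀ i, 0 ≤ c i)
    {lam m h : ℝ} (hlam : 0 < lam) {S : Finset ι} {x : ι} (hx : x ∉ S)
    (hnb : ∀ j, j ≠ x → M x j ≠ 0 → lam ≤ c j) (hm : ‖M x x‖ ≤ m)
    (hh : ∑ j ∈ Finset.univ.erase x, ‖M x j‖ ≤ h) :
    ‖(del S M).det‖ ≤ (2 * m + h ^ 2 / lam) * ‖(del (insert x S) M).det‖ := by
  have e1 : (del (insert x S) M).det = (del S M).adjugate x x := by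
    rw [del_insert, det_del_singleton]
  rw [e1]
  set a := ‖(del S M).adjugate x x‖ with ha
  set D := ‖(del S M).det‖ with hD
  have ha0 : 0 ≤ a := norm_nonneg _
  have hD0 : 0 ≤ D := norm_nonneg _
  have hh0 : 0 ≤ h := (Finset.sum_nonneg fun j _ => norm_nonneg _).trans hh
  set s := Real.sqrt (a * D / lam) with hsdef
  have hs0 : 0 ≤ s := Real.sqrt_nonneg _
  -- the entries of the column at the neighbours
  have h2 : ∀ j, j ≠ x → ‖M x j‖ * ‖(del S M).adjugate j x‖ ≤ ‖M x j‖ * s := by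
    intro j hjx
    by_cases hj : M x j = 0
    · rw [hj, norm_zero, zero_mul, zero_mul]
    · refine mul_le_mul_of_nonneg_left (Real.le_sqrt_of_sq_le ?_) (norm_nonneg _)
      rw [le_div_iff₀ hlam]
      have h3 := (mul_le_mul_of_nonneg_right (hnb j hjx hj)
        (sq_nonneg ‖(del S M).adjugate j x‖)).trans (adj_entry_le hM hc hx j)
      linarith
  -- the row `x`
  have h3 : (del S M).det = ∑ j, del S M x j * (del S M).adjugate j x := by
    have h4 : (del S M * (del S M).adjugate) x x = (del S M).det := by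
      rw [mul_adjugate, Matrix.smul_apply, one_apply_eq, smul_eq_mul, mul_one]
    rw [← h4, mul_apply]
  have h4 : ∀ j, ‖del S M x j‖ ≤ ‖M x j‖ := by
    intro j
    by_cases hj : j ∈ S
    · have hxj : x ≠ j := fun e => hx (e ▸ hj)
      simp [del, hj, hxj]
    · rw [del_apply_off hx hj]
  have h5 : D ≤ m * a + h * s := by
    calc D = ‖del S M x x * (del S M).adjugate x x +
          ∑ j ∈ Finset.univ.erase x, del S M x j * (del S M).adjugate j x‖ := by
          rw [hD, h3, Finset.add_sum_erase _ (fun j => del S M x j * (del S M).adjugate j x)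
            (Finset.mem_univ x)]
      _ ≤ ‖del S M x x * (del S M).adjugate x x‖ +
          ‖∑ j ∈ Finset.univ.erase x, del S M x j * (del S M).adjugate j x‖ := norm_add_le _ _
      _ ≤ m * a + h * s := by
          refine add_le_add ?_ ?_
          · rw [norm_mul]
            exact mul_le_mul_of_nonneg_right ((h4 x).trans hm) ha0
          · refine (norm_sum_le _ _).trans ?_
            calc ∑ j ∈ Finset.univ.erase x, ‖del S M x j * (del S M).adjugate j x‖
                ≤ ∑ j ∈ Finset.univ.erase x, ‖M x j‖ * s := by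
                  refine Finset.sum_le_sum fun j hj => ?_
                  rw [norm_mul]
                  exact (mul_le_mul_of_nonneg_right (h4 j) (norm_nonneg _)).trans
                    (h2 j (Finset.ne_of_mem_erase hj))
              _ = (∑ j ∈ Finset.univ.erase x, ‖M x j‖) * s := by rw [Finset.sum_mul]
              _ ≤ h * s := mul_le_mul_of_nonneg_right hh hs0
  have h6 : h * s ≤ D / 2 + h ^ 2 / lam * a / 2 := by
    have hs := Real.sq_sqrt (show 0 ≤ a * D / lam by positivity)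
    rw [← hsdef] at hs
    have hx1 : 0 ≤ h ^ 2 / lam * a := by positivity
    have h7 : (h * s) ^ 2 = (h ^ 2 / lam * a) * D := by
      rw [mul_pow, hs]
      ring
    have h8 : (h * s) ^ 2 ≤ (D / 2 + h ^ 2 / lam * a / 2) ^ 2 := by
      rw [h7]
      nlinarith [sq_nonneg (D - h ^ 2 / lam * a)]
    exact (pow_le_pow_iff_left₀ (by positivity) (by positivity) (by norm_num)).1 h8
  nlinarith

/-- (d) removing the sites of `T` one after the other -/
theorem norm_det_chain {M : Matrix ι ι ℂ} {c : ι → ℝ} (hM : Coer M c) (hc : ∀ i, 0 ≤ c i)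
    {lam m h : ℝ} (hlam : 0 < lam) {S T : Finset ι} (hST : Disjoint S T)
    (hnb : ∀ x ∈ T, ∀ j, j ≠ x → M x j ≠ 0 → lam ≤ c j)
    (hm : ∀ x ∈ T, ‖M x x‖ ≤ m) (hh : ∀ x ∈ T, ∑ j ∈ Finset.univ.erase x, ‖M x j‖ ≤ h) :
    ‖(del S M).det‖ ≤ (2 * m + h ^ 2 / lam) ^ T.card * ‖(del (T ∪ S) M).det‖ := by
  induction T using Finset.induction_on with
  | empty => simp
  | insert x T hx ih =>
    have h1 := ih (hST.mono_right (Finset.subset_insert x T))
      (fun y hy => hnb y (Finset.mem_insert_of_mem hy))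
      (fun y hy => hm y (Finset.mem_insert_of_mem hy))
      fun y hy => hh y (Finset.mem_insert_of_mem hy)
    have hxS : x ∉ T ∪ S := by
      rw [Finset.mem_union, not_or]
      exact ⟨hx, fun h => Finset.disjoint_left.1 hST h (Finset.mem_insert_self x T)⟩
    have h2 := norm_det_le_del hM hc hlam hxS (hnb x (Finset.mem_insert_self x T))
      (hm x (Finset.mem_insert_self x T)) (hh x (Finset.mem_insert_self x T))
    have hm0 : 0 ≤ m := (norm_nonneg _).trans (hm x (Finset.mem_insert_self x T))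
    have hC : 0 ≤ 2 * m + h ^ 2 / lam := by positivity
    rw [Finset.card_insert_of_notMem hx, Finset.insert_union, pow_succ]
    calc ‖(del S M).det‖ ≤ (2 * m + h ^ 2 / lam) ^ T.card * ‖(del (T ∪ S) M).det‖ := h1
      _ ≤ (2 * m + h ^ 2 / lam) ^ T.card *
          ((2 * m + h ^ 2 / lam) * ‖(del (insert x (T ∪ S)) M).det‖) :=
        mul_le_mul_of_nonneg_left h2 (pow_nonneg hC _)
      _ = _ := by ring

theorem norm_det_chain' {M : Matrix ι ι ℂ} {c : ι → ℝ} (hM : Coer M c) (hc : ∀ i, 0 ≤ c i)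
    {lam m h : ℝ} (hlam : 0 < lam) {T : Finset ι}
    (hnb : ∀ x ∈ T, ∀ j, j ≠ x → M x j ≠ 0 → lam ≤ c j)
    (hm : ∀ x ∈ T, ‖M x x‖ ≤ m) (hh : ∀ x ∈ T, ∑ j ∈ Finset.univ.erase x, ‖M x j‖ ≤ h) :
    ‖M.det‖ ≤ (2 * m + h ^ 2 / lam) ^ T.card * ‖(del T M).det‖ := by
  have h1 := norm_det_chain hM hc hlam (S := ∅) (T := T) (Finset.disjoint_empty_left T) hnb hm hh
  rwa [del_empty, Finset.union_empty] at h1

/-- the reverse inequality: `|det (del (T ∪ S) M)| ≤ lam^{-|T|} |det (del S M)|` -/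
theorem norm_det_del_le {M : Matrix ι ι ℂ} {c : ι → ℝ} (hM : Coer M c) (hc : ∀ i, 0 ≤ c i)
    {lam : ℝ} (hlam : 0 < lam) {S T : Finset ι} (hST : Disjoint S T) (hT : ∀ x ∈ T, lam ≤ c x) :
    ‖(del (T ∪ S) M).det‖ ≤ ‖(del S M).det‖ / lam ^ T.card := by
  induction T using Finset.induction_on with
  | empty => simp
  | insert x T hx ih =>
    have h1 := ih (hST.mono_right (Finset.subset_insert x T))
      fun y hy => hT y (Finset.mem_insert_of_mem hy)
    have hxS : x ∉ T ∪ S := by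
      rw [Finset.mem_union, not_or]
      exact ⟨hx, fun h => Finset.disjoint_left.1 hST h (Finset.mem_insert_self x T)⟩
    have h2 := norm_adj_diag_le hM hc hxS hlam (hT x (Finset.mem_insert_self x T))
    rw [Finset.card_insert_of_notMem hx, Finset.insert_union, del_insert, det_del_singleton]
    refine h2.trans ?_
    rw [pow_succ, ← div_div]
    exact div_le_div_of_nonneg_right h1 hlam.le

theorem norm_det_del_le' {M : Matrix ι ι ℂ} {c : ι → ℝ} (hM : Coer M c) (hc : ∀ i, 0 ≤ c i)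
    {lam : ℝ} (hlam : 0 < lam) {T : Finset ι} (hT : ∀ x ∈ T, lam ≤ c x) :
    ‖(del T M).det‖ ≤ ‖M.det‖ / lam ^ T.card := by
  have h1 := norm_det_del_le hM hc hlam (S := ∅) (T := T) (Finset.disjoint_empty_left T) hT
  rwa [del_empty, Finset.union_empty] at h1

/-! ### the same for `Mz B z` -/

/-- chain (d) for `Mz B z`: `Im z ≤ 0` everywhere, `Im z ≤ -lam` on `Q`, the rows of the sites of
`T` are supported in `Q` (off the diagonal) -/
theorem norm_det_Mz_chain {B : Matrix ι ι ℂ} (hB : Diss B) {z : ι → ℂ} (hz : ∀ i, (z i).im ≤ 0)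
    {lam m h : ℝ} (hlam : 0 < lam) {Q : Finset ι} (hQ : ∀ i ∈ Q, (z i).im ≤ -lam)
    {S T : Finset ι} (hST : Disjoint S T) (hnb : ∀ x ∈ T, ∀ j, j ≠ x → B x j ≠ 0 → j ∈ Q)
    (hm : ∀ x ∈ T, ‖z x + B x x‖ ≤ m) (hh : ∀ x ∈ T, ∑ j ∈ Finset.univ.erase x, ‖B x j‖ ≤ h) :
    ‖(del S (Mz B z)).det‖ ≤
      (2 * m + h ^ 2 / lam) ^ T.card * ‖(del (T ∪ S) (Mz B z)).det‖ := by
  have hoff : ∀ x j, j ≠ x → Mz B z x j = B x j := fun x j hj => by
    simp [Mz, Matrix.diagonal_apply_ne' z hj]
  refine norm_det_chain (coer_Mz hB (c := fun i => -(z i).im) fun i => by simp)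
    (fun i => neg_nonneg.2 (hz i)) hlam hST (fun x hx j hj h0 => ?_) (fun x hx => ?_) fun x hx => ?_
  · rw [hoff x j hj] at h0
    have := hQ j (hnb x hx j hj h0)
    show lam ≤ -(z j).im
    linarith
  · have : Mz B z x x = z x + B x x := by simp [Mz]
    rw [this]
    exact hm x hx
  · refine le_trans (le_of_eq ?_) (hh x hx)
    exact Finset.sum_congr rfl fun j hj => by rw [hoff x j (Finset.ne_of_mem_erase hj)]

theorem norm_det_Mz_chain' {B : Matrix ι ι ℂ} (hB : Diss B) {z : ι → ℂ} (hz : ∀ i, (z i).im ≤ 0)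
    {lam m h : ℝ} (hlam : 0 < lam) {Q : Finset ι} (hQ : ∀ i ∈ Q, (z i).im ≤ -lam)
    {T : Finset ι} (hnb : ∀ x ∈ T, ∀ j, j ≠ x → B x j ≠ 0 → j ∈ Q)
    (hm : ∀ x ∈ T, ‖z x + B x x‖ ≤ m) (hh : ∀ x ∈ T, ∑ j ∈ Finset.univ.erase x, ‖B x j‖ ≤ h) :
    ‖(Mz B z).det‖ ≤ (2 * m + h ^ 2 / lam) ^ T.card * ‖(del T (Mz B z)).det‖ := by
  have h1 := norm_det_Mz_chain hB hz hlam hQ (S := ∅) (T := T) (Finset.disjoint_empty_left T)
    hnb hm hh
  rwa [del_empty, Finset.union_empty] at h1

/-- the reverse inequality for `Mz B z` -/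
theorem norm_det_Mz_del_le {B : Matrix ι ι ℂ} (hB : Diss B) {z : ι → ℂ} (hz : ∀ i, (z i).im ≤ 0)
    {lam : ℝ} (hlam : 0 < lam) {S T : Finset ι} (hST : Disjoint S T)
    (hT : ∀ i ∈ T, (z i).im ≤ -lam) :
    ‖(del (T ∪ S) (Mz B z)).det‖ ≤ ‖(del S (Mz B z)).det‖ / lam ^ T.card :=
  norm_det_del_le (coer_Mz hB (c := fun i => -(z i).im) fun i => by simp)
    (fun i => neg_nonneg.2 (hz i)) hlam hST fun x hx => by
      have := hT x hx
      show lam ≤ -(z x).im
      linarith

/-- `del T (Mz B z)` does not see the variables in `T` -/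
theorem del_Mz_congr (B : Matrix ι ι ℂ) {S : Finset ι} {z z' : ι → ℂ}
    (h : ∀ i, i ∉ S → z i = z' i) : del S (Mz B z) = del S (Mz B z') := by
  ext i j
  by_cases hij : i ∈ S ∨ j ∈ S
  · simp [del, hij]
  · rw [not_or] at hij
    rw [del_apply_off hij.1 hij.2, del_apply_off hij.1 hij.2]
    by_cases e : i = j
    · subst e
      simp [Mz, h i hij.1]
    · simp [Mz, Matrix.diagonal_apply_ne _ e]

end Diss

end P365T1.MAff
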