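import Vale.Agent.P365.T1.WCHg

/-!
# Bookkeeping of the exceptional one-variable events of the crude Harnack inequality (P365 T1, D)

`Jl e B Q z0 L x ε l` : the `l`-th exceptional event of `wch_pointwise` / `wch_graded`.
* it does not depend on `V_x` (`mem_Jl_update_x`), it is empty for `l = x`, `ε ≤ 1` (`Jl_self`);
* its section `Jsec` in `V_l`, inside `[-L, L]`, is measurable, has volume `≤ 8 L ε`, and does not
  depend on `V_x`, `V_l`.
`Jfull` : the same event for full configurations `V : ι → ℝ`, the exterior variables being a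
function `z0 V` of `V` off `Q`.
-/

set_option autoImplicit false
set_option linter.unusedSectionVars false
set_option linter.unusedVariables false
set_option linter.dupNamespace false
set_option linter.style.header false
set_option linter.unusedSimpArgs false

open MeasureTheory Finset Function Matrix
open scoped ENNReal NNReal BigOperators

namespace P365T1.MAff

variable {ι : Type*} [Fintype ι] [DecidableEq ι]

/-- the reference point `-iL` -/
noncomputable def zI (Q : Finset ι) (L : ℝ) : Q → ℂ := fun _ => -(L : ℂ) * Complex.I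

theorem zI_eq (Q : Finset ι) (L : ℝ) : (fun _ : Q => -(L : ℂ) * Complex.I) = zI Q L := rfl

theorem norm_zI {Q : Finset ι} {L : ℝ} (hL : 0 ≤ L) (i : Q) : ‖zI Q L i‖ ≤ L := by
  simp [zI, abs_of_nonneg hL]

theorem detx_update_self (B : Matrix ι ι ℂ) (Q : Finset ι) (z0 : ι → ℂ) (L : ℝ) (x : Q)
    (y : Q → ℂ) (w : ℂ) : detx B Q z0 L x (update y x w) = detx B Q z0 L x y := by
  unfold detx
  rw [update_idem]

theorem detx_congr (B : Matrix ι ι ℂ) (Q : Finset ι) {z0 z0' : ι → ℂ} (L : ℝ) (x : Q)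
    {y y' : Q → ℂ} (h0 : ∀ i ∉ Q, z0 i = z0' i) (h : ∀ i, i ≠ x → y i = y' i) :
    detx B Q z0 L x y = detx B Q z0' L x y' := by
  have h1 : update y x (-(L : ℂ) * Complex.I) = update y' x (-(L : ℂ) * Complex.I) := by
    ext i
    by_cases hi : i = x
    · subst hi; simp
    · rw [update_of_ne hi, update_of_ne hi, h i hi]
  have h2 : ∀ u : Q → ℂ, fil Q z0 u = fil Q z0' u := by
    intro u
    ext i
    by_cases hi : i ∈ Q
    · simp [fil, hi]
    · simp [fil, hi, h0 i hi]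
  unfold detx
  rw [h1, h2]

/-- the `l`-th exceptional event of `wch_graded` -/
def Jl {Q : Finset ι} (e : Q ≃ Fin Q.card) (B : Matrix ι ι ℂ) (z0 : ι → ℂ) (L : ℝ) (x : Q)
    (ε : ℝ) (l : Q) : Set (Q → ℝ) :=
  Jset e (detx B Q z0 L x) (fun _ => -(L : ℂ) * Complex.I) ε (e l : ℕ)

variable {Q : Finset ι} (e : Q ≃ Fin Q.card) (B : Matrix ι ι ℂ) (z0 : ι → ℂ) (L : ℝ) (x : Q)

/-- the event does not see `V_x`, nor the values of `z0` in `Q` -/
theorem mem_Jl_congr {z0 z0' : ι → ℂ} (h0 : ∀ i ∉ Q, z0 i = z0' i) {V V' : Q → ℝ} (ε : ℝ) (l : Q)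
    (h : ∀ i, i ≠ x → V i = V' i) : V ∈ Jl e B z0 L x ε l ↔ V' ∈ Jl e B z0' L x ε l := by
  have key : ∀ k, detx B Q z0 L x (hyb e k (cx V) fun _ => -(L : ℂ) * Complex.I) =
      detx B Q z0' L x (hyb e k (cx V') fun _ => -(L : ℂ) * Complex.I) := by
    intro k
    refine detx_congr B Q L x h0 fun i hi => ?_
    simp only [hyb, cx, h i hi]
  simp only [Jl, Jset, Set.mem_ofPred_eq, key]

theorem mem_Jl_update_x (V : Q → ℝ) (ε : ℝ) (l : Q) (t : ℝ) :
    update V x t ∈ Jl e B z0 L x ε l ↔ V ∈ Jl e B z0 L x ε l :=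
  mem_Jl_congr e B L x (fun _ _ => rfl) ε l fun i hi => by rw [update_of_ne hi]

/-- the event depends on the coordinates of index `≥ e l` only -/
theorem mem_Jl_congr_index {V V' : Q → ℝ} (ε : ℝ) (l : Q)
    (h : ∀ i, (e l : ℕ) ≤ (e i : ℕ) → V i = V' i) :
    V ∈ Jl e B z0 L x ε l ↔ V' ∈ Jl e B z0 L x ε l :=
  mem_Jset_congr e _ ε _ h

theorem Jl_self {ε : ℝ} (hε : ε ≤ 1) : Jl e B z0 L x ε x = ∅ := by
  ext V
  simp only [Jl, Jset, Set.mem_ofPred_eq, Set.mem_empty_iff_false, iff_false, not_lt]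
  have h1 : hyb e ((e x : ℕ) + 1) (cx V) (fun _ => -(L : ℂ) * Complex.I) =
      update (hyb e (e x : ℕ) (cx V) (fun _ => -(L : ℂ) * Complex.I)) x
        (-(L : ℂ) * Complex.I) := by
    rw [hyb_succ e (e x : ℕ) (e x).isLt]
    have h2 : e.symm ⟨(e x : ℕ), (e x).isLt⟩ = x := by simp
    rw [h2]
  rw [h1, detx_update_self]
  have h3 := norm_nonneg (detx B Q z0 L x (hyb e (e x : ℕ) (cx V) fun _ => -(L : ℂ) * Complex.I))
  nlinarith

theorem measurableSet_Jl (ε : ℝ) (l : Q) : MeasurableSet (Jl e B z0 L x ε l) :=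
  measurableSet_Jset e (continuous_detx B Q z0 L x).measurable _ ε _

/-- section of the `l`-th event in the variable `V_l`, inside `[-L, L]` -/
def Jsec (ε : ℝ) (l : Q) (V : Q → ℝ) : Set ℝ :=
  {t : ℝ | |t| ≤ L ∧ update V l t ∈ Jl e B z0 L x ε l}

theorem Jsec_subset (ε : ℝ) (l : Q) (V : Q → ℝ) : Jsec e B z0 L x ε l V ⊆ Set.Icc (-L) L :=
  fun _ ht => abs_le.1 ht.1

theorem measurableSet_Jsec (ε : ℝ) (l : Q) (V : Q → ℝ) :
    MeasurableSet (Jsec e B z0 L x ε l V) := by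
  have h1 : MeasurableSet {t : ℝ | |t| ≤ L} := measurableSet_le measurable_norm measurable_const
  have h2 : Measurable fun t : ℝ => update V l t := measurable_update V
  exact h1.inter (h2 (measurableSet_Jl e B z0 L x ε l))

theorem Jsec_subset_interval {L : ℝ} (hL : 0 ≤ L) {ε : ℝ} (h0 : 0 ≤ ε) (h1 : ε ≤ 1 / 2) (l : Q)
    (V : Q → ℝ) : ∃ r : ℝ, Jsec e B z0 L x ε l V ⊆ Set.Icc (r - 4 * L * ε) (r + 4 * L * ε) := by
  have h := section_Jset_subset e (maff_detx B Q z0 L x) (z := fun _ => -(L : ℂ) * Complex.I) hL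
    (fun i => norm_zI hL i) h0 h1 (e l).isLt V
  have h2 : e.symm ⟨(e l : ℕ), (e l).isLt⟩ = l := by simp
  rw [h2] at h
  exact h

theorem volume_Jsec_le {L : ℝ} (hL : 0 ≤ L) {ε : ℝ} (h0 : 0 ≤ ε) (h1 : ε ≤ 1 / 2) (l : Q)
    (V : Q → ℝ) : volume (Jsec e B z0 L x ε l V) ≤ ENNReal.ofReal (8 * L * ε) := by
  obtain ⟨r, hr⟩ := Jsec_subset_interval e B z0 x hL h0 h1 l V
  refine (measure_mono hr).trans ?_
  rw [Real.volume_Icc]
  exact ENNReal.ofReal_le_ofReal (by linarith)

/-- the section does not depend on `V_x`, `V_l`, nor on the values of `z0` in `Q` -/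
theorem Jsec_congr {z0 z0' : ι → ℂ} (h0 : ∀ i ∉ Q, z0 i = z0' i) (ε : ℝ) (l : Q) {V V' : Q → ℝ}
    (h : ∀ i, i ≠ x → i ≠ l → V i = V' i) :
    Jsec e B z0 L x ε l V = Jsec e B z0' L x ε l V' := by
  ext t
  simp only [Jsec, Set.mem_ofPred_eq]
  refine and_congr_right fun _ => mem_Jl_congr e B L x h0 ε l fun i hi => ?_
  by_cases hl : i = l
  · subst hl; simp
  · rw [update_of_ne hl, update_of_ne hl, h i hi hl]

theorem Jsec_update_x (ε : ℝ) (l : Q) (V : Q → ℝ) (t : ℝ) :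
    Jsec e B z0 L x ε l (update V x t) = Jsec e B z0 L x ε l V :=
  Jsec_congr e B L x (fun _ _ => rfl) ε l fun i hi _ => by rw [update_of_ne hi]

theorem Jsec_update_l (ε : ℝ) (l : Q) (V : Q → ℝ) (t : ℝ) :
    Jsec e B z0 L x ε l (update V l t) = Jsec e B z0 L x ε l V :=
  Jsec_congr e B L x (fun _ _ => rfl) ε l fun i _ hi => by rw [update_of_ne hi]

theorem mem_Jl_iff {ε : ℝ} {l : Q} {V : Q → ℝ} (hV : |V l| ≤ L) :
    V ∈ Jl e B z0 L x ε l ↔ V l ∈ Jsec e B z0 L x ε l V := by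
  simp only [Jsec, Set.mem_ofPred_eq, update_eq_self]
  exact ⟨fun h => ⟨hV, h⟩, fun h => h.2⟩

/-- the hypothesis `hJ` of `wch_graded`, site by site -/
theorem notMem_Jset_of_forall {ε : Q → ℝ} (hε : ε x ≤ 1) {V : Q → ℝ}
    (h : ∀ l, l ≠ x → V ∉ Jl e B z0 L x (ε l) l) :
    ∀ k < Q.card, V ∉ Jset e (detx B Q z0 L x) (fun _ => -(L : ℂ) * Complex.I)
      (if hk : k < Q.card then ε (e.symm ⟨k, hk⟩) else 1) k := by
  intro k hk
  rw [dif_pos hk]
  by_cases hx : e.symm ⟨k, hk⟩ = x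
  · have h1 : V ∉ Jl e B z0 L x (ε x) x := by
      rw [Jl_self e B z0 L x hε]
      exact Set.notMem_empty _
    have h2 : (e x : ℕ) = k := by rw [← hx]; simp
    rw [Jl, h2] at h1
    rwa [hx]
  · have h1 := h _ hx
    simpa [Jl] using h1

/-- the product of the thresholds -/
theorem prod_threshold (ε : Q → ℝ) :
    ∏ k ∈ Finset.range Q.card, (if hk : k < Q.card then ε (e.symm ⟨k, hk⟩) else 1) =
      ∏ l : Q, ε l := by
  rw [Finset.prod_range]
  rw [← Equiv.prod_comp e.symm]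
  refine Finset.prod_congr rfl fun k _ => ?_
  rw [dif_pos k.isLt]

theorem threshold_pos {ε : Q → ℝ} (h : ∀ l, 0 < ε l) (k : ℕ) :
    0 < (if hk : k < Q.card then ε (e.symm ⟨k, hk⟩) else 1) := by
  split_ifs
  · exact h _
  · exact one_pos

/-! ### full configurations -/

/-- restriction of a configuration to the patch -/
def rs (Q : Finset ι) (V : ι → ℝ) : Q → ℝ := fun i => V i

theorem rs_update_mem (V : ι → ℝ) (l : Q) (t : ℝ) : rs Q (update V l t) = update (rs Q V) l t := by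
  ext i
  by_cases hi : i = l
  · subst hi; simp [rs]
  · rw [update_of_ne hi]
    have : (i : ι) ≠ l := fun h => hi (Subtype.ext h)
    simp [rs, this]

theorem rs_update_notMem (V : ι → ℝ) {l : ι} (hl : l ∉ Q) (t : ℝ) :
    rs Q (update V l t) = rs Q V := by
  ext i
  have : (i : ι) ≠ l := fun h => hl (h ▸ i.2)
  simp [rs, this]

theorem continuous_rs : Continuous (rs Q) := continuous_pi fun i => continuous_apply (i : ι)

/-- the `l`-th exceptional event for full configurations; `z0 V` is the exterior -/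
def Jfull (z : (ι → ℝ) → ι → ℂ) (ε : ℝ) (l : Q) : Set (ι → ℝ) :=
  {V | rs Q V ∈ Jl e B (z V) L x ε l}

/-- `z V` off `Q` does not see the coordinates of `V` in `Q` -/
def OffQ (Q : Finset ι) (z : (ι → ℝ) → ι → ℂ) : Prop :=
  ∀ (V : ι → ℝ) (l : Q) (t : ℝ), ∀ i ∉ Q, z (update V l t) i = z V i

theorem offQ_affine (Q : Finset ι) (c : ι → ℂ) : OffQ Q fun V i => (V i : ℂ) + c i := by
  intro V l t i hi
  have : i ≠ (l : ι) := fun h => hi (h ▸ l.2)
  simp [update_of_ne this]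

theorem mem_Jfull_update_x {z : (ι → ℝ) → ι → ℂ} (hz : OffQ Q z) (ε : ℝ) (l : Q) (V : ι → ℝ)
    (t : ℝ) : update V x t ∈ Jfull e B L x z ε l ↔ V ∈ Jfull e B L x z ε l := by
  simp only [Jfull, Set.mem_ofPred_eq]
  rw [rs_update_mem]
  refine mem_Jl_congr e B L x (hz V x t) ε l fun i hi => by rw [update_of_ne hi]

theorem Jfull_self {ε : ℝ} (hε : ε ≤ 1) (z : (ι → ℝ) → ι → ℂ) : Jfull e B L x z ε x = ∅ := by
  ext V
  simp [Jfull, Jl_self e B (z V) L x hε]

/-- the section of the full event in `V_l`, inside `[-L, L]` -/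
theorem section_Jfull {z : (ι → ℝ) → ι → ℂ} (hz : OffQ Q z) (ε : ℝ) (l : Q) (V : ι → ℝ) :
    {t : ℝ | |t| ≤ L ∧ update V l t ∈ Jfull e B L x z ε l} =
      Jsec e B (z V) L x ε l (rs Q V) := by
  ext t
  simp only [Jfull, Jsec, Set.mem_ofPred_eq]
  rw [rs_update_mem]
  exact and_congr_right fun _ => mem_Jl_congr e B L x (hz V l t) ε l fun i _ => rfl

theorem volume_section_Jfull_le {z : (ι → ℝ) → ι → ℂ} (hz : OffQ Q z) {L : ℝ} (hL : 0 ≤ L)
    {ε : ℝ} (h0 : 0 ≤ ε) (h1 : ε ≤ 1 / 2) (l : Q) (V : ι → ℝ) :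
    volume {t : ℝ | |t| ≤ L ∧ update V l t ∈ Jfull e B L x z ε l} ≤
      ENNReal.ofReal (8 * L * ε) := by
  rw [section_Jfull e B L x hz]
  exact volume_Jsec_le e B (z V) x hL h0 h1 l _

theorem section_Jfull_update_x {z : (ι → ℝ) → ι → ℂ} (hz : OffQ Q z) (ε : ℝ) (l : Q)
    (V : ι → ℝ) (s : ℝ) :
    {t : ℝ | |t| ≤ L ∧ update (update V x s) l t ∈ Jfull e B L x z ε l} =
      {t : ℝ | |t| ≤ L ∧ update V l t ∈ Jfull e B L x z ε l} := by
  rw [section_Jfull e B L x hz, section_Jfull e B L x hz, rs_update_mem]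
  exact Jsec_congr e B L x (hz V x s) ε l fun i hi _ => by rw [update_of_ne hi]

theorem section_Jfull_update_l {z : (ι → ℝ) → ι → ℂ} (hz : OffQ Q z) (ε : ℝ) (l : Q)
    (V : ι → ℝ) (s : ℝ) :
    {t : ℝ | |t| ≤ L ∧ update (update V l s) l t ∈ Jfull e B L x z ε l} =
      {t : ℝ | |t| ≤ L ∧ update V l t ∈ Jfull e B L x z ε l} := by
  simp only [update_idem]

theorem continuous_fil2 (Q : Finset ι) :
    Continuous fun p : (ι → ℂ) × (Q → ℂ) => fil Q p.1 p.2 := by
  refine continuous_pi fun i => ?_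
  by_cases h : i ∈ Q
  · simp only [fil, h, dif_pos]
    exact (continuous_apply _).comp continuous_snd
  · simp only [fil, h, dif_neg, not_false_eq_true]
    exact (continuous_apply _).comp continuous_fst

theorem continuous_detx2 (B : Matrix ι ι ℂ) (Q : Finset ι) (L : ℝ) (x : Q) :
    Continuous fun p : (ι → ℂ) × (Q → ℂ) => detx B Q p.1 L x p.2 := by
  have h1 : Continuous fun p : (ι → ℂ) × (Q → ℂ) =>
      (p.1, update p.2 x (-(L : ℂ) * Complex.I)) :=
    continuous_fst.prodMk (continuous_snd.update x continuous_const)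
  have h2 : Continuous fun p : (ι → ℂ) × (Q → ℂ) =>
      fil Q p.1 (update p.2 x (-(L : ℂ) * Complex.I)) :=
    (continuous_fil2 Q).comp h1
  exact (continuous_det B).comp h2

theorem measurable_comp2 {κ κ' : Type*} {f : (κ → ℂ) × (κ' → ℂ) → ℂ}
    (h : Measurable f) {α : Type*} [MeasurableSpace α] {u : α → κ → ℂ} {v : α → κ' → ℂ}
    (hu : Measurable u) (hv : Measurable v) : Measurable fun a => f (u a, v a) :=
  h.comp (hu.prodMk hv)

theorem measurable_detx2 (B : Matrix ι ι ℂ) (Q : Finset ι) (L : ℝ) (x : Q)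
    {α : Type*} [MeasurableSpace α] {u : α → ι → ℂ} {v : α → Q → ℂ} (hu : Measurable u)
    (hv : Measurable v) : Measurable fun a => detx B Q (u a) L x (v a) := by
  have h1 := (continuous_detx2 B Q L x).measurable
  have h2 := measurable_comp2 h1 hu hv
  exact h2

theorem measurableSet_Jfull {z : (ι → ℝ) → ι → ℂ} (hz : Measurable z) (ε : ℝ) (l : Q) :
    MeasurableSet (Jfull e B L x z ε l) := by
  have h3 : ∀ k : ℕ, Measurable fun V : ι → ℝ =>
      hyb e k (cx (rs Q V)) fun _ => -(L : ℂ) * Complex.I := fun k =>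
    (measurable_hyb_cx e k _).comp (continuous_rs (Q := Q)).measurable
  have h5 := measurableSet_lt (measurable_detx2 B Q L x hz (h3 (e l : ℕ))).norm
    ((measurable_detx2 B Q L x hz (h3 ((e l : ℕ) + 1))).norm.const_mul ε)
  exact h5

/-- measurability of the section in all the variables -/
theorem measurableSet_section_Jfull {z : (ι → ℝ) → ι → ℂ} (hz : Measurable z) (ε : ℝ) (l : Q)
    (V : ι → ℝ) : MeasurableSet {t : ℝ | |t| ≤ L ∧ update V l t ∈ Jfull e B L x z ε l} := by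
  have h1 : MeasurableSet {t : ℝ | |t| ≤ L} := measurableSet_le measurable_norm measurable_const
  exact h1.inter ((measurable_update V) (measurableSet_Jfull e B L x hz ε l))

end P365T1.MAff
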