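import Vale.Agent.P365.T1.WCHe
import Vale.Agent.P365.T1.JBook
import Vale.Agent.P365.T1.Bad
import Vale.Agent.P365.T1.Defs
import Vale.Agent.P365.Open.Energy

/-!
# The crude Harnack inequality under a product law (P365 T1, helper16)

Everything under `Measure.pi ν`, `W = WV E e v`.

* `lintegral_lmarginal` : `∫ f = ∫ (∫⋯∫_Q f)`.
* `CofLe` : lower bound of the cofactor `x, y` for every exterior (output of the path lemma).
* `wch_patch_pt`, `wch_patch` : crude Harnack inequality with the exceptional events `Jfull`.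
* `wch_patch_event` : the version with a good event `G` on the right side, off a bad exterior.
-/

set_option autoImplicit false
set_option linter.all false

open MeasureTheory Finset Function Matrix
open scoped ENNReal NNReal BigOperators

namespace P365T1

open P365L P365O P365T1.MAff

variable {ι : Type*} [Fintype ι] [DecidableEq ι]

section Marg

variable (ν : ι → Measure ℝ) [∀ i, IsProbabilityMeasure (ν i)]

omit [Fintype ι] in
/-- a function which does not see the coordinates of `Q` is its own marginal -/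
theorem lmarginal_of_indep (Q : Finset ι) {g : (ι → ℝ) → ℝ≥0∞}
    (h : ∀ v v' : ι → ℝ, (∀ i ∉ Q, v i = v' i) → g v = g v') :
    (∫⋯∫⁻_Q, g ∂ν) = g := by
  ext v
  unfold lmarginal
  have h1 : ∀ y : (i : Q) → ℝ, g (updateFinset v Q y) = g v := fun y =>
    h _ _ fun i hi => by simp [updateFinset, hi]
  simp [h1]

omit [Fintype ι] in
theorem lmarginal_idem (Q : Finset ι) (f : (ι → ℝ) → ℝ≥0∞) :
    (∫⋯∫⁻_Q, (∫⋯∫⁻_Q, f ∂ν) ∂ν) = ∫⋯∫⁻_Q, f ∂ν :=
  lmarginal_of_indep ν Q fun v v' h => lmarginal_congr ν f h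

/-- `∫ f = ∫ (∫⋯∫_Q f)` -/
theorem lintegral_lmarginal (Q : Finset ι) {f : (ι → ℝ) → ℝ≥0∞} (hf : Measurable f) :
    ∫⁻ v, (∫⋯∫⁻_Q, f ∂ν) v ∂(Measure.pi ν) = ∫⁻ v, f v ∂(Measure.pi ν) :=
  lintegral_eq_of_lmarginal_eq Q (hf.lmarginal ν) hf (lmarginal_idem ν Q f)

end Marg

theorem lintegral_biUnion_le {α β : Type*} [MeasurableSpace α] {μ : Measure α} [DecidableEq β]
    (s : Finset β) (t : β → Set α) (f : α → ℝ≥0∞) :
    ∫⁻ a in ⋃ b ∈ s, t b, f a ∂μ ≤ ∑ b ∈ s, ∫⁻ a in t b, f a ∂μ := by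
  induction s using Finset.induction_on with
  | empty => simp
  | insert b s hb ih =>
    rw [Finset.set_biUnion_insert, Finset.sum_insert hb]
    exact (lintegral_union_le _ _ _).trans (add_le_add le_rfl ih)

/-! ### full configurations -/

theorem WV_updateFinset (Q : Finset ι) (E : ℝ) (e v : ι → ℝ) (y : Q → ℝ) :
    WV E e (updateFinset v Q y) = Wc (WV E e v) Q E e (cx y) := by
  ext i
  by_cases h : i ∈ Q
  · simp only [WV, updateFinset, h, dif_pos, Wc, cx]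
    push_cast; ring
  · simp only [WV, updateFinset, h, dif_neg, not_false_eq_true, Wc]

theorem updateFinset_rs (Q : Finset ι) (v : ι → ℝ) : updateFinset v Q (rs Q v) = v := by
  ext i
  by_cases h : i ∈ Q <;> simp [updateFinset, h, rs]

theorem WV_eq_Wc (Q : Finset ι) (E : ℝ) (e v : ι → ℝ) :
    Wc (WV E e v) Q E e (cx (rs Q v)) = WV E e v := by
  rw [← WV_updateFinset, updateFinset_rs]

private theorem WV_im (E : ℝ) (e v : ι → ℝ) (i : ι) : (WV E e v i).im = -e i := by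
  simp [WV]

theorem WV_im_neg {E : ℝ} {e : ι → ℝ} (he : ∀ i, 0 < e i) (v : ι → ℝ) (i : ι) :
    (WV E e v i).im < 0 := by
  rw [WV_im]; linarith [he i]

theorem measurable_WV (E : ℝ) (e : ι → ℝ) : Measurable (WV E e) := by
  refine measurable_pi_lambda _ fun i => ?_
  have h1 : Measurable fun v : ι → ℝ => v i - E := by fun_prop
  exact (Complex.measurable_ofReal.comp h1).sub_const _

theorem offQ_WV (Q : Finset ι) (E : ℝ) (e : ι → ℝ) : OffQ Q (WV E e) := by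
  intro V l t i hi
  have : i ≠ (l : ι) := fun h => hi (h ▸ l.2)
  simp [WV, update_of_ne this]

/-! ### measurability -/

section Meas

variable {A : Matrix ι ι ℝ}

theorem measurable_gw (x a : ι) : Measurable fun W : ι → ℂ => gw A W x a :=
  (measurable_Gr_id a x).div (measurable_Gr_id x x)

theorem measurable_sg (x : ι) : Measurable fun W : ι → ℂ => sg A W x :=
  (measurable_pi_apply x).sub (measurable_Gr_id x x).inv

theorem measurable_Nf (f : ι → ℝ) (x : ι) : Measurable fun W : ι → ℂ => Nf A W f x := by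
  unfold Nf
  exact Finset.measurable_sum _ fun a _ =>
    ((measurable_ab a).mul ((measurable_gw x a).norm.pow_const 2)).mul_const _

theorem measurable_Mf (f : ι → ℝ) (x : ι) : Measurable fun W : ι → ℂ => Mf A W f x := by
  unfold Mf
  exact Finset.measurable_sum _ fun a _ => ((measurable_ab a).mul (measurable_KK x a)).mul_const _

theorem measurable_Nfar (f : ι → ℝ) (B : Finset ι) (fo : ℝ) (x : ι) :
    Measurable fun W : ι → ℂ => Nfar A W f B fo x := by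
  unfold Nfar
  exact Finset.measurable_sum _ fun a _ =>
    ((measurable_ab a).mul ((measurable_gw x a).norm.pow_const 2)).mul_const _

theorem measurable_Yf (f : ι → ℝ) (x : ι) : Measurable fun W : ι → ℂ => Yf A W f x := by
  unfold Yf
  exact (measurable_Nf f x).div (((measurable_sg x).norm.pow_const 2).const_add 1)

end Meas

variable {A : Matrix ι ι ℝ}

/-- lower bound of the cofactor between `x` and `y`, uniform in the exterior -/
def CofLe (A : Matrix ι ι ℝ) (Q : Finset ι) (E : ℝ) (e : ι → ℝ) (L c2 : ℝ) (x y : Q) : Prop :=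
  ∀ W0 : ι → ℂ, (∀ i ∉ Q, (W0 i).im < 0) → ∃ y2 : Q → ℂ, (∀ i, ‖y2 i‖ ≤ L) ∧
    c2 * ‖(Mz (Bp A Q E e) (fil Q W0 fun _ => -(L : ℂ) * Complex.I)).det‖ ≤
      ‖(Mz (Bp A Q E e) (fil Q W0 y2)).adjugate x y‖

/-- the exceptional event of the site `l` in the comparison from the site `x` of the patch -/
noncomputable def JP (A : Matrix ι ι ℝ) (Q : Finset ι) (E : ℝ) (e : ι → ℝ) (L : ℝ) (x : Q)
    (ε : ℝ) (l : Q) : Set (ι → ℝ) :=
  Jfull (Q := Q) (Q.equivFin) (Bp A Q E e) L x (WV E e) ε l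

theorem measurableSet_JP (Q : Finset ι) (E : ℝ) (e : ι → ℝ) (L : ℝ) (x : Q) (ε : ℝ) (l : Q) :
    MeasurableSet (JP A Q E e L x ε l) :=
  measurableSet_Jfull _ _ L x (measurable_WV E e) ε l

theorem volume_section_JP_le (Q : Finset ι) (E : ℝ) (e : ι → ℝ) {L : ℝ} (hL : 0 ≤ L) (x : Q)
    {ε : ℝ} (h0 : 0 ≤ ε) (h1 : ε ≤ 1 / 2) (l : Q) (V : ι → ℝ) :
    volume {t : ℝ | |t| ≤ L ∧ update V l t ∈ JP A Q E e L x ε l} ≤ ENNReal.ofReal (8 * L * ε) :=
  volume_section_Jfull_le _ _ x (offQ_WV Q E e) hL h0 h1 l V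

/-- constant of the crude Harnack inequality -/
noncomputable def Kw (E L e c2 p : ℝ) (n : ℕ) : ℝ :=
  8 * (1 + E ^ 2 + (L + e) ^ 2) * ((2 / (L * c2 * p)) ^ 2 * 104976 ^ n)

/-- **Crude Harnack inequality, pointwise in the exterior.** -/
theorem wch_patch_pt (hA : A.IsSymm) {Q : Finset ι} {E L : ℝ} (hL : 0 < L) {e : ι → ℝ}
    (he : ∀ i, 0 < e i) (x y : Q) (hxy : x ≠ y)
    {f : ι → ℝ} {m : ℝ} (hm : ∀ a ∈ Q, ∀ b ∈ Q, |f a - f b| ≤ m)
    {c2 : ℝ} (hc2 : 0 < c2) (hcof : CofLe A Q E e L c2 x y) {ε : Q → ℝ} (hε : ∀ l, 0 < ε l)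
    (hεx : ε x ≤ 1) {v : ι → ℝ} (hv : ∀ i ∈ Q, |v i| ≤ L)
    (hJ : ∀ l, l ≠ x → v ∉ JP A Q E e L x (ε l) l)
    (ν : ι → Measure ℝ) [∀ i, IsProbabilityMeasure (ν i)] {κ : ℝ≥0∞}
    (hν : ∀ i ∈ Q, WinLaw (EuclideanSpace ℂ ι) κ L (ν i))
    (hsupp : ∀ i ∈ Q, ν i {t | |t| ≤ L}ᶜ = 0) :
    κ ^ Q.card * ENNReal.ofReal (Yf A (WV E e v) f x) ≤
      ENNReal.ofReal (Kw E L (e x) c2 (∏ l, ε l) Q.card) *
        (∫⋯∫⁻_Q, (fun v => ENNReal.ofReal (Mf A (WV E e v) f y + m ^ 2 * mm A (WV E e v) y)) ∂ν) v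
        + κ ^ Q.card * ENNReal.ofReal (2 * m ^ 2 * (1 + e x)) := by
  have h0 : ∀ i ∉ Q, (WV E e v i).im < 0 := fun i _ => WV_im_neg he v i
  obtain ⟨y2, hy2, hc⟩ := hcof (WV E e v) h0
  have hm0 : 0 ≤ m := (abs_nonneg _).trans (hm x x.2 x x.2)
  have h := wch_site (E := E) (ee := e) (fo := f x) hA h0 hL (fun i _ => he i) x y hxy
    (by simpa using hm0) (fun z hz => hm z hz x x.2) (hm x x.2 y y.2) hc2 hy2 hc
    (threshold_pos Q.equivFin hε) Q.equivFin (V := rs Q v) (fun i => hv i i.2)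
    (notMem_Jset_of_forall Q.equivFin _ _ L x hεx fun l hl => hJ l hl)
    (fun i : Q => ν i) (fun i => hν i i.2) (fun i => hsupp i i.2)
  rw [WV_eq_Wc, prod_threshold] at h
  unfold lmarginal
  simp only [WV_updateFinset]
  exact h

/-- the Fubini frame: a pointwise inequality off exceptional events integrates -/
theorem frame (ν : ι → Measure ℝ) [∀ i, IsProbabilityMeasure (ν i)] (Q : Finset ι)
    {Y R : (ι → ℝ) → ℝ≥0∞} (hRm : Measurable R) {α : Type*} [DecidableEq α]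
    (s : Finset α) (J : α → Set (ι → ℝ)) (hJ : ∀ l ∈ s, MeasurableSet (J l)) {c a : ℝ≥0∞}
    (hc : c ≠ ∞) (hpt : ∀ᵐ v ∂(Measure.pi ν), (∀ l ∈ s, v ∉ J l) →
      Y v ≤ c * (∫⋯∫⁻_Q, R ∂ν) v + a) :
    ∫⁻ v, Y v ∂(Measure.pi ν) ≤ ∑ l ∈ s, ∫⁻ v in J l, Y v ∂(Measure.pi ν) +
      c * ∫⁻ v, R v ∂(Measure.pi ν) + a := by
  have hUm : MeasurableSet (⋃ l ∈ s, J l) := Finset.measurableSet_biUnion _ hJ
  rw [← lintegral_add_compl Y hUm, add_assoc]
  refine add_le_add (lintegral_biUnion_le _ _ _) ?_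
  calc ∫⁻ v in (⋃ l ∈ s, J l)ᶜ, Y v ∂(Measure.pi ν)
      ≤ ∫⁻ v in (⋃ l ∈ s, J l)ᶜ, (c * (∫⋯∫⁻_Q, R ∂ν) v + a) ∂(Measure.pi ν) := by
        refine lintegral_mono_ae ?_
        filter_upwards [ae_restrict_mem hUm.compl, ae_restrict_of_ae hpt] with v h6 h7
        refine h7 fun l hl hmem => h6 ?_
        exact Set.mem_biUnion (Finset.mem_coe.mpr hl) hmem
    _ ≤ ∫⁻ v, (c * (∫⋯∫⁻_Q, R ∂ν) v + a) ∂(Measure.pi ν) := setLIntegral_le_lintegral _ _
    _ = _ := by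
        rw [lintegral_add_right _ measurable_const, lintegral_const_mul' _ _ hc,
          lintegral_lmarginal ν Q hRm]
        simp

theorem ae_cube (ν : ι → Measure ℝ) [∀ i, IsProbabilityMeasure (ν i)] (Q : Finset ι) {L : ℝ}
    (hsupp : ∀ i ∈ Q, ν i {t | |t| ≤ L}ᶜ = 0) : ∀ᵐ v ∂(Measure.pi ν), ∀ i ∈ Q, |v i| ≤ L := by
  have : ∀ᵐ v ∂(Measure.pi ν), ∀ i, i ∈ Q → |v i| ≤ L := by
    rw [ae_all_iff]
    intro i
    by_cases hi : i ∈ Q
    · have h5 : ∀ᵐ t ∂(ν i), |t| ≤ L := by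
        rw [ae_iff]; exact hsupp i hi
      filter_upwards [(Measure.quasiMeasurePreserving_eval (μ := ν) i).ae h5] with v hv _
      exact hv
    · exact Filter.Eventually.of_forall fun v h => absurd h hi
  exact this

/-- density of the right side -/
noncomputable def RM (A : Matrix ι ι ℝ) (E : ℝ) (e : ι → ℝ) (f : ι → ℝ) (m : ℝ) (y : ι)
    (v : ι → ℝ) : ℝ≥0∞ := ENNReal.ofReal (Mf A (WV E e v) f y + m ^ 2 * mm A (WV E e v) y)

theorem measurable_RM (E : ℝ) (e : ι → ℝ) (f : ι → ℝ) (m : ℝ) (y : ι) :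
    Measurable (RM A E e f m y) := by
  refine Measurable.ennreal_ofReal ?_
  exact ((measurable_Mf f y).comp (measurable_WV E e)).add
    (((measurable_mm y).comp (measurable_WV E e)).const_mul _)

/-- off-resonant cost as an extended real -/
noncomputable def YY (A : Matrix ι ι ℝ) (E : ℝ) (e : ι → ℝ) (f : ι → ℝ) (x : ι)
    (v : ι → ℝ) : ℝ≥0∞ := ENNReal.ofReal (Yf A (WV E e v) f x)

theorem measurable_YY (E : ℝ) (e : ι → ℝ) (f : ι → ℝ) (x : ι) : Measurable (YY A E e f x) :=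
  ((measurable_Yf f x).comp (measurable_WV E e)).ennreal_ofReal

theorem div_pow_aux {κ K : ℝ} (hκ : 0 < κ) (n : ℕ) {Y R a : ℝ≥0∞}
    (h : ENNReal.ofReal κ ^ n * Y ≤ ENNReal.ofReal K * R + ENNReal.ofReal κ ^ n * a) :
    Y ≤ ENNReal.ofReal (K / κ ^ n) * R + a := by
  have hκn : 0 < κ ^ n := pow_pos hκ _
  have h1 : ENNReal.ofReal κ ^ n * (ENNReal.ofReal (K / κ ^ n) * R + a) =
      ENNReal.ofReal K * R + ENNReal.ofReal κ ^ n * a := by
    rw [mul_add, ← mul_assoc, ← ENNReal.ofReal_pow hκ.le, ← ENNReal.ofReal_mul hκn.le]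
    congr 3
    field_simp
  have h2 : ENNReal.ofReal κ ^ n ≠ 0 := by
    rw [← ENNReal.ofReal_pow hκ.le]; simpa using hκn
  have h3 : ENNReal.ofReal κ ^ n ≠ ∞ := by
    rw [← ENNReal.ofReal_pow hκ.le]; exact ENNReal.ofReal_ne_top
  rw [← h1] at h
  exact (ENNReal.mul_le_mul_iff_right h2 h3).mp h

/-- **Crude Harnack inequality under the product law**, the exceptional events not yet estimated. -/
theorem wch_patch (hA : A.IsSymm) {Q : Finset ι} {E L : ℝ} (hL : 0 < L) {e : ι → ℝ}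
    (he : ∀ i, 0 < e i) (x y : Q) (hxy : x ≠ y)
    {f : ι → ℝ} {m : ℝ} (hm : ∀ a ∈ Q, ∀ b ∈ Q, |f a - f b| ≤ m)
    {c2 : ℝ} (hc2 : 0 < c2) (hcof : CofLe A Q E e L c2 x y) {ε : Q → ℝ} (hε : ∀ l, 0 < ε l)
    (hεx : ε x ≤ 1) (ν : ι → Measure ℝ) [∀ i, IsProbabilityMeasure (ν i)] {κ : ℝ} (hκ : 0 < κ)
    (hν : ∀ i ∈ Q, WinLaw (EuclideanSpace ℂ ι) (ENNReal.ofReal κ) L (ν i))
    (hsupp : ∀ i ∈ Q, ν i {t | |t| ≤ L}ᶜ = 0) :
    ∫⁻ v, YY A E e f x v ∂(Measure.pi ν) ≤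
      ∑ l ∈ (Finset.univ : Finset Q).erase x,
        ∫⁻ v in JP A Q E e L x (ε l) l, YY A E e f x v ∂(Measure.pi ν)
      + ENNReal.ofReal (Kw E L (e x) c2 (∏ l, ε l) Q.card / κ ^ Q.card) *
        ∫⁻ v, RM A E e f m y v ∂(Measure.pi ν)
      + ENNReal.ofReal (2 * m ^ 2 * (1 + e x)) := by
  refine frame ν Q (measurable_RM E e f m y) _ _
    (fun l _ => measurableSet_JP Q E e L x (ε l) l) ENNReal.ofReal_ne_top ?_
  filter_upwards [ae_cube ν Q hsupp] with v hv hJ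
  exact div_pow_aux hκ _ (wch_patch_pt hA hL he x y hxy hm hc2 hcof hε hεx hv
    (fun l hl => hJ l (Finset.mem_erase.mpr ⟨hl, Finset.mem_univ l⟩)) ν hν hsupp)

/-- density of the right side of the event version -/
noncomputable def RN (A : Matrix ι ι ℝ) (E : ℝ) (e : ι → ℝ) (f : ι → ℝ) (Q : Finset ι) (fo : ℝ)
    (y : ι) (v : ι → ℝ) : ℝ≥0∞ :=
  ENNReal.ofReal (Nfar A (WV E e v) f Q fo y / (1 + ‖sg A (WV E e v) y‖ ^ 2))

theorem measurable_RN (E : ℝ) (e : ι → ℝ) (f : ι → ℝ) (Q : Finset ι) (fo : ℝ) (y : ι) :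
    Measurable (RN A E e f Q fo y) := by
  refine Measurable.ennreal_ofReal ?_
  exact ((measurable_Nfar f Q fo y).comp (measurable_WV E e)).div
    ((((measurable_sg y).comp (measurable_WV E e)).norm.pow_const 2).const_add 1)

/-- constant of the event version -/
noncomputable def Ke (E L ex ey c2 p δ : ℝ) (n : ℕ) : ℝ :=
  16 * (1 + E ^ 2 + (L + ex) ^ 2) * Clo E L ey *
    ((2 / (L * c2 * p)) ^ 2 * 104976 ^ n / δ ^ (2 * n))

/-- **Crude Harnack inequality with a good event**, pointwise in the exterior. -/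
theorem wch_patch_event_pt (hA : A.IsSymm) {Q : Finset ι} {E L : ℝ} (hL : 0 < L) {e : ι → ℝ}
    (he : ∀ i, 0 < e i) (x y : Q) (hxy : x ≠ y)
    {f : ι → ℝ} {m fo : ℝ} (hfo : |fo - f x| ≤ m) (hm : ∀ a ∈ Q, |f a - f x| ≤ m)
    {c2 : ℝ} (hc2 : 0 < c2) (hcof : CofLe A Q E e L c2 x y) {ε : Q → ℝ} (hε : ∀ l, 0 < ε l)
    (hεx : ε x ≤ 1) {v : ι → ℝ} (hv : ∀ i ∈ Q, |v i| ≤ L)
    (hJ : ∀ l, l ≠ x → v ∉ JP A Q E e L x (ε l) l)
    (ν : ι → Measure ℝ) [∀ i, IsProbabilityMeasure (ν i)] {D : ℝ≥0∞}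
    (hD : ∀ i ∈ Q, ∀ S : Set ℝ, ν i S ≤ D * volume S)
    (hsupp : ∀ i ∈ Q, ν i {t | |t| ≤ L}ᶜ = 0)
    {δ : ℝ} (hδ0 : 0 < δ) (hδ1 : δ ≤ 1 / 2)
    (hδ : (Q.card : ℝ≥0∞) * (D * ENNReal.ofReal (8 * L * δ)) ≤ 1 / 2)
    {G : Set (ι → ℝ)} (hGm : MeasurableSet G) (hG : Bad.cp ν Q Gᶜ v ≤ 1 / 4) :
    YY A E e f x v ≤ ENNReal.ofReal (Ke E L (e x) (e y) c2 (∏ l, ε l) δ Q.card) *
        (∫⋯∫⁻_Q, G.indicator (RN A E e f Q fo y) ∂ν) v
        + ENNReal.ofReal (2 * m ^ 2 * (1 + e x)) := by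
  have h0 : ∀ i ∉ Q, (WV E e v i).im < 0 := fun i _ => WV_im_neg he v i
  obtain ⟨y2, hy2, hc⟩ := hcof (WV E e v) h0
  set G' : Set (Q → ℝ) := {u | updateFinset v Q u ∈ G} with hG'
  have hG'm : MeasurableSet G' := measurable_updateFinset hGm
  have hG2 : (Measure.pi fun i : Q => ν i) G'ᶜ ≤ 1 / 4 := by
    refine le_trans (le_of_eq ?_) hG
    unfold Bad.cp lmarginal
    rw [← lintegral_indicator_one hG'm.compl]
    refine lintegral_congr fun u => ?_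
    by_cases hu : updateFinset v Q u ∈ G
    · have h1 : u ∉ G'ᶜ := fun h => h hu
      have h2 : updateFinset v Q u ∉ Gᶜ := fun h => h hu
      simp [Set.indicator, h1, h2]
    · have h1 : u ∈ G'ᶜ := hu
      have h2 : updateFinset v Q u ∈ Gᶜ := hu
      simp [Set.indicator, h1, h2]
  have h := wch_site_event (E := E) (ee := e) (fo := fo) hA h0 hL (fun i _ => he i) x y hxy
    hfo hm hc2 hy2 hc
    (threshold_pos Q.equivFin hε) Q.equivFin (V := rs Q v) (fun i => hv i i.2)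
    (notMem_Jset_of_forall Q.equivFin _ _ L x hεx fun l hl => hJ l hl)
    (fun i : Q => ν i) (fun i => hD i i.2) (fun i => hsupp i i.2) hδ0 hδ1 hδ hG2
  rw [WV_eq_Wc, prod_threshold] at h
  have h3 : (∫⋯∫⁻_Q, G.indicator (RN A E e f Q fo y) ∂ν) v =
      ∫⁻ V' in G', ENNReal.ofReal (Nfar A (Wc (WV E e v) Q E e (cx V')) f Q fo y /
          (1 + ‖sg A (Wc (WV E e v) Q E e (cx V')) y‖ ^ 2)) ∂(Measure.pi fun i : Q => ν i) := by
    unfold lmarginal
    rw [← lintegral_indicator hG'm]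
    refine lintegral_congr fun u => ?_
    by_cases hu : updateFinset v Q u ∈ G
    · have h1 : u ∈ G' := hu
      simp only [Set.indicator, hu, h1, if_true, RN, WV_updateFinset]
    · have h1 : u ∉ G' := hu
      simp only [Set.indicator, hu, h1, if_false]
  rw [h3]
  exact h

/-- **Crude Harnack inequality with a good event, under the product law.**  `Bd` : bad exterior. -/
theorem wch_patch_event (hA : A.IsSymm) {Q : Finset ι} {E L : ℝ} (hL : 0 < L) {e : ι → ℝ}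
    (he : ∀ i, 0 < e i) (x y : Q) (hxy : x ≠ y)
    {f : ι → ℝ} {m fo : ℝ} (hfo : |fo - f x| ≤ m) (hm : ∀ a ∈ Q, |f a - f x| ≤ m)
    {c2 : ℝ} (hc2 : 0 < c2) (hcof : CofLe A Q E e L c2 x y) {ε : Q → ℝ} (hε : ∀ l, 0 < ε l)
    (hεx : ε x ≤ 1) (ν : ι → Measure ℝ) [∀ i, IsProbabilityMeasure (ν i)] {D : ℝ≥0∞}
    (hD : ∀ i ∈ Q, ∀ S : Set ℝ, ν i S ≤ D * volume S)
    (hsupp : ∀ i ∈ Q, ν i {t | |t| ≤ L}ᶜ = 0)
    {δ : ℝ} (hδ0 : 0 < δ) (hδ1 : δ ≤ 1 / 2)
    (hδ : (Q.card : ℝ≥0∞) * (D * ENNReal.ofReal (8 * L * δ)) ≤ 1 / 2)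
    {G : Set (ι → ℝ)} (hGm : MeasurableSet G) {α : Type*} [DecidableEq α] (s : Finset α)
    (Bd : α → Set (ι → ℝ)) (hBm : ∀ k ∈ s, MeasurableSet (Bd k))
    (hG : ∀ v : ι → ℝ, (∀ k ∈ s, v ∉ Bd k) → Bad.cp ν Q Gᶜ v ≤ 1 / 4) :
    ∫⁻ v, YY A E e f x v ∂(Measure.pi ν) ≤
      ∑ l ∈ (Finset.univ : Finset Q).erase x,
        ∫⁻ v in JP A Q E e L x (ε l) l, YY A E e f x v ∂(Measure.pi ν)
      + ∑ k ∈ s, ∫⁻ v in Bd k, YY A E e f x v ∂(Measure.pi ν)
      + ENNReal.ofReal (Ke E L (e x) (e y) c2 (∏ l, ε l) δ Q.card) *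
        ∫⁻ v in G, RN A E e f Q fo y v ∂(Measure.pi ν)
      + ENNReal.ofReal (2 * m ^ 2 * (1 + e x)) := by
  have h := frame ν Q (Y := YY A E e f x) (R := G.indicator (RN A E e f Q fo y))
    ((measurable_RN E e f Q fo y).indicator hGm)
    (((Finset.univ : Finset Q).erase x).disjSum s)
    (Sum.elim (fun l => JP A Q E e L x (ε l) l) Bd) (fun l hl => by
      rcases l with l | k
      · exact measurableSet_JP Q E e L x (ε l) l
      · exact hBm k (by simpa using hl))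
    (c := ENNReal.ofReal (Ke E L (e x) (e y) c2 (∏ l, ε l) δ Q.card))
    (a := ENNReal.ofReal (2 * m ^ 2 * (1 + e x))) ENNReal.ofReal_ne_top (by
      filter_upwards [ae_cube ν Q hsupp] with v hv hJ
      refine wch_patch_event_pt hA hL he x y hxy hfo hm hc2 hcof hε hεx hv (fun l hl => ?_) ν hD
        hsupp hδ0 hδ1 hδ hGm (hG v fun k hk => ?_)
      · exact hJ (Sum.inl l) (by simp [hl])
      · exact hJ (Sum.inr k) (by simpa using hk))
  rw [Finset.sum_disjSum, lintegral_indicator hGm] at h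
  exact h

end P365T1
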