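import Vale.Agent.P365.T1.MCof
import Vale.Agent.P365.T1.MDiss
import Vale.Agent.P365.T1.Patch

/-!
# Cofactor bound for blocks of `ℤ²` (P365 T1, helper16)

* `cofLe_of_path` : `CofLe` along an induced path at depth two of a patch.
* `cofLe_block` : `CofLe` between any two different sites at depth two of an embedded block.
-/

set_option autoImplicit false
set_option linter.all false

open MeasureTheory Finset Function Matrix
open scoped ENNReal NNReal BigOperators

namespace P365T1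

open P365L P365O P365T1.MAff

variable {ι : Type*} [Fintype ι] [DecidableEq ι]

/-- constant of the chain of determinants -/
noncomputable def C0c (E L : ℝ) : ℝ := 2 * (L + |E| + 1) + 16 / L

theorem C0c_pos {E L : ℝ} (hL : 0 < L) : 0 < C0c E L := by
  unfold C0c
  have := abs_nonneg E
  positivity

/-- constant of the cofactor bound -/
noncomputable def c2c (E L : ℝ) (n : ℕ) : ℝ := (min L 1 * (C0c E L)⁻¹) ^ n

theorem c2c_pos {E L : ℝ} (hL : 0 < L) (n : ℕ) : 0 < c2c E L n := by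
  unfold c2c
  have h1 := C0c_pos (E := E) hL
  have h2 : 0 < min L 1 := lt_min hL one_pos
  positivity

theorem Bp_off (A : Matrix ι ι ℝ) (Q : Finset ι) (E : ℝ) (e : ι → ℝ) {i j : ι} (h : i ≠ j) :
    Bp A Q E e i j = (A i j : ℂ) := by
  simp [Bp, h]

theorem Bp_diag (A : Matrix ι ι ℝ) {Q : Finset ι} (E : ℝ) (e : ι → ℝ) {i : ι} (h : i ∈ Q) :
    Bp A Q E e i i = (A i i : ℂ) + (-(E : ℂ) - Complex.I * e i) := by
  simp [Bp, h]

/-- **Cofactor bound along a path.** -/
theorem cofLe_of_path {A : Matrix ι ι ℝ} (hA : A.IsSymm) (h01 : ∀ i j, A i j = 0 ∨ A i j = 1)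
    (hdiag : ∀ i, A i i = 0) (hdeg : ∀ i, ∑ j, A i j ≤ 4) {T Q : Finset ι} (hTQ : T ⊆ Q)
    (hT : ∀ i ∈ T, ∀ j, A i j ≠ 0 → j ∈ Q) (k : ℕ) (p : ℕ → ι)
    (hinj : ∀ i, i ≤ k → ∀ j, j ≤ k → p i = p j → i = j) (hpT : ∀ i, i ≤ k → p i ∈ T)
    (hlink : ∀ i, i < k → A (p i) (p (i + 1)) = 1)
    (hfar : ∀ i, i ≤ k → ∀ j, j ≤ k → i + 2 ≤ j ∨ j + 2 ≤ i → A (p i) (p j) = 0)
    (hint : ∀ i, 1 ≤ i → i ≤ k → ∀ j, A (p i) j ≠ 0 → j ∈ T) {E L : ℝ} (hL : 0 < L)
    {e : ι → ℝ} (he0 : ∀ i ∈ Q, 0 ≤ e i) (he1 : ∀ i ∈ Q, e i ≤ 1) (x y : Q)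
    (hx : (x : ι) = p 0) (hy : (y : ι) = p k) :
    CofLe A Q E e L (c2c E L T.card) x y := by
  intro W0 h0
  set B := Bp A Q E e with hB
  set z : ι → ℂ := fil Q W0 fun _ => -(L : ℂ) * Complex.I with hz
  have hzQ : ∀ i ∈ Q, z i = -(L : ℂ) * Complex.I := fun i hi => by simp [hz, fil, hi]
  have hzn : ∀ i, i ∉ Q → z i = W0 i := fun i hi => by simp [hz, fil, hi]
  have hzim : ∀ i ∈ Q, (z i).im ≤ -L := fun i hi => by simp [hzQ i hi]
  have hzle : ∀ i, (z i).im ≤ 0 := by
    intro i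
    by_cases hi : i ∈ Q
    · linarith [hzim i hi]
    · rw [hzn i hi]; exact (h0 i hi).le
  have hAn : ∀ i j, ‖((A i j : ℝ) : ℂ)‖ = A i j := by
    intro i j
    rw [Complex.norm_real, Real.norm_eq_abs]
    rcases h01 i j with h | h <;> simp [h]
  have hA0 : ∀ i j, 0 ≤ A i j := by
    intro i j
    rcases h01 i j with h | h <;> simp [h]
  have hchain : ‖(Mz B z).det‖ ≤ C0c E L ^ T.card * ‖(del T (Mz B z)).det‖ := by
    have h := norm_det_Mz_chain' (B := B) (z := z) (dissB_Bp hA Q E he0) hzle (lam := L)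
      (m := L + |E| + 1) (h := 4) hL (Q := Q) hzim (T := T) (fun i hi j hj hb => by
        rw [hB, Bp_off A Q E e (Ne.symm hj)] at hb
        exact hT i hi j (fun h => hb (by rw [h]; simp))) (fun i hi => by
        rw [hzQ i (hTQ hi), hB, Bp_diag A E e (hTQ hi), hdiag i]
        have e1 : (-(L : ℂ) * Complex.I + (((0 : ℝ) : ℂ) + (-(E : ℂ) - Complex.I * e i))) =
            -(((E : ℝ) : ℂ)) + -(((L + e i : ℝ) : ℂ) * Complex.I) := by
          push_cast; ring
        rw [e1]
        refine (norm_add_le _ _).trans ?_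
        rw [norm_neg, norm_neg, norm_mul, Complex.norm_I, mul_one, Complex.norm_real,
          Complex.norm_real, Real.norm_eq_abs, Real.norm_eq_abs,
          abs_of_nonneg (a := L + e i) (by linarith [he0 i (hTQ hi)])]
        linarith [he1 i (hTQ hi)]) (fun i hi => by
        have e2 : ∑ j ∈ Finset.univ.erase i, ‖B i j‖ = ∑ j ∈ Finset.univ.erase i, A i j := by
          refine Finset.sum_congr rfl fun j hj => ?_
          rw [hB, Bp_off A Q E e (Finset.ne_of_mem_erase hj).symm, hAn]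
        rw [e2]
        refine le_trans ?_ (hdeg i)
        exact Finset.sum_le_sum_of_subset_of_nonneg (Finset.erase_subset _ _)
          fun j _ _ => hA0 i j)
    have e3 : 2 * (L + |E| + 1) + (4 : ℝ) ^ 2 / L = C0c E L := by
      unfold C0c; norm_num
    rwa [e3] at h
  have hne : ∀ i, i ≤ k → ∀ j, j ∉ T → p i ≠ j := fun i hi j hj h => hj (h ▸ hpT i hi)
  obtain ⟨z', h1, h2, h3⟩ := cof_lower_of_chain B T hL (C0c_pos hL) k p hinj hpT
    (fun i hi => by
      have hne : p i ≠ p (i + 1) := by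
        intro h
        have := hinj i (by omega) (i + 1) (by omega) h
        omega
      rw [hB, Bp_off A Q E e hne, hlink i hi]; simp)
    (fun i hi j hj hij => by
      have hne : p i ≠ p j := by
        intro h
        have := hinj i hi j hj h
        omega
      rw [hB, Bp_off A Q E e hne, hfar i hi j hj hij]; simp)
    (fun i hi1 hik j hj => by
      rw [hB, Bp_off A Q E e (hne i hik j hj)]
      have : A (p i) j = 0 := by
        by_contra h
        exact hj (hint i hi1 hik j h)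
      rw [this]; simp)
    (fun i hi1 hik j hj => by
      rw [hB, Bp_off A Q E e (hne i hik j hj).symm]
      have : A (p i) j = 0 := by
        by_contra h
        exact hj (hint i hi1 hik j h)
      rw [← hA.apply j (p i), this]; simp)
    z z (fun _ _ => rfl) hchain
  refine ⟨fun i => z' i, fun i => ?_, ?_⟩
  · by_cases hi : (i : ι) ∈ T
    · exact h2 i hi
    · show ‖z' i‖ ≤ L
      rw [h1 i hi, hzQ i i.2]
      simp [abs_of_pos hL]
  · have e4 : (fil Q W0 fun i : Q => z' i) = z' := by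
      ext i
      by_cases hi : i ∈ Q
      · simp [fil, hi]
      · rw [h1 i (fun h => hi (hTQ h)), hzn i hi]
        simp [fil, hi]
    rw [e4, hx, hy]
    exact h3

/-! ### paths in the plane -/

/-- move from `a` towards `b` by `i` steps -/
def tw (a b i : ℕ) : ℕ := if a ≤ b then min (a + i) b else max (a - i) b

/-- distance -/
def dn (a b : ℕ) : ℕ := (a - b) + (b - a)

/-- the L-shaped path -/
def lp (a b : Loc) (i : ℕ) : Loc := (tw a.1 b.1 i, tw a.2 b.2 (i - dn a.1 b.1))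

theorem lp_zero (a b : Loc) : lp a b 0 = a := by
  ext <;> simp only [lp, tw, dn] <;> split_ifs <;> omega

theorem lp_end (a b : Loc) : lp a b (dn a.1 b.1 + dn a.2 b.2) = b := by
  ext <;> simp only [lp, tw, dn] <;> split_ifs <;> omega

theorem tw_dist (a b : ℕ) {i j : ℕ} (hij : i ≤ j) :
    dn (tw a b i) (tw a b j) = min j (dn a b) - min i (dn a b) := by
  simp only [tw, dn]
  split_ifs <;> omega

/-- distances along the path -/
theorem lp_dist (a b : Loc) {i j : ℕ} (hij : i ≤ j) (hj : j ≤ dn a.1 b.1 + dn a.2 b.2) :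
    dn (lp a b i).1 (lp a b j).1 + dn (lp a b i).2 (lp a b j).2 = j - i := by
  simp only [lp]
  rw [tw_dist a.1 b.1 hij, tw_dist a.2 b.2 (Nat.sub_le_sub_right hij _)]
  generalize dn a.1 b.1 = d1 at *
  generalize dn a.2 b.2 = d2 at *
  omega

theorem adj2_iff (a b : Loc) : adj2 a b ≠ 0 ↔ dn a.1 b.1 + dn a.2 b.2 = 1 := by
  unfold adj2 dn
  split_ifs with h
  · simp only [ne_eq, one_ne_zero, not_false_eq_true, true_iff]
    omega
  · simp only [ne_eq, not_true_eq_false, false_iff]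
    omega

theorem adj2_eq_one {a b : Loc} (h : dn a.1 b.1 + dn a.2 b.2 = 1) : adj2 a b = 1 := by
  have h1 := (adj2_iff a b).mpr h
  unfold adj2 at *
  split_ifs at * with h2
  · rfl
  · exact absurd rfl h1

theorem adj2_eq_zero {a b : Loc} (h : dn a.1 b.1 + dn a.2 b.2 ≠ 1) : adj2 a b = 0 := by
  by_contra h1
  exact h ((adj2_iff a b).mp h1)

theorem mem_blk {m : ℕ} {a : Loc} : a ∈ blk m ↔ a.1 < m ∧ a.2 < m := by
  simp [blk]

theorem mem_dep {m k : ℕ} {a : Loc} :
    a ∈ dep m k ↔ k ≤ a.1 ∧ a.1 + k < m ∧ k ≤ a.2 ∧ a.2 + k < m := by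
  simp only [dep, Finset.mem_filter, mem_blk]
  constructor
  · rintro ⟨-, h⟩; exact h
  · intro h; refine ⟨⟨by omega, by omega⟩, h⟩

theorem lp_mem_dep {m k : ℕ} {a b : Loc} (ha : a ∈ dep m k) (hb : b ∈ dep m k) (i : ℕ) :
    lp a b i ∈ dep m k := by
  rw [mem_dep] at *
  simp only [lp, tw, dn]
  split_ifs <;> omega

theorem dep_sub_blk (m k : ℕ) : dep m k ⊆ blk m := by
  intro a ha
  rw [mem_dep] at ha; rw [mem_blk]
  omega

theorem dep_mono {m k k' : ℕ} (h : k ≤ k') : dep m k' ⊆ dep m k := by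
  intro a ha
  rw [mem_dep] at *
  omega

/-- **Cofactor bound between two sites at depth two of a block.** -/
theorem cofLe_block {A : Matrix ι ι ℝ} (hG : Gph A) {m : ℕ} {φ : Loc → ι} (hφ : Emb A m φ)
    {E L : ℝ} (hL : 0 < L) {e : ι → ℝ} (he0 : ∀ i ∈ (blk m).image φ, 0 ≤ e i)
    (he1 : ∀ i ∈ (blk m).image φ, e i ≤ 1) {a b : Loc} (ha : a ∈ dep m 2) (hb : b ∈ dep m 2)
    (x y : ((blk m).image φ : Finset ι)) (hx : (x : ι) = φ a) (hy : (y : ι) = φ b) :
    CofLe A ((blk m).image φ) E e L (c2c E L ((dep m 1).card)) x y := by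
  set K := dn a.1 b.1 + dn a.2 b.2 with hK
  have hmem : ∀ i, lp a b i ∈ dep m 2 := fun i => lp_mem_dep ha hb i
  have hmem0 : ∀ i, lp a b i ∈ blk m := fun i => dep_sub_blk m 2 (hmem i)
  have hmem1 : ∀ i, lp a b i ∈ dep m 1 := fun i => dep_mono (by norm_num) (hmem i)
  have hTc : ((dep m 1).image φ).card = (dep m 1).card := by
    refine Finset.card_image_of_injOn ?_
    intro u hu v hv huv
    exact hφ.inj u (dep_sub_blk m 1 hu) v (dep_sub_blk m 1 hv) huv
  rw [← hTc]
  have hadj : ∀ i j, A (φ (lp a b i)) (φ (lp a b j)) = adj2 (lp a b i) (lp a b j) := fun i j =>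
    hφ.adj _ (hmem0 i) _ (hmem0 j)
  have hnb : ∀ c ∈ dep m 1, ∀ z, A (φ c) z ≠ 0 → ∃ d ∈ blk m, φ d = z ∧ adj2 c d ≠ 0 := by
    intro c hc z hz
    by_contra hcon
    push Not at hcon
    by_cases h : ∃ d ∈ blk m, φ d = z
    · obtain ⟨d, hd, rfl⟩ := h
      rw [hφ.adj c (dep_sub_blk m 1 hc) d hd] at hz
      exact hz (hcon d hd rfl)
    · push Not at h
      exact hz (hφ.ext c hc z h)
  refine cofLe_of_path hG.symm hG.zo hG.diag hG.deg (T := (dep m 1).image φ)
    (Finset.image_subset_image (dep_sub_blk m 1)) ?_ K (fun i => φ (lp a b i)) ?_ ?_ ?_ ?_ ?_ hL he0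
    he1 x y ?_ ?_
  · intro i hi j hj
    obtain ⟨c, hc, rfl⟩ := Finset.mem_image.mp hi
    obtain ⟨d, hd, hdz, -⟩ := hnb c hc j hj
    exact Finset.mem_image.mpr ⟨d, hd, hdz⟩
  · intro i hi j hj hij
    have h1 := hφ.inj _ (hmem0 i) _ (hmem0 j) hij
    rcases le_total i j with h | h
    · have h2 := lp_dist a b h (by rw [← hK]; exact hj)
      rw [h1] at h2
      simp only [dn] at h2
      omega
    · have h2 := lp_dist a b h (by rw [← hK]; exact hi)
      rw [h1] at h2
      simp only [dn] at h2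
      omega
  · intro i _
    exact Finset.mem_image.mpr ⟨_, hmem1 i, rfl⟩
  · intro i hi
    show A (φ (lp a b i)) (φ (lp a b (i + 1))) = 1
    rw [hadj]
    refine adj2_eq_one ?_
    rw [lp_dist a b (Nat.le_succ i) (by rw [← hK]; exact hi)]
    omega
  · intro i hi j hj hij
    show A (φ (lp a b i)) (φ (lp a b j)) = 0
    rcases hij with h | h
    · rw [hadj]
      refine adj2_eq_zero ?_
      rw [lp_dist a b (by omega) (by rw [← hK]; exact hj)]
      omega
    · rw [← hG.symm.apply, hadj]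
      refine adj2_eq_zero ?_
      rw [lp_dist a b (by omega) (by rw [← hK]; exact hi)]
      omega
  · intro i _ _ j hj
    obtain ⟨d, hd, hdz, hadj'⟩ := hnb _ (hmem1 i) j hj
    refine Finset.mem_image.mpr ⟨d, ?_, hdz⟩
    have h1 := (adj2_iff _ _).mp hadj'
    have h2 := hmem i
    rw [mem_dep] at h2 ⊢
    rw [mem_blk] at hd
    simp only [dn] at h1
    omega
  · simp only [lp_zero]; exact hx
  · show (y : ι) = φ (lp a b K)
    rw [hK, lp_end]; exact hy

end P365T1
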