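import Vale.Agent.P365.T1.Peel963
import Vale.Agent.P365.T1.BlkPath

/-!
# P365 T1: cofactor bound on the peeled window
-/

set_option autoImplicit false
set_option linter.all false

namespace P365T1

namespace Peel

open Finset P365L P365O P365T1.MAff

variable {ι : Type*} [Fintype ι] [DecidableEq ι]

/-- adjacency relation of a matrix -/
def rA (A : Matrix ι ι ℝ) (a b : ι) : Prop := A a b ≠ 0

theorem rA_symm {A : Matrix ι ι ℝ} (hA : A.IsSymm) (a b : ι) (h : rA A a b) : rA A b a := by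
  unfold rA at *
  rwa [hA.apply]

/-- **cofactor bound on the peeled window**: from every site `z` of the 1-neighbourhood `Ic` of the
component of `y` (in particular from every non-good site of `Qc`), for every exterior -/
theorem cofLe_Ic {A : Matrix ι ι ℝ} (hA : A.IsSymm) (h01 : ∀ i j, A i j = 0 ∨ A i j = 1)
    (hdiag : ∀ i, A i i = 0) (hdeg : ∀ i, ∑ j, A i j ≤ 4) {Q0 S : Finset ι} {y : ι} {E L : ℝ}
    (hL : 0 < L) {e : ι → ℝ} (he0 : ∀ i ∈ Qc (rA A) Q0 S y, 0 ≤ e i)
    (he1 : ∀ i ∈ Qc (rA A) Q0 S y, e i ≤ 1) (z y' : Qc (rA A) Q0 S y)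
    (hz : (z : ι) ∈ Ic (rA A) Q0 S y) (hy' : (y' : ι) = y) :
    CofLe A (Qc (rA A) Q0 S y) E e L (c2c E L (Ic (rA A) Q0 S y).card) z y' := by
  obtain ⟨k, p, hp0, hpk, hinj, hlink, hchord, hI, hK⟩ := exists_path (rA_symm hA) hz
  have hone : ∀ i j, rA A i j → A i j = 1 := fun i j h => (h01 i j).resolve_left h
  refine cofLe_of_path hA h01 hdiag hdeg (Ic_sub_Qc y) (fun i hi j hij => nb_Ic hi hij) k p hinj
    hI (fun i hi => hone _ _ (hlink i hi)) (fun i hi j hj hij => ?_)
    (fun i hi1 hi j hij => nb_Kc (hK i hi1 hi) hij) hL he0 he1 z y' hp0.symm (hy'.trans hpk.symm)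
  by_contra h
  exact hchord i hi j hj hij h

end Peel

end P365T1
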