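import Vale.Agent.P365.T1.PatchF
import Vale.Agent.P365.C937.Switch

/-!
# P365-T1: far forms with a killed set, additive terms

`Tk e0 B f fo` : the linear map `v ↦ (a ↦ √(e0 a) |f a - fo| v a)`, killed on `B`.  Only the values
of `e0` off `B` enter, so one map serves all worlds whose profiles agree off `B`.

* `lint_Yf_le` : `∫ Yf ≤ 2 ∫ Yv (Tk ..) + 2 m² (1 + e x)`
* `lint_GV_le` : `∫ ‖GV (Tk ..) z‖² ≤ 2 ∫ Mf z + 2 m² π D`
* `lint_mm_le` : `∫ mm z ≤ π D`.
-/

set_option autoImplicit false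
set_option linter.all false

open MeasureTheory Finset Function Matrix Complex P365L P365O
open scoped ENNReal

namespace P365T1

open P365T1.OneVar

variable {ι : Type*} [Fintype ι] [DecidableEq ι] {A : Matrix ι ι ℝ}

/-- the linear map of the far energy: weights `e0`, base value `fo`, killed on `B` -/
noncomputable def Tk (e0 : ι → ℝ) (B : Finset ι) (f : ι → ℝ) (fo : ℝ) :
    (ι → ℂ) →ₗ[ℂ] EuclideanSpace ℂ ι where
  toFun v := WithLp.toLp 2 fun a => if a ∈ B then 0 else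
    ((Real.sqrt (e0 a) * |f a - fo| : ℝ) : ℂ) * v a
  map_add' u v := by
    ext a
    by_cases h : a ∈ B <;> simp [h, mul_add]
  map_smul' c v := by
    ext a
    by_cases h : a ∈ B
    · simp [h]
    · simp [h]; ring

/-- the map sees the weights off `B` only -/
theorem Tk_congr {e0 e1 : ι → ℝ} {B : Finset ι} (h : ∀ a ∉ B, e0 a = e1 a) (f : ι → ℝ) (fo : ℝ) :
    Tk e0 B f fo = Tk e1 B f fo := by
  ext v a
  simp only [Tk, LinearMap.coe_mk, AddHom.coe_mk]
  by_cases ha : a ∈ B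
  · simp [ha]
  · simp [ha, h a ha]

theorem norm_Tk_sq {e0 : ι → ℝ} {B : Finset ι} (h0 : ∀ i ∉ B, 0 ≤ e0 i) (f : ι → ℝ)
    (fo : ℝ) (v : ι → ℂ) : ‖Tk e0 B f fo v‖ ^ 2 =
      ∑ a ∈ Bᶜ, e0 a * ‖v a‖ ^ 2 * (f a - fo) ^ 2 := by
  rw [EuclideanSpace.norm_sq_eq]
  rw [← Finset.sum_subset (Finset.subset_univ Bᶜ)]
  · refine Finset.sum_congr rfl fun a ha => ?_
    have haB : a ∉ B := Finset.mem_compl.mp ha
    have h1 : (Tk e0 B f fo v) a = ((Real.sqrt (e0 a) * |f a - fo| : ℝ) : ℂ) * v a := by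
      simp [Tk, haB]
    rw [h1, norm_mul, mul_pow, Complex.norm_real, Real.norm_eq_abs, sq_abs, mul_pow,
      Real.sq_sqrt (h0 a haB), sq_abs]
    ring
  · intro a _ ha
    have haB : a ∈ B := by
      by_contra h
      exact ha (Finset.mem_compl.mpr h)
    simp [Tk, haB]

variable {E : ℝ} {e e0 : ι → ℝ} {B : Finset ι}

/-- the far energy density in the world `(v, e)` -/
theorem norm_GV_Tk_sq (he : ∀ i, 0 < e i) (hB : ∀ i ∉ B, e0 i = e i) (f : ι → ℝ) (fo : ℝ)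
    (v : ι → ℝ) (z : ι) :
    ‖GV A (WV E e v) (Tk e0 B f fo) z‖ ^ 2 = Mfar A (WV E e v) f B fo z := by
  unfold OneVar.GV
  rw [norm_Tk_sq (fun i hi => by rw [hB i hi]; exact (he i).le), Mfar]
  refine Finset.sum_congr rfl fun a ha => ?_
  rw [hB a (Finset.mem_compl.mp ha), WV_im, neg_neg, KK]

/-- the far off-resonant energy in the world `(v, e)` -/
theorem Yv_Tk (he : ∀ i, 0 < e i) (hB : ∀ i ∉ B, e0 i = e i) (f : ι → ℝ) (fo : ℝ)
    (v : ι → ℝ) (z : ι) :
    Yv A (WV E e v) (Tk e0 B f fo) z =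
      Nfar A (WV E e v) f B fo z / (1 + ‖sg A (WV E e v) z‖ ^ 2) := by
  unfold Yv
  congr 1
  rw [norm_Tk_sq (fun i hi => by rw [hB i hi]; exact (he i).le), Nfar]
  refine Finset.sum_congr rfl fun a ha => ?_
  rw [hB a (Finset.mem_compl.mp ha), WV_im, neg_neg]

/-- pointwise: energy by far energy plus an additive term -/
theorem Yf_le_Yv (hA : A.IsSymm) (he : ∀ i, 0 < e i) (hB : ∀ i ∉ B, e0 i = e i) {f : ι → ℝ}
    {fo m : ℝ} {x : ι} (hx : |fo - f x| ≤ m) (hm : ∀ z ∈ B, |f z - f x| ≤ m) (v : ι → ℝ) :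
    Yf A (WV E e v) f x ≤ 2 * Yv A (WV E e v) (Tk e0 B f fo) x + 2 * m ^ 2 * (1 + e x) := by
  have h := Y_le_far hA (WV_im_neg (E := E) he v) hx hm
  rw [WV_im, neg_neg] at h
  rw [Yv_Tk he hB]
  exact h

/-- pointwise: far energy density by the energy density plus an additive term -/
theorem GV_Tk_le (hA : A.IsSymm) (he : ∀ i, 0 < e i) (hB : ∀ i ∉ B, e0 i = e i) {f : ι → ℝ}
    {fo m : ℝ} {z : ι} (hz : |fo - f z| ≤ m) (v : ι → ℝ) :
    ‖GV A (WV E e v) (Tk e0 B f fo) z‖ ^ 2 ≤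
      2 * Mf A (WV E e v) f z + 2 * m ^ 2 * mm A (WV E e v) z := by
  rw [norm_GV_Tk_sq he hB]
  exact Mfar_le hA (WV_im_neg he v) hz

theorem measurable_mm (z : ι) : Measurable fun W : ι → ℂ => mm A W z := by
  unfold mm
  exact Complex.measurable_im.comp (measurable_Gr_id z z)

/-- kernel bound: `q / ((u - p)² + q²)` against a law with density at most `D` -/
theorem poisson_le {ν : Measure ℝ} {D : ℝ} (hD : DensLe D ν) (p : ℝ) {q : ℝ} (hq0 : 0 < q) :
    ∫⁻ u, ENNReal.ofReal (q / ((u - p) ^ 2 + q ^ 2)) ∂ν ≤ ENNReal.ofReal (Real.pi * D) := by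
  have h3 : ∀ u : ℝ, q / ((u - p) ^ 2 + q ^ 2) = q⁻¹ * (1 + ((u - p) / q) ^ 2)⁻¹ := fun u => by
    field_simp
    ring
  have hI : Integrable fun u : ℝ => q⁻¹ * (1 + ((u - p) / q) ^ 2)⁻¹ := by
    have h4 := (integrable_inv_one_add_sq.comp_div hq0.ne').comp_sub_right p
    exact h4.const_mul _
  have hval : ∫ u : ℝ, q⁻¹ * (1 + ((u - p) / q) ^ 2)⁻¹ = Real.pi := by
    rw [integral_const_mul, integral_sub_right_eq_self (fun u : ℝ => (1 + (u / q) ^ 2)⁻¹) p,
      Measure.integral_comp_div (fun u : ℝ => (1 + u ^ 2)⁻¹) q, integral_univ_inv_one_add_sq,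
      smul_eq_mul, abs_of_pos hq0]
    field_simp
  calc ∫⁻ u, ENNReal.ofReal (q / ((u - p) ^ 2 + q ^ 2)) ∂ν
      = ∫⁻ u, ENNReal.ofReal (q⁻¹ * (1 + ((u - p) / q) ^ 2)⁻¹) ∂ν :=
        lintegral_congr fun u => by rw [h3]
    _ ≤ ∫⁻ u, ENNReal.ofReal (q⁻¹ * (1 + ((u - p) / q) ^ 2)⁻¹)
          ∂(ENNReal.ofReal D • (volume : Measure ℝ)) := lintegral_mono' hD le_rfl
    _ = ENNReal.ofReal D * ENNReal.ofReal Real.pi := by
        rw [lintegral_smul_measure, smul_eq_mul, ← hval,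
          ofReal_integral_eq_lintegral_ofReal hI (Filter.Eventually.of_forall fun u => by positivity)]
    _ = ENNReal.ofReal (Real.pi * D) := by
        rw [mul_comm, ← ENNReal.ofReal_mul Real.pi_pos.le]

/-- `∫ Im G_zz ≤ π D` over the law of the site `z`, everything else frozen -/
theorem lint_mm_site (hA : A.IsSymm) (he : ∀ i, 0 < e i) (v : ι → ℝ) (z : ι) {ν : Measure ℝ}
    {D : ℝ} (hD : DensLe D ν) :
    ∫⁻ u, ENNReal.ofReal (mm A (WV E e (update v z u)) z) ∂ν ≤ ENNReal.ofReal (Real.pi * D) := by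
  have hW := WV_im_neg (E := E) he v
  set s : ℂ := sg A (WV E e v) z with hs
  have hs0 : 0 ≤ s.im := sg_im_nonneg hA hW z
  have key : ∀ u : ℝ, mm A (WV E e (update v z u)) z =
      (e z + s.im) / ((u - (E + s.re)) ^ 2 + (e z + s.im) ^ 2) := by
    intro u
    have h1 : WV E e (update v z u) =
        update (WV E e v) z ((((u - E : ℝ) : ℂ)) - (e z : ℂ) * Complex.I) := by
      ext i
      by_cases hi : i = z
      · subst hi; simp [WV]
      · simp [WV, hi]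
    have hw : ((((u - E : ℝ) : ℂ)) - (e z : ℂ) * Complex.I).im < 0 := by
      have := he z
      simp
      exact this
    rw [mm, h1, Gr_zz_upd hA hW hw, ← hs, Complex.inv_im, Complex.normSq_apply]
    simp only [Complex.sub_im, Complex.ofReal_im, Complex.mul_im, Complex.ofReal_re,
      Complex.I_im, Complex.I_re, Complex.sub_re, Complex.mul_re]
    congr 1
    · ring
    · ring
  simp_rw [key]
  exact poisson_le hD _ (by linarith [he z])

/-- **`∫ Im G_zz ≤ π D`** under the product law -/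
theorem lint_mm_le (hA : A.IsSymm) (he : ∀ i, 0 < e i) (ν : ι → Measure ℝ)
    [∀ i, IsProbabilityMeasure (ν i)] (z : ι) {D : ℝ} (hD : DensLe D (ν z)) :
    ∫⁻ v, ENNReal.ofReal (mm A (WV E e v) z) ∂(Measure.pi ν) ≤ ENNReal.ofReal (Real.pi * D) := by
  set F : (ι → ℝ) → ℝ≥0∞ := fun v => ENNReal.ofReal (mm A (WV E e v) z) with hF
  have hFm : Measurable F := ((measurable_mm z).comp (measurable_WV E e)).ennreal_ofReal
  calc ∫⁻ v, F v ∂(Measure.pi ν) = ∫⁻ v, (∫⋯∫⁻_{z}, F ∂ν) v ∂(Measure.pi ν) :=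
        (lintegral_lmarginal ν {z} hFm).symm
    _ ≤ ∫⁻ v, ENNReal.ofReal (Real.pi * D) ∂(Measure.pi ν) := by
        refine lintegral_mono fun v => ?_
        rw [lmarginal_singleton]
        exact lint_mm_site hA he v z hD
    _ = _ := by rw [lintegral_const, measure_univ, mul_one]

/-- **(1)** -/
theorem lint_Yf_le (hA : A.IsSymm) (he : ∀ i, 0 < e i) (hB : ∀ i ∉ B, e0 i = e i) (ν : ι → Measure ℝ)
    [∀ i, IsProbabilityMeasure (ν i)] {f : ι → ℝ} {fo m : ℝ} {x : ι} (hx : |fo - f x| ≤ m)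
    (hm : ∀ z ∈ B, |f z - f x| ≤ m) :
    ∫⁻ v, ENNReal.ofReal (Yf A (WV E e v) f x) ∂(Measure.pi ν) ≤
      2 * ∫⁻ v, ENNReal.ofReal (Yv A (WV E e v) (Tk e0 B f fo) x) ∂(Measure.pi ν) +
        ENNReal.ofReal (2 * m ^ 2 * (1 + e x)) := by
  have hex := he x
  calc ∫⁻ v, ENNReal.ofReal (Yf A (WV E e v) f x) ∂(Measure.pi ν)
      ≤ ∫⁻ v, (2 * ENNReal.ofReal (Yv A (WV E e v) (Tk e0 B f fo) x) +
          ENNReal.ofReal (2 * m ^ 2 * (1 + e x))) ∂(Measure.pi ν) := by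
        refine lintegral_mono fun v => ?_
        have h0 : 0 ≤ Yv A (WV E e v) (Tk e0 B f fo) x := by unfold Yv; positivity
        have h2 : 2 * ENNReal.ofReal (Yv A (WV E e v) (Tk e0 B f fo) x) =
            ENNReal.ofReal (2 * Yv A (WV E e v) (Tk e0 B f fo) x) := by
          rw [ENNReal.ofReal_mul (by norm_num), ENNReal.ofReal_ofNat]
        rw [h2, ← ENNReal.ofReal_add (by positivity) (by positivity)]
        exact ENNReal.ofReal_le_ofReal (Yf_le_Yv hA he hB hx hm v)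
    _ = _ := by
        rw [lintegral_add_right _ measurable_const, lintegral_const_mul' _ _ (by norm_num),
          lintegral_const, measure_univ, mul_one]

/-- **(2)** -/
theorem lint_GV_le (hA : A.IsSymm) (he : ∀ i, 0 < e i) (hB : ∀ i ∉ B, e0 i = e i) (ν : ι → Measure ℝ)
    [∀ i, IsProbabilityMeasure (ν i)] {f : ι → ℝ} {fo m : ℝ} {z : ι} (hz : |fo - f z| ≤ m) {D : ℝ}
    (hD : DensLe D (ν z)) :
    ∫⁻ v, ENNReal.ofReal (‖GV A (WV E e v) (Tk e0 B f fo) z‖ ^ 2) ∂(Measure.pi ν) ≤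
      2 * ∫⁻ v, ENNReal.ofReal (Mf A (WV E e v) f z) ∂(Measure.pi ν) +
        ENNReal.ofReal (2 * m ^ 2 * (Real.pi * D)) := by
  calc ∫⁻ v, ENNReal.ofReal (‖GV A (WV E e v) (Tk e0 B f fo) z‖ ^ 2) ∂(Measure.pi ν)
      ≤ ∫⁻ v, (2 * ENNReal.ofReal (Mf A (WV E e v) f z) +
          ENNReal.ofReal (2 * m ^ 2) * ENNReal.ofReal (mm A (WV E e v) z)) ∂(Measure.pi ν) := by
        refine lintegral_mono fun v => ?_
        have hW := WV_im_neg (E := E) he v
        have h0 : 0 ≤ Mf A (WV E e v) f z := Mf_nonneg hW f z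
        have h1 : 0 ≤ mm A (WV E e v) z := (mm_pos hA hW z).le
        have h2 : 2 * ENNReal.ofReal (Mf A (WV E e v) f z) =
            ENNReal.ofReal (2 * Mf A (WV E e v) f z) := by
          rw [ENNReal.ofReal_mul (by norm_num), ENNReal.ofReal_ofNat]
        rw [h2, ← ENNReal.ofReal_mul (by positivity),
          ← ENNReal.ofReal_add (by positivity) (by positivity)]
        exact ENNReal.ofReal_le_ofReal (GV_Tk_le hA he hB hz v)
    _ = 2 * ∫⁻ v, ENNReal.ofReal (Mf A (WV E e v) f z) ∂(Measure.pi ν) +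
          ENNReal.ofReal (2 * m ^ 2) * ∫⁻ v, ENNReal.ofReal (mm A (WV E e v) z) ∂(Measure.pi ν) := by
        have hm1 : Measurable fun v : ι → ℝ =>
            ENNReal.ofReal (2 * m ^ 2) * ENNReal.ofReal (mm A (WV E e v) z) :=
          ((measurable_mm (A := A) z).comp (measurable_WV E e)).ennreal_ofReal.const_mul _
        rw [lintegral_add_right _ hm1,
          lintegral_const_mul' _ _ (by norm_num), lintegral_const_mul' _ _ ENNReal.ofReal_ne_top]
    _ ≤ 2 * ∫⁻ v, ENNReal.ofReal (Mf A (WV E e v) f z) ∂(Measure.pi ν) +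
          ENNReal.ofReal (2 * m ^ 2) * ENNReal.ofReal (Real.pi * D) := by
        gcongr
        exact lint_mm_le hA he ν z hD
    _ = _ := by rw [← ENNReal.ofReal_mul (by positivity)]

/-- the same for the off-resonant energy on the left (`w` : laws on `[-L, L]`): `Yv ≤ c ‖GV‖²` is
`Yv_le_GV`; far energy of the same site, in terms of `Yf` -/
theorem Yv_le_Yf (hA : A.IsSymm) (he : ∀ i, 0 < e i) (hB : ∀ i ∉ B, e0 i = e i) {f : ι → ℝ}
    {fo m : ℝ} {x : ι} (hx : |fo - f x| ≤ m) (v : ι → ℝ) :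
    Yv A (WV E e v) (Tk e0 B f fo) x ≤ 2 * Yf A (WV E e v) f x + 2 * m ^ 2 * (1 + e x) := by
  have hW := WV_im_neg (E := E) he v
  rw [Yv_Tk he hB]
  have h1 := far_le_Nf (A := A) (B := B) hW hx
  have h3 : 0 < 1 + ‖sg A (WV E e v) x‖ ^ 2 := by positivity
  have h4 := Sf_div_le hA hW x
  rw [WV_im, neg_neg] at h4
  unfold Yf
  calc Nfar A (WV E e v) f B fo x / (1 + ‖sg A (WV E e v) x‖ ^ 2)
      ≤ (2 * Nf A (WV E e v) f x + 2 * m ^ 2 * Sf A (WV E e v) x) /
          (1 + ‖sg A (WV E e v) x‖ ^ 2) := by gcongr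
    _ = 2 * (Nf A (WV E e v) f x / (1 + ‖sg A (WV E e v) x‖ ^ 2))
          + 2 * m ^ 2 * (Sf A (WV E e v) x / (1 + ‖sg A (WV E e v) x‖ ^ 2)) := by ring
    _ ≤ _ := by
        have : 0 ≤ 2 * m ^ 2 := by positivity
        nlinarith [mul_le_mul_of_nonneg_left h4 this]

/-! ### torus form -/

/-- oscillation of the four functions on a set of diameter `m` -/
theorem phi_osc {N : ℕ} [NeZero N] (k : Fin 4) {x z : Tor N} {m : ℕ} (h : nrm (z - x) ≤ m) :
    |phi N k z - phi N k x| ≤ (m : ℝ) :=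
  (phi_lip k z x).trans (by exact_mod_cast h)

end P365T1
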