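import Vale.Agent.P365.T1a.Cost
import Vale.Agent.P365.T1a.Mix

/-!
# P365 T1: the one-variable event lemma.

For two sites `z ≠ j` whose potentials are independent with regular laws (`GLaw`), everything else
fixed: `ρ_j(v) * Y_z(V_j = v) ≤ C E_{V_z, V_j} [M_z + M_j]` for EVERY real `v`, where `Y_z` is the
off-resonant energy of `z`.  Hence `E[Y_z ; V_j ∈ J] ≤ C |J| E[M_z + M_j]`.

The energies are `‖T (G_x·)‖²` for an arbitrary linear map `T` into a normed space.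
-/

set_option linter.all false

namespace P365T1

open P365L P365O Matrix Complex MeasureTheory P365T1.Bump
open scoped ComplexConjugate ENNReal

namespace OneVar

/-- regular laws -/
structure GLaw (ν : Measure ℝ) (ρ : ℝ → ℝ) (L δ m κ₀ R η₀ : ℝ) : Prop where
  hL : 0 ≤ L
  hδ : 0 < δ
  hm : 0 < m
  hκ : 0 < κ₀
  hR : 0 < R
  hη : 0 < η₀
  dens : ν = volume.withDensity fun v => ENNReal.ofReal (ρ v)
  meas : Measurable ρ
  nonneg : ∀ v, 0 ≤ ρ v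
  le : ∀ v, ρ v ≤ R
  supp : ∀ v, L < |v| → ρ v = 0
  spread : ∃ I₁ I₂ : Set ℝ, MeasurableSet I₁ ∧ MeasurableSet I₂ ∧
    ENNReal.ofReal m ≤ ν I₁ ∧ ENNReal.ofReal m ≤ ν I₂ ∧ (∀ u ∈ I₁, |u| ≤ L) ∧
    (∀ u ∈ I₂, |u| ≤ L) ∧ ∀ u₁ ∈ I₁, ∀ u₂ ∈ I₂, δ ≤ |u₁ - u₂|
  loc : ∀ v η, 0 < η → η ≤ η₀ → ENNReal.ofReal (κ₀ * ρ v * η) ≤ ν (Set.Icc (v - η) (v + η))

section Abstract

variable {F : Type*} [NormedAddCommGroup F] [NormedSpace ℂ F]

theorem interp (α B : F) (g s w₀ w₁ w₂ : ℂ) (h0 : w₀ - s ≠ 0) (h1 : w₁ - s ≠ 0)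
    (h2 : w₂ - s ≠ 0) (h12 : w₁ - w₂ ≠ 0) :
    α + (g * (w₀ - s)⁻¹) • B =
      (((w₀ - w₂) / (w₁ - w₂)) * ((w₁ - s) / (w₀ - s))) • (α + (g * (w₁ - s)⁻¹) • B) +
      (((w₀ - w₁) / (w₂ - w₁)) * ((w₂ - s) / (w₀ - s))) • (α + (g * (w₂ - s)⁻¹) • B) := by
  have h21 : w₂ - w₁ ≠ 0 := by
    intro h
    apply h12
    rw [← neg_sub, h, neg_zero]
  have e1 : ((w₀ - w₂) / (w₁ - w₂)) * ((w₁ - s) / (w₀ - s)) +
      ((w₀ - w₁) / (w₂ - w₁)) * ((w₂ - s) / (w₀ - s)) = 1 := by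
    rw [← neg_sub w₁ w₂] at *
    field_simp
    ring
  have e2 : ((w₀ - w₂) / (w₁ - w₂)) * ((w₁ - s) / (w₀ - s)) * (g * (w₁ - s)⁻¹) +
      ((w₀ - w₁) / (w₂ - w₁)) * ((w₂ - s) / (w₀ - s)) * (g * (w₂ - s)⁻¹) =
      g * (w₀ - s)⁻¹ := by
    rw [← neg_sub w₁ w₂] at *
    field_simp
    ring
  rw [smul_add, smul_add, smul_smul, smul_smul, add_add_add_comm, ← add_smul, ← add_smul, e1, e2,
    one_smul]

theorem interp_const (α B : F) (g s w₁ w₂ : ℂ) (h1 : w₁ - s ≠ 0)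
    (h2 : w₂ - s ≠ 0) (h12 : w₁ - w₂ ≠ 0) :
    α = ((w₁ - s) / (w₁ - w₂)) • (α + (g * (w₁ - s)⁻¹) • B) -
      ((w₂ - s) / (w₁ - w₂)) • (α + (g * (w₂ - s)⁻¹) • B) := by
  have e1 : (w₁ - s) / (w₁ - w₂) - (w₂ - s) / (w₁ - w₂) = 1 := by
    field_simp
    ring
  have e2 : (w₁ - s) / (w₁ - w₂) * (g * (w₁ - s)⁻¹) -
      (w₂ - s) / (w₁ - w₂) * (g * (w₂ - s)⁻¹) = 0 := by
    field_simp
    ring
  rw [smul_add, smul_add, smul_smul, smul_smul, add_sub_add_comm, ← sub_smul, ← sub_smul, e1, e2,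
    one_smul, zero_smul, add_zero]

/-- lower mass bound -/
theorem mass_lower {ν : Measure ℝ} {I : Set ℝ} (hI : MeasurableSet I) {m : ℝ}
    (hm : ENNReal.ofReal m ≤ ν I) {X c : ℝ} (hX : 0 ≤ X) (hm0 : 0 ≤ m) (hc : 0 ≤ c) {f : ℝ → ℝ}
    (h : ∀ u ∈ I, X ≤ c * f u) :
    ENNReal.ofReal (m * X) ≤ ENNReal.ofReal c * ∫⁻ u, ENNReal.ofReal (f u) ∂ν := by
  calc ENNReal.ofReal (m * X) = ENNReal.ofReal X * ENNReal.ofReal m := by
        rw [mul_comm, ENNReal.ofReal_mul hX]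
    _ ≤ ENNReal.ofReal X * ν I := by gcongr
    _ = ∫⁻ u in I, ENNReal.ofReal X ∂ν := by
        rw [setLIntegral_const]
    _ ≤ ∫⁻ u in I, ENNReal.ofReal c * ENNReal.ofReal (f u) ∂ν := by
        refine setLIntegral_mono' hI fun u hu => ?_
        rw [← ENNReal.ofReal_mul hc]
        exact ENNReal.ofReal_le_ofReal (h u hu)
    _ ≤ ∫⁻ u, ENNReal.ofReal c * ENNReal.ofReal (f u) ∂ν := setLIntegral_le_lintegral _ _
    _ = ENNReal.ofReal c * ∫⁻ u, ENNReal.ofReal (f u) ∂ν :=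
        lintegral_const_mul' _ _ ENNReal.ofReal_ne_top

/-- two-point bounds integrate -/
theorem two_points {ν : Measure ℝ} {ρ : ℝ → ℝ} {L δ m κ₀ R η₀ : ℝ}
    (G : GLaw ν ρ L δ m κ₀ R η₀) {X c : ℝ} (hX : 0 ≤ X) (hc : 0 ≤ c) {f : ℝ → ℝ}
    (h : ∀ u₁ u₂ : ℝ, |u₁| ≤ L → |u₂| ≤ L → δ ≤ |u₁ - u₂| → X ≤ c * (f u₁ + f u₂)) :
    ENNReal.ofReal X ≤ ENNReal.ofReal (2 * c / m) * ∫⁻ u, ENNReal.ofReal (f u) ∂ν := by
  have hm := G.hm
  obtain ⟨I₁, I₂, m1, m2, h1, h2, b1, b2, hd⟩ := G.spread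
  have key : ENNReal.ofReal (m * X) ≤
      ENNReal.ofReal (2 * c) * ∫⁻ u, ENNReal.ofReal (f u) ∂ν := by
    by_cases hA : ∀ u ∈ I₁, X ≤ 2 * c * f u
    · exact mass_lower m1 h1 hX hm.le (by positivity) hA
    · push Not at hA
      obtain ⟨u₁, hu₁, h3⟩ := hA
      refine mass_lower m2 h2 hX hm.le (by positivity) fun u₂ hu₂ => ?_
      have h4 := h u₁ u₂ (b1 _ hu₁) (b2 _ hu₂) (hd _ hu₁ _ hu₂)
      linarith
  have e : X = (m * X) / m := by field_simp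
  rw [e, ENNReal.ofReal_div_of_pos hm, ENNReal.ofReal_div_of_pos hm, ENNReal.div_eq_inv_mul,
    ENNReal.div_eq_inv_mul, mul_assoc]
  gcongr

/-- **from the point `-i` back to the real average** -/
theorem real_avg {ν : Measure ℝ} {ρ : ℝ → ℝ} {L δ m κ₀ R η₀ : ℝ}
    (G : GLaw ν ρ L δ m κ₀ R η₀) (α B : F) (g : ℂ) {s : ℂ} (hs : 0 ≤ s.im) {t : ℝ}
    (ht : t < 0) (ht1 : -1 ≤ t) :
    ENNReal.ofReal (‖α + (g * (-I - s)⁻¹) • B‖ ^ 2) ≤
      ENNReal.ofReal (4 * ((L + 1) * (L + 2) / δ) ^ 2 / m) *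
        ∫⁻ u, ENNReal.ofReal (‖α + (g * (((u : ℝ) : ℂ) + (t : ℂ) * I - s)⁻¹) • B‖ ^ 2) ∂ν := by
  have hL := G.hL
  have hδ := G.hδ
  set K : ℝ := (L + 1) * (L + 2) / δ with hK
  have hK0 : 0 ≤ K := by positivity
  have e : 4 * K ^ 2 / m = 2 * (2 * K ^ 2) / m := by ring
  rw [e]
  refine two_points G (f := fun u : ℝ => ‖α + (g * (((u : ℝ) : ℂ) + (t : ℂ) * I - s)⁻¹) • B‖ ^ 2)
    (sq_nonneg _) (by positivity) fun u₁ u₂ hu₁ hu₂ h12 => ?_
  have hw0n : 1 ≤ ‖-I - s‖ := by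
    have h := Complex.abs_im_le_norm (-I - s)
    simp only [sub_im, neg_im, I_im] at h
    have h2 : (1 : ℝ) ≤ |-1 - s.im| := by
      rw [abs_of_nonpos (by linarith)]
      linarith
    linarith
  have hw0 : -I - s ≠ 0 := by
    rw [← norm_pos_iff]
    linarith
  have hne : ∀ u : ℝ, (u : ℂ) + (t : ℂ) * I - s ≠ 0 := by
    intro u h
    have := congrArg Complex.im h
    simp at this
    linarith
  have h12' : ((u₁ : ℂ) + (t : ℂ) * I) - ((u₂ : ℂ) + (t : ℂ) * I) ≠ 0 := by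
    have : ((u₁ : ℂ) + (t : ℂ) * I) - ((u₂ : ℂ) + (t : ℂ) * I) = ((u₁ - u₂ : ℝ) : ℂ) := by
      push_cast
      ring
    rw [this, Ne, Complex.ofReal_eq_zero]
    intro h0
    rw [h0, abs_zero] at h12
    linarith
  have hn12 : ‖((u₁ : ℂ) + (t : ℂ) * I) - ((u₂ : ℂ) + (t : ℂ) * I)‖ = |u₁ - u₂| := by
    have : ((u₁ : ℂ) + (t : ℂ) * I) - ((u₂ : ℂ) + (t : ℂ) * I) = ((u₁ - u₂ : ℝ) : ℂ) := by
      push_cast
      ring
    rw [this, Complex.norm_real, Real.norm_eq_abs]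
  have hn21 : ‖((u₂ : ℂ) + (t : ℂ) * I) - ((u₁ : ℂ) + (t : ℂ) * I)‖ = |u₁ - u₂| := by
    rw [norm_sub_rev, hn12]
  have hd : ∀ u : ℝ, |u| ≤ L → ‖-I - ((u : ℂ) + (t : ℂ) * I)‖ ≤ L + 1 := by
    intro u hu
    have e1 : -I - ((u : ℂ) + (t : ℂ) * I) = -((u : ℝ) : ℂ) + ((-(1 + t) : ℝ) : ℂ) * I := by
      push_cast
      ring
    rw [e1]
    refine (norm_add_le _ _).trans ?_
    rw [norm_neg, norm_mul, Complex.norm_real, Complex.norm_real, norm_I, Real.norm_eq_abs,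
      Real.norm_eq_abs, abs_neg, abs_of_nonneg (by linarith : 0 ≤ 1 + t)]
    linarith
  have hr : ∀ u : ℝ, |u| ≤ L → ‖(u : ℂ) + (t : ℂ) * I - s‖ / ‖-I - s‖ ≤ L + 2 := by
    intro u hu
    rw [div_le_iff₀ (by linarith)]
    have h3 : (u : ℂ) + (t : ℂ) * I - s = (-I - s) - (-I - ((u : ℂ) + (t : ℂ) * I)) := by ring
    rw [h3]
    refine (norm_sub_le _ _).trans ?_
    have h4 := hd u hu
    nlinarith
  have hc : ∀ u v : ℝ, |u| ≤ L → |v| ≤ L →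
      ‖((-I - ((v : ℂ) + (t : ℂ) * I)) / (((u : ℂ) + (t : ℂ) * I) - ((v : ℂ) + (t : ℂ) * I))) *
        (((u : ℂ) + (t : ℂ) * I - s) / (-I - s))‖ ≤ (L + 1) / |u - v| * (L + 2) := by
    intro u v hu hv
    have e2 : ((u : ℂ) + (t : ℂ) * I) - ((v : ℂ) + (t : ℂ) * I) = ((u - v : ℝ) : ℂ) := by
      push_cast
      ring
    rw [norm_mul, norm_div, norm_div, e2, Complex.norm_real, Real.norm_eq_abs]
    gcongr
    · exact hd v hv
    · exact hr u hu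
  rw [interp α B g s (-I) ((u₁ : ℂ) + (t : ℂ) * I) ((u₂ : ℂ) + (t : ℂ) * I) hw0 (hne u₁) (hne u₂)
    h12']
  set h₁ := α + (g * ((u₁ : ℂ) + (t : ℂ) * I - s)⁻¹) • B
  set h₂ := α + (g * ((u₂ : ℂ) + (t : ℂ) * I - s)⁻¹) • B
  have hb1 := hc u₁ u₂ hu₁ hu₂
  have hb2 := hc u₂ u₁ hu₂ hu₁
  have hq : ∀ u v : ℝ, δ ≤ |u - v| → (L + 1) / |u - v| * (L + 2) ≤ K := by
    intro u v huv
    rw [hK, mul_div_right_comm]
    gcongr
  have hq1 := hb1.trans (hq _ _ h12)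
  have hq2 := hb2.trans (hq _ _ (by rwa [abs_sub_comm]))
  have hn : ‖(((-I - ((u₂ : ℂ) + (t : ℂ) * I)) /
      (((u₁ : ℂ) + (t : ℂ) * I) - ((u₂ : ℂ) + (t : ℂ) * I))) *
        (((u₁ : ℂ) + (t : ℂ) * I - s) / (-I - s))) • h₁ +
      (((-I - ((u₁ : ℂ) + (t : ℂ) * I)) /
      (((u₂ : ℂ) + (t : ℂ) * I) - ((u₁ : ℂ) + (t : ℂ) * I))) *
        (((u₂ : ℂ) + (t : ℂ) * I - s) / (-I - s))) • h₂‖ ≤ K * (‖h₁‖ + ‖h₂‖) := by
    refine (norm_add_le _ _).trans ?_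
    rw [norm_smul, norm_smul, mul_add]
    gcongr
  have hK2 : 0 ≤ K * (‖h₁‖ + ‖h₂‖) := by positivity
  refine (pow_le_pow_left₀ (norm_nonneg _) hn 2).trans ?_
  rw [mul_pow]
  nlinarith [sq_nonneg (‖h₁‖ - ‖h₂‖), sq_nonneg K, mul_nonneg (sq_nonneg K) (sq_nonneg (‖h₁‖ - ‖h₂‖))]

/-- **pointwise bound in the second potential**, the first site absorbing with rate `1` -/
theorem point_bound {ν : Measure ℝ} {ρ : ℝ → ℝ} {L δ m κ₀ R η₀ : ℝ}
    (G : GLaw ν ρ L δ m κ₀ R η₀) (α B : F) (g : ℂ) {σ : ℂ} (hσ : 0 < σ.im)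
    (hg : ‖g‖ ^ 2 ≤ σ.im) (v : ℝ) :
    ENNReal.ofReal (ρ v * ‖α + (g * ((v : ℂ) - σ)⁻¹) • B‖ ^ 2) ≤
      ENNReal.ofReal (8 * R * ((2 * L + η₀) ^ 2 / (δ * η₀)) ^ 2 / m + 8 / κ₀) *
        ∫⁻ u, ENNReal.ofReal (‖α + (g * (((u : ℝ) : ℂ) - σ)⁻¹) • B‖ ^ 2 +
          ‖(((u : ℝ) : ℂ) - σ)⁻¹ • B‖ ^ 2) ∂ν := by
  have hL := G.hL
  have hδ := G.hδ
  have hm := G.hm
  have hκ := G.hκ
  have hR := G.hR
  have hη0 := G.hη
  have hρ0 := G.nonneg v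
  set K : ℝ := (2 * L + η₀) ^ 2 / (δ * η₀) with hK
  have hK0 : 0 ≤ K := by positivity
  set f : ℝ → ℝ := fun u => ‖α + (g * ((u : ℂ) - σ)⁻¹) • B‖ ^ 2 + ‖((u : ℂ) - σ)⁻¹ • B‖ ^ 2
    with hf
  have hne : ∀ u : ℝ, (u : ℂ) - σ ≠ 0 := by
    intro u h
    have := congrArg Complex.im h
    simp at this
    linarith
  rcases eq_or_lt_of_le hρ0 with h0 | hρ
  · rw [← h0, zero_mul, ENNReal.ofReal_zero]
    exact bot_le
  have hv : |v| ≤ L := by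
    by_contra h
    exact hρ.ne' (G.supp v (not_le.1 h))
  set η : ℝ := ‖(v : ℂ) - σ‖ with hη
  have hηpos : 0 < η := norm_pos_iff.2 (hne v)
  have hση : σ.im ≤ η := by
    have h := Complex.abs_im_le_norm ((v : ℂ) - σ)
    rw [Complex.sub_im, Complex.ofReal_im, zero_sub, abs_neg] at h
    exact (le_abs_self _).trans h
  have hdist : ∀ u : ℝ, |u| ≤ L → ‖(u : ℂ) - σ‖ ≤ 2 * L + η := by
    intro u hu
    have e1 : (u : ℂ) - σ = ((u - v : ℝ) : ℂ) + ((v : ℂ) - σ) := by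
      push_cast
      ring
    rw [e1]
    refine (norm_add_le _ _).trans ?_
    rw [Complex.norm_real, Real.norm_eq_abs]
    have := abs_sub u v
    linarith
  have hnd : ∀ u₁ u₂ : ℝ, δ ≤ |u₁ - u₂| → (u₁ : ℂ) - (u₂ : ℂ) ≠ 0 := by
    intro u₁ u₂ h h0
    have e1 : (u₁ : ℂ) - (u₂ : ℂ) = ((u₁ - u₂ : ℝ) : ℂ) := by
      push_cast
      ring
    rw [e1, Complex.ofReal_eq_zero] at h0
    rw [h0, abs_zero] at h
    linarith
  have hnn : ∀ u₁ u₂ : ℝ, ‖(u₁ : ℂ) - (u₂ : ℂ)‖ = |u₁ - u₂| := by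
    intro u₁ u₂
    have e1 : (u₁ : ℂ) - (u₂ : ℂ) = ((u₁ - u₂ : ℝ) : ℂ) := by
      push_cast
      ring
    rw [e1, Complex.norm_real, Real.norm_eq_abs]
  have hfle : ∀ u : ℝ, ‖α + (g * ((u : ℂ) - σ)⁻¹) • B‖ ^ 2 ≤ f u := by
    intro u
    simp only [hf]
    linarith [sq_nonneg ‖((u : ℂ) - σ)⁻¹ • B‖]
  have hsq : ∀ a b c : ℝ, 0 ≤ a → 0 ≤ b → 0 ≤ c → c ≤ K * (a + b) →
      c ^ 2 ≤ 2 * K ^ 2 * (a ^ 2 + b ^ 2) := by
    intro a b c ha hb hc h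
    have h1 : c ^ 2 ≤ (K * (a + b)) ^ 2 := pow_le_pow_left₀ hc h 2
    have h2 : (K * (a + b)) ^ 2 = K ^ 2 * (a + b) ^ 2 := by ring
    nlinarith [mul_nonneg (sq_nonneg K) (sq_nonneg (a - b))]
  by_cases hcase : η₀ ≤ η
  · -- non resonant
    have h1 : ENNReal.ofReal (‖α + (g * ((v : ℂ) - σ)⁻¹) • B‖ ^ 2) ≤
        ENNReal.ofReal (2 * (2 * K ^ 2) / m) * ∫⁻ u, ENNReal.ofReal (f u) ∂ν := by
      refine two_points G (sq_nonneg _) (by positivity) fun u₁ u₂ hu₁ hu₂ h12 => ?_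
      have h21 : δ ≤ |u₂ - u₁| := by rwa [abs_sub_comm]
      have hc : ∀ a b : ℝ, |a| ≤ L → |b| ≤ L → δ ≤ |a - b| →
          ‖(((v : ℂ) - (b : ℂ)) / ((a : ℂ) - (b : ℂ))) * (((a : ℂ) - σ) / ((v : ℂ) - σ))‖
            ≤ K := by
        intro a b ha hb hab
        rw [norm_mul, norm_div, norm_div, hnn, hnn]
        have i1 : |v - b| ≤ 2 * L + η₀ := by
          have := abs_sub v b
          linarith
        have i2 : ‖(a : ℂ) - σ‖ / ‖(v : ℂ) - σ‖ ≤ (2 * L + η₀) / η₀ := by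
          rw [div_le_div_iff₀ hηpos hη0]
          have h3 := hdist a ha
          nlinarith
        have i3 : |v - b| / |a - b| ≤ (2 * L + η₀) / δ := by
          gcongr
        calc |v - b| / |a - b| * (‖(a : ℂ) - σ‖ / ‖(v : ℂ) - σ‖)
            ≤ (2 * L + η₀) / δ * ((2 * L + η₀) / η₀) := by gcongr
          _ = K := by
              rw [hK]
              field_simp
      have hi := interp α B g σ (v : ℂ) (u₁ : ℂ) (u₂ : ℂ) (hne v) (hne u₁) (hne u₂)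
        (hnd _ _ h12)
      have hn : ‖α + (g * ((v : ℂ) - σ)⁻¹) • B‖ ≤
          K * (‖α + (g * ((u₁ : ℂ) - σ)⁻¹) • B‖ + ‖α + (g * ((u₂ : ℂ) - σ)⁻¹) • B‖) := by
        rw [hi]
        refine (norm_add_le _ _).trans ?_
        rw [norm_smul, norm_smul, mul_add]
        have c1 := hc u₁ u₂ hu₁ hu₂ h12
        have c2 := hc u₂ u₁ hu₂ hu₁ h21
        gcongr
      have h2 := hsq _ _ _ (norm_nonneg _) (norm_nonneg _) (norm_nonneg _) hn
      have h3 := hfle u₁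
      have h4 := hfle u₂
      refine h2.trans ?_
      gcongr
    calc ENNReal.ofReal (ρ v * ‖α + (g * ((v : ℂ) - σ)⁻¹) • B‖ ^ 2)
        = ENNReal.ofReal (ρ v) * ENNReal.ofReal (‖α + (g * ((v : ℂ) - σ)⁻¹) • B‖ ^ 2) :=
          ENNReal.ofReal_mul hρ0
      _ ≤ ENNReal.ofReal R * (ENNReal.ofReal (2 * (2 * K ^ 2) / m) *
            ∫⁻ u, ENNReal.ofReal (f u) ∂ν) := by
          gcongr
          exact G.le v
      _ = ENNReal.ofReal (R * (2 * (2 * K ^ 2) / m)) * ∫⁻ u, ENNReal.ofReal (f u) ∂ν := by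
          rw [← mul_assoc, ← ENNReal.ofReal_mul hR.le]
      _ ≤ _ := by
          gcongr
          have : R * (2 * (2 * K ^ 2) / m) = 4 * R * K ^ 2 / m := by ring
          rw [this]
          have h5 : 0 ≤ 4 * R * K ^ 2 / m := by positivity
          have h6 : 0 < 8 / κ₀ := by positivity
          have h7 : 8 * R * K ^ 2 / m = 2 * (4 * R * K ^ 2 / m) := by ring
          rw [h7]
          linarith
  · -- resonant
    push Not at hcase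
    have h1 : ENNReal.ofReal (‖α‖ ^ 2) ≤
        ENNReal.ofReal (2 * (2 * K ^ 2) / m) * ∫⁻ u, ENNReal.ofReal (f u) ∂ν := by
      refine two_points G (sq_nonneg _) (by positivity) fun u₁ u₂ hu₁ hu₂ h12 => ?_
      have hi := interp_const α B g σ (u₁ : ℂ) (u₂ : ℂ) (hne u₁) (hne u₂) (hnd _ _ h12)
      have hc : ∀ a : ℝ, |a| ≤ L → ‖((a : ℂ) - σ) / ((u₁ : ℂ) - (u₂ : ℂ))‖ ≤ K := by
        intro a ha
        rw [norm_div, hnn]
        have i1 : ‖(a : ℂ) - σ‖ ≤ 2 * L + η₀ := (hdist a ha).trans (by linarith)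
        calc ‖(a : ℂ) - σ‖ / |u₁ - u₂| ≤ (2 * L + η₀) / δ := by gcongr
          _ = (2 * L + η₀) / δ * 1 := (mul_one _).symm
          _ ≤ (2 * L + η₀) / δ * ((2 * L + η₀) / η₀) := by
              gcongr
              rw [le_div_iff₀ hη0]
              linarith
          _ = K := by
              rw [hK]
              field_simp
      have hn : ‖α‖ ≤
          K * (‖α + (g * ((u₁ : ℂ) - σ)⁻¹) • B‖ + ‖α + (g * ((u₂ : ℂ) - σ)⁻¹) • B‖) := by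
        have h3 : ‖α‖ = ‖(((u₁ : ℂ) - σ) / ((u₁ : ℂ) - (u₂ : ℂ))) •
            (α + (g * ((u₁ : ℂ) - σ)⁻¹) • B) -
            (((u₂ : ℂ) - σ) / ((u₁ : ℂ) - (u₂ : ℂ))) • (α + (g * ((u₂ : ℂ) - σ)⁻¹) • B)‖ :=
          congrArg norm hi
        rw [h3]
        refine (norm_sub_le _ _).trans ?_
        rw [norm_smul, norm_smul, mul_add]
        have c1 := hc u₁ hu₁
        have c2 := hc u₂ hu₂
        gcongr
      have h2 := hsq _ _ _ (norm_nonneg _) (norm_nonneg _) (norm_nonneg _) hn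
      have h3 := hfle u₁
      have h4 := hfle u₂
      refine h2.trans ?_
      gcongr
    have h2 : ENNReal.ofReal (κ₀ * ρ v * η * (‖B‖ ^ 2 / (2 * η) ^ 2)) ≤
        ENNReal.ofReal 1 * ∫⁻ u, ENNReal.ofReal (f u) ∂ν := by
      refine mass_lower measurableSet_Icc (G.loc v η hηpos hcase.le) (by positivity)
        (by positivity) zero_le_one fun u hu => ?_
      have h3 : ‖(u : ℂ) - σ‖ ≤ 2 * η := by
        have e1 : (u : ℂ) - σ = ((u - v : ℝ) : ℂ) + ((v : ℂ) - σ) := by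
          push_cast
          ring
        rw [e1]
        refine (norm_add_le _ _).trans ?_
        rw [Complex.norm_real, Real.norm_eq_abs]
        have h4 : |u - v| ≤ η := by
          rw [abs_le]
          exact ⟨by linarith [hu.1], by linarith [hu.2]⟩
        linarith
      have h5 : 0 < ‖(u : ℂ) - σ‖ := norm_pos_iff.2 (hne u)
      have h6 : ‖B‖ ^ 2 / (2 * η) ^ 2 ≤ ‖((u : ℂ) - σ)⁻¹ • B‖ ^ 2 := by
        rw [norm_smul, norm_inv, mul_pow ‖(u : ℂ) - σ‖⁻¹, inv_pow, ← div_eq_inv_mul]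
        gcongr
      simp only [hf, one_mul]
      linarith [sq_nonneg ‖α + (g * ((u : ℂ) - σ)⁻¹) • B‖]
    have h3 : ρ v * ‖α + (g * ((v : ℂ) - σ)⁻¹) • B‖ ^ 2 ≤
        2 * R * ‖α‖ ^ 2 + 8 / κ₀ * (κ₀ * ρ v * η * (‖B‖ ^ 2 / (2 * η) ^ 2)) := by
      have h4 : ‖α + (g * ((v : ℂ) - σ)⁻¹) • B‖ ≤ ‖α‖ + ‖g‖ / η * ‖B‖ := by
        refine (norm_add_le _ _).trans ?_
        rw [norm_smul, norm_mul, norm_inv, ← div_eq_mul_inv]
      have h5 : ‖α + (g * ((v : ℂ) - σ)⁻¹) • B‖ ^ 2 ≤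
          2 * ‖α‖ ^ 2 + 2 * (‖g‖ ^ 2 * ‖B‖ ^ 2 / η ^ 2) := by
        have h6 := pow_le_pow_left₀ (norm_nonneg _) h4 2
        have h7 : (‖g‖ / η * ‖B‖) ^ 2 = ‖g‖ ^ 2 * ‖B‖ ^ 2 / η ^ 2 := by
          rw [mul_pow, div_pow]
          ring
        nlinarith [sq_nonneg (‖α‖ - ‖g‖ / η * ‖B‖)]
      have h8 : ‖g‖ ^ 2 * ‖B‖ ^ 2 / η ^ 2 ≤ ‖B‖ ^ 2 / η := by
        rw [div_le_div_iff₀ (by positivity) hηpos]
        have h9 : ‖g‖ ^ 2 ≤ η := hg.trans hση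
        calc ‖g‖ ^ 2 * ‖B‖ ^ 2 * η ≤ η * ‖B‖ ^ 2 * η := by gcongr
          _ = ‖B‖ ^ 2 * η ^ 2 := by ring
      have h10 : 8 / κ₀ * (κ₀ * ρ v * η * (‖B‖ ^ 2 / (2 * η) ^ 2)) = ρ v * (2 * (‖B‖ ^ 2 / η)) := by
        field_simp
        ring
      rw [h10]
      have h11 := G.le v
      calc ρ v * ‖α + (g * ((v : ℂ) - σ)⁻¹) • B‖ ^ 2
          ≤ ρ v * (2 * ‖α‖ ^ 2 + 2 * (‖B‖ ^ 2 / η)) := by
            refine mul_le_mul_of_nonneg_left ?_ hρ0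
            linarith
        _ = ρ v * (2 * ‖α‖ ^ 2) + ρ v * (2 * (‖B‖ ^ 2 / η)) := by ring
        _ ≤ R * (2 * ‖α‖ ^ 2) + ρ v * (2 * (‖B‖ ^ 2 / η)) := by gcongr
        _ = _ := by ring
    calc ENNReal.ofReal (ρ v * ‖α + (g * ((v : ℂ) - σ)⁻¹) • B‖ ^ 2)
        ≤ ENNReal.ofReal (2 * R * ‖α‖ ^ 2 +
            8 / κ₀ * (κ₀ * ρ v * η * (‖B‖ ^ 2 / (2 * η) ^ 2))) :=
          ENNReal.ofReal_le_ofReal h3
      _ = ENNReal.ofReal (2 * R) * ENNReal.ofReal (‖α‖ ^ 2) + ENNReal.ofReal (8 / κ₀) *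
            ENNReal.ofReal (κ₀ * ρ v * η * (‖B‖ ^ 2 / (2 * η) ^ 2)) := by
          rw [ENNReal.ofReal_add (by positivity) (by positivity), ENNReal.ofReal_mul (by positivity),
            ENNReal.ofReal_mul (p := 8 / κ₀) (by positivity)]
      _ ≤ ENNReal.ofReal (2 * R) * (ENNReal.ofReal (2 * (2 * K ^ 2) / m) *
            ∫⁻ u, ENNReal.ofReal (f u) ∂ν) + ENNReal.ofReal (8 / κ₀) *
            (ENNReal.ofReal 1 * ∫⁻ u, ENNReal.ofReal (f u) ∂ν) := by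
          gcongr
      _ = ENNReal.ofReal (8 * R * K ^ 2 / m + 8 / κ₀) * ∫⁻ u, ENNReal.ofReal (f u) ∂ν := by
          rw [ENNReal.ofReal_one, one_mul, ← mul_assoc, ← ENNReal.ofReal_mul (by positivity),
            ← add_mul, ← ENNReal.ofReal_add (by positivity) (by positivity)]
          congr 2
          ring

end Abstract

section Green

variable {ι : Type*} [Fintype ι] [DecidableEq ι] {A : Matrix ι ι ℝ} {W : ι → ℂ}
variable {F : Type*} [NormedAddCommGroup F] [NormedSpace ℂ F]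

/-- far vector of the site `x` -/
noncomputable def GV (A : Matrix ι ι ℝ) (W : ι → ℂ) (T : (ι → ℂ) →ₗ[ℂ] F) (x : ι) : F :=
  T fun a => Gr A W x a

/-- off-resonant energy of `z` -/
noncomputable def Yv (A : Matrix ι ι ℝ) (W : ι → ℂ) (T : (ι → ℂ) →ₗ[ℂ] F) (z : ι) : ℝ :=
  ‖T fun a => gw A W z a‖ ^ 2 / (1 + ‖sg A W z‖ ^ 2)

theorem GV_update (hA : A.IsSymm) (hW : ∀ x, (W x).im < 0) (T : (ι → ℂ) →ₗ[ℂ] F) {z : ι} {w : ℂ}
    (hw : w.im < 0) (x : ι) :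
    GV A (Function.update W z w) T x =
      T (fun a => Gi A W z x a) + (gw A W z x * (w - sg A W z)⁻¹) • T (fun a => gw A W z a) := by
  have hW' := update_neg (z := z) hW hw
  rw [GV, ← map_smul, ← map_add]
  congr 1
  funext a
  rw [Gr_eq_Gi hA hW' z x a, Gi_upd hA hW hw, gw_upd hA hW hw, gw_upd hA hW hw,
    Gr_zz_upd hA hW hw]
  simp only [Pi.add_apply, Pi.smul_apply, smul_eq_mul]
  ring

theorem GV_update_self (hA : A.IsSymm) (hW : ∀ x, (W x).im < 0) (T : (ι → ℂ) →ₗ[ℂ] F) {z : ι}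
    {w : ℂ} (hw : w.im < 0) :
    GV A (Function.update W z w) T z = ((w - sg A W z)⁻¹) • T (fun a => gw A W z a) := by
  rw [GV_update hA hW T hw, gw_self hA hW, one_mul]
  have : (fun a => Gi A W z z a) = 0 := funext fun a => Gi_left hA hW z a
  rw [this, map_zero, zero_add]

theorem Yv_le (hA : A.IsSymm) (hW : ∀ x, (W x).im < 0) (T : (ι → ℂ) →ₗ[ℂ] F) (z : ι) :
    Yv A W T z ≤ 2 * ‖GV A (Function.update W z (-I)) T z‖ ^ 2 := by
  have hI : ((-I : ℂ)).im < 0 := by simp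
  rw [GV_update_self hA hW T hI, norm_smul, norm_inv, mul_pow, inv_pow, Yv]
  have hs := sg_im_nonneg hA hW z
  have h1 : 0 < ‖-I - sg A W z‖ := by
    rw [norm_pos_iff]
    intro h
    have := congrArg Complex.im h
    simp at this
    linarith
  have h2 : ‖-I - sg A W z‖ ^ 2 ≤ 2 * (1 + ‖sg A W z‖ ^ 2) := by
    have h3 : ‖-I - sg A W z‖ ≤ 1 + ‖sg A W z‖ := by
      refine (norm_sub_le _ _).trans ?_
      rw [norm_neg, norm_I]
    have h4 := pow_le_pow_left₀ (norm_nonneg _) h3 2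
    nlinarith [sq_nonneg (1 - ‖sg A W z‖)]
  rw [div_le_iff₀ (by positivity)]
  have h5 : 2 * ((‖-I - sg A W z‖ ^ 2)⁻¹ * ‖T fun a => gw A W z a‖ ^ 2) *
      (1 + ‖sg A W z‖ ^ 2) = ‖T fun a => gw A W z a‖ ^ 2 *
        ((2 * (1 + ‖sg A W z‖ ^ 2)) / ‖-I - sg A W z‖ ^ 2) := by
    field_simp
  rw [h5]
  have h6 : 1 ≤ (2 * (1 + ‖sg A W z‖ ^ 2)) / ‖-I - sg A W z‖ ^ 2 := by
    rw [le_div_iff₀ (by positivity)]
    linarith
  nlinarith [sq_nonneg ‖T fun a => gw A W z a‖]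

theorem rez_update_comm {z j : ι} (hzj : z ≠ j) (w : ℂ) (v : ℝ) :
    rez (Function.update W z w) j v = Function.update (rez W j v) z w := by
  rw [rez, rez, Function.update_of_ne hzj.symm, Function.update_comm hzj]

theorem rez_rez_comm {z j : ι} (hzj : z ≠ j) (u v : ℝ) :
    rez (rez W z u) j v = rez (rez W j v) z u := by
  rw [rez, rez, rez, rez, Function.update_of_ne hzj.symm, Function.update_of_ne hzj,
    Function.update_comm hzj]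

/-- constant of the one-variable event lemma -/
noncomputable def CC (Lz δz mz Lj δj mj κj Rj ηj : ℝ) : ℝ :=
  2 * (8 * Rj * ((2 * Lj + ηj) ^ 2 / (δj * ηj)) ^ 2 / mj + 8 / κj) *
    (4 * ((Lz + 1) * (Lz + 2) / δz) ^ 2 / mz)

/-- **the one-variable event lemma, pointwise form** -/
theorem one_var_pt (hA : A.IsSymm) (hW : ∀ x, (W x).im < 0) (T : (ι → ℂ) →ₗ[ℂ] F) {z j : ι}
    (hzj : z ≠ j) (hez : -1 ≤ (W z).im) {νz νj : Measure ℝ} {ρz ρj : ℝ → ℝ}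
    {Lz δz mz κz Rz ηz Lj δj mj κj Rj ηj : ℝ}
    (Gz : GLaw νz ρz Lz δz mz κz Rz ηz) (Gj : GLaw νj ρj Lj δj mj κj Rj ηj) (v : ℝ) :
    ENNReal.ofReal (ρj v * Yv A (rez W j v) T z) ≤
      ENNReal.ofReal (CC Lz δz mz Lj δj mj κj Rj ηj) *
        ∫⁻ v', ∫⁻ u, ENNReal.ofReal (‖GV A (rez (rez W z u) j v') T z‖ ^ 2 +
          ‖GV A (rez (rez W z u) j v') T j‖ ^ 2) ∂νz ∂νj := by
  have hI : ((-I : ℂ)).im < 0 := by simp
  set Wm := Function.update W z (-I) with hWm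
  have hWmn : ∀ x, (Wm x).im < 0 := update_neg (z := z) hW hI
  have hρ := Gj.nonneg v
  set C1 : ℝ := 8 * Rj * ((2 * Lj + ηj) ^ 2 / (δj * ηj)) ^ 2 / mj + 8 / κj with hC1
  set C2 : ℝ := 4 * ((Lz + 1) * (Lz + 2) / δz) ^ 2 / mz with hC2
  have hC1p : 0 ≤ C1 := by
    have := Gj.hR; have := Gj.hm; have := Gj.hκ
    positivity
  have hC2p : 0 ≤ C2 := by
    have := Gz.hm
    positivity
  -- step 1
  have s1 : ρj v * Yv A (rez W j v) T z ≤ 2 * (ρj v * ‖GV A (rez Wm j v) T z‖ ^ 2) := by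
    have h := Yv_le hA (rez_neg (W := W) hW j v) T z
    rw [← rez_update_comm hzj] at h
    calc ρj v * Yv A (rez W j v) T z ≤ ρj v * (2 * ‖GV A (rez Wm j v) T z‖ ^ 2) :=
          mul_le_mul_of_nonneg_left h hρ
      _ = _ := by ring
  -- step 2
  have hform : ∀ v : ℝ, ∀ x, GV A (rez Wm j v) T x = T (fun a => Gi A Wm j x a) +
      (gw A Wm j x * ((v : ℂ) - sz A Wm j)⁻¹) • T (fun a => gw A Wm j a) := by
    intro v x
    have hv : ((v : ℂ) + ((Wm j).im : ℂ) * I).im < 0 := by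
      rw [rez_im]
      exact hWmn j
    rw [rez, GV_update hA hWmn T hv]
    have e1 : (v : ℂ) + ((Wm j).im : ℂ) * I - sg A Wm j = (v : ℂ) - sz A Wm j := by
      rw [sz]
      ring
    rw [e1]
  have hformj : ∀ v : ℝ, GV A (rez Wm j v) T j =
      (((v : ℂ) - sz A Wm j)⁻¹) • T (fun a => gw A Wm j a) := by
    intro v
    rw [hform v j, gw_self hA hWmn, one_mul]
    have : (fun a => Gi A Wm j j a) = 0 := funext fun a => Gi_left hA hWmn j a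
    rw [this, map_zero, zero_add]
  have hg : ‖gw A Wm j z‖ ^ 2 ≤ (sz A Wm j).im := by
    rw [sz_im, sg_im hA hWmn, sub_add_cancel, Sf]
    have h : (-(Wm z).im) * ‖gw A Wm j z‖ ^ 2 ≤ ∑ a, (-(Wm a).im) * ‖gw A Wm j a‖ ^ 2 :=
      Finset.single_le_sum (f := fun a => (-(Wm a).im) * ‖gw A Wm j a‖ ^ 2)
        (fun a _ => mul_nonneg (by linarith [hWmn a]) (sq_nonneg _)) (Finset.mem_univ z)
    have hz : (Wm z).im = -1 := by
      rw [hWm, Function.update_self]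
      simp
    rw [hz, neg_neg, one_mul] at h
    exact h
  have s2 := point_bound Gj (T fun a => Gi A Wm j z a) (T fun a => gw A Wm j a) (gw A Wm j z)
    (sz_im_pos hA hWmn j) hg v
  rw [← hform v z] at s2
  simp only [← hform _ z, ← hformj] at s2
  -- step 3
  have s3 : ∀ v' : ℝ, ∀ x, ENNReal.ofReal (‖GV A (rez Wm j v') T x‖ ^ 2) ≤
      ENNReal.ofReal C2 * ∫⁻ u, ENNReal.ofReal (‖GV A (rez (rez W z u) j v') T x‖ ^ 2) ∂νz := by
    intro v' x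
    have hWj := rez_neg (W := W) hW j v'
    have hWjz : rez W j v' z = W z := by
      rw [rez, Function.update_of_ne hzj]
    have h := real_avg Gz (T fun a => Gi A (rez W j v') z x a) (T fun a => gw A (rez W j v') z a)
      (gw A (rez W j v') z x) (sg_im_nonneg hA hWj z) (hW z) hez
    have e1 : rez Wm j v' = Function.update (rez W j v') z (-I) := rez_update_comm hzj _ _
    rw [e1, GV_update hA hWj T hI]
    refine h.trans (le_of_eq ?_)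
    congr 1
    refine lintegral_congr fun u => ?_
    have hu : ((u : ℂ) + ((W z).im : ℂ) * I).im < 0 := by
      rw [rez_im]
      exact hW z
    have e2 : rez (rez W j v') z u =
        Function.update (rez W j v') z ((u : ℂ) + ((W z).im : ℂ) * I) := by
      show Function.update (rez W j v') z ((u : ℂ) + ((rez W j v' z).im : ℂ) * I) = _
      rw [hWjz]
    rw [rez_rez_comm hzj, e2, GV_update hA hWj T hu]
  have s4 : ∀ v' : ℝ, ENNReal.ofReal (‖GV A (rez Wm j v') T z‖ ^ 2 +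
      ‖GV A (rez Wm j v') T j‖ ^ 2) ≤
      ENNReal.ofReal C2 * ∫⁻ u, ENNReal.ofReal (‖GV A (rez (rez W z u) j v') T z‖ ^ 2 +
        ‖GV A (rez (rez W z u) j v') T j‖ ^ 2) ∂νz := by
    intro v'
    rw [ENNReal.ofReal_add (sq_nonneg _) (sq_nonneg _)]
    refine (add_le_add (s3 v' z) (s3 v' j)).trans ?_
    rw [← mul_add]
    gcongr
    have h1 : ∀ u, ENNReal.ofReal (‖GV A (rez (rez W z u) j v') T z‖ ^ 2 +
        ‖GV A (rez (rez W z u) j v') T j‖ ^ 2) =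
        ENNReal.ofReal (‖GV A (rez (rez W z u) j v') T z‖ ^ 2) +
        ENNReal.ofReal (‖GV A (rez (rez W z u) j v') T j‖ ^ 2) :=
      fun u => ENNReal.ofReal_add (sq_nonneg _) (sq_nonneg _)
    simp only [h1]
    exact le_lintegral_add _ _
  calc ENNReal.ofReal (ρj v * Yv A (rez W j v) T z)
      ≤ ENNReal.ofReal (2 * (ρj v * ‖GV A (rez Wm j v) T z‖ ^ 2)) :=
        ENNReal.ofReal_le_ofReal s1
    _ = ENNReal.ofReal 2 * ENNReal.ofReal (ρj v * ‖GV A (rez Wm j v) T z‖ ^ 2) :=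
        ENNReal.ofReal_mul (by norm_num)
    _ ≤ ENNReal.ofReal 2 * (ENNReal.ofReal C1 * ∫⁻ v', (ENNReal.ofReal C2 *
          ∫⁻ u, ENNReal.ofReal (‖GV A (rez (rez W z u) j v') T z‖ ^ 2 +
        ‖GV A (rez (rez W z u) j v') T j‖ ^ 2) ∂νz) ∂νj) := by
        gcongr
        refine s2.trans ?_
        gcongr with v'
        exact s4 v'
    _ = _ := by
        rw [lintegral_const_mul' _ _ ENNReal.ofReal_ne_top, CC, ← hC1, ← hC2,
          ENNReal.ofReal_mul (by positivity), ENNReal.ofReal_mul (by norm_num)]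
        ring

end Green

end OneVar

end P365T1
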