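import Vale.Agent.P365.Torus.Base

/-!
# P365 T1: range-5 clusters on the torus (definitions)
-/

set_option linter.all false

namespace P365T1

open P365L

variable {N : ℕ} [NeZero N]

/-- a step of range `5` inside `ns` -/
def Stp5 (ns : Finset (Tor N)) (a b : Tor N) : Prop := a ∈ ns ∧ b ∈ ns ∧ nrm (b - a) ≤ 5

/-- connected in `ns` by steps of range `5` -/
def Cl5 (ns : Finset (Tor N)) : Tor N → Tor N → Prop := Relation.ReflTransGen (Stp5 ns)

theorem Stp5.symm {ns : Finset (Tor N)} {a b : Tor N} (h : Stp5 ns a b) : Stp5 ns b a :=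
  ⟨h.2.1, h.1, by rw [nrm_sub_comm]; exact h.2.2⟩

theorem Cl5.symm {ns : Finset (Tor N)} {a b : Tor N} (h : Cl5 ns a b) : Cl5 ns b a := by
  induction h with
  | refl => exact Relation.ReflTransGen.refl
  | tail _ hbc ih => exact Relation.ReflTransGen.head hbc.symm ih

theorem Cl5.trans {ns : Finset (Tor N)} {a b c : Tor N} (h : Cl5 ns a b) (h' : Cl5 ns b c) :
    Cl5 ns a c := Relation.ReflTransGen.trans h h'

end P365T1
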