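import Vale.Agent.P365.C937.SwitchLab

/-!
# P365 T1: one-shot label switching with gain.

`S` = a set of sites, `x ∉ S`, everything off `S ∪ {x}` fixed.  All sites of `S` are moved to the
reference value at once: all but ONE of them give their full probability.
-/

set_option linter.all false

namespace P365T1.Switch

open P365L P365O P365T1 P365T1.OneVar Matrix Complex MeasureTheory
open scoped ComplexConjugate ENNReal

variable {ι : Type*} [Fintype ι] [DecidableEq ι] {A : Matrix ι ι ℝ} {W : ι → ℂ}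
variable {F : Type*} [NormedAddCommGroup F] [NormedSpace ℂ F]

/-- resolvent identity -/
theorem Gr_resolvent (hA : A.IsSymm) (hW : ∀ x, (W x).im < 0) {W' : ι → ℂ}
    (hW' : ∀ x, (W' x).im < 0) (x z : ι) :
    Gr A W x z = Gr A W' x z + ∑ l, Gr A W x l * (W' l - W l) * Gr A W' l z := by
  have h1 : Kmat A W' = Kmat A W + Matrix.diagonal (fun l => W' l - W l) := by
    ext a b
    rw [Kmat, Kmat, Matrix.add_apply, Matrix.add_apply, Matrix.add_apply]
    by_cases h : a = b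
    · subst h
      rw [Matrix.diagonal_apply_eq, Matrix.diagonal_apply_eq, Matrix.diagonal_apply_eq]
      ring
    · rw [Matrix.diagonal_apply_ne _ h, Matrix.diagonal_apply_ne _ h, Matrix.diagonal_apply_ne _ h]
      ring
  have h2 : Gr A W = Gr A W' + Gr A W * Matrix.diagonal (fun l => W' l - W l) * Gr A W' := by
    calc Gr A W = Gr A W * (Kmat A W' * Gr A W') := by
          rw [Kmat_mul_Gr hA hW', Matrix.mul_one]
      _ = (Gr A W * Kmat A W) * Gr A W' +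
          Gr A W * Matrix.diagonal (fun l => W' l - W l) * Gr A W' := by
          rw [h1]
          noncomm_ring
      _ = _ := by rw [Gr_mul_Kmat hA hW, Matrix.one_mul]
  have h3 := congrFun (congrFun h2 x) z
  rw [h3, Matrix.add_apply, Matrix.mul_apply]
  congr 1
  refine Finset.sum_congr rfl fun l _ => ?_
  rw [Matrix.mul_diagonal]

theorem GV_resolvent (hA : A.IsSymm) (hW : ∀ x, (W x).im < 0) {W' : ι → ℂ}
    (hW' : ∀ x, (W' x).im < 0) (Λ : (ι → ℂ) →ₗ[ℂ] F) (x : ι) :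
    GV A W Λ x = GV A W' Λ x + ∑ l, (Gr A W x l * (W' l - W l)) • GV A W' Λ l := by
  have h : (fun a => Gr A W x a) = (fun a => Gr A W' x a) +
      ∑ l, (Gr A W x l * (W' l - W l)) • (fun a => Gr A W' l a) := by
    funext a
    rw [Pi.add_apply, Finset.sum_apply]
    simp only [Pi.smul_apply, smul_eq_mul]
    exact Gr_resolvent hA hW hW' x a
  show Λ (fun a => Gr A W x a) = Λ (fun a => Gr A W' x a) +
    ∑ l, (Gr A W x l * (W' l - W l)) • Λ (fun a => Gr A W' l a)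
  rw [h, map_add, map_sum]
  simp only [map_smul]

theorem GV_cf (hA : A.IsSymm) (hW : ∀ x, (W x).im < 0) (Λ : (ι → ℂ) →ₗ[ℂ] F) (S : Finset ι)
    (x : ι) :
    GV A W Λ x = GV A (cf S W) Λ x + ∑ l ∈ S, (Gr A W x l * (-I - W l)) • GV A (cf S W) Λ l := by
  rw [GV_resolvent hA hW (cf_neg S hW) Λ x]
  congr 1
  rw [← Finset.sum_subset (Finset.subset_univ S)]
  · refine Finset.sum_congr rfl fun l hl => ?_
    rw [show cf S W l = -I by simp [cf, hl]]
  · intro l _ hl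
    rw [show cf S W l = W l by simp [cf, hl], sub_self, mul_zero, zero_smul]

theorem GV_cf' (hA : A.IsSymm) (hW : ∀ x, (W x).im < 0) (Λ : (ι → ℂ) →ₗ[ℂ] F) (S : Finset ι)
    (x : ι) :
    GV A (cf S W) Λ x = GV A W Λ x +
      ∑ l ∈ S, (Gr A (cf S W) x l * (W l + I)) • GV A W Λ l := by
  rw [GV_resolvent hA (cf_neg S hW) hW Λ x]
  congr 1
  rw [← Finset.sum_subset (Finset.subset_univ S)]
  · refine Finset.sum_congr rfl fun l hl => ?_
    rw [show cf S W l = -I by simp [cf, hl], sub_neg_eq_add]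
  · intro l _ hl
    rw [show cf S W l = W l by simp [cf, hl], sub_self, mul_zero, zero_smul]

/-- Ward identity at a site which absorbs `1` -/
theorem norm_Gr_le (hA : A.IsSymm) (hW : ∀ x, (W x).im < 0) {x l : ι} (hlx : l ≠ x)
    (hWx : (W x).im = -1) :
    ‖Gr A W x l‖ ^ 2 ≤ (sg A W l).im / ‖W l - sg A W l‖ ^ 2 := by
  have hg : ‖gw A W l x‖ ^ 2 ≤ (sg A W l).im := by
    have h1 : (-(W l).im) * ‖gw A W l l‖ ^ 2 + (-(W x).im) * ‖gw A W l x‖ ^ 2 ≤ Sf A W l := by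
      rw [← Finset.sum_pair hlx (f := fun a => (-(W a).im) * ‖gw A W l a‖ ^ 2)]
      exact Finset.sum_le_sum_of_subset_of_nonneg (Finset.subset_univ _)
        fun a _ _ => mul_nonneg (by linarith [hW a]) (sq_nonneg _)
    rw [gw_self hA hW, norm_one, hWx] at h1
    rw [sg_im hA hW]
    linarith
  have h2 : W l - sg A W l = (Gr A W l l)⁻¹ := by
    rw [sg, sub_sub_cancel]
  rw [h2, norm_inv, inv_pow, div_inv_eq_mul, Gr_eq_gw hA hW l x, norm_mul, mul_pow]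
  gcongr

/-- **pointwise one-shot switch** -/
theorem all_pt (hA : A.IsSymm) (hW : ∀ x, (W x).im < 0) (Λ : (ι → ℂ) →ₗ[ℂ] F) {S : Finset ι}
    {x : ι} (hx : x ∉ S) (hWx : (W x).im = -1) {L : ℝ} (hL : ∀ l ∈ S, ‖W l‖ ≤ L) :
    ‖GV A W Λ x‖ ^ 2 ≤ 2 * ‖GV A (cf S W) Λ x‖ ^ 2 +
      2 * S.card * (L + 1) ^ 2 * ∑ l ∈ S, (sg A W l).im / ‖W l - sg A W l‖ ^ 2 *
        ‖GV A (cf S W) Λ l‖ ^ 2 := by
  have h1 := GV_cf hA hW Λ S x
  set X := GV A (cf S W) Λ x
  set t : ι → ℝ := fun l => ‖Gr A W x l‖ * (L + 1) * ‖GV A (cf S W) Λ l‖ with ht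
  have h2 : ‖GV A W Λ x‖ ≤ ‖X‖ + ∑ l ∈ S, t l := by
    rw [h1]
    refine (norm_add_le _ _).trans (add_le_add le_rfl ((norm_sum_le _ _).trans ?_))
    refine Finset.sum_le_sum fun l hl => ?_
    rw [norm_smul, norm_mul]
    have h3 : ‖-I - W l‖ ≤ L + 1 := by
      refine (norm_sub_le _ _).trans ?_
      rw [norm_neg, norm_I]
      linarith [hL l hl]
    exact mul_le_mul_of_nonneg_right (mul_le_mul_of_nonneg_left h3 (norm_nonneg _))
      (norm_nonneg _)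
  have h3 : (∑ l ∈ S, t l) ^ 2 ≤ S.card * ∑ l ∈ S, t l ^ 2 := sq_sum_le_card_mul_sum_sq
  have h4 : ∀ l ∈ S, t l ^ 2 ≤ (L + 1) ^ 2 * ((sg A W l).im / ‖W l - sg A W l‖ ^ 2 *
      ‖GV A (cf S W) Λ l‖ ^ 2) := by
    intro l hl
    have hlx : l ≠ x := fun h => hx (h ▸ hl)
    have h5 := norm_Gr_le hA hW hlx hWx
    calc t l ^ 2 = ‖Gr A W x l‖ ^ 2 * ((L + 1) ^ 2 * ‖GV A (cf S W) Λ l‖ ^ 2) := by
          rw [ht]
          ring
      _ ≤ (sg A W l).im / ‖W l - sg A W l‖ ^ 2 * ((L + 1) ^ 2 * ‖GV A (cf S W) Λ l‖ ^ 2) := by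
          gcongr
      _ = _ := by ring
  have h5 : ‖GV A W Λ x‖ ^ 2 ≤ (‖X‖ + ∑ l ∈ S, t l) ^ 2 :=
    pow_le_pow_left₀ (norm_nonneg _) h2 2
  have h6 : (‖X‖ + ∑ l ∈ S, t l) ^ 2 ≤ 2 * ‖X‖ ^ 2 + 2 * (∑ l ∈ S, t l) ^ 2 := by
    nlinarith [sq_nonneg (‖X‖ - ∑ l ∈ S, t l)]
  have h7 : ∑ l ∈ S, t l ^ 2 ≤ (L + 1) ^ 2 * ∑ l ∈ S, (sg A W l).im / ‖W l - sg A W l‖ ^ 2 *
      ‖GV A (cf S W) Λ l‖ ^ 2 := by
    rw [Finset.mul_sum]
    exact Finset.sum_le_sum h4
  have h8 : (S.card : ℝ) * ∑ l ∈ S, t l ^ 2 ≤ S.card * ((L + 1) ^ 2 *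
      ∑ l ∈ S, (sg A W l).im / ‖W l - sg A W l‖ ^ 2 * ‖GV A (cf S W) Λ l‖ ^ 2) :=
    mul_le_mul_of_nonneg_left h7 (Nat.cast_nonneg _)
  calc ‖GV A W Λ x‖ ^ 2 ≤ 2 * ‖X‖ ^ 2 + 2 * (S.card * ((L + 1) ^ 2 *
      ∑ l ∈ S, (sg A W l).im / ‖W l - sg A W l‖ ^ 2 * ‖GV A (cf S W) Λ l‖ ^ 2)) := by linarith
    _ = _ := by ring

/-- diagonal entries at an absorbing site -/
theorem mm_le_one (hA : A.IsSymm) (hW : ∀ x, (W x).im < 0) {k : ι} (hk : (W k).im = -1) :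
    mm A W k ≤ 1 := by
  have h1 := e_mul_KK_le hA hW k k
  rw [hk, KK] at h1
  have h2 : mm A W k ≤ ‖Gr A W k k‖ := (le_abs_self _).trans (Complex.abs_im_le_norm _)
  have h3 : 0 < mm A W k := mm_pos hA hW k
  nlinarith [norm_nonneg (Gr A W k k)]

/-- **back, pointwise**: the reference values are controlled by any values -/
theorem back_pt (hA : A.IsSymm) (hW : ∀ x, (W x).im < 0) (Λ : (ι → ℂ) →ₗ[ℂ] F) {Q : Finset ι}
    {L : ℝ} (hL : ∀ l ∈ Q, ‖W l‖ ≤ L) (hL0 : 0 ≤ L) :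
    ∑ l ∈ Q, ‖GV A (cf Q W) Λ l‖ ^ 2 ≤
      2 * (1 + Q.card * (L + 1) ^ 2) * ∑ l ∈ Q, ‖GV A W Λ l‖ ^ 2 := by
  set W' := cf Q W with hW'd
  have hW' : ∀ x, (W' x).im < 0 := cf_neg Q hW
  have h1 : ∀ l ∈ Q, ‖GV A W' Λ l‖ ^ 2 ≤ 2 * ‖GV A W Λ l‖ ^ 2 +
      2 * (Q.card * ∑ k ∈ Q, ‖Gr A W' l k‖ ^ 2 * ((L + 1) ^ 2 * ‖GV A W Λ k‖ ^ 2)) := by
    intro l _
    have h2 := GV_cf' hA hW Λ Q l
    rw [← hW'd] at h2
    set t : ι → ℝ := fun k => ‖Gr A W' l k‖ * (L + 1) * ‖GV A W Λ k‖ with ht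
    have h3 : ‖GV A W' Λ l‖ ≤ ‖GV A W Λ l‖ + ∑ k ∈ Q, t k := by
      rw [h2]
      refine (norm_add_le _ _).trans (add_le_add le_rfl ((norm_sum_le _ _).trans ?_))
      refine Finset.sum_le_sum fun k hk => ?_
      rw [norm_smul, norm_mul]
      have h3 : ‖W k + I‖ ≤ L + 1 := by
        refine (norm_add_le _ _).trans ?_
        rw [norm_I]
        linarith [hL k hk]
      exact mul_le_mul_of_nonneg_right (mul_le_mul_of_nonneg_left h3 (norm_nonneg _))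
        (norm_nonneg _)
    have h4 : (∑ k ∈ Q, t k) ^ 2 ≤ Q.card * ∑ k ∈ Q, t k ^ 2 := sq_sum_le_card_mul_sum_sq
    have h5 : ∑ k ∈ Q, t k ^ 2 = ∑ k ∈ Q, ‖Gr A W' l k‖ ^ 2 * ((L + 1) ^ 2 *
        ‖GV A W Λ k‖ ^ 2) := by
      refine Finset.sum_congr rfl fun k _ => ?_
      rw [ht]
      ring
    have h6 : ‖GV A W' Λ l‖ ^ 2 ≤ (‖GV A W Λ l‖ + ∑ k ∈ Q, t k) ^ 2 :=
      pow_le_pow_left₀ (norm_nonneg _) h3 2
    rw [← h5]
    nlinarith [sq_nonneg (‖GV A W Λ l‖ - ∑ k ∈ Q, t k)]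
  have h2 : ∀ k ∈ Q, ∑ l ∈ Q, ‖Gr A W' l k‖ ^ 2 ≤ 1 := by
    intro k hk
    have h3 : ∑ l ∈ Q, (-(W' l).im) * KK A W' k l ≤ mm A W' k := by
      rw [mm_eq hA hW' k]
      exact Finset.sum_le_sum_of_subset_of_nonneg (Finset.subset_univ _)
        fun a _ _ => mul_nonneg (by linarith [hW' a]) (KK_nonneg _ _)
    have h4 := mm_le_one hA hW' (cf_im (W := W) hk)
    have h5 : ∑ l ∈ Q, (-(W' l).im) * KK A W' k l = ∑ l ∈ Q, ‖Gr A W' l k‖ ^ 2 := by
      refine Finset.sum_congr rfl fun l hl => ?_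
      rw [hW'd, cf_im hl, KK, Gr_symm hA k l]
      ring
    rw [h5] at h3
    exact h3.trans h4
  calc ∑ l ∈ Q, ‖GV A W' Λ l‖ ^ 2
      ≤ ∑ l ∈ Q, (2 * ‖GV A W Λ l‖ ^ 2 +
        2 * (Q.card * ∑ k ∈ Q, ‖Gr A W' l k‖ ^ 2 * ((L + 1) ^ 2 * ‖GV A W Λ k‖ ^ 2))) :=
        Finset.sum_le_sum h1
    _ = 2 * ∑ l ∈ Q, ‖GV A W Λ l‖ ^ 2 + 2 * Q.card *
        ∑ k ∈ Q, (∑ l ∈ Q, ‖Gr A W' l k‖ ^ 2) * ((L + 1) ^ 2 * ‖GV A W Λ k‖ ^ 2) := by
        rw [Finset.sum_add_distrib, ← Finset.mul_sum, ← Finset.mul_sum, ← Finset.mul_sum,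
          Finset.sum_comm]
        congr 1
        rw [mul_assoc]
        congr 2
        refine Finset.sum_congr rfl fun k _ => ?_
        rw [Finset.sum_mul]
    _ ≤ 2 * ∑ l ∈ Q, ‖GV A W Λ l‖ ^ 2 + 2 * Q.card *
        ∑ k ∈ Q, 1 * ((L + 1) ^ 2 * ‖GV A W Λ k‖ ^ 2) := by
        gcongr with k hk
        exact h2 k hk
    _ = _ := by
        simp only [one_mul]
        rw [← Finset.mul_sum]
        ring


/-! ### integrated form -/

theorem cf_cf (S : Finset ι) (x : ι) : cf S (cf {x} W) = cf (insert x S) W := by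
  funext z
  simp only [cf, Finset.mem_singleton, Finset.mem_insert]
  by_cases h1 : z ∈ S
  · simp [h1]
  · by_cases h2 : z = x
    · simp [h2]
    · simp [h1, h2]

theorem cf_update_not {S : Finset ι} {l : ι} (hl : l ∉ S) (ζ : ℂ) :
    cf S (Function.update W l ζ) = Function.update (cf S W) l ζ := by
  funext z
  by_cases hz : z = l
  · subst hz
    simp [cf, hl]
  · rw [Function.update_of_ne hz]
    simp only [cf, Function.update_of_ne hz]

theorem cf_update_mem {S : Finset ι} {l : ι} (hl : l ∈ S) (ζ : ℂ) :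
    cf S (Function.update W l ζ) = cf S W := by
  funext z
  by_cases hz : z = l
  · subst hz
    simp [cf, hl]
  · simp only [cf, Function.update_of_ne hz]

theorem measurable_sg {Ω : Type*} [MeasurableSpace Ω] (V : Ω → ι → ℂ)
    (hV : ∀ x, Measurable fun ω => V ω x) (x : ι) : Measurable fun ω => sg A (V ω) x := by
  unfold sg
  exact (hV x).sub (measurable_Gr V hV x x).inv

/-- the Poisson factor of a site -/
noncomputable def pf (A : Matrix ι ι ℝ) (W : ι → ℂ) (l : ι) : ℝ :=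
  (sg A W l).im / ‖W l - sg A W l‖ ^ 2

theorem pf_nonneg (hA : A.IsSymm) (hW : ∀ x, (W x).im < 0) (l : ι) : 0 ≤ pf A W l :=
  div_nonneg (sg_im_nonneg hA hW l) (sq_nonneg _)

theorem measurable_pf {Ω : Type*} [MeasurableSpace Ω] (V : Ω → ι → ℂ)
    (hV : ∀ x, Measurable fun ω => V ω x) (x : ι) : Measurable fun ω => pf A (V ω) x := by
  unfold pf
  have h := measurable_sg (A := A) V hV x
  exact (Complex.measurable_im.comp h).div (((hV x).sub h).norm.pow_const 2)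

/-- **one site gives its Poisson integral, the others are blind** -/
theorem term_int (hA : A.IsSymm) (Λ : (ι → ℂ) →ₗ[ℂ] F) {ν : ι → Measure ℝ}
    [∀ z, IsProbabilityMeasure (ν z)] {E D : ℝ} {e : ι → ℝ} (he : ∀ z, 0 < e z)
    {S : Finset ι} {x l : ι} (hl : l ∈ S) (hlx : l ≠ x) (hD : DensLe D (ν l)) :
    ∫⁻ v, ENNReal.ofReal (pf A (cf {x} (WV E e v)) l) *
        MV A (cf (insert x S) (WV E e v)) Λ l ∂Measure.pi ν ≤
      ENNReal.ofReal (Real.pi * D) *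
        ∫⁻ v, MV A (cf (insert x S) (WV E e v)) Λ l ∂Measure.pi ν := by
  have hm1 : Measurable fun v : ι → ℝ => ENNReal.ofReal (pf A (cf {x} (WV E e v)) l) :=
    (measurable_pf _ (measurable_cfWV {x} E e) l).ennreal_ofReal
  have hm2 : Measurable fun v : ι → ℝ => MV A (cf (insert x S) (WV E e v)) Λ l :=
    measurable_MV_cf Λ _ E e l
  have hm : Measurable fun v : ι → ℝ => ENNReal.ofReal (pf A (cf {x} (WV E e v)) l) *
      MV A (cf (insert x S) (WV E e v)) Λ l := hm1.mul hm2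
  rw [← lint_lmarginal {l} hm, ← lintegral_const_mul _ hm2]
  refine lintegral_mono fun v => ?_
  rw [lmarginal_singleton]
  have hlQ : l ∈ insert x S := Finset.mem_insert_of_mem hl
  have hlx' : l ∉ ({x} : Finset ι) := by simpa using hlx
  have hW := WV_neg (E := E) he v
  have hW' := cf_neg {x} hW
  have e1 : ∀ u : ℝ, ENNReal.ofReal (pf A (cf {x} (WV E e (Function.update v l u))) l) *
      MV A (cf (insert x S) (WV E e (Function.update v l u))) Λ l =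
      MV A (cf (insert x S) (WV E e v)) Λ l * ENNReal.ofReal
        ((sg A (cf {x} (WV E e v)) l).im /
          ‖(((u - E : ℝ) : ℂ) - (e l : ℂ) * I) - sg A (cf {x} (WV E e v)) l‖ ^ 2) := by
    intro u
    rw [WV_update, cf_update_not hlx', cf_update_mem hlQ, pf,
      sg_upd hA hW' (zeta_im (he l) u E), Function.update_self, mul_comm]
  simp only [e1, Pi.mul_apply]
  rw [lintegral_const_mul' _ _ (by rw [MV]; exact ENNReal.ofReal_ne_top), mul_comm]
  exact mul_le_mul' (cauchy_le hD (he l) (sg_im_nonneg hA hW' l) E) le_rfl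

/-- the sum of the reference energies, back at the laws `ν₀` -/
theorem back_int (hA : A.IsSymm) (Λ : (ι → ℂ) →ₗ[ℂ] F) {ν : ι → Measure ℝ}
    [∀ z, IsProbabilityMeasure (ν z)] {E L : ℝ} {e : ι → ℝ} (he : ∀ z, 0 < e z)
    {Q : Finset ι} (hL : ∀ k ∈ Q, ∀ᵐ u ∂ν k, |u - E| + e k ≤ L) (hL0 : 0 ≤ L) :
    ∑ z ∈ Q, ∫⁻ v, MV A (cf Q (WV E e v)) Λ z ∂Measure.pi ν ≤
      ENNReal.ofReal (2 * (1 + Q.card * (L + 1) ^ 2)) *
        ∑ z ∈ Q, ∫⁻ v, MV A (WV E e v) Λ z ∂Measure.pi ν := by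
  have hmW : ∀ x, Measurable fun v : ι → ℝ => WV E e v x := by
    intro x
    unfold WV
    have h1 : Measurable fun v : ι → ℝ => v x - E := by fun_prop
    exact (Complex.measurable_ofReal.comp h1).sub_const _
  rw [← lintegral_finset_sum _ (fun w _ => measurable_MV_cf Λ Q E e w),
    ← lintegral_finset_sum _ (fun w _ => measurable_MV Λ _ hmW w),
    ← lintegral_const_mul' _ _ ENNReal.ofReal_ne_top]
  have hae : ∀ᵐ v ∂Measure.pi ν, ∀ k ∈ Q, |v k - E| + e k ≤ L := by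
    rw [Finset.eventually_all]
    intro k hk
    have h1 : MeasurePreserving (fun v : ι → ℝ => v k) (Measure.pi ν) (ν k) :=
      measurePreserving_eval ν k
    exact h1.quasiMeasurePreserving.ae (hL k hk)
  refine lintegral_mono_ae ?_
  filter_upwards [hae] with v hv
  have h1 := back_pt hA (WV_neg (E := E) he v) Λ (Q := Q) (L := L) (fun l hl => by
    have := zeta_norm (he l) (hv l hl)
    simpa [WV] using this) hL0
  have h2 : ∑ z ∈ Q, MV A (cf Q (WV E e v)) Λ z =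
      ENNReal.ofReal (∑ z ∈ Q, ‖OneVar.GV A (cf Q (WV E e v)) Λ z‖ ^ 2) := by
    rw [ENNReal.ofReal_sum_of_nonneg fun _ _ => sq_nonneg _]
    rfl
  have h3 : ∑ z ∈ Q, MV A (WV E e v) Λ z =
      ENNReal.ofReal (∑ z ∈ Q, ‖OneVar.GV A (WV E e v) Λ z‖ ^ 2) := by
    rw [ENNReal.ofReal_sum_of_nonneg fun _ _ => sq_nonneg _]
    rfl
  rw [h2, h3, ← ENNReal.ofReal_mul (by positivity)]
  exact ENNReal.ofReal_le_ofReal h1

/-- the sum of the densities enters linearly -/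
noncomputable def Kg (s : ℕ) (L D : ℝ) : ℝ≥0∞ :=
  ENNReal.ofReal (4 * s * (L + 1) ^ 2) * ENNReal.ofReal (Real.pi * D)

/-- **one-shot switch**: one configuration of laws -/
theorem one_shot (hA : A.IsSymm) (Λ : (ι → ℂ) →ₗ[ℂ] F) {ν₁ ν₀ : ι → Measure ℝ}
    [∀ z, IsProbabilityMeasure (ν₁ z)] [∀ z, IsProbabilityMeasure (ν₀ z)] {E L : ℝ}
    {D e₁ e₀ : ι → ℝ} (he₁ : ∀ z, 0 < e₁ z) (he₀ : ∀ z, 0 < e₀ z) {S : Finset ι} {x : ι}
    (hx : x ∉ S) (hν : ∀ z ∉ insert x S, ν₁ z = ν₀ z) (he : ∀ z ∉ insert x S, e₁ z = e₀ z)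
    (hD : ∀ k ∈ S, DensLe (D k) (ν₁ k)) (hL0 : 0 ≤ L)
    (hL₁ : ∀ k ∈ S, ∀ᵐ u ∂ν₁ k, |u - E| + e₁ k ≤ L)
    (hL₀ : ∀ k ∈ insert x S, ∀ᵐ u ∂ν₀ k, |u - E| + e₀ k ≤ L) :
    ∫⁻ v, ENNReal.ofReal (Yv A (WV E e₁ v) Λ x) ∂Measure.pi ν₁ ≤
      (4 + ∑ k ∈ S, Kg S.card L (D k)) *
        (ENNReal.ofReal (2 * (1 + (S.card + 1) * (L + 1) ^ 2)) *
          ∑ z ∈ insert x S, ∫⁻ v, MV A (WV E e₀ v) Λ z ∂Measure.pi ν₀) := by
  set Q := insert x S with hQ
  set Z : ℝ≥0∞ := ∑ z ∈ Q, ∫⁻ v, MV A (cf Q (WV E e₀ v)) Λ z ∂Measure.pi ν₀ with hZ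
  have hcard : Q.card = S.card + 1 := Finset.card_insert_of_notMem hx
  have hback : Z ≤ ENNReal.ofReal (2 * (1 + (S.card + 1) * (L + 1) ^ 2)) *
      ∑ z ∈ Q, ∫⁻ v, MV A (WV E e₀ v) Λ z ∂Measure.pi ν₀ := by
    have := back_int hA Λ he₀ hL₀ hL0
    rw [hcard] at this
    push_cast at this
    exact this
  refine le_trans ?_ (mul_le_mul' le_rfl hback)
  -- reference value at `x`
  have s1 : ∫⁻ v, ENNReal.ofReal (Yv A (WV E e₁ v) Λ x) ∂Measure.pi ν₁ ≤
      2 * ∫⁻ v, MV A (cf {x} (WV E e₁ v)) Λ x ∂Measure.pi ν₁ := by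
    rw [← lintegral_const_mul' _ _ (by simp)]
    refine lintegral_mono fun v => ?_
    rw [cf_singleton]
    exact Yv_le_MV hA (WV_neg he₁ v) Λ x
  have hae : ∀ᵐ v ∂Measure.pi ν₁, ∀ k ∈ S, |v k - E| + e₁ k ≤ L := by
    rw [Finset.eventually_all]
    intro k hk
    have h1 : MeasurePreserving (fun v : ι → ℝ => v k) (Measure.pi ν₁) (ν₁ k) :=
      measurePreserving_eval ν₁ k
    exact h1.quasiMeasurePreserving.ae (hL₁ k hk)
  have hxS : ∀ k ∈ S, k ≠ x := fun k hk h => hx (h ▸ hk)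
  have s2 : ∫⁻ v, MV A (cf {x} (WV E e₁ v)) Λ x ∂Measure.pi ν₁ ≤
      ∫⁻ v, (2 * MV A (cf Q (WV E e₁ v)) Λ x + ENNReal.ofReal (2 * S.card * (L + 1) ^ 2) *
        ∑ l ∈ S, ENNReal.ofReal (pf A (cf {x} (WV E e₁ v)) l) *
          MV A (cf Q (WV E e₁ v)) Λ l) ∂Measure.pi ν₁ := by
    refine lintegral_mono_ae ?_
    filter_upwards [hae] with v hv
    have hW := WV_neg (E := E) he₁ v
    have hW' := cf_neg {x} hW
    have h1 := all_pt hA hW' Λ hx (cf_im (W := WV E e₁ v) (Finset.mem_singleton_self x))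
      (L := L) (fun l hl => by
        have h2 := zeta_norm (he₁ l) (hv l hl)
        have h3 : cf {x} (WV E e₁ v) l = WV E e₁ v l := by
          simp [cf, hxS l hl]
        rw [h3]
        simpa [WV] using h2)
    rw [cf_cf] at h1
    have h1' : ‖OneVar.GV A (cf {x} (WV E e₁ v)) Λ x‖ ^ 2 ≤
        2 * ‖OneVar.GV A (cf Q (WV E e₁ v)) Λ x‖ ^ 2 + 2 * S.card * (L + 1) ^ 2 *
          ∑ l ∈ S, pf A (cf {x} (WV E e₁ v)) l * ‖OneVar.GV A (cf Q (WV E e₁ v)) Λ l‖ ^ 2 := h1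
    rw [MV]
    refine (ENNReal.ofReal_le_ofReal h1').trans ?_
    have hp : ∀ l, 0 ≤ pf A (cf {x} (WV E e₁ v)) l := fun l => pf_nonneg hA hW' l
    rw [ENNReal.ofReal_add (by positivity) (mul_nonneg (by positivity)
      (Finset.sum_nonneg fun l _ => mul_nonneg (hp l) (sq_nonneg _))),
      ENNReal.ofReal_mul (by norm_num : (0 : ℝ) ≤ 2), ENNReal.ofReal_mul (by positivity),
      ENNReal.ofReal_sum_of_nonneg fun l _ => mul_nonneg (hp l) (sq_nonneg _)]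
    refine add_le_add (by rw [MV]; simp) (mul_le_mul' le_rfl ?_)
    refine Finset.sum_le_sum fun l _ => ?_
    rw [ENNReal.ofReal_mul (hp l), MV]
  have hm1 : ∀ l, Measurable fun v : ι → ℝ => ENNReal.ofReal (pf A (cf {x} (WV E e₁ v)) l) :=
    fun l => (measurable_pf _ (measurable_cfWV {x} E e₁) l).ennreal_ofReal
  have hm2 : ∀ l, Measurable fun v : ι → ℝ => MV A (cf Q (WV E e₁ v)) Λ l :=
    fun l => measurable_MV_cf Λ _ E e₁ l
  have s3 : ∀ w, ∫⁻ v, MV A (cf Q (WV E e₁ v)) Λ w ∂Measure.pi ν₁ =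
      ∫⁻ v, MV A (cf Q (WV E e₀ v)) Λ w ∂Measure.pi ν₀ := by
    intro w
    rw [lint_congr_off hν (measurable_MV_cf Λ Q E e₁ w)
      (fun v v' h => by rw [cf_congr (fun _ _ => rfl) h])]
    refine lintegral_congr fun v => ?_
    rw [cf_congr he (fun _ _ => rfl)]
  have s4 : ∀ w ∈ Q, ∫⁻ v, MV A (cf Q (WV E e₁ v)) Λ w ∂Measure.pi ν₁ ≤ Z := by
    intro w hw
    rw [s3]
    exact Finset.single_le_sum
      (f := fun z => ∫⁻ v, MV A (cf Q (WV E e₀ v)) Λ z ∂Measure.pi ν₀) (fun _ _ => zero_le) hw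
  refine s1.trans ?_
  calc 2 * ∫⁻ v, MV A (cf {x} (WV E e₁ v)) Λ x ∂Measure.pi ν₁
      ≤ 2 * ∫⁻ v, (2 * MV A (cf Q (WV E e₁ v)) Λ x + ENNReal.ofReal (2 * S.card * (L + 1) ^ 2) *
        ∑ l ∈ S, ENNReal.ofReal (pf A (cf {x} (WV E e₁ v)) l) *
          MV A (cf Q (WV E e₁ v)) Λ l) ∂Measure.pi ν₁ := mul_le_mul' le_rfl s2
    _ = 2 * (2 * ∫⁻ v, MV A (cf Q (WV E e₁ v)) Λ x ∂Measure.pi ν₁ +
        ENNReal.ofReal (2 * S.card * (L + 1) ^ 2) *
        ∑ l ∈ S, ∫⁻ v, ENNReal.ofReal (pf A (cf {x} (WV E e₁ v)) l) *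
          MV A (cf Q (WV E e₁ v)) Λ l ∂Measure.pi ν₁) := by
        have hm : ∀ l ∈ S, Measurable fun v : ι → ℝ =>
            ENNReal.ofReal (pf A (cf {x} (WV E e₁ v)) l) * MV A (cf Q (WV E e₁ v)) Λ l :=
          fun l _ => (hm1 l).mul (hm2 l)
        congr 1
        rw [lintegral_add_left ((hm2 x).const_mul _), lintegral_const_mul _ (hm2 x),
          lintegral_const_mul' _ _ ENNReal.ofReal_ne_top, lintegral_finset_sum _ hm]
    _ ≤ 2 * (2 * Z + ENNReal.ofReal (2 * S.card * (L + 1) ^ 2) *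
        ∑ l ∈ S, ENNReal.ofReal (Real.pi * D l) * Z) := by
        refine mul_le_mul' le_rfl (add_le_add (mul_le_mul' le_rfl
          (s4 x (Finset.mem_insert_self _ _))) (mul_le_mul' le_rfl ?_))
        refine Finset.sum_le_sum fun l hl => ?_
        refine (term_int hA Λ he₁ hl (hxS l hl) (hD l hl)).trans (mul_le_mul' le_rfl ?_)
        exact s4 l (Finset.mem_insert_of_mem hl)
    _ = (4 + ∑ k ∈ S, Kg S.card L (D k)) * Z := by
        have e1 : ∀ k, Kg S.card L (D k) = 2 * (ENNReal.ofReal (2 * S.card * (L + 1) ^ 2) *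
            ENNReal.ofReal (Real.pi * D k)) := by
          intro k
          have e2 : ENNReal.ofReal (4 * S.card * (L + 1) ^ 2) =
              2 * ENNReal.ofReal (2 * S.card * (L + 1) ^ 2) := by
            rw [show (4 * (S.card : ℝ) * (L + 1) ^ 2) = 2 * (2 * S.card * (L + 1) ^ 2) by ring,
              ENNReal.ofReal_mul (by norm_num)]
            simp
          rw [Kg, e2, mul_assoc]
        simp only [e1]
        rw [← Finset.mul_sum, ← Finset.mul_sum, ← Finset.sum_mul]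
        ring

/-! ### sum over labels -/

section labels

variable {Λ' : Type*} [Fintype Λ'] [DecidableEq Λ']

omit [Fintype ι] in
/-- sums over configurations which agree off `R`, site dependent weights and allowed labels -/
theorem sum_prod_site (q : ι → Λ' → ℝ≥0∞) (al : ι → Finset Λ') {R : Finset ι}
    (T : Finset (ι → Λ')) (hT : ∀ l ∈ T, ∀ m ∈ T, ∀ z ∉ R, l z = m z)
    (hal : ∀ l ∈ T, ∀ k ∈ R, l k ∈ al k) :
    ∑ l ∈ T, ∏ k ∈ R, q k (l k) ≤ ∏ k ∈ R, ∑ b ∈ al k, q k b := by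
  have h1 : ∑ l ∈ T, ∏ k ∈ R, q k (l k) ≤
      ∑ t ∈ Fintype.piFinset (fun k : R => al k), ∏ k : R, q k (t k) := by
    have h2 : ∀ l ∈ T, ∏ k ∈ R, q k (l k) = ∏ k : R, q k ((fun k : R => l k) k) := by
      intro l _
      rw [← Finset.prod_coe_sort]
    rw [Finset.sum_congr rfl h2]
    have hinj : Set.InjOn (fun l : ι → Λ' => fun k : R => l k) (T : Set (ι → Λ')) := by
      intro l hl m hm hlm
      funext z
      by_cases hz : z ∈ R
      · exact congrFun hlm ⟨z, hz⟩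
      · exact hT l (Finset.mem_coe.1 hl) m (Finset.mem_coe.1 hm) z hz
    rw [← Finset.sum_image (f := fun t : R → Λ' => ∏ k : R, q k (t k)) hinj]
    refine Finset.sum_le_sum_of_subset ?_
    intro t ht
    obtain ⟨l, hl, rfl⟩ := Finset.mem_image.1 ht
    rw [Fintype.mem_piFinset]
    exact fun k => hal l hl k k.2
  refine h1.trans (le_of_eq ?_)
  rw [← Finset.prod_univ_sum]
  exact Finset.prod_coe_sort R (fun k => ∑ b ∈ al k, q k b)

/-- the weight of the inside configurations: all sites of `S` but one give the probability of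
their allowed labels -/
noncomputable def gn (p : Λ' → ℝ) (L : ℝ) (D : Λ' → ℝ) (S : Finset ι) (al : ι → Finset Λ') :
    ℝ≥0∞ :=
  4 * ∏ k ∈ S, ∑ b ∈ al k, ENNReal.ofReal (p b) +
    ∑ j ∈ S, (∏ k ∈ S.erase j, ∑ b ∈ al k, ENNReal.ofReal (p b)) *
      ∑ b ∈ al j, ENNReal.ofReal (p b) * Kg S.card L (D b)

omit [Fintype ι] in
theorem inside_gn {p : Λ' → ℝ} {L : ℝ} {D : Λ' → ℝ} {S : Finset ι} {al : ι → Finset Λ'}
    (T : Finset (ι → Λ')) (hT : ∀ l ∈ T, ∀ m ∈ T, ∀ z ∉ S, l z = m z)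
    (hal : ∀ l ∈ T, ∀ k ∈ S, l k ∈ al k) :
    ∑ l ∈ T, (∏ k ∈ S, ENNReal.ofReal (p (l k))) * (4 + ∑ k ∈ S, Kg S.card L (D (l k))) ≤
      gn p L D S al := by
  have h1 : ∀ l : ι → Λ', (∏ k ∈ S, ENNReal.ofReal (p (l k))) *
      (4 + ∑ k ∈ S, Kg S.card L (D (l k))) = 4 * ∏ k ∈ S, ENNReal.ofReal (p (l k)) +
      ∑ j ∈ S, ∏ k ∈ S, (if k = j then ENNReal.ofReal (p (l k)) * Kg S.card L (D (l k))
        else ENNReal.ofReal (p (l k))) := by
    intro l
    rw [mul_add, mul_comm _ (4 : ℝ≥0∞), Finset.mul_sum]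
    congr 1
    refine Finset.sum_congr rfl fun j hj => ?_
    rw [← Finset.mul_prod_erase S _ hj, ← Finset.mul_prod_erase S (fun k => if k = j then
      ENNReal.ofReal (p (l k)) * Kg S.card L (D (l k)) else ENNReal.ofReal (p (l k))) hj,
      if_pos rfl]
    have h2 : ∏ k ∈ S.erase j, (if k = j then ENNReal.ofReal (p (l k)) * Kg S.card L (D (l k))
        else ENNReal.ofReal (p (l k))) = ∏ k ∈ S.erase j, ENNReal.ofReal (p (l k)) :=
      Finset.prod_congr rfl fun k hk => if_neg (Finset.ne_of_mem_erase hk)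
    rw [h2]
    ring
  simp only [h1]
  rw [Finset.sum_add_distrib, ← Finset.mul_sum, Finset.sum_comm, gn]
  refine add_le_add (mul_le_mul' le_rfl ?_) (Finset.sum_le_sum fun j hj => ?_)
  · exact sum_prod_site (fun _ b => ENNReal.ofReal (p b)) al T hT hal
  · refine (sum_prod_site (fun k b => if k = j then ENNReal.ofReal (p b) * Kg S.card L (D b)
      else ENNReal.ofReal (p b)) al T hT hal).trans (le_of_eq ?_)
    rw [← Finset.mul_prod_erase S _ hj, mul_comm]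
    congr 1
    · refine Finset.prod_congr rfl fun k hk => Finset.sum_congr rfl fun b _ => ?_
      rw [if_neg (Finset.ne_of_mem_erase hk)]
    · exact Finset.sum_congr rfl fun b _ => if_pos rfl

/-- **one-shot switch, summed over label configurations**.  `T` = a set of label configurations with
allowed labels on `S`; the profile off `insert x S` is the one of the switched configuration. -/
theorem one_shot_sum (hA : A.IsSymm) (Λ : (ι → ℂ) →ₗ[ℂ] F) {ν : Λ' → Measure ℝ}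
    [∀ k, IsProbabilityMeasure (ν k)] {p : Λ' → ℝ} (hp : ∀ k, 0 ≤ p k) {E L : ℝ} {D : Λ' → ℝ}
    {e : (ι → Λ') → ι → ℝ} (he : ∀ l z, 0 < e l z) {S : Finset ι} {x : ι} (hx : x ∉ S) {g : Λ'}
    (hg : 0 < p g) {al : ι → Finset Λ'} {T : Finset (ι → Λ')}
    (hal : ∀ l ∈ T, ∀ k ∈ S, l k ∈ al k)
    (hloc : ∀ l ∈ T, ∀ z ∉ insert x S, e l z = e (swf S g l) z)
    (hD : ∀ l ∈ T, ∀ k ∈ S, DensLe (D (l k)) (ν (l k))) (hL0 : 0 ≤ L)
    (hL₁ : ∀ l ∈ T, ∀ k ∈ S, ∀ᵐ u ∂ν (l k), |u - E| + e l k ≤ L)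
    (hL₀ : ∀ l ∈ T, ∀ k ∈ insert x S, ∀ᵐ u ∂ν (swf S g l k), |u - E| + e (swf S g l) k ≤ L) :
    ∑ l ∈ T, ENNReal.ofReal (∏ z, p (l z)) *
        ∫⁻ v, ENNReal.ofReal (Yv A (WV E (e l) v) Λ x) ∂Measure.pi (fun z => ν (l z)) ≤
      (gn p L D S al * ENNReal.ofReal (1 / p g) ^ S.card *
        ENNReal.ofReal (2 * (1 + (S.card + 1) * (L + 1) ^ 2))) *
      ∑ l' ∈ T.image (swf S g), ENNReal.ofReal (∏ z, p (l' z)) *
        ∑ z ∈ insert x S, ∫⁻ v, MV A (WV E (e l') v) Λ z ∂Measure.pi (fun z => ν (l' z)) := by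
  rw [← Finset.sum_fiberwise_of_maps_to (g := swf S g) (t := T.image (swf S g))
    (fun l hl => Finset.mem_image_of_mem _ hl), Finset.mul_sum]
  refine Finset.sum_le_sum fun l' hl' => ?_
  set G : ℝ≥0∞ := ∑ z ∈ insert x S, ∫⁻ v, MV A (WV E (e l') v) Λ z
    ∂Measure.pi (fun z => ν (l' z)) with hGd
  set B : ℝ≥0∞ := ENNReal.ofReal (2 * (1 + (S.card + 1) * (L + 1) ^ 2)) with hB
  have hl'R : ∀ k ∈ S, l' k = g := by
    obtain ⟨l, _, rfl⟩ := Finset.mem_image.1 hl'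
    exact fun k hk => swf_in hk
  set P : ℝ≥0∞ := ∏ k ∈ Sᶜ, ENNReal.ofReal (p (l' k)) with hP
  have hw : ∀ l ∈ T.filter (fun l => swf S g l = l'),
      ENNReal.ofReal (∏ z, p (l z)) = P * ∏ k ∈ S, ENNReal.ofReal (p (l k)) := by
    intro l hl
    have h1 := (Finset.mem_filter.1 hl).2
    rw [ENNReal.ofReal_prod_of_nonneg (fun k _ => hp _), ← Finset.prod_mul_prod_compl S, mul_comm,
      hP]
    congr 1
    refine Finset.prod_congr rfl fun k hk => ?_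
    rw [← h1, swf_out (Finset.mem_compl.1 hk)]
  have hw' : P = ENNReal.ofReal (1 / p g) ^ S.card * ENNReal.ofReal (∏ z, p (l' z)) := by
    have e1 : ∏ k ∈ S, ENNReal.ofReal (p (l' k)) = ENNReal.ofReal (p g) ^ S.card := by
      rw [← Finset.prod_const]
      exact Finset.prod_congr rfl fun k hk => by rw [hl'R k hk]
    have e2 : ENNReal.ofReal (1 / p g) * ENNReal.ofReal (p g) = 1 := by
      rw [← ENNReal.ofReal_mul (by positivity), one_div, inv_mul_cancel₀ hg.ne',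
        ENNReal.ofReal_one]
    rw [ENNReal.ofReal_prod_of_nonneg (fun k _ => hp _), ← Finset.prod_mul_prod_compl S, ← hP,
      e1, ← mul_assoc, ← mul_pow, e2, one_pow, one_mul]
  calc ∑ l ∈ T.filter (fun l => swf S g l = l'), ENNReal.ofReal (∏ z, p (l z)) *
        ∫⁻ v, ENNReal.ofReal (Yv A (WV E (e l) v) Λ x) ∂Measure.pi (fun z => ν (l z))
      ≤ ∑ l ∈ T.filter (fun l => swf S g l = l'), (P * (B * G)) *
          ((∏ k ∈ S, ENNReal.ofReal (p (l k))) * (4 + ∑ k ∈ S, Kg S.card L (D (l k)))) := by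
        refine Finset.sum_le_sum fun l hl => ?_
        have hlT := (Finset.mem_filter.1 hl).1
        have h1 := (Finset.mem_filter.1 hl).2
        have h2 := one_shot (ν₁ := fun z => ν (l z)) (ν₀ := fun z => ν (swf S g l z))
          (D := fun k => D (l k)) hA Λ (he l) (he (swf S g l)) hx
          (fun z hz => by
            rw [swf_out fun h => hz (Finset.mem_insert_of_mem h)])
          (hloc l hlT) (hD l hlT) hL0 (hL₁ l hlT) (hL₀ l hlT)
        rw [h1, ← hGd, ← hB] at h2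
        rw [hw l hl]
        calc P * (∏ k ∈ S, ENNReal.ofReal (p (l k))) *
              ∫⁻ v, ENNReal.ofReal (Yv A (WV E (e l) v) Λ x) ∂Measure.pi (fun z => ν (l z))
            ≤ P * (∏ k ∈ S, ENNReal.ofReal (p (l k))) *
              ((4 + ∑ k ∈ S, Kg S.card L (D (l k))) * (B * G)) := mul_le_mul' le_rfl h2
          _ = _ := by ring
    _ = (P * (B * G)) * ∑ l ∈ T.filter (fun l => swf S g l = l'),
          (∏ k ∈ S, ENNReal.ofReal (p (l k))) * (4 + ∑ k ∈ S, Kg S.card L (D (l k))) :=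
        (Finset.mul_sum _ _ _).symm
    _ ≤ (P * (B * G)) * gn p L D S al := by
        refine mul_le_mul' le_rfl (inside_gn _ (fun l hl m hm z hz => ?_)
          fun l hl k hk => hal l (Finset.mem_filter.1 hl).1 k hk)
        have e3 : swf S g l z = swf S g m z := by
          rw [(Finset.mem_filter.1 hl).2, (Finset.mem_filter.1 hm).2]
        rwa [swf_out hz, swf_out hz] at e3
    _ = _ := by
        rw [hw']
        ring

end labels

end P365T1.Switch
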