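import Vale.Agent.P365.T1.SwAll789
import Vale.Agent.P365.J376.V3

/-!
# P365 T1: the one-shot switch for the V3 weights (long clusters, one region)

For a set `T` of labellings, all of whose sites in `S` are not good and whose stage profile off
`insert x S` is the profile after the switch of `S`: the weighted cost of `x` (mov, not a centre)
is at most `C (|S|+1)^3 2^|S| τ^(|S|-1) / s` times the energies at `insert x S` with weights
`prof`, after the switch.
-/

set_option linter.all false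

namespace P365T1.Switch

open P365L P365O P365T1 P365T1.OneVar Matrix Complex MeasureTheory Vale.Agent.P365.J376
open scoped ComplexConjugate ENNReal

section arith

/-- weight of one switched region with `n` sites -/
noncomputable def Kq (L D0 : ℝ) (τ : ℝ) (n : ℕ) : ℝ :=
  16 * (1 + (L + 1) ^ 2 * (Real.pi * D0)) * (1 + (L + 1) ^ 2) * (n + 1) ^ 3 * 2 ^ n * τ ^ (n - 1)

variable {ι : Type*} [Fintype ι] [DecidableEq ι] {Λ' : Type*} [Fintype Λ'] [DecidableEq Λ']

theorem gn_erase_le {p : Λ' → ℝ} (hp : ∀ k, 0 ≤ p k) {L D0 τ : ℝ} {Dd : Λ' → ℝ}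
    (hDd0 : ∀ k, 0 ≤ Dd k) {g : Λ'} (hL0 : 0 ≤ L)
    (hτ : ∑ b ∈ Finset.univ.erase g, p b ≤ τ) (hτ1 : τ ≤ 1)
    (hD0 : ∑ k, p k * Dd k ≤ D0) (S : Finset ι) :
    gn p L Dd S (fun _ => Finset.univ.erase g) ≤
      ENNReal.ofReal ((4 + 4 * S.card ^ 2 * ((L + 1) ^ 2 * (Real.pi * D0))) *
        τ ^ (S.card - 1)) := by
  have hτ0 : 0 ≤ τ := (Finset.sum_nonneg fun b _ => hp b).trans hτ
  have h1 : ∑ b ∈ Finset.univ.erase g, ENNReal.ofReal (p b) ≤ ENNReal.ofReal τ := by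
    rw [← ENNReal.ofReal_sum_of_nonneg fun b _ => hp b]
    exact ENNReal.ofReal_le_ofReal hτ
  have hD00 : 0 ≤ D0 := (Finset.sum_nonneg fun k _ => mul_nonneg (hp k) (hDd0 k)).trans hD0
  have h2 : ∑ b ∈ Finset.univ.erase g, ENNReal.ofReal (p b) * Kg S.card L (Dd b) ≤
      ENNReal.ofReal (4 * S.card * (L + 1) ^ 2 * (Real.pi * D0)) := by
    have e1 : ∀ b, ENNReal.ofReal (p b) * Kg S.card L (Dd b) =
        ENNReal.ofReal (4 * S.card * (L + 1) ^ 2 * Real.pi * (p b * Dd b)) := by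
      intro b
      rw [Kg, ← ENNReal.ofReal_mul (by positivity), ← ENNReal.ofReal_mul (hp b)]
      congr 1
      ring
    simp only [e1]
    rw [← ENNReal.ofReal_sum_of_nonneg fun b _ => by
      have := hp b
      have := hDd0 b
      positivity]
    refine ENNReal.ofReal_le_ofReal ?_
    rw [← Finset.mul_sum]
    have h3 : ∑ b ∈ Finset.univ.erase g, p b * Dd b ≤ D0 :=
      (Finset.sum_le_sum_of_subset_of_nonneg (Finset.erase_subset _ _)
        fun k _ _ => mul_nonneg (hp k) (hDd0 k)).trans hD0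
    calc 4 * S.card * (L + 1) ^ 2 * Real.pi * ∑ b ∈ Finset.univ.erase g, p b * Dd b
        ≤ 4 * S.card * (L + 1) ^ 2 * Real.pi * D0 := by
          refine mul_le_mul_of_nonneg_left h3 ?_
          positivity
      _ = _ := by ring
  unfold gn
  rcases Finset.eq_empty_or_nonempty S with hS | hS
  · subst hS
    simp
  · have hc : 1 ≤ S.card := Finset.card_pos.2 hS
    have h3 : ∏ k ∈ S, ∑ b ∈ Finset.univ.erase g, ENNReal.ofReal (p b) ≤
        ENNReal.ofReal (τ ^ (S.card - 1)) := by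
      rw [Finset.prod_const]
      calc (∑ b ∈ Finset.univ.erase g, ENNReal.ofReal (p b)) ^ S.card
          ≤ ENNReal.ofReal τ ^ S.card := by gcongr
        _ = ENNReal.ofReal (τ ^ S.card) := by rw [ENNReal.ofReal_pow hτ0]
        _ ≤ ENNReal.ofReal (τ ^ (S.card - 1)) :=
          ENNReal.ofReal_le_ofReal (pow_le_pow_of_le_one hτ0 hτ1 (Nat.sub_le _ _))
    have h4 : ∀ j ∈ S, (∏ k ∈ S.erase j, ∑ b ∈ Finset.univ.erase g, ENNReal.ofReal (p b)) *
        ∑ b ∈ Finset.univ.erase g, ENNReal.ofReal (p b) * Kg S.card L (Dd b) ≤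
        ENNReal.ofReal (τ ^ (S.card - 1)) *
          ENNReal.ofReal (4 * S.card * (L + 1) ^ 2 * (Real.pi * D0)) := by
      intro j hj
      refine mul_le_mul' ?_ h2
      rw [Finset.prod_const, Finset.card_erase_of_mem hj, ENNReal.ofReal_pow hτ0]
      gcongr
    calc 4 * ∏ k ∈ S, ∑ b ∈ Finset.univ.erase g, ENNReal.ofReal (p b) +
        ∑ j ∈ S, (∏ k ∈ S.erase j, ∑ b ∈ Finset.univ.erase g, ENNReal.ofReal (p b)) *
          ∑ b ∈ Finset.univ.erase g, ENNReal.ofReal (p b) * Kg S.card L (Dd b)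
        ≤ 4 * ENNReal.ofReal (τ ^ (S.card - 1)) +
          ∑ j ∈ S, ENNReal.ofReal (τ ^ (S.card - 1)) *
            ENNReal.ofReal (4 * S.card * (L + 1) ^ 2 * (Real.pi * D0)) := by
          exact add_le_add (mul_le_mul' le_rfl h3) (Finset.sum_le_sum h4)
      _ = ENNReal.ofReal ((4 + 4 * S.card ^ 2 * ((L + 1) ^ 2 * (Real.pi * D0))) *
        τ ^ (S.card - 1)) := by
          rw [Finset.sum_const, nsmul_eq_mul, ← ENNReal.ofReal_mul (by positivity),
            ← ENNReal.ofReal_natCast, ← ENNReal.ofReal_mul (by positivity),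
            show (4 : ℝ≥0∞) = ENNReal.ofReal 4 by simp, ← ENNReal.ofReal_mul (by norm_num),
            ← ENNReal.ofReal_add (by positivity) (by positivity)]
          congr 1
          ring

end arith

section main

variable {D : V3} {N : ℕ} [NeZero N] {ρ : Measure ℝ}
variable {F : Type*} [NormedAddCommGroup F] [NormedSpace ℂ F]

open Classical in
/-- **LONG, one region** -/
theorem long_q (h : D.Ok ρ) {i : ℕ} (hi : i ≤ D.I) {s : ℝ} (hs : 0 < s) {E L D0 : ℝ}
    (hL0 : 0 ≤ L) {Dd : D.Λ → ℝ} (hDd0 : ∀ k, 0 ≤ Dd k) (hDd : ∀ k, DensLe (Dd k) (D.ν k))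
    (hD0 : ∑ k, D.p k * Dd k ≤ D0)
    (hL : ∀ l : Tor N → D.Λ, ∀ k z, ∀ᵐ u ∂D.ν k, |u - E| + D.prof (i + 1) s l z ≤ L)
    (Λ : (Tor N → ℂ) →ₗ[ℂ] F) {S : Finset (Tor N)} {x : Tor N} (hx : x ∉ S)
    {T : Finset (Tor N → D.Λ)} (hT : ∀ l ∈ T, ∀ z ∈ S, l z ≠ D.good)
    (hmov : ∀ l ∈ T, D.mov (l x)) (hcen : ∀ l ∈ T, ¬ D.cen i l x)
    (hloc : ∀ l ∈ T, ∀ z ∉ insert x S, D.prof (i + 1) s l z =
      D.prof (i + 1) s (swf S D.good l) z) :
    ∑ l ∈ T, ENNReal.ofReal (∏ z, D.p (l z)) * (ENNReal.ofReal (D.Ws (i + 1) l x) *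
        ∫⁻ v, ENNReal.ofReal (Yv (AT N) (WV E (D.prof (i + 1) s l) v) Λ x)
          ∂Measure.pi (fun z => D.ν (l z))) ≤
      ENNReal.ofReal (Kq L D0 (1 - D.p D.good) S.card / s) *
      ∑ l' ∈ T.image (swf S D.good), ENNReal.ofReal (∏ z, D.p (l' z)) *
        ∑ z ∈ insert x S, ENNReal.ofReal (D.prof (i + 1) s l' z) *
          ∫⁻ v, MV (AT N) (WV E (D.prof (i + 1) s l') v) Λ z
            ∂Measure.pi (fun z => D.ν (l' z)) := by
  haveI := h.prob
  have hi1 : i + 1 ≤ D.I + 1 := by omega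
  set w : ℝ := D.e0 i * Real.exp (-(D.a i)) with hw
  have hw0 : 0 < w := mul_pos (h.e0_pos i hi) (Real.exp_pos _)
  set τ : ℝ := 1 - D.p D.good with hτd
  have hsum : ∑ b ∈ Finset.univ.erase D.good, D.p b = τ := by
    have := Finset.add_sum_erase Finset.univ D.p (Finset.mem_univ D.good)
    rw [h.p_sum] at this
    rw [hτd]
    linarith
  have hτ0 : 0 ≤ τ := hsum ▸ Finset.sum_nonneg fun b _ => h.p_nonneg b
  have hτ1 : τ ≤ 1 / 8192 := h.p_good
  have hpg : 8191 / 8192 ≤ D.p D.good := by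
    rw [hτd] at hτ1
    linarith
  have hD00 : 0 ≤ D0 :=
    (Finset.sum_nonneg fun k _ => mul_nonneg (h.p_nonneg k) (hDd0 k)).trans hD0
  -- the weights
  have hWx : ∀ l ∈ T, D.Ws (i + 1) l x ≤ 2 * w := fun l hl =>
    (h.Ws_bulk hi (hmov l hl) (hcen l hl)).2
  have hWz : ∀ l' : Tor N → D.Λ, ∀ z, D.mov (l' z) → w ≤ D.Ws (i + 1) l' z := by
    intro l' z hz
    by_cases hc : D.cen i l' z
    · refine le_trans ?_ (h.Ws_cen hi hc).1
      have h1 : Real.exp (-(D.a i)) ≤ 1 :=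
        Real.exp_le_one_iff.2 (by linarith [h.a_nonneg i hi])
      have h2 := h.e0_pos i hi
      rw [hw]
      nlinarith
    · exact (h.Ws_bulk hi hz hc).1
  have hprof : ∀ l' : Tor N → D.Λ, ∀ z, D.mov (l' z) →
      2 * w ≤ 2 / s * D.prof (i + 1) s l' z := by
    intro l' z hz
    have h1 := hWz l' z hz
    have h2 := h.s_mul_Ws_le (i + 1) s l' z
    rw [div_mul_eq_mul_div, le_div_iff₀ hs]
    nlinarith
  -- the one-shot switch
  have hone := one_shot_sum (A := AT N) (AT_symm N) Λ (ν := D.ν) (p := D.p) h.p_nonneg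
    (E := E) (L := L) (D := Dd) (e := fun l => D.prof (i + 1) s l)
    (fun l z => h.prof_pos hi1 hs.le l z) (S := S) (x := x) hx (g := D.good)
    (by linarith) (al := fun _ => Finset.univ.erase D.good) (T := T)
    (fun l hl k hk => Finset.mem_erase.2 ⟨hT l hl k hk, Finset.mem_univ _⟩)
    hloc (fun l _ k _ => hDd _) hL0 (fun l _ k _ => hL l _ k) (fun l _ k _ => hL _ _ k)
  have hgn := gn_erase_le (ι := Tor N) h.p_nonneg hDd0 hL0 (g := D.good) (τ := τ) hsum.le
    (by linarith) hD0 S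
  have hK : gn D.p L Dd S (fun _ => Finset.univ.erase D.good) *
      ENNReal.ofReal (1 / D.p D.good) ^ S.card *
        ENNReal.ofReal (2 * (1 + (S.card + 1) * (L + 1) ^ 2)) ≤
      ENNReal.ofReal (Kq L D0 τ S.card / 2) := by
    have h2 : ENNReal.ofReal (1 / D.p D.good) ^ S.card ≤ ENNReal.ofReal (2 ^ S.card) := by
      rw [ENNReal.ofReal_pow (by norm_num)]
      gcongr
      rw [div_le_iff₀ (by linarith)]
      linarith
    refine (mul_le_mul' (mul_le_mul' hgn h2) le_rfl).trans ?_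
    rw [← ENNReal.ofReal_mul (by positivity), ← ENNReal.ofReal_mul (by positivity)]
    refine ENNReal.ofReal_le_ofReal ?_
    set n : ℝ := (S.card : ℝ) with hn
    have hn0 : 0 ≤ n := Nat.cast_nonneg _
    set X : ℝ := (L + 1) ^ 2 * (Real.pi * D0) with hX
    have hX0 : 0 ≤ X := by positivity
    set Y : ℝ := (L + 1) ^ 2 with hY
    have hY0 : 0 ≤ Y := by positivity
    have h5 : (4 + 4 * n ^ 2 * X) ≤ 4 * (1 + X) * (n + 1) ^ 2 := by nlinarith [mul_nonneg hn0 hX0]
    have h6 : 2 * (1 + (n + 1) * Y) ≤ 2 * (1 + Y) * (n + 1) := by nlinarith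
    have h7 : (4 + 4 * n ^ 2 * X) * (2 * (1 + (n + 1) * Y)) ≤
        8 * (1 + X) * (1 + Y) * (n + 1) ^ 3 := by
      calc (4 + 4 * n ^ 2 * X) * (2 * (1 + (n + 1) * Y))
          ≤ (4 * (1 + X) * (n + 1) ^ 2) * (2 * (1 + Y) * (n + 1)) := by gcongr
        _ = _ := by ring
    have h8 : 0 ≤ (2 : ℝ) ^ S.card * τ ^ (S.card - 1) := by positivity
    calc (4 + 4 * n ^ 2 * X) * τ ^ (S.card - 1) * 2 ^ S.card * (2 * (1 + (n + 1) * Y))
        = ((4 + 4 * n ^ 2 * X) * (2 * (1 + (n + 1) * Y))) * (2 ^ S.card * τ ^ (S.card - 1)) := by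
          ring
      _ ≤ (8 * (1 + X) * (1 + Y) * (n + 1) ^ 3) * (2 ^ S.card * τ ^ (S.card - 1)) :=
          mul_le_mul_of_nonneg_right h7 h8
      _ = Kq L D0 τ S.card / 2 := by
          rw [Kq]
          ring
  have hKq0 : 0 ≤ Kq L D0 τ S.card := by
    unfold Kq
    positivity
  -- assemble
  calc ∑ l ∈ T, ENNReal.ofReal (∏ z, D.p (l z)) * (ENNReal.ofReal (D.Ws (i + 1) l x) *
        ∫⁻ v, ENNReal.ofReal (Yv (AT N) (WV E (D.prof (i + 1) s l) v) Λ x)
          ∂Measure.pi (fun z => D.ν (l z)))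
      ≤ ∑ l ∈ T, ENNReal.ofReal (2 * w) * (ENNReal.ofReal (∏ z, D.p (l z)) *
        ∫⁻ v, ENNReal.ofReal (Yv (AT N) (WV E (D.prof (i + 1) s l) v) Λ x)
          ∂Measure.pi (fun z => D.ν (l z))) := by
        refine Finset.sum_le_sum fun l hl => ?_
        rw [mul_left_comm]
        gcongr
        exact hWx l hl
    _ = ENNReal.ofReal (2 * w) * ∑ l ∈ T, ENNReal.ofReal (∏ z, D.p (l z)) *
        ∫⁻ v, ENNReal.ofReal (Yv (AT N) (WV E (D.prof (i + 1) s l) v) Λ x)
          ∂Measure.pi (fun z => D.ν (l z)) := by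
        rw [Finset.mul_sum]
    _ ≤ ENNReal.ofReal (2 * w) * (ENNReal.ofReal (Kq L D0 τ S.card / 2) *
      ∑ l' ∈ T.image (swf S D.good), ENNReal.ofReal (∏ z, D.p (l' z)) *
        ∑ z ∈ insert x S, ∫⁻ v, MV (AT N) (WV E (D.prof (i + 1) s l') v) Λ z
            ∂Measure.pi (fun z => D.ν (l' z))) := by
        gcongr
        exact hone.trans (mul_le_mul' hK le_rfl)
    _ = ENNReal.ofReal (Kq L D0 τ S.card / 2) *
      ∑ l' ∈ T.image (swf S D.good), ENNReal.ofReal (∏ z, D.p (l' z)) *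
        ∑ z ∈ insert x S, ENNReal.ofReal (2 * w) *
          ∫⁻ v, MV (AT N) (WV E (D.prof (i + 1) s l') v) Λ z
            ∂Measure.pi (fun z => D.ν (l' z)) := by
        rw [mul_left_comm, Finset.mul_sum]
        congr 1
        refine Finset.sum_congr rfl fun l' _ => ?_
        rw [mul_left_comm, Finset.mul_sum]
    _ ≤ ENNReal.ofReal (Kq L D0 τ S.card / 2) *
      ∑ l' ∈ T.image (swf S D.good), ENNReal.ofReal (∏ z, D.p (l' z)) *
        ∑ z ∈ insert x S, ENNReal.ofReal (2 / s * D.prof (i + 1) s l' z) *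
          ∫⁻ v, MV (AT N) (WV E (D.prof (i + 1) s l') v) Λ z
            ∂Measure.pi (fun z => D.ν (l' z)) := by
        refine mul_le_mul' le_rfl (Finset.sum_le_sum fun l' hl' => mul_le_mul' le_rfl
          (Finset.sum_le_sum fun z hz => mul_le_mul' (ENNReal.ofReal_le_ofReal
            (hprof l' z ?_)) le_rfl))
        obtain ⟨l, hl, rfl⟩ := Finset.mem_image.1 hl'
        rcases Finset.mem_insert.1 hz with rfl | hz
        · rw [swf_out hx]
          exact hmov l hl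
        · rw [swf_in hz]
          exact h.mov_good
    _ = _ := by
        have e1 : ∀ (l' : Tor N → D.Λ) (z : Tor N),
            ENNReal.ofReal (2 / s * D.prof (i + 1) s l' z) =
            ENNReal.ofReal (2 / s) * ENNReal.ofReal (D.prof (i + 1) s l' z) := fun l' z =>
          ENNReal.ofReal_mul (by positivity)
        simp only [e1]
        have e2 : ENNReal.ofReal (Kq L D0 τ S.card / s) =
            ENNReal.ofReal (Kq L D0 τ S.card / 2) * ENNReal.ofReal (2 / s) := by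
          rw [← ENNReal.ofReal_mul (by positivity)]
          congr 1
          field_simp
        rw [e2, mul_assoc]
        congr 1
        rw [Finset.mul_sum]
        refine Finset.sum_congr rfl fun l' _ => ?_
        rw [mul_left_comm]
        congr 1
        rw [Finset.mul_sum]
        refine Finset.sum_congr rfl fun z _ => ?_
        rw [mul_assoc]

open Classical in
/-- **LONG, one region**, the linear map may depend on the switched labelling, weights written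
with `if` -/
theorem long_q_fib (h : D.Ok ρ) {i : ℕ} (hi : i ≤ D.I) {s : ℝ} (hs : 0 < s) {E L D0 : ℝ}
    (hL0 : 0 ≤ L) {Dd : D.Λ → ℝ} (hDd0 : ∀ k, 0 ≤ Dd k) (hDd : ∀ k, DensLe (Dd k) (D.ν k))
    (hD0 : ∑ k, D.p k * Dd k ≤ D0)
    (hL : ∀ l : Tor N → D.Λ, ∀ k z, ∀ᵐ u ∂D.ν k, |u - E| + D.prof (i + 1) s l z ≤ L)
    (Tm : (Tor N → D.Λ) → (Tor N → ℂ) →ₗ[ℂ] F) {S : Finset (Tor N)} {x : Tor N} (hx : x ∉ S)
    {Tl : Finset (Tor N → D.Λ)} (hng : ∀ l ∈ Tl, ∀ z ∈ S, l z ≠ D.good)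
    (hprof : ∀ l ∈ Tl, ∀ z ∉ insert x S, D.prof (i + 1) s l z =
      D.prof (i + 1) s (swf S D.good l) z) :
    ∑ l ∈ Tl, ENNReal.ofReal (∏ z, D.p (l z)) *
        (ENNReal.ofReal (if D.mov (l x) ∧ ¬ D.cen i l x then D.Ws (i + 1) l x else 0) *
        ∫⁻ v, ENNReal.ofReal (Yv (AT N) (WV E (D.prof (i + 1) s l) v) (Tm (swf S D.good l)) x)
          ∂Measure.pi (fun z => D.ν (l z))) ≤
      ENNReal.ofReal (Kq L D0 (1 - D.p D.good) S.card / s) *
      ∑ l' ∈ Tl.image (swf S D.good), ENNReal.ofReal (∏ z, D.p (l' z)) *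
        ∑ z ∈ insert x S, ENNReal.ofReal (D.prof (i + 1) s l' z) *
          ∫⁻ v, MV (AT N) (WV E (D.prof (i + 1) s l') v) (Tm l') z
            ∂Measure.pi (fun z => D.ν (l' z)) := by
  rw [← Finset.sum_fiberwise_of_maps_to (g := swf S D.good) (t := Tl.image (swf S D.good))
    (fun l hl => Finset.mem_image_of_mem _ hl), Finset.mul_sum]
  refine Finset.sum_le_sum fun l' hl' => ?_
  set G : ℝ≥0∞ := ENNReal.ofReal (∏ z, D.p (l' z)) *
        ∑ z ∈ insert x S, ENNReal.ofReal (D.prof (i + 1) s l' z) *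
          ∫⁻ v, MV (AT N) (WV E (D.prof (i + 1) s l') v) (Tm l') z
            ∂Measure.pi (fun z => D.ν (l' z)) with hG
  set T1 : Finset (Tor N → D.Λ) := (Tl.filter fun l => swf S D.good l = l').filter
    (fun l => D.mov (l x) ∧ ¬ D.cen i l x) with hT1
  have hmem : ∀ l ∈ T1, l ∈ Tl ∧ swf S D.good l = l' ∧ D.mov (l x) ∧ ¬ D.cen i l x := by
    intro l hl
    rw [hT1, Finset.mem_filter, Finset.mem_filter] at hl
    exact ⟨hl.1.1, hl.1.2, hl.2.1, hl.2.2⟩
  have h1 := long_q h hi hs (E := E) (L := L) hL0 hDd0 hDd hD0 hL (Tm l') (S := S) (x := x) hx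
    (T := T1) (fun l hl => hng l (hmem l hl).1) (fun l hl => (hmem l hl).2.2.1)
    (fun l hl => (hmem l hl).2.2.2) (fun l hl => hprof l (hmem l hl).1)
  have h2 : ∑ l ∈ Tl.filter (fun l => swf S D.good l = l'), ENNReal.ofReal (∏ z, D.p (l z)) *
        (ENNReal.ofReal (if D.mov (l x) ∧ ¬ D.cen i l x then D.Ws (i + 1) l x else 0) *
        ∫⁻ v, ENNReal.ofReal (Yv (AT N) (WV E (D.prof (i + 1) s l) v) (Tm (swf S D.good l)) x)
          ∂Measure.pi (fun z => D.ν (l z))) =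
      ∑ l ∈ T1, ENNReal.ofReal (∏ z, D.p (l z)) * (ENNReal.ofReal (D.Ws (i + 1) l x) *
        ∫⁻ v, ENNReal.ofReal (Yv (AT N) (WV E (D.prof (i + 1) s l) v) (Tm l') x)
          ∂Measure.pi (fun z => D.ν (l z))) := by
    rw [hT1, Finset.sum_filter (fun l => D.mov (l x) ∧ ¬ D.cen i l x)]
    refine Finset.sum_congr rfl fun l hl => ?_
    rw [(Finset.mem_filter.1 hl).2]
    by_cases hc : D.mov (l x) ∧ ¬ D.cen i l x
    · rw [if_pos hc, if_pos hc]
    · rw [if_neg hc, if_neg hc]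
      simp
  rw [h2]
  refine h1.trans (mul_le_mul' le_rfl ?_)
  have h3 : T1.image (swf S D.good) ⊆ {l'} := by
    intro l hl
    obtain ⟨m, hm, rfl⟩ := Finset.mem_image.1 hl
    exact Finset.mem_singleton.2 (hmem m hm).2.1
  refine (Finset.sum_le_sum_of_subset h3).trans ?_
  rw [Finset.sum_singleton]

end main

end P365T1.Switch
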