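import Vale.Agent.P365.T1.OneVar
import Vale.Agent.P365.T1.MAff
import Vale.Agent.P365.T1.Defs
import Vale.Agent.P365.L4.Budget

/-!
# P365 T1: the one-variable event lemma, laws (`nuB`, `nuS`) and product form.
-/

set_option linter.all false

namespace P365T1

open P365L P365O Matrix Complex MeasureTheory P365T1.Bump
open scoped ComplexConjugate ENNReal

namespace OneVar

/-! ### laws -/

theorem mass_Icc {ρ : ℝ → ℝ} {a b c₀ : ℝ} (hc : 0 ≤ c₀) (h : ∀ u ∈ Set.Icc a b, c₀ ≤ ρ u) :
    ENNReal.ofReal (c₀ * (b - a)) ≤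
      (volume.withDensity fun v => ENNReal.ofReal (ρ v)) (Set.Icc a b) := by
  rw [withDensity_apply _ measurableSet_Icc, ENNReal.ofReal_mul hc]
  calc ENNReal.ofReal c₀ * ENNReal.ofReal (b - a) = ∫⁻ u in Set.Icc a b, ENNReal.ofReal c₀ := by
        rw [setLIntegral_const, Real.volume_Icc]
    _ ≤ _ := setLIntegral_mono' measurableSet_Icc fun u hu => ENNReal.ofReal_le_ofReal (h u hu)

theorem rhoB_ge_sixth {c l v : ℝ} (hl : 0 < l) (h : |v - c| ≤ 3 / 4 * l) :
    1 / (6 * l) ≤ rhoB c l v := by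
  rw [rhoB_eq hl (h.trans (by linarith))]
  have h1 : ((v - c) / l) ^ 2 ≤ (3 / 4) ^ 2 := by
    rw [← sq_abs]
    have : |(v - c) / l| ≤ 3 / 4 := by
      rw [abs_div, abs_of_pos hl, div_le_iff₀ hl]
      exact h
    exact pow_le_pow_left₀ (abs_nonneg _) this 2
  have h2 : (7 / 16 : ℝ) ≤ 1 - ((v - c) / l) ^ 2 := by linarith
  have h3 : (7 / 16 : ℝ) ^ 2 ≤ (1 - ((v - c) / l) ^ 2) ^ 2 :=
    pow_le_pow_left₀ (by norm_num) h2 2
  calc 1 / (6 * l) ≤ 15 / (16 * l) * (7 / 16) ^ 2 := by
        rw [div_mul_eq_mul_div, div_le_div_iff₀ (by positivity) (by positivity)]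
        nlinarith
    _ ≤ _ := by gcongr

/-- monotonicity of the bump -/
theorem rhoB_mono {c l u v : ℝ} (hl : 0 < l) (hv : |v - c| ≤ l) (h : |u - c| ≤ |v - c|) :
    rhoB c l v ≤ rhoB c l u := by
  rw [rhoB_eq hl hv, rhoB_eq hl (h.trans hv)]
  have h1 : ((u - c) / l) ^ 2 ≤ ((v - c) / l) ^ 2 := by
    rw [div_pow, div_pow, ← sq_abs (u - c), ← sq_abs (v - c)]
    gcongr
  have h2 : ((v - c) / l) ^ 2 ≤ 1 := by
    rw [div_pow, div_le_one (by positivity), ← sq_abs]
    gcongr
  gcongr

theorem rhoB_half {c l u v η : ℝ} (hl : 0 < l) (hv : |v - c| ≤ l) (hη : η ≤ l / 8)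
    (h : |u - c| ≤ |v - c| ∨ |u - c| ≤ η) : 1 / 2 * rhoB c l v ≤ rhoB c l u := by
  have h0 : 0 ≤ rhoB c l v := rhoB_nonneg hl
  rcases h with h | h
  · have := rhoB_mono hl hv h
    linarith
  · have h1 : rhoB c l v ≤ 15 / (16 * l) := rhoB_le hl
    have h2 : 1 / 2 * (15 / (16 * l)) ≤ rhoB c l u := by
      rw [rhoB_eq hl (h.trans (by linarith))]
      have h3 : ((u - c) / l) ^ 2 ≤ (1 / 8) ^ 2 := by
        rw [← sq_abs]
        have : |(u - c) / l| ≤ 1 / 8 := by
          rw [abs_div, abs_of_pos hl, div_le_iff₀ hl]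
          linarith
        exact pow_le_pow_left₀ (abs_nonneg _) this 2
      have h4 : (63 / 64 : ℝ) ≤ 1 - ((u - c) / l) ^ 2 := by linarith
      have h5 : (63 / 64 : ℝ) ^ 2 ≤ (1 - ((u - c) / l) ^ 2) ^ 2 :=
        pow_le_pow_left₀ (by norm_num) h4 2
      have h6 : (1 / 2 : ℝ) ≤ (1 - ((u - c) / l) ^ 2) ^ 2 := by linarith
      calc 1 / 2 * (15 / (16 * l)) = 15 / (16 * l) * (1 / 2) := by ring
        _ ≤ _ := by gcongr
    linarith

theorem loc_nuB {c l : ℝ} (hl : 0 < l) (v η : ℝ) (hη : 0 < η) (hη' : η ≤ l / 8) :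
    ENNReal.ofReal (1 / 2 * rhoB c l v * η) ≤ nuB c l (Set.Icc (v - η) (v + η)) := by
  have h0 : 0 ≤ rhoB c l v := rhoB_nonneg hl
  by_cases hv : v ∈ Set.Ioc (c - l) (c + l)
  · have hv' : |v - c| ≤ l := by
      rw [abs_le]
      exact ⟨by linarith [hv.1], by linarith [hv.2]⟩
    rcases le_total c v with hc | hc
    · have h1 := mass_Icc (ρ := rhoB c l) (a := v - η) (b := v) (c₀ := 1 / 2 * rhoB c l v)
        (by positivity) fun u hu => rhoB_half hl hv' hη' (by
          have e1 : |v - c| = v - c := abs_of_nonneg (by linarith)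
          rcases le_total c u with h | h
          · left
            rw [e1, abs_of_nonneg (by linarith)]
            linarith [hu.2]
          · right
            rw [abs_of_nonpos (by linarith)]
            linarith [hu.1])
      have e2 : v - (v - η) = η := by ring
      rw [e2] at h1
      exact h1.trans (measure_mono (Set.Icc_subset_Icc_right (by linarith)))
    · have h1 := mass_Icc (ρ := rhoB c l) (a := v) (b := v + η) (c₀ := 1 / 2 * rhoB c l v)
        (by positivity) fun u hu => rhoB_half hl hv' hη' (by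
          have e1 : |v - c| = c - v := by
            rw [abs_of_nonpos (by linarith)]
            ring
          rcases le_total c u with h | h
          · right
            rw [abs_of_nonneg (by linarith)]
            linarith [hu.2]
          · left
            rw [e1, abs_of_nonpos (by linarith)]
            linarith [hu.1])
      have e2 : v + η - v = η := by ring
      rw [e2] at h1
      exact h1.trans (measure_mono (Set.Icc_subset_Icc_left (by linarith)))
  · rw [rhoB_eq_zero hl hv, mul_zero, zero_mul, ENNReal.ofReal_zero]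
    exact bot_le

theorem mass_right {c l : ℝ} (hl : 0 < l) :
    ENNReal.ofReal (1 / 12) ≤ nuB c l (Set.Icc (c + l / 4) (c + 3 / 4 * l)) := by
  have h1 := mass_Icc (ρ := rhoB c l) (a := c + l / 4) (b := c + 3 / 4 * l) (c₀ := 1 / (6 * l))
    (by positivity) fun u hu => rhoB_ge_sixth hl (by
      rw [abs_of_nonneg (by linarith [hu.1])]
      linarith [hu.2])
  have e : 1 / (6 * l) * (c + 3 / 4 * l - (c + l / 4)) = 1 / 12 := by
    field_simp
    ring
  rwa [e] at h1

theorem mass_left {c l : ℝ} (hl : 0 < l) :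
    ENNReal.ofReal (1 / 12) ≤ nuB c l (Set.Icc (c - 3 / 4 * l) (c - l / 4)) := by
  have h1 := mass_Icc (ρ := rhoB c l) (a := c - 3 / 4 * l) (b := c - l / 4) (c₀ := 1 / (6 * l))
    (by positivity) fun u hu => rhoB_ge_sixth hl (by
      rw [abs_of_nonpos (by linarith [hu.2])]
      linarith [hu.1])
  have e : 1 / (6 * l) * (c - l / 4 - (c - 3 / 4 * l)) = 1 / 12 := by
    field_simp
    ring
  rwa [e] at h1

/-- bumps are regular laws -/
theorem glaw_nuB {c l L : ℝ} (hl : 0 < l) (hL : |c| + l ≤ L) :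
    GLaw (nuB c l) (rhoB c l) L (l / 2) (1 / 12) (1 / 2) (15 / (16 * l)) (l / 8) := by
  have hc := abs_le.1 (le_refl |c|)
  refine ⟨by linarith [abs_nonneg c], by positivity, by norm_num, by norm_num, by positivity,
    by positivity, rfl, measurable_rhoB c l, fun v => rhoB_nonneg hl, fun v => rhoB_le hl,
    fun v hv => rhoB_eq_zero hl fun h => ?_, ⟨Set.Icc (c - 3 / 4 * l) (c - l / 4),
      Set.Icc (c + l / 4) (c + 3 / 4 * l), measurableSet_Icc, measurableSet_Icc,
      mass_left hl, mass_right hl, fun u hu => ?_, fun u hu => ?_, fun u₁ h₁ u₂ h₂ => ?_⟩,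
    fun v η h h' => loc_nuB hl v η h h'⟩
  · have : |v| ≤ L := by
      rw [abs_le]
      exact ⟨by linarith [h.1, hc.1], by linarith [h.2, hc.2]⟩
    linarith
  · rw [abs_le]
    exact ⟨by linarith [hu.1, hc.1], by linarith [hu.2, hc.2]⟩
  · rw [abs_le]
    exact ⟨by linarith [hu.1, hc.1], by linarith [hu.2, hc.2]⟩
  · rw [abs_sub_comm, abs_of_nonneg (by linarith [h₁.2, h₂.1])]
    linarith [h₁.2, h₂.1]

/-- uniform windows are regular laws (no `nuB` regularity needed) -/
theorem glaw_unif {c w L : ℝ} (hw : 0 < w) (hL : |c| + w ≤ L) :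
    GLaw (volume.withDensity fun v => ENNReal.ofReal
        ((Set.Icc (c - w) (c + w)).indicator (fun _ => (2 * w)⁻¹) v))
      ((Set.Icc (c - w) (c + w)).indicator (fun _ => (2 * w)⁻¹)) L w (1 / 4) 1 ((2 * w)⁻¹) w := by
  have hc := abs_le.1 (le_refl |c|)
  have hw2 : (0 : ℝ) ≤ (2 * w)⁻¹ := by positivity
  have hin : ∀ v, v ∈ Set.Icc (c - w) (c + w) →
      (Set.Icc (c - w) (c + w)).indicator (fun _ => (2 * w)⁻¹) v = (2 * w)⁻¹ :=
    fun v hv => Set.indicator_of_mem hv _
  refine ⟨by linarith [abs_nonneg c], hw, by norm_num, by norm_num, by positivity,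
    hw, rfl, measurable_const.indicator measurableSet_Icc,
    fun v => Set.indicator_nonneg (fun _ _ => hw2) v,
    fun v => Set.indicator_le_self' (fun _ _ => hw2) v,
    fun v hv => Set.indicator_of_notMem (fun h => ?_) _,
    ⟨Set.Icc (c - w) (c - w / 2), Set.Icc (c + w / 2) (c + w), measurableSet_Icc,
      measurableSet_Icc, ?_, ?_, fun u hu => ?_, fun u hu => ?_, fun u₁ h₁ u₂ h₂ => ?_⟩,
    fun v η h h' => ?_⟩
  · have : |v| ≤ L := by
      rw [abs_le]
      exact ⟨by linarith [h.1, hc.1], by linarith [h.2, hc.2]⟩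
    linarith
  · have h1 := mass_Icc (ρ := (Set.Icc (c - w) (c + w)).indicator (fun _ => (2 * w)⁻¹))
      (a := c - w) (b := c - w / 2) (c₀ := (2 * w)⁻¹) hw2 fun u hu =>
        (hin u ⟨hu.1, by linarith [hu.2]⟩).ge
    have e : (2 * w)⁻¹ * (c - w / 2 - (c - w)) = 1 / 4 := by
      field_simp
      ring
    rwa [e] at h1
  · have h1 := mass_Icc (ρ := (Set.Icc (c - w) (c + w)).indicator (fun _ => (2 * w)⁻¹))
      (a := c + w / 2) (b := c + w) (c₀ := (2 * w)⁻¹) hw2 fun u hu =>
        (hin u ⟨by linarith [hu.1], hu.2⟩).ge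
    have e : (2 * w)⁻¹ * (c + w - (c + w / 2)) = 1 / 4 := by
      field_simp
      ring
    rwa [e] at h1
  · rw [abs_le]
    exact ⟨by linarith [hu.1, hc.1], by linarith [hu.2, hc.2]⟩
  · rw [abs_le]
    exact ⟨by linarith [hu.1, hc.1], by linarith [hu.2, hc.2]⟩
  · rw [abs_sub_comm, abs_of_nonneg (by linarith [h₁.2, h₂.1])]
    linarith [h₁.2, h₂.1]
  · by_cases hv : v ∈ Set.Icc (c - w) (c + w)
    · rw [hin v hv]
      rcases le_total c v with hcv | hcv
      · have h1 := mass_Icc (ρ := (Set.Icc (c - w) (c + w)).indicator (fun _ => (2 * w)⁻¹))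
          (a := v - η) (b := v) (c₀ := (2 * w)⁻¹) hw2 fun u hu =>
            (hin u ⟨by linarith [hu.1], by linarith [hu.2, hv.2]⟩).ge
        have e2 : (2 * w)⁻¹ * (v - (v - η)) = 1 * (2 * w)⁻¹ * η := by ring
        rw [e2] at h1
        exact h1.trans (measure_mono (Set.Icc_subset_Icc_right (by linarith)))
      · have h1 := mass_Icc (ρ := (Set.Icc (c - w) (c + w)).indicator (fun _ => (2 * w)⁻¹))
          (a := v) (b := v + η) (c₀ := (2 * w)⁻¹) hw2 fun u hu =>
            (hin u ⟨by linarith [hu.1, hv.1], by linarith [hu.2]⟩).ge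
        have e2 : (2 * w)⁻¹ * (v + η - v) = 1 * (2 * w)⁻¹ * η := by ring
        rw [e2] at h1
        exact h1.trans (measure_mono (Set.Icc_subset_Icc_left (by linarith)))
    · rw [Set.indicator_of_notMem hv, mul_zero, zero_mul, ENNReal.ofReal_zero]
      exact bot_le

/-- the smooth law near the uniform law -/
theorem nuS_eq {lam l : ℝ} (hl : 0 < l) (h : l < lam) :
    nuS lam l = volume.withDensity fun v => ENNReal.ofReal (rhoS lam l v) := by
  rw [nuS, muv, ← withDensity_indicator measurableSet_Icc]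
  congr 1
  funext v
  by_cases hv : v ∈ Set.Icc (-lam) lam
  · rw [Set.indicator_of_mem hv]
  · rw [Set.indicator_of_notMem hv]
    have h0 : rhoS lam l v = 0 := by
      rw [rhoS, muc]
      have : ∫ c in Set.Icc (-(lam - l)) (lam - l), rhoB c l v = 0 := by
        refine (setIntegral_congr_fun measurableSet_Icc (g := fun _ => (0 : ℝ)) fun c hc => ?_).trans
          (by simp)
        refine rhoB_eq_zero hl fun h1 => hv ⟨?_, ?_⟩
        · linarith [h1.1, hc.1]
        · linarith [h1.2, hc.2]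
      rw [this, mul_zero]
    rw [h0, ENNReal.ofReal_zero]

theorem rhoS_supp {lam l : ℝ} (hl : 0 < l) (h : l < lam) {v : ℝ} (hv : lam < |v|) :
    rhoS lam l v = 0 := by
  rw [rhoS, muc]
  have : ∫ c in Set.Icc (-(lam - l)) (lam - l), rhoB c l v = 0 := by
    refine (setIntegral_congr_fun measurableSet_Icc (g := fun _ => (0 : ℝ)) fun c hc => ?_).trans
      (by simp)
    refine rhoB_eq_zero hl fun h1 => ?_
    have : |v| ≤ lam := by
      rw [abs_le]
      exact ⟨by linarith [h1.1, hc.1], by linarith [h1.2, hc.2]⟩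
    linarith
  rw [this, mul_zero]

theorem continuous_rhoB_center {l : ℝ} (v : ℝ) : Continuous fun c : ℝ => rhoB c l v := by
  have h := (continuous_rhoB2 l).comp (continuous_id.prodMk (continuous_const (y := v)))
  exact h

theorem integrable_rhoB_center {lam l : ℝ} (v : ℝ) :
    Integrable (fun c : ℝ => rhoB c l v) (muc lam l) := by
  have := (continuous_rhoB_center (l := l) v).continuousOn (s := Set.Icc (-(lam - l)) (lam - l))
  exact ContinuousOn.integrableOn_compact isCompact_Icc this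

theorem ofReal_rhoS {lam l : ℝ} (hl : 0 < l) (h : l < lam) (v : ℝ) :
    ENNReal.ofReal (rhoS lam l v) = ENNReal.ofReal (2 * (lam - l))⁻¹ *
      ∫⁻ c, ENNReal.ofReal (rhoB c l v) ∂(muc lam l) := by
  have h2 : (0 : ℝ) ≤ (2 * (lam - l))⁻¹ := inv_nonneg.2 (by linarith)
  have hn : 0 ≤ᵐ[muc lam l] fun c : ℝ => rhoB c l v :=
    Filter.Eventually.of_forall fun c => rhoB_nonneg hl
  have key := ofReal_integral_eq_lintegral_ofReal (integrable_rhoB_center v) hn
  unfold rhoS
  rw [ENNReal.ofReal_mul h2, key]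

/-- sets under the smooth law are averages over bumps -/
theorem nuS_apply {lam l : ℝ} (hl : 0 < l) (h : l < lam) {s : Set ℝ} (hs : MeasurableSet s) :
    nuS lam l s = ENNReal.ofReal (2 * (lam - l))⁻¹ * ∫⁻ c, nuB c l s ∂(muc lam l) := by
  rw [nuS_eq hl h, withDensity_apply _ hs]
  simp only [ofReal_rhoS hl h]
  rw [lintegral_const_mul' _ _ ENNReal.ofReal_ne_top]
  congr 1
  have hm : Measurable fun p : ℝ × ℝ => ENNReal.ofReal (rhoB p.2 l p.1) :=
    ((continuous_rhoB2 l).comp (continuous_snd.prodMk continuous_fst)).measurable.ennreal_ofReal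
  haveI : SFinite (muc lam l) := by
    rw [muc]
    infer_instance
  rw [lintegral_lintegral_swap hm.aemeasurable]
  refine lintegral_congr fun c => ?_
  rw [nuB, withDensity_apply _ hs]

theorem mass_nuS {lam l : ℝ} (hl : 0 < l) (h : l < lam) {s : Set ℝ} (hs : MeasurableSet s)
    {a b : ℝ} (hab : Set.Icc a b ⊆ Set.Icc (-(lam - l)) (lam - l)) (hle : lam - l ≤ b - a)
    (hc : ∀ c ∈ Set.Icc a b, ENNReal.ofReal (1 / 12) ≤ nuB c l s) :
    ENNReal.ofReal (1 / 24) ≤ nuS lam l s := by
  have h0 : 0 < lam - l := by linarith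
  rw [nuS_apply hl h hs, muc]
  calc ENNReal.ofReal (1 / 24) = ENNReal.ofReal (2 * (lam - l))⁻¹ *
        (ENNReal.ofReal (1 / 12) * ENNReal.ofReal (lam - l)) := by
        rw [← ENNReal.ofReal_mul (by norm_num), ← ENNReal.ofReal_mul (by positivity)]
        congr 1
        field_simp
        norm_num
    _ ≤ ENNReal.ofReal (2 * (lam - l))⁻¹ *
        (ENNReal.ofReal (1 / 12) * volume (Set.Icc a b)) := by
        rw [Real.volume_Icc]
        gcongr
    _ = ENNReal.ofReal (2 * (lam - l))⁻¹ * ∫⁻ c in Set.Icc a b, ENNReal.ofReal (1 / 12) := by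
        rw [setLIntegral_const]
    _ ≤ ENNReal.ofReal (2 * (lam - l))⁻¹ * ∫⁻ c in Set.Icc a b, nuB c l s := by
        gcongr 1
        exact setLIntegral_mono' measurableSet_Icc hc
    _ ≤ _ := by
        gcongr 1
        exact lintegral_mono_set hab

/-- the smooth law is regular -/
theorem glaw_nuS {lam l : ℝ} (hl : 0 < l) (h : l < lam) :
    GLaw (nuS lam l) (rhoS lam l) lam (l / 2) (1 / 24) (1 / 2) ((2 * (lam - l))⁻¹) (l / 8) := by
  have h0 : 0 < lam - l := by linarith
  refine ⟨by linarith, by positivity, by norm_num, by norm_num, by positivity,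
    by positivity, nuS_eq hl h, measurable_rhoS lam l, rhoS_nonneg hl h, rhoS_le hl h,
    fun v hv => rhoS_supp hl h hv, ⟨Set.Icc (-lam) (-(l / 4)), Set.Icc (l / 4) lam,
      measurableSet_Icc, measurableSet_Icc, ?_, ?_, fun u hu => ?_, fun u hu => ?_,
      fun u₁ h₁ u₂ h₂ => ?_⟩, fun v η h1 h1' => ?_⟩
  · refine mass_nuS hl h measurableSet_Icc (a := -(lam - l)) (b := 0)
      (Set.Icc_subset_Icc_right h0.le) (by linarith) fun c hc => ?_
    refine (mass_left (c := c) hl).trans (measure_mono (Set.Icc_subset_Icc ?_ ?_))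
    · linarith [hc.1]
    · linarith [hc.2]
  · refine mass_nuS hl h measurableSet_Icc (a := 0) (b := lam - l)
      (Set.Icc_subset_Icc_left (by linarith)) (by linarith) fun c hc => ?_
    refine (mass_right (c := c) hl).trans (measure_mono (Set.Icc_subset_Icc ?_ ?_))
    · linarith [hc.1]
    · linarith [hc.2]
  · rw [abs_le]
    exact ⟨hu.1, by linarith [hu.2]⟩
  · rw [abs_le]
    exact ⟨by linarith [hu.1], hu.2⟩
  · rw [abs_sub_comm, abs_of_nonneg (by linarith [h₁.2, h₂.1])]
    linarith [h₁.2, h₂.1]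
  · have hr := rhoS_nonneg hl h v
    rw [nuS_apply hl h measurableSet_Icc]
    calc ENNReal.ofReal (1 / 2 * rhoS lam l v * η)
        = ENNReal.ofReal (rhoS lam l v) * ENNReal.ofReal (1 / 2 * η) := by
          rw [← ENNReal.ofReal_mul hr]
          congr 1
          ring
      _ = ENNReal.ofReal (2 * (lam - l))⁻¹ *
          ∫⁻ c, ENNReal.ofReal (rhoB c l v) * ENNReal.ofReal (1 / 2 * η) ∂(muc lam l) := by
          rw [ofReal_rhoS hl h, mul_assoc, ← lintegral_mul_const' _ _ ENNReal.ofReal_ne_top]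
      _ ≤ _ := by
          gcongr with c
          rw [← ENNReal.ofReal_mul (rhoB_nonneg hl)]
          refine le_trans (le_of_eq ?_) (loc_nuB (c := c) hl v η h1 h1')
          congr 1
          ring

/-- translations -/
theorem GLaw.shift {ν : Measure ℝ} {ρ : ℝ → ℝ} {L δ m κ₀ R η₀ : ℝ}
    (G : GLaw ν ρ L δ m κ₀ R η₀) (E : ℝ) :
    GLaw (ν.map fun v => v - E) (fun u => ρ (u + E)) (L + |E|) δ m κ₀ R η₀ := by
  have hme : Measurable fun v : ℝ => v - E := measurable_id.sub_const E
  have hma : Measurable fun v : ℝ => v + E := measurable_id.add_const E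
  have happ : ∀ s : Set ℝ, MeasurableSet s →
      (ν.map fun v => v - E) s = ν {v | v - E ∈ s} := fun s hs => Measure.map_apply hme hs
  obtain ⟨I₁, I₂, m1, m2, h1, h2, b1, b2, hd⟩ := G.spread
  have hE := abs_le.1 (le_refl |E|)
  refine ⟨by linarith [G.hL, abs_nonneg E], G.hδ, G.hm, G.hκ, G.hR, G.hη, ?_,
    G.meas.comp (measurable_id.add_const E), fun v => G.nonneg _, fun v => G.le _,
    fun v hv => G.supp _ ?_, ⟨{u | u + E ∈ I₁}, {u | u + E ∈ I₂},
      hma m1, hma m2, ?_, ?_,
      fun u hu => ?_, fun u hu => ?_, fun u₁ h₁ u₂ h₂ => ?_⟩, fun v η h h' => ?_⟩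
  · ext s hs
    have hs' : MeasurableSet {v | v - E ∈ s} := hme hs
    rw [happ s hs, G.dens, withDensity_apply _ hs', withDensity_apply _ hs,
      ← lintegral_indicator hs, ← lintegral_indicator hs']
    rw [← lintegral_sub_right_eq_self (fun u => s.indicator (fun a => ENNReal.ofReal (ρ (a + E))) u) E]
    refine lintegral_congr fun v => ?_
    by_cases hv : v - E ∈ s
    · rw [Set.indicator_of_mem hv, Set.indicator_of_mem (show v ∈ {v | v - E ∈ s} from hv),
        sub_add_cancel]
    · rw [Set.indicator_of_notMem hv,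
        Set.indicator_of_notMem (show v ∉ {v | v - E ∈ s} from hv)]
  · by_contra hcon
    push Not at hcon
    have h3 : |v| ≤ |v + E| + |E| := by
      have := abs_sub (v + E) E
      rwa [add_sub_cancel_right] at this
    linarith
  · have hm1 : MeasurableSet {u | u + E ∈ I₁} := hma m1
    rw [happ _ hm1]
    simpa using h1
  · have hm2 : MeasurableSet {u | u + E ∈ I₂} := hma m2
    rw [happ _ hm2]
    simpa using h2
  · have h3 := b1 _ hu
    have := abs_sub (u + E) E
    rw [add_sub_cancel_right] at this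
    linarith
  · have h3 := b2 _ hu
    have := abs_sub (u + E) E
    rw [add_sub_cancel_right] at this
    linarith
  · have h3 := hd _ h₁ _ h₂
    rwa [add_sub_add_right_eq_sub] at h3
  · rw [happ _ measurableSet_Icc]
    refine (G.loc (v + E) η h h').trans (measure_mono fun u hu => ?_)
    exact ⟨by linarith [hu.1], by linarith [hu.2]⟩

end OneVar

end P365T1
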