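import Mathlib.MeasureTheory.Constructions.Pi
import Mathlib.MeasureTheory.Integral.Bochner.Basic

/-!
# P365-T1: labels.  A product of mixtures is the mixture of the products.

`Measure.pi (fun x => ∑ l, p l • ν l) = ∑ L, (∏ x, p (L x)) • Measure.pi (fun x => ν (L x))`.
-/

set_option linter.all false

namespace P365T1.Lab125

open MeasureTheory
open scoped ENNReal

variable {ι Λ : Type*} [Fintype ι] [DecidableEq ι] [Fintype Λ]

/-- site-dependent version -/
theorem pi_mix (p : ι → Λ → ℝ≥0∞) (hp : ∀ x l, p x l ≠ ∞) (ν : ι → Λ → Measure ℝ)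
    [∀ x l, IsFiniteMeasure (ν x l)] :
    Measure.pi (fun x => ∑ l, p x l • ν x l) =
      ∑ L : ι → Λ, (∏ x, p x (L x)) • Measure.pi (fun x => ν x (L x)) := by
  haveI : ∀ x, IsFiniteMeasure (∑ l, p x l • ν x l) := by
    intro x
    refine ⟨?_⟩
    rw [Measure.finset_sum_apply]
    refine ENNReal.sum_lt_top.2 fun l _ => ?_
    rw [Measure.smul_apply, smul_eq_mul]
    exact ENNReal.mul_lt_top (hp x l).lt_top (measure_lt_top _ _)
  refine Measure.pi_eq fun s hs => ?_
  rw [Measure.finset_sum_apply]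
  simp only [Measure.smul_apply, Measure.pi_pi, smul_eq_mul, Measure.finset_sum_apply]
  rw [Finset.prod_univ_sum]
  simp only [Fintype.piFinset_univ, Finset.prod_mul_distrib]

/-- real weights -/
theorem pi_mix_real (p : ι → Λ → ℝ) (hp : ∀ x l, 0 ≤ p x l) (ν : ι → Λ → Measure ℝ)
    [∀ x l, IsFiniteMeasure (ν x l)] :
    Measure.pi (fun x => ∑ l, ENNReal.ofReal (p x l) • ν x l) =
      ∑ L : ι → Λ, ENNReal.ofReal (∏ x, p x (L x)) • Measure.pi (fun x => ν x (L x)) := by
  rw [pi_mix (fun x l => ENNReal.ofReal (p x l)) (fun x l => ENNReal.ofReal_ne_top) ν]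
  refine Finset.sum_congr rfl fun L _ => ?_
  rw [ENNReal.ofReal_prod_of_nonneg fun x _ => hp x _]

/-- integrals against a finite weighted sum of measures -/
theorem integral_sum_smul {Ω E : Type*} [MeasurableSpace Ω] [NormedAddCommGroup E]
    [NormedSpace ℝ E] {J : Type*} (s : Finset J) (w : J → ℝ) (hw : ∀ j ∈ s, 0 ≤ w j)
    (m : J → Measure Ω) (F : Ω → E) (hF : ∀ j ∈ s, Integrable F (m j)) :
    ∫ ω, F ω ∂(∑ j ∈ s, ENNReal.ofReal (w j) • m j) = ∑ j ∈ s, w j • ∫ ω, F ω ∂(m j) := by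
  rw [integral_finset_sum_measure fun j hj => (hF j hj).smul_measure ENNReal.ofReal_ne_top]
  refine Finset.sum_congr rfl fun j hj => ?_
  rw [integral_smul_measure, ENNReal.toReal_ofReal (hw j hj)]

/-- **Labels**: the integral over the product of mixtures is the label average of the product
integrals. -/
theorem integral_pi_mix {E : Type*} [NormedAddCommGroup E] [NormedSpace ℝ E]
    (p : ι → Λ → ℝ) (hp : ∀ x l, 0 ≤ p x l) (ν : ι → Λ → Measure ℝ)
    [∀ x l, IsFiniteMeasure (ν x l)] (F : (ι → ℝ) → E)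
    (hF : ∀ L : ι → Λ, Integrable F (Measure.pi fun x => ν x (L x))) :
    ∫ V, F V ∂(Measure.pi fun x => ∑ l, ENNReal.ofReal (p x l) • ν x l) =
      ∑ L : ι → Λ, (∏ x, p x (L x)) • ∫ V, F V ∂(Measure.pi fun x => ν x (L x)) := by
  rw [pi_mix_real p hp ν]
  exact integral_sum_smul _ _ (fun L _ => Finset.prod_nonneg fun x _ => hp x _) _ _
    fun L _ => hF L

/-- total mass of the label weights -/
theorem sum_prod_eq_one (p : ι → Λ → ℝ) (hp : ∀ x, ∑ l, p x l = 1) :
    ∑ L : ι → Λ, ∏ x, p x (L x) = 1 := by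
  have h := Finset.prod_univ_sum (t := fun _ : ι => (Finset.univ : Finset Λ)) (f := p)
  rw [Fintype.piFinset_univ] at h
  rw [← h]
  exact Finset.prod_eq_one fun x _ => hp x

end P365T1.Lab125
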