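import Vale.Agent.P365.T1.Bad2

/-!
# P365-T1, chapter C: mixing and the good exterior

`lmarginal_idem`, `lintegral_lmarginal` : resampling.
`Gd` : the event that, `V_ρ` being resampled, the ports are nonresonant with probability `> 1/2`.
`cp_Gd_le` : off the exceptional sets `badSet` it has conditional probability at least `3/4`.
-/

set_option autoImplicit false
set_option linter.all false

open MeasureTheory Finset Function
open scoped ENNReal

namespace P365T1.Bad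

section general

variable {ι : Type*} [DecidableEq ι] (μ : ι → Measure ℝ) [∀ i, IsProbabilityMeasure (μ i)]

/-- a function which does not see the coordinates of `s` is its own marginal -/
theorem lmarginal_const (s : Finset ι) {g : (ι → ℝ) → ℝ≥0∞}
    (hg : ∀ V V' : ι → ℝ, (∀ i ∉ s, V i = V' i) → g V = g V') : ∫⋯∫⁻_s, g ∂μ = g := by
  ext V
  unfold lmarginal
  have : ∀ y : (i : s) → ℝ, g (updateFinset V s y) = g V := by
    intro y
    refine hg _ _ fun i hi => ?_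
    simp [updateFinset, hi]
  simp only [this]
  simp

theorem lmarginal_idem {s t : Finset ι} (hst : s ⊆ t) {f : (ι → ℝ) → ℝ≥0∞} (hf : Measurable f) :
    ∫⋯∫⁻_t, (∫⋯∫⁻_s, f ∂μ) ∂μ = ∫⋯∫⁻_t, f ∂μ := by
  have h1 : t = (t \ s) ∪ s := by
    rw [Finset.sdiff_union_of_subset hst]
  have hd : Disjoint (t \ s) s := Finset.sdiff_disjoint
  rw [h1, lmarginal_union μ _ (hf.lmarginal μ) hd, lmarginal_union μ _ hf hd]
  congr 1
  exact lmarginal_const μ s fun V V' h => lmarginal_congr μ _ h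

theorem lintegral_lmarginal [Fintype ι] (s : Finset ι) {f : (ι → ℝ) → ℝ≥0∞} (hf : Measurable f) :
    ∫⁻ V, (∫⋯∫⁻_s, f ∂μ) V ∂(Measure.pi μ) = ∫⁻ V, f V ∂(Measure.pi μ) := by
  have h := lmarginal_idem μ (Finset.subset_univ s) hf
  rw [lmarginal_univ, lmarginal_univ] at h
  have h2 := congrFun h (fun _ => 0)
  exact h2

theorem cp_idem {s t : Finset ι} (hst : s ⊆ t) {R : Set (ι → ℝ)} (hR : MeasurableSet R) :
    ∫⋯∫⁻_t, (cp μ s R) ∂μ = cp μ t R :=
  lmarginal_idem μ hst (measurable_one.indicator hR)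

/-- Markov -/
theorem cp_ge_le (Q : Finset ι) {g : (ι → ℝ) → ℝ≥0∞} (hg : Measurable g) {c : ℝ≥0∞} (V : ι → ℝ) :
    c * cp μ Q {V | c ≤ g V} V ≤ (∫⋯∫⁻_Q, g ∂μ) V := by
  have hm : MeasurableSet {V | c ≤ g V} := measurableSet_le measurable_const hg
  unfold cp lmarginal
  have hm2 : Measurable fun y : (i : Q) → ℝ =>
      ({V | c ≤ g V}.indicator (1 : (ι → ℝ) → ℝ≥0∞)) (updateFinset V Q y) :=
    (measurable_one.indicator hm).comp measurable_updateFinset
  rw [← lintegral_const_mul _ hm2]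
  refine lintegral_mono fun y => ?_
  by_cases h : c ≤ g (updateFinset V Q y)
  · simp [Set.indicator, h]
  · simp [Set.indicator, h]

end general

variable {ι : Type*} [Fintype ι] [DecidableEq ι] {A : Matrix ι ι ℝ}

/-- conditional probability of a resonance of the ports, off the exceptional sets -/
theorem cp_NR_le (μ : ι → Measure ℝ) [∀ i, IsProbabilityMeasure (μ i)] (hA : A.IsSymm) {E : ℝ}
    {e : ι → ℝ} (he : ∀ x, 0 < e x) {y : ι} {D Q : Finset ι} (hy : y ∉ D) {L : ℝ} (hL : 0 < L)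
    {θ K : ℝ≥0∞} (hK : ∀ l ∈ D ∩ Q, ∀ S : Set ℝ, μ l S ≤ K * volume S) {V : ι → ℝ}
    (hV : ∀ l ∈ D \ Q, V ∉ badSet μ Q (ResD A E e y L D l) θ) :
    cp μ Q (NR A E e y L D)ᶜ V ≤
      (D \ Q).card * θ + (D ∩ Q).card * (K * (D.card * ENNReal.ofReal (2 / L))) := by
  have h1 : (NR A E e y L D)ᶜ ⊆ ⋃ l ∈ D, ResD A E e y L D l := by
    intro V' hV'
    by_contra hc
    simp only [Set.mem_iUnion, not_exists] at hc
    exact hV' (mem_NR hA he hy hL hc)
  refine (cp_mono μ h1 V).trans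
    ((cp_biUnion_le μ D _ (fun l _ => measurableSet_ResD A E e y L D l) V).trans ?_)
  rw [← Finset.sum_inter_add_sum_sdiff D Q, add_comm]
  refine add_le_add ?_ ?_
  · rw [← nsmul_eq_mul]
    refine Finset.sum_le_card_nsmul _ _ _ fun l hl => ?_
    have := hV l hl
    simp only [badSet, Set.mem_ofPred_eq, not_le] at this
    exact this.le
  · rw [← nsmul_eq_mul]
    refine Finset.sum_le_card_nsmul _ _ _ fun l hl => ?_
    have hl2 := Finset.mem_inter.1 hl
    refine cp_le_of_slice μ (measurableSet_ResD A E e y L D l) hl2.2 (fun V' => ?_) V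
    refine (hK l hl _).trans ?_
    gcongr
    exact volume_ResD_le hA he y hl2.1 hL V'

/-- the good event: when `V_ρ` is resampled the ports are nonresonant with probability `> 1/2`;
it does not see `V_ρ` -/
def Gd (μ : ι → Measure ℝ) (A : Matrix ι ι ℝ) (E : ℝ) (e : ι → ℝ) (y : ι) (L : ℝ) (D : Finset ι)
    (ρ : ι) : Set (ι → ℝ) := {V | cp μ {ρ} (NR A E e y L D)ᶜ V < 1 / 2}

theorem measurableSet_Gd (μ : ι → Measure ℝ) [∀ i, IsProbabilityMeasure (μ i)]
    (A : Matrix ι ι ℝ) (E : ℝ) (e : ι → ℝ) (y : ι) (L : ℝ) (D : Finset ι) (ρ : ι) :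
    MeasurableSet (Gd μ A E e y L D ρ) :=
  measurableSet_lt (measurable_cp μ _ (measurableSet_NR A E e y L D).compl) measurable_const

theorem mem_Gd_update (μ : ι → Measure ℝ) [∀ i, IsProbabilityMeasure (μ i)] {E : ℝ} {e : ι → ℝ}
    {y : ι} {L : ℝ} {D : Finset ι} {ρ : ι} (V : ι → ℝ) (t : ℝ) :
    update V ρ t ∈ Gd μ A E e y L D ρ ↔ V ∈ Gd μ A E e y L D ρ := by
  simp only [Gd, Set.mem_ofPred_eq, cp_update_of_mem μ (Finset.mem_singleton_self ρ)]

/-- on the good event: the slice in the direction `ρ` of the nonresonant set has probability at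
least `1/2` -/
theorem half_le_of_mem_Gd (μ : ι → Measure ℝ) [∀ i, IsProbabilityMeasure (μ i)] {E : ℝ}
    {e : ι → ℝ} {y : ι} {L : ℝ} {D : Finset ι} {ρ : ι} {V : ι → ℝ}
    (hV : V ∈ Gd μ A E e y L D ρ) : 1 / 2 ≤ μ ρ {v | update V ρ v ∈ NR A E e y L D} := by
  have hm : MeasurableSet {v : ℝ | update V ρ v ∈ NR A E e y L D} :=
    (measurable_update V) (measurableSet_NR A E e y L D)
  have h1 : cp μ {ρ} (NR A E e y L D)ᶜ V = μ ρ {v | update V ρ v ∈ NR A E e y L D}ᶜ := by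
    rw [cp, lmarginal_singleton]
    have h3 : (fun v => (NR A E e y L D)ᶜ.indicator (1 : (ι → ℝ) → ℝ≥0∞) (update V ρ v)) =
        ({v : ℝ | update V ρ v ∈ NR A E e y L D}ᶜ).indicator 1 := by
      ext v
      by_cases hv : update V ρ v ∈ NR A E e y L D <;> simp [Set.indicator, hv]
    show ∫⁻ v, (NR A E e y L D)ᶜ.indicator (1 : (ι → ℝ) → ℝ≥0∞) (update V ρ v) ∂μ ρ = _
    rw [h3, lintegral_indicator_one hm.compl]
  simp only [Gd, Set.mem_ofPred_eq, h1] at hV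
  rw [prob_compl_eq_one_sub hm] at hV
  by_contra hc
  rw [not_le] at hc
  have h3 : (1 : ℝ≥0∞) ≤ 1 / 2 + μ ρ {v | update V ρ v ∈ NR A E e y L D} :=
    (tsub_le_iff_right.1 hV.le)
  have h4 : (1 / 2 : ℝ≥0∞) + μ ρ {v | update V ρ v ∈ NR A E e y L D} < 1 / 2 + 1 / 2 := by
    have : (1 / 2 : ℝ≥0∞) ≠ ⊤ := by simp
    exact (ENNReal.add_lt_add_iff_left this).2 hc
  rw [ENNReal.add_halves] at h4
  exact absurd h3 (not_le.2 h4)

/-- **good exterior** -/
theorem cp_Gd_le (μ : ι → Measure ℝ) [∀ i, IsProbabilityMeasure (μ i)] (hA : A.IsSymm) {E : ℝ}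
    {e : ι → ℝ} (he : ∀ x, 0 < e x) {y : ι} {D Q : Finset ι} (hy : y ∉ D) {ρ : ι} (hρ : ρ ∈ Q)
    {L : ℝ} (hL : 0 < L)
    {θ K : ℝ≥0∞} (hK : ∀ l ∈ D ∩ Q, ∀ S : Set ℝ, μ l S ≤ K * volume S) {V : ι → ℝ}
    (hV : ∀ l ∈ D \ Q, V ∉ badSet μ Q (ResD A E e y L D l) θ) :
    cp μ Q (Gd μ A E e y L D ρ)ᶜ V ≤
      2 * ((D \ Q).card * θ + (D ∩ Q).card * (K * (D.card * ENNReal.ofReal (2 / L)))) := by
  have hm := (measurableSet_NR A E e y L D).compl
  have h1 := cp_ge_le μ Q (measurable_cp μ {ρ} hm) (c := 1 / 2) V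
  rw [cp_idem μ (Finset.singleton_subset_iff.2 hρ) hm] at h1
  have h2 : (Gd μ A E e y L D ρ)ᶜ = {V | 1 / 2 ≤ cp μ {ρ} (NR A E e y L D)ᶜ V} := by
    ext V'
    simp [Gd]
  rw [h2]
  have h3 := h1.trans (cp_NR_le μ hA he hy hL hK hV)
  calc cp μ Q {V | 1 / 2 ≤ cp μ {ρ} (NR A E e y L D)ᶜ V} V
      = 2 * (1 / 2 * cp μ Q {V | 1 / 2 ≤ cp μ {ρ} (NR A E e y L D)ᶜ V} V) := by
        rw [← mul_assoc, one_div, ENNReal.mul_inv_cancel (by norm_num) (by norm_num), one_mul]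
    _ ≤ _ := by gcongr

end P365T1.Bad
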