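import Vale.Agent.P365.T1.CofKK
import Vale.Agent.P365.T1a.Start

/-!
# P365 T1: boxes on the torus (geometry of the regions `Q0 ⊇ Q1 ⊇` block)

`box o M` = square with corner `o` and side `M`.
-/

set_option linter.all false

namespace P365T1

open P365L P365O Finset

variable {N : ℕ} [NeZero N]

/-- the square with corner `o` and side `M` -/
def box (o : Tor N) (M : ℕ) : Finset (Tor N) :=
  Finset.univ.filter fun x => (x - o).1.val < M ∧ (x - o).2.val < M

theorem mem_box {o x : Tor N} {M : ℕ} :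
    x ∈ box o M ↔ (x - o).1.val < M ∧ (x - o).2.val < M := by
  simp [box]

theorem val_cast_le (n : ℕ) : ((n : ZMod N)).val ≤ n := by
  rw [ZMod.val_natCast]
  exact Nat.mod_le _ _

theorem val_cast_lt {n : ℕ} (h : n < N) : ((n : ZMod N)).val = n := by
  rw [ZMod.val_natCast, Nat.mod_eq_of_lt h]

theorem mem_box_iff {o x : Tor N} {M : ℕ} :
    x ∈ box o M ↔ ∃ i < M, ∃ j < M, x = o + ((i : ZMod N), (j : ZMod N)) := by
  rw [mem_box]
  constructor
  · rintro ⟨h1, h2⟩
    refine ⟨_, h1, _, h2, ?_⟩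
    rw [ZMod.natCast_zmod_val, ZMod.natCast_zmod_val]
    ext <;> simp
  · rintro ⟨i, hi, j, hj, rfl⟩
    simp only [add_sub_cancel_left]
    exact ⟨(val_cast_le i).trans_lt hi, (val_cast_le j).trans_lt hj⟩

theorem box_eq_image (o : Tor N) (M : ℕ) :
    box o M = (Finset.range M ×ˢ Finset.range M).image
      fun a : ℕ × ℕ => o + ((a.1 : ZMod N), (a.2 : ZMod N)) := by
  ext x
  rw [mem_box_iff, Finset.mem_image]
  constructor
  · rintro ⟨i, hi, j, hj, rfl⟩
    exact ⟨(i, j), by simp [hi, hj], rfl⟩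
  · rintro ⟨⟨i, j⟩, h, rfl⟩
    simp only [mem_product, Finset.mem_range] at h
    exact ⟨i, h.1, j, h.2, rfl⟩

theorem card_box_le (o : Tor N) (M : ℕ) : (box o M).card ≤ M ^ 2 := by
  rw [box_eq_image]
  refine Finset.card_image_le.trans ?_
  rw [Finset.card_product, Finset.card_range, sq]

theorem card_box {M : ℕ} (h : M ≤ N) (o : Tor N) : (box o M).card = M ^ 2 := by
  rw [box_eq_image, Finset.card_image_of_injOn, Finset.card_product, Finset.card_range, sq]
  rintro ⟨i, j⟩ h1 ⟨i', j'⟩ h2 h3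
  simp only [coe_product, coe_range, Set.mem_prod, Set.mem_Iio] at h1 h2
  have h4 := add_left_cancel h3
  simp only [Prod.mk.injEq] at h4
  have e1 := congrArg ZMod.val h4.1
  have e2 := congrArg ZMod.val h4.2
  rw [val_cast_lt (h1.1.trans_le h), val_cast_lt (h2.1.trans_le h)] at e1
  rw [val_cast_lt (h1.2.trans_le h), val_cast_lt (h2.2.trans_le h)] at e2
  exact Prod.ext e1 e2

theorem self_mem_box {o : Tor N} {M : ℕ} (hM : 0 < M) : o ∈ box o M :=
  mem_box_iff.2 ⟨0, hM, 0, hM, by ext <;> simp⟩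

/-- shifting a coordinate -/
theorem coord_shift {a b o : ZMod N} {d M : ℕ} (h1 : d ≤ (a - o).val) (h2 : (a - o).val + d < M)
    (h : (b - a).valMinAbs.natAbs ≤ d) : (b - o).val < M := by
  have e1 : b - o = (((a - o).val : ℤ) + (b - a).valMinAbs : ℤ) := by
    rw [Int.cast_add, ZMod.coe_valMinAbs, Int.cast_natCast, ZMod.natCast_zmod_val]
    ring
  have h3 : 0 ≤ ((a - o).val : ℤ) + (b - a).valMinAbs := by
    have : |(b - a).valMinAbs| ≤ (d : ℤ) := by
      rw [Int.abs_eq_natAbs]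
      exact_mod_cast h
    have := (abs_le.1 this).1
    have h1' : (d : ℤ) ≤ ((a - o).val : ℤ) := by exact_mod_cast h1
    linarith
  obtain ⟨n, hn⟩ := Int.eq_ofNat_of_zero_le h3
  rw [hn] at e1
  have e2 : b - o = ((n : ℕ) : ZMod N) := by
    rw [e1]
    push_cast
    rfl
  rw [e2]
  refine (val_cast_le n).trans_lt ?_
  have : |(b - a).valMinAbs| ≤ (d : ℤ) := by
    rw [Int.abs_eq_natAbs]
    exact_mod_cast h
  have h4 := (abs_le.1 this).2
  have h5 : (n : ℤ) < (M : ℤ) := by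
    have h2' : ((a - o).val : ℤ) + (d : ℤ) < (M : ℤ) := by exact_mod_cast h2
    have : (n : ℤ) = ((a - o).val : ℤ) + (b - a).valMinAbs := hn.symm
    linarith
  exact_mod_cast h5

/-- `(B1)` -/
theorem mem_box_of_near {o a b : Tor N} {d M : ℕ} (h1 : d ≤ (a - o).1.val)
    (h2 : (a - o).1.val + d < M) (h3 : d ≤ (a - o).2.val) (h4 : (a - o).2.val + d < M)
    (h : nrm (b - a) ≤ d) : b ∈ box o M := by
  rw [nrm] at h
  have h5 := (le_max_left _ _).trans h
  have h6 := (le_max_right _ _).trans h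
  rw [mem_box]
  exact ⟨coord_shift (a := a.1) h1 h2 h5, coord_shift (a := a.2) h3 h4 h6⟩

/-- one coordinate of a point of the inner box -/
theorem coord_inner {a o : ZMod N} {d M : ℕ} (hM : M ≤ N) (hd : 2 * d ≤ M)
    (h : (a - (o + (d : ZMod N))).val < M - 2 * d) : d ≤ (a - o).val ∧ (a - o).val + d < M := by
  set i := (a - (o + (d : ZMod N))).val with hi
  have e1 : a - o = ((i + d : ℕ) : ZMod N) := by
    push_cast
    rw [hi, ZMod.natCast_zmod_val]
    ring
  rw [e1, val_cast_lt (by omega)]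
  omega

/-- the inner box with margin `d` -/
theorem near_inner {o a b : Tor N} {d M : ℕ} (hM : M ≤ N) (hd : 2 * d ≤ M)
    (ha : a ∈ box (o + ((d : ZMod N), (d : ZMod N))) (M - 2 * d)) (h : nrm (b - a) ≤ d) :
    b ∈ box o M := by
  rw [mem_box] at ha
  obtain ⟨h1, h2⟩ := coord_inner (a := a.1) (o := o.1) hM hd (by simpa using ha.1)
  obtain ⟨h3, h4⟩ := coord_inner (a := a.2) (o := o.2) hM hd (by simpa using ha.2)
  exact mem_box_of_near h1 h2 h3 h4 h

/-! ### neighbours -/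

theorem nrm_of_adj {a b : Tor N} (h : AT N a b ≠ 0) : nrm (b - a) ≤ 1 := by
  refine nrm_nbs ?_
  by_contra hc
  exact h (by simp [AT, hc])

theorem adj_of_mem {a b : Tor N} (h : b - a ∈ nbs N) : AT N a b ≠ 0 := by
  simp [AT, h]

theorem nrm_nb1 {S : Finset (Tor N)} {b : Tor N} (hb : b ∈ nb1 (AT N) S) :
    ∃ a ∈ S, nrm (b - a) ≤ 1 := by
  rcases mem_nb1.1 hb with h | ⟨a, ha, hab⟩
  · exact ⟨b, h, by rw [sub_self, nrm_zero]; exact Nat.zero_le _⟩
  · exact ⟨a, ha, nrm_of_adj hab⟩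

theorem nrm_nb2 {S : Finset (Tor N)} {b : Tor N} (hb : b ∈ nb1 (AT N) (nb1 (AT N) S)) :
    ∃ a ∈ S, nrm (b - a) ≤ 2 := by
  obtain ⟨c, hc, h1⟩ := nrm_nb1 hb
  obtain ⟨a, ha, h2⟩ := nrm_nb1 hc
  refine ⟨a, ha, ?_⟩
  have e : b - a = (b - c) + (c - a) := by abel
  rw [e]
  exact (nrm_add_le _ _).trans (by omega)

theorem nrm_nb3 {S : Finset (Tor N)} {b : Tor N}
    (hb : b ∈ nb1 (AT N) (nb1 (AT N) (nb1 (AT N) S))) : ∃ a ∈ S, nrm (b - a) ≤ 3 := by
  obtain ⟨c, hc, h1⟩ := nrm_nb1 hb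
  obtain ⟨a, ha, h2⟩ := nrm_nb2 hc
  refine ⟨a, ha, ?_⟩
  have e : b - a = (b - c) + (c - a) := by abel
  rw [e]
  exact (nrm_add_le _ _).trans (by omega)

theorem nrm_nb1_single {a b : Tor N} (hb : b ∈ nb1 (AT N) {a}) : nrm (b - a) ≤ 1 := by
  obtain ⟨c, hc, h⟩ := nrm_nb1 hb
  rwa [Finset.mem_singleton.1 hc] at h

theorem nrm_nb2_single {a b : Tor N} (hb : b ∈ nb1 (AT N) (nb1 (AT N) {a})) :
    nrm (b - a) ≤ 2 := by
  obtain ⟨c, hc, h⟩ := nrm_nb2 hb
  rwa [Finset.mem_singleton.1 hc] at h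

theorem nrm_nb3_single {a b : Tor N} (hb : b ∈ nb1 (AT N) (nb1 (AT N) (nb1 (AT N) {a}))) :
    nrm (b - a) ≤ 3 := by
  obtain ⟨c, hc, h⟩ := nrm_nb3 hb
  rwa [Finset.mem_singleton.1 hc] at h

/-! ### connectivity -/

theorem box_joined_corner {o : Tor N} {M : ℕ} : ∀ {i j : ℕ}, i < M → j < M →
    Joined (AT N) (box o M) (o + ((i : ZMod N), (j : ZMod N))) o := by
  intro i
  induction i with
  | zero =>
    intro j
    induction j with
    | zero =>
      intro h1 _
      have e : o + (((0 : ℕ) : ZMod N), ((0 : ℕ) : ZMod N)) = o := by ext <;> simp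
      rw [e]
      exact Joined.refl (self_mem_box h1)
    | succ j ih =>
      intro h1 h2
      refine Joined.cons (mem_box_iff.2 ⟨0, h1, j + 1, h2, rfl⟩) (adj_of_mem ?_)
        (ih h1 (Nat.lt_of_succ_lt h2))
      have e : o + (((0 : ℕ) : ZMod N), ((j : ℕ) : ZMod N)) -
          (o + (((0 : ℕ) : ZMod N), ((j + 1 : ℕ) : ZMod N))) = (0, -1) := by
        ext <;> simp
      rw [e]
      simp [nbs]
  | succ i ih =>
    intro j h1 h2
    refine Joined.cons (mem_box_iff.2 ⟨i + 1, h1, j, h2, rfl⟩) (adj_of_mem ?_)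
      (ih (Nat.lt_of_succ_lt h1) h2)
    have e : o + (((i : ℕ) : ZMod N), ((j : ℕ) : ZMod N)) -
        (o + (((i + 1 : ℕ) : ZMod N), ((j : ℕ) : ZMod N))) = (-1, 0) := by
      ext <;> simp
    rw [e]
    simp [nbs]

/-- `(B2)`: boxes are connected -/
theorem box_joined {o x y : Tor N} {M : ℕ} (hx : x ∈ box o M) (hy : y ∈ box o M) :
    Joined (AT N) (box o M) x y := by
  obtain ⟨i, hi, j, hj, rfl⟩ := mem_box_iff.1 hx
  obtain ⟨i', hi', j', hj', rfl⟩ := mem_box_iff.1 hy
  exact (box_joined_corner hi hj).trans ((box_joined_corner hi' hj').symm (AT_symm N))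

/-! ### blocks of the grid -/

/-- corner of the block of side `m` of `x` -/
def cor (m : ℕ) (x : Tor N) : Tor N :=
  (((m * (x.1.val / m) : ℕ) : ZMod N), ((m * (x.2.val / m) : ℕ) : ZMod N))

theorem cor_eq_st (m : ℕ) (x : Tor N) : cor m x = st N m (bi m x) (0, 0) := by
  simp only [cor, st, bi, add_zero, mul_comm]

theorem coord_block {m : ℕ} (hm : 0 < m) (hN : m ∣ N) (a b : ZMod N) :
    b.val / m = a.val / m ↔ (b - ((m * (a.val / m) : ℕ) : ZMod N)).val < m := by
  have hN0 : 0 < N := NeZero.pos N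
  have hmN : m ≤ N := Nat.le_of_dvd hN0 hN
  set q := a.val / m with hq
  have hqN : m * q + m ≤ N := by
    obtain ⟨k, hk⟩ := hN
    have h1 : a.val < m * k := hk ▸ ZMod.val_lt a
    have h2 : q < k := by
      rw [hq]
      exact Nat.div_lt_of_lt_mul h1
    calc m * q + m = m * (q + 1) := by ring
      _ ≤ m * k := Nat.mul_le_mul_left m h2
      _ = N := hk.symm
  constructor
  · intro h
    have h1 : b.val = m * q + b.val % m := by
      rw [← h]
      exact (Nat.div_add_mod _ _).symm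
    have h2 : b = ((m * q + b.val % m : ℕ) : ZMod N) := by
      rw [← h1, ZMod.natCast_zmod_val]
    have h3 : b - ((m * q : ℕ) : ZMod N) = ((b.val % m : ℕ) : ZMod N) := by
      conv_lhs => rw [h2]
      push_cast
      ring
    rw [h3]
    exact (val_cast_le _).trans_lt (Nat.mod_lt _ hm)
  · intro h
    set r := (b - ((m * q : ℕ) : ZMod N)).val with hr
    have h1 : b = ((m * q + r : ℕ) : ZMod N) := by
      push_cast
      rw [hr, ZMod.natCast_zmod_val]
      push_cast
      ring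
    have h2 : b.val = m * q + r := by
      rw [h1]
      exact val_cast_lt (by omega)
    rw [h2, Nat.mul_add_div hm, Nat.div_eq_of_lt h, add_zero]

/-- `(B4)`: the blocks of the grid are boxes -/
theorem mem_box_cor {m : ℕ} (hm : 0 < m) (hN : m ∣ N) {x z : Tor N} :
    z ∈ box (cor m x) m ↔ bi m z = bi m x := by
  rw [mem_box, bi, bi, Prod.mk.injEq, coord_block hm hN, coord_block hm hN]
  rfl

theorem self_mem_block {m : ℕ} (hm : 0 < m) (hN : m ∣ N) (x : Tor N) : x ∈ box (cor m x) m :=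
  (mem_box_cor hm hN).2 rfl

theorem block_joined {m : ℕ} (hm : 0 < m) (hN : m ∣ N) {x z : Tor N} (h : bi m z = bi m x) :
    Joined (AT N) (box (cor m x) m) z x :=
  box_joined ((mem_box_cor hm hN).2 h) (self_mem_block hm hN x)

/-! ### nested boxes -/

/-- box with margin `R` around the box `box o m` -/
def bxR (o : Tor N) (m R : ℕ) : Finset (Tor N) :=
  box (o - ((R : ZMod N), (R : ZMod N))) (m + 2 * R)

theorem bxR_inner {o a b : Tor N} {m R R' d : ℕ} (hN : m + 2 * R ≤ N) (hR : R' + d ≤ R)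
    (ha : a ∈ bxR o m R') (h : nrm (b - a) ≤ d) : b ∈ bxR o m R := by
  have hd : nrm (b - a) ≤ R - R' := by omega
  refine near_inner (d := R - R') hN (by omega) ?_ hd
  have e1 : o - ((R : ZMod N), (R : ZMod N)) + (((R - R' : ℕ) : ZMod N), ((R - R' : ℕ) : ZMod N)) =
      o - ((R' : ZMod N), (R' : ZMod N)) := by
    have e2 : (R : ZMod N) = (R' : ZMod N) + ((R - R' : ℕ) : ZMod N) := by
      rw [← Nat.cast_add]
      congr 1
      omega
    ext
    · simp only [Prod.fst_add, Prod.fst_sub]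
      rw [e2]
      ring
    · simp only [Prod.snd_add, Prod.snd_sub]
      rw [e2]
      ring
  have e3 : m + 2 * R - 2 * (R - R') = m + 2 * R' := by omega
  rw [e1, e3]
  exact ha

theorem bxR_mono {o : Tor N} {m R R' : ℕ} (hN : m + 2 * R ≤ N) (hR : R' ≤ R) :
    bxR o m R' ⊆ bxR o m R := fun a ha =>
  bxR_inner (a := a) (d := 0) hN (by omega) ha (by rw [sub_self, nrm_zero])

theorem bxR_zero (o : Tor N) (m : ℕ) : bxR o m 0 = box o m := by
  rw [bxR]
  congr 1
  ext <;> simp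

theorem box_sub_bxR {o : Tor N} {m R : ℕ} (hN : m + 2 * R ≤ N) : box o m ⊆ bxR o m R := by
  rw [← bxR_zero]
  exact bxR_mono hN (Nat.zero_le _)

/-- the box moved by at most `s` -/
theorem box_shift_sub {o o' : Tor N} {m R : ℕ} (hN : m + 2 * R ≤ N) (h : nrm (o' - o) ≤ R) :
    box o' m ⊆ bxR o m R := by
  intro z hz
  obtain ⟨i, hi, j, hj, rfl⟩ := mem_box_iff.1 hz
  have h1 : o + ((i : ZMod N), (j : ZMod N)) ∈ bxR o m 0 := by
    rw [bxR_zero]
    exact mem_box_iff.2 ⟨i, hi, j, hj, rfl⟩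
  refine bxR_inner (d := R) hN (by omega) h1 ?_
  have e : o' + ((i : ZMod N), (j : ZMod N)) - (o + ((i : ZMod N), (j : ZMod N))) = o' - o := by
    abel
  rwa [e]

theorem bxR_joined {o x y : Tor N} {m R : ℕ} (hx : x ∈ bxR o m R) (hy : y ∈ bxR o m R) :
    Joined (AT N) (bxR o m R) x y := box_joined hx hy

theorem card_bxR_le (o : Tor N) (m R : ℕ) : (bxR o m R).card ≤ (m + 2 * R) ^ 2 :=
  card_box_le _ _

/-- `(B5)`: distance from the inner box to the outside -/
theorem lt_nrm_of_notMem {o a w : Tor N} {m R R' : ℕ} (hN : m + 2 * R ≤ N) (hR : R' ≤ R)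
    (ha : a ∈ bxR o m R') (hw : w ∉ bxR o m R) : R - R' < nrm (w - a) := by
  by_contra h
  push Not at h
  exact hw (bxR_inner hN (by omega) ha h)

/-- `(B6)`: chains from the inner box to the outside are long -/
theorem chain_long {o a w : Tor N} {m R R' n s s₀ s₁ : ℕ} (hN : m + 2 * R ≤ N) (hR : R' ≤ R)
    (ha : a ∈ bxR o m R') (hw : w ∉ bxR o m R) {z : ℕ → Tor N} (h0 : nrm (z 0 - a) ≤ s₀)
    (hs : ∀ i < n, nrm (z (i + 1) - z i) ≤ s) (hn : nrm (w - z n) ≤ s₁) :
    R - R' < s₀ + n * s + s₁ := by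
  have h1 : ∀ k ≤ n, nrm (z k - a) ≤ s₀ + k * s := by
    intro k
    induction k with
    | zero =>
      intro _
      rw [zero_mul, add_zero]
      exact h0
    | succ k ih =>
      intro hk
      have e : z (k + 1) - a = (z (k + 1) - z k) + (z k - a) := by abel
      rw [e]
      have h2 := ih (by omega)
      have h3 := hs k (by omega)
      refine (nrm_add_le _ _).trans ?_
      rw [Nat.add_mul, one_mul]
      omega
  have h2 := h1 n le_rfl
  have h3 := lt_nrm_of_notMem hN hR ha hw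
  have e : w - a = (w - z n) + (z n - a) := by abel
  rw [e] at h3
  have h4 := nrm_add_le (w - z n) (z n - a)
  omega

end P365T1
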