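import Vale.Agent.P365.T1.PatchT
import Vale.Agent.P365.T1.Bad3

/-!
# P365-T1: the crude Harnack inequality for two laws and two absorption profiles on the patch

`bulk` : the off-resonant energy of `x` in the world `(μ, e)` is bounded by exceptional terms of the
same world plus the energy of `y` in the world `(μ', e')`; the two worlds agree off the patch `Q`.
-/

set_option autoImplicit false
set_option linter.all false

open MeasureTheory Finset Function Matrix Complex P365L P365O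
open scoped ENNReal

namespace P365T1.MAff

section Stable

variable {ι : Type*} [Fintype ι] [DecidableEq ι]

theorem sq_le_two_mul_c {s t : ℂ} (hs : 0 ≤ s.im) {L : ℝ} (hL : 0 ≤ L) (ht : ‖t‖ ≤ L) :
    ‖t - s‖ ^ 2 ≤ 2 * ‖-(L : ℂ) * Complex.I - s‖ ^ 2 := by
  have h1 : ‖s‖ ^ 2 + L ^ 2 ≤ ‖-(L : ℂ) * Complex.I - s‖ ^ 2 := by
    rw [← Complex.normSq_eq_norm_sq, ← Complex.normSq_eq_norm_sq, Complex.normSq_apply,
      Complex.normSq_apply]
    simp only [Complex.sub_re, Complex.ofReal_re, Complex.sub_im, Complex.ofReal_im,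
      Complex.mul_re, Complex.neg_re, Complex.I_re, Complex.neg_im, Complex.I_im, Complex.mul_im]
    nlinarith [mul_nonneg hL hs]
  have h2 : ‖t - s‖ ^ 2 ≤ (L + ‖s‖) ^ 2 := by
    refine pow_le_pow_left₀ (norm_nonneg _) ((norm_sub_le _ _).trans ?_) 2
    gcongr
  nlinarith [sq_nonneg (L - ‖s‖)]

theorem mono_im {s : ℂ} (hs : 0 ≤ s.im) {L L' : ℝ} (hL : 0 ≤ L) (hLL : L ≤ L') :
    ‖-(L : ℂ) * Complex.I - s‖ ^ 2 ≤ 1 * ‖-(L' : ℂ) * Complex.I - s‖ ^ 2 := by
  rw [one_mul, ← Complex.normSq_eq_norm_sq, ← Complex.normSq_eq_norm_sq, Complex.normSq_apply,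
    Complex.normSq_apply]
  simp only [Complex.sub_re, Complex.ofReal_re, Complex.sub_im, Complex.ofReal_im,
    Complex.mul_re, Complex.neg_re, Complex.I_re, Complex.neg_im, Complex.I_im, Complex.mul_im]
  nlinarith [mul_nonneg hL hs, mul_nonneg (sub_nonneg.2 hLL) hs, mul_nonneg (sub_nonneg.2 hLL) hL]

/-- comparison of the values at two points which differ in one coordinate -/
theorem stable_one_c {f : (ι → ℂ) → ℂ} (hf : MAff f) (hc : Continuous f) (hs : Stable f)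
    (x : ι → ℂ) (hx : ∀ i, (x i).im ≤ 0) (i : ι) {w1 w2 : ℂ} {C : ℝ} (hC : 1 ≤ C)
    (h12 : ∀ s : ℂ, 0 ≤ s.im → ‖w1 - s‖ ^ 2 ≤ C * ‖w2 - s‖ ^ 2) :
    ‖f (update x i w1)‖ ^ 2 ≤ C * ‖f (update x i w2)‖ ^ 2 := by
  have h1 : ∀ δ : ℝ, 0 < δ →
      ‖f (update (fun j => x j - δ * Complex.I) i w1)‖ ^ 2 ≤
        C * ‖f (update (fun j => x j - δ * Complex.I) i w2)‖ ^ 2 := by
    intro δ hδ
    obtain ⟨a, b, hab⟩ := hf (fun j => x j - δ * Complex.I) i
    rw [hab, hab, smul_eq_mul, smul_eq_mul]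
    by_cases hb : b = 0
    · subst hb
      simp only [mul_zero, add_zero]
      nlinarith [sq_nonneg ‖a‖]
    · set s : ℂ := -(a / b) with hsdef
      have hfac : ∀ w : ℂ, a + w * b = (w - s) * b := fun w => by
        rw [hsdef]; field_simp; ring
      have hsim : 0 ≤ s.im := by
        by_contra hneg
        push Not at hneg
        have h2 := hs (update (fun j => x j - δ * Complex.I) i s) (fun j => by
          by_cases hj : j = i
          · subst hj; simpa using hneg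
          · rw [update_of_ne hj]
            have := hx j
            simp only [Complex.sub_im, Complex.mul_im, Complex.ofReal_re, Complex.I_im, mul_one,
              Complex.ofReal_im, Complex.I_re, mul_zero, add_zero]
            linarith)
        rw [hab, smul_eq_mul, hfac, sub_self, zero_mul] at h2
        exact h2 rfl
      rw [hfac, hfac, norm_mul, norm_mul, mul_pow, mul_pow]
      have h3 := h12 s hsim
      nlinarith [sq_nonneg ‖b‖]
  have hlim : ∀ w : ℂ, Filter.Tendsto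
      (fun δ : ℝ => ‖f (update (fun j => x j - δ * Complex.I) i w)‖ ^ 2)
      (nhdsWithin 0 (Set.Ioi 0)) (nhds (‖f (update x i w)‖ ^ 2)) := by
    intro w
    have hcont : Continuous fun δ : ℝ => ‖f (update (fun j => x j - δ * Complex.I) i w)‖ ^ 2 := by
      have h4 : Continuous fun δ : ℝ => update (fun j => x j - (δ : ℂ) * Complex.I) i w :=
        (continuous_pi fun j => by fun_prop).update i continuous_const
      exact (hc.comp h4).norm.pow 2
    have h5 := (hcont.tendsto 0).mono_left (nhdsWithin_le_nhds (s := Set.Ioi 0))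
    simpa using h5
  refine le_of_tendsto_of_tendsto (hlim _) ((hlim _).const_mul C) ?_
  exact eventually_nhdsWithin_of_forall fun δ hδ => h1 δ hδ

/-- comparison of the values at two points of the closed lower half space -/
theorem stable_cmp {f : (ι → ℂ) → ℂ} (hf : MAff f) (hc : Continuous f) (hs : Stable f)
    {z1 z2 : ι → ℂ} (h1 : ∀ i, (z1 i).im ≤ 0) (h2 : ∀ i, (z2 i).im ≤ 0) {C : ℝ} (hC : 1 ≤ C)
    (h12 : ∀ i (s : ℂ), 0 ≤ s.im → ‖z1 i - s‖ ^ 2 ≤ C * ‖z2 i - s‖ ^ 2) :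
    ‖f z1‖ ^ 2 ≤ C ^ Fintype.card ι * ‖f z2‖ ^ 2 := by
  have key : ∀ S : Finset ι, ‖f z1‖ ^ 2 ≤ C ^ S.card * ‖f (mix S z1 z2)‖ ^ 2 := by
    intro S
    induction S using Finset.induction_on with
    | empty =>
      have : mix ∅ z1 z2 = z1 := by ext i; simp [mix]
      rw [this]; simp
    | insert i S hi ih =>
      refine ih.trans ?_
      rw [Finset.card_insert_of_notMem hi, pow_succ C S.card, mul_assoc (C ^ S.card)]
      refine mul_le_mul_of_nonneg_left ?_ (by positivity)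
      set x := mix S z1 z2 with hx
      have h3 : x = update x i (z1 i) := by
        ext l
        by_cases hli : l = i
        · subst hli; simp [hx, mix, hi]
        · simp [hli]
      have h4 : mix (insert i S) z1 z2 = update x i (z2 i) := by
        ext l
        by_cases hli : l = i
        · subst hli; simp [mix]
        · simp [mix, hx, hli]
      rw [h4]
      conv_lhs => rw [h3]
      refine stable_one_c hf hc hs x (fun j => ?_) i hC (h12 i)
      by_cases hj : j ∈ S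
      · simpa [hx, mix, hj] using h2 j
      · simpa [hx, mix, hj] using h1 j
  have h := key Finset.univ
  have h3 : mix Finset.univ z1 z2 = z2 := by
    ext i; simp [mix]
  rwa [h3, Finset.card_univ] at h

/-- multi-affine functions are stable under translations -/
theorem maff_shift {F : Type*} [NormedAddCommGroup F] [NormedSpace ℂ F] {f : (ι → ℂ) → F}
    (hf : MAff f) (c : ι → ℂ) : MAff fun z => f fun i => z i + c i := by
  intro x i
  obtain ⟨a, b, hab⟩ := hf (fun j => x j + c j) i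
  refine ⟨a + c i • b, b, fun w => ?_⟩
  have h1 : (fun j => update x i w j + c j) = update (fun j => x j + c j) i (w + c i) := by
    ext j
    by_cases hj : j = i
    · subst hj; simp
    · simp [hj]
  show f (fun j => update x i w j + c j) = _
  rw [h1, hab, add_smul]
  abel

end Stable

end P365T1.MAff

namespace P365T1

open P365T1.MAff P365T1.OneVar P365T1.Bad

variable {ι : Type*} [Fintype ι] [DecidableEq ι]
variable {F : Type*} [NormedAddCommGroup F] [NormedSpace ℂ F]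
variable {A : Matrix ι ι ℝ} {W : ι → ℂ}

/-- absorptions in the variables -/
theorem Wc_shift (W0 : ι → ℂ) (Q : Finset ι) (E : ℝ) (e : ι → ℝ) (y : Q → ℂ) :
    Wc W0 Q E e y = Wc W0 Q E (fun _ => 0) fun i => y i + -(Complex.I * e i) := by
  ext i
  by_cases h : i ∈ Q
  · simp only [Wc, h, dif_pos, Complex.ofReal_zero, mul_zero, sub_zero]
    ring
  · simp [Wc, h]

theorem Mz_shift (A : Matrix ι ι ℝ) (W0 : ι → ℂ) (Q : Finset ι) (E : ℝ) (e : ι → ℝ)
    (y : Q → ℂ) : Mz (Bp A Q E e) (fil Q W0 y) =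
      Mz (Bp A Q E fun _ => 0) (fil Q W0 fun i => y i + -(Complex.I * e i)) := by
  rw [Mz_Bp, Mz_Bp, Wc_shift]

theorem Wc_congr {W0 W0' : ι → ℂ} {Q : Finset ι} (h : ∀ i ∉ Q, W0 i = W0' i) (E : ℝ) (e : ι → ℝ)
    (y : Q → ℂ) : Wc W0 Q E e y = Wc W0' Q E e y := by
  ext i
  by_cases hi : i ∈ Q
  · simp [Wc, hi]
  · simp [Wc, hi, h i hi]

/-- constant of the two-world crude Harnack inequality -/
noncomputable def KB (E L e c2 p : ℝ) (n : ℕ) : ℝ :=
  2 * (1 + (E ^ 2 + (L + e) ^ 2)) * ((2 / (L * c2 * p)) ^ 2 * 52488 ^ n)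

theorem norm_sub_I_le {t a L : ℝ} (h : t ^ 2 + a ^ 2 ≤ L ^ 2) (hL : 0 ≤ L) :
    ‖(t : ℂ) + -(Complex.I * a)‖ ≤ L := by
  rw [← Real.sqrt_sq hL, Complex.norm_def]
  refine Real.sqrt_le_sqrt ?_
  rw [Complex.normSq_apply]
  simp only [Complex.add_re, Complex.ofReal_re, Complex.neg_re, Complex.mul_re, Complex.I_re,
    Complex.I_im, Complex.ofReal_im, Complex.add_im, Complex.neg_im, Complex.mul_im]
  nlinarith

/-- **Two worlds, pointwise in the exterior.** -/
theorem bulk_pt [MeasurableSpace F] [BorelSpace F] (hA : A.IsSymm) {Q : Finset ι} {E L lam : ℝ}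
    (hL : 0 < L) {e e' : ι → ℝ} (he : ∀ i, 0 < e i) (he' : ∀ i, 0 < e' i)
    (hoff : ∀ i ∉ Q, e i = e' i) (x y : Q) (hxy : x ≠ y) (T : (ι → ℂ) →ₗ[ℂ] F)
    {c2 : ℝ} (hc2 : 0 < c2) (hcof : CofLe A Q E (fun _ => 0) L c2 x y) {ε : Q → ℝ}
    (hε : ∀ l, 0 < ε l) (hεx : ε x ≤ 1) {v : ι → ℝ} (hv : ∀ i ∈ Q, |v i| ≤ lam)
    (hle : ∀ i ∈ Q, lam ^ 2 + e i ^ 2 ≤ L ^ 2) (hle' : ∀ i ∈ Q, lam ^ 2 + e' i ^ 2 ≤ L ^ 2)
    (hJ : ∀ l, l ≠ x → v ∉ JP A Q E e L x (ε l) l)
    (ν' : ι → Measure ℝ) [∀ i, IsProbabilityMeasure (ν' i)] {κ : ℝ≥0∞}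
    (hν : ∀ i ∈ Q, WinLaw F κ (2 * L) (ν' i))
    (hsupp : ∀ i ∈ Q, ν' i {t | |t| ≤ lam}ᶜ = 0) :
    κ ^ Q.card * ENNReal.ofReal (Yv A (WV E e v) T x) ≤
      ENNReal.ofReal (KB E L (e x) c2 (∏ l, ε l) Q.card) *
        (∫⋯∫⁻_Q, (fun v => ENNReal.ofReal (‖GV A (WV E e' v) T y‖ ^ 2)) ∂ν') v := by
  have h0 : ∀ i ∉ Q, (WV E e v i).im < 0 := fun i _ => WV_im_neg he v i
  have hlam : ∀ t : ℝ, |t| ≤ lam → t ^ 2 ≤ lam ^ 2 := fun t ht => by
    rw [← sq_abs t]; exact pow_le_pow_left₀ (abs_nonneg t) ht 2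
  have hlamL : lam ≤ L := by
    have h1 := hle x x.2
    nlinarith [sq_nonneg (e x), abs_nonneg (v x), hv x x.2]
  obtain ⟨y2, hy2, hc⟩ := hcof (WV E e v) h0
  set W0 : ι → ℂ := WV E e v with hW0
  set n := Q.card with hn
  set u : Q → ℝ := rs Q v with hu
  have huL : ∀ i, |u i| ≤ lam := fun i => hv i i.2
  set B0 : Matrix ι ι ℂ := Bp A Q E (fun _ => 0) with hB0
  have hB : DissB B0 := dissB_Bp hA Q E fun i _ => le_rfl
  have hBe : DissB (Bp A Q E e) := dissB_Bp hA Q E fun i _ => (he i).le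
  have hst : Stable fun z : Q → ℂ => (Mz B0 (fil Q W0 z)).det := stable_fil (stable_det hB) Q h0
  have hmd : MAff fun z : Q → ℂ => (Mz B0 (fil Q W0 z)).det := maff_fil (maff_det B0) Q W0
  have hcd : Continuous fun z : Q → ℂ => (Mz B0 (fil Q W0 z)).det :=
    (continuous_det B0).comp (continuous_fil Q W0)
  set D0 : ℝ := ‖(Mz B0 (fil Q W0 fun _ => -(L : ℂ) * Complex.I)).det‖ with hD0
  have hD0pos : 0 < D0 := norm_pos_iff.mpr (stable_det hB _ fun i => by
    by_cases h : i ∈ Q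
    · simp [fil, h, hL]
    · simpa [fil, h] using h0 i h)
  have hpε : 0 < ∏ l, ε l := Finset.prod_pos fun l _ => hε l
  -- (1) off the exceptional events
  have h10 := le_norm_of_notMem' Q.equivFin (fun k => (threshold_pos Q.equivFin hε k).le)
    (notMem_Jset_of_forall Q.equivFin (Bp A Q E e) W0 L x hεx fun l hl => hJ l hl)
  have h11 : detx (Bp A Q E e) Q W0 L x (fun _ => -(L : ℂ) * Complex.I) =
      (Mz (Bp A Q E e) (fil Q W0 fun _ => -(L : ℂ) * Complex.I)).det := by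
    unfold detx
    congr 3
    ext i
    by_cases hi : i = x
    · subst hi; simp
    · simp [hi]
  rw [h11, prod_threshold] at h10
  have h12 : D0 ≤ ‖(Mz (Bp A Q E e) (fil Q W0 fun _ => -(L : ℂ) * Complex.I)).det‖ := by
    rw [Mz_shift]
    have h := stable_cmp hmd hcd hst (z1 := fun _ => -(L : ℂ) * Complex.I)
      (z2 := fun i => -(L : ℂ) * Complex.I + -(Complex.I * e i)) (fun i => by simp [hL.le])
      (fun i => by
        have := (he i).le
        simp only [Complex.add_im, Complex.mul_im, Complex.neg_re, Complex.ofReal_re, Complex.I_im,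
          Complex.neg_im, Complex.ofReal_im, Complex.I_re]
        nlinarith) (C := 1) le_rfl (fun i s hs => by
        have h1 := mono_im hs hL.le (L' := L + e i) (by linarith [he i])
        have h2 : -((L + e i : ℝ) : ℂ) * Complex.I = -(L : ℂ) * Complex.I + -(Complex.I * e i) := by
          push_cast; ring
        rwa [h2] at h1)
    simp only [one_pow, one_mul] at h
    exact (pow_le_pow_iff_left₀ (norm_nonneg _) (norm_nonneg _) two_ne_zero).1 h
  have h13 : (∏ l, ε l) * D0 ≤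
      ‖(Mz (Bp A Q E e) (fil Q W0 (update (cx u) x (-(L : ℂ) * Complex.I)))).det‖ :=
    (mul_le_mul_of_nonneg_left h12 hpε.le).trans h10
  -- (2) the numerator at `x`
  set z1 : Q → ℂ := fun i => cx u i + -(Complex.I * e i) with hz1
  have hz1L : ∀ i, ‖z1 i‖ ≤ L := fun i =>
    norm_sub_I_le ((add_le_add_left (hlam _ (huL i)) _).trans (hle i i.2)) hL.le
  have h14 : ‖MAff.GT (Bp A Q E e) T x (fil Q W0 (update (cx u) x (-(L : ℂ) * Complex.I)))‖ ≤
      ‖Pv B0 T x (fil Q W0 z1)‖ / ((∏ l, ε l) * D0) := by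
    rw [GT_eq, norm_smul, norm_inv, fil_update, Pv_update_self, ← fil_update, div_eq_inv_mul]
    have h15 : Pv (Bp A Q E e) T x (fil Q W0 (cx u)) = Pv B0 T x (fil Q W0 z1) := by
      unfold Pv
      rw [Mz_shift]
    rw [h15]
    gcongr
  -- (3) a maximum point of `P_y`
  have hcomp : IsCompact {V : Q → ℝ | ∀ i, |V i| ≤ L} := by
    have : {V : Q → ℝ | ∀ i, |V i| ≤ L} = Set.univ.pi fun _ => Set.Icc (-L) L := by
      ext V
      simp only [Set.mem_ofPred_eq, Set.mem_univ_pi, Set.mem_Icc]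
      exact forall_congr' fun i => abs_le
    rw [this]
    exact isCompact_univ_pi fun _ => isCompact_Icc
  have hPc : Continuous fun V : Q → ℝ => ‖Pv B0 T y (fil Q W0 (cx V))‖ :=
    ((continuous_Pv B0 T y).comp ((continuous_fil Q W0).comp continuous_cx)).norm
  obtain ⟨Vs, hVs, hmax⟩ := hcomp.exists_isMaxOn ⟨fun _ => 0, fun i => by simp [hL.le]⟩
    hPc.continuousOn
  set Sy : ℝ := ‖Pv B0 T y (fil Q W0 (cx Vs))‖ with hSy
  have hSy0 : 0 ≤ Sy := norm_nonneg _
  have h16 : c2 * ‖Pv B0 T x (fil Q W0 z1)‖ ≤ 2 / L * 162 ^ n * Sy :=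
    norm_Pv_le hB Q h0 hL x.2 y.2 (fun h => hxy (Subtype.ext h)) T hc2.le hy2 hc
      (fun V' hV' => hmax hV') hz1L
  -- (4) second moment in the second world
  have h17 : κ ^ n * ENNReal.ofReal Sy ^ 2 ≤
      ∫⁻ V', ‖Pv B0 T y (fil Q W0 fun i => cx V' i + -(Complex.I * e' i))‖ₑ ^ 2
        ∂(Measure.pi fun i : Q => ν' i) := by
    have h3 := lintegral_sq_ge_univ
      (f := fun z : Q → ℂ => Pv B0 T y (fil Q W0 fun i => z i + -(Complex.I * e' i)))
      (maff_shift (maff_fil (maff_Pv B0 T y) Q W0) fun i => -(Complex.I * e' i))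
      ((continuous_Pv B0 T y).comp ((continuous_fil Q W0).comp
        (continuous_pi fun i => (continuous_apply i).add continuous_const))).measurable
      (fun i : Q => ν' i) (L := 2 * L) (κ := κ) (z := fun i => (Vs i : ℂ) + Complex.I * e' i)
      (fun i => by
        have h1 : e' i ≤ L := by
          have := hle' i i.2
          nlinarith [sq_nonneg lam, he' i]
        calc ‖(Vs i : ℂ) + Complex.I * e' i‖ ≤ ‖(Vs i : ℂ)‖ + ‖Complex.I * (e' i : ℂ)‖ :=
              norm_add_le _ _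
          _ = |Vs i| + e' i := by
              rw [norm_mul, Complex.norm_I, one_mul, Complex.norm_real, Complex.norm_real,
                Real.norm_eq_abs, Real.norm_eq_abs, abs_of_pos (he' i)]
          _ ≤ 2 * L := by linarith [hVs i]) (fun i => hν i i.2)
    rw [Fintype.card_coe] at h3
    have h4 : (fun i : Q => (Vs i : ℂ) + Complex.I * e' i + -(Complex.I * e' i)) = cx Vs := by
      ext i
      simp [cx]
    rw [h4] at h3
    rwa [hSy, ofReal_norm]
  -- (5) the determinant in the second world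
  have h18 : ∫⁻ V', ‖Pv B0 T y (fil Q W0 fun i => cx V' i + -(Complex.I * e' i))‖ₑ ^ 2
        ∂(Measure.pi fun i : Q => ν' i) ≤ ENNReal.ofReal (2 ^ n * D0 ^ 2) *
      (∫⋯∫⁻_Q, (fun v => ENNReal.ofReal (‖GV A (WV E e' v) T y‖ ^ 2)) ∂ν') v := by
    unfold lmarginal
    rw [← lintegral_const_mul' _ _ ENNReal.ofReal_ne_top]
    refine lintegral_mono_ae ?_
    have hae : ∀ᵐ V' ∂(Measure.pi fun i : Q => ν' i), ∀ i, |V' i| ≤ lam := by
      rw [ae_all_iff]
      intro i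
      have h5 : ∀ᵐ t ∂(ν' i), |t| ≤ lam := by
        rw [ae_iff]; exact hsupp i i.2
      exact (Measure.quasiMeasurePreserving_eval (μ := fun i : Q => ν' i) i).ae h5
    filter_upwards [hae] with V' hV'
    set z2 : Q → ℂ := fun i => cx V' i + -(Complex.I * e' i) with hz2
    have h19 := stable_cmp hmd hcd hst (z1 := z2) (z2 := fun _ => -(L : ℂ) * Complex.I)
      (fun i => by
        have := (he' i).le
        simp only [hz2, cx, Complex.add_im, Complex.neg_im, Complex.mul_im, Complex.ofReal_re,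
          Complex.I_im, Complex.ofReal_im, Complex.I_re]
        nlinarith) (fun i => by simp [hL.le]) (C := 2) (by norm_num)
      (fun i s hs => sq_le_two_mul_c hs hL.le
        (norm_sub_I_le ((add_le_add_left (hlam _ (hV' i)) _).trans (hle' i i.2)) hL.le))
    rw [Fintype.card_coe] at h19
    have hdet0 : (Mz B0 (fil Q W0 z2)).det ≠ 0 := by
      have h5 := Mz_shift A W0 Q E e' (cx V')
      rw [← h5]
      refine det_Bp_ne_zero hA (Wc_im_neg h0 (fun i _ => he' i) fun i => by simp [cx])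
    have h20 : MAff.GT B0 T y (fil Q W0 z2) = GV A (WV E e' (updateFinset v Q V')) T y := by
      have h6 : MAff.GT B0 T y (fil Q W0 z2) = MAff.GT (Bp A Q E e') T y (fil Q W0 (cx V')) := by
        unfold MAff.GT
        rw [Mz_shift A W0 Q E e' (cx V')]
      rw [h6, GT_eq_GV hA, WV_updateFinset]
      congr 1
      refine Wc_congr (fun i hi => ?_) E e' _
      simp only [hW0, WV, hoff i hi]
    have h21 : Pv B0 T y (fil Q W0 z2) =
        (Mz B0 (fil Q W0 z2)).det • GV A (WV E e' (updateFinset v Q V')) T y := by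
      rw [← h20, GT_eq, smul_smul, mul_inv_cancel₀ hdet0, one_smul]
    rw [h21, ← ofReal_norm, ← ENNReal.ofReal_pow (norm_nonneg _),
      ← ENNReal.ofReal_mul (by positivity), norm_smul, mul_pow]
    refine ENNReal.ofReal_le_ofReal ?_
    gcongr
  -- (6) assembly
  have h22 := Yv_le_GT (E := E) hA h0 hL (fun i _ => he i) x T u
  rw [hu, WV_eq_Wc] at h22
  set C1 : ℝ := 2 * (1 + (E ^ 2 + (L + e x) ^ 2)) with hC1
  have hC1p : 0 < C1 := by positivity
  have h23 : Yv A (WV E e v) T x ≤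
      C1 * ((2 / (L * c2 * ∏ l, ε l) * 162 ^ n / D0) ^ 2 * Sy ^ 2) := by
    refine h22.trans (mul_le_mul_of_nonneg_left ?_ hC1p.le)
    rw [← mul_pow]
    refine pow_le_pow_left₀ (norm_nonneg _) (h14.trans ?_) 2
    have h24 : ‖Pv B0 T x (fil Q W0 z1)‖ ≤ 2 / (L * c2) * 162 ^ n * Sy := by
      have : ‖Pv B0 T x (fil Q W0 z1)‖ * c2 ≤ (2 / (L * c2) * 162 ^ n * Sy) * c2 := by
        calc ‖Pv B0 T x (fil Q W0 z1)‖ * c2 = c2 * ‖Pv B0 T x (fil Q W0 z1)‖ := mul_comm _ _
          _ ≤ 2 / L * 162 ^ n * Sy := h16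
          _ = (2 / (L * c2) * 162 ^ n * Sy) * c2 := by field_simp
      exact le_of_mul_le_mul_right this hc2
    calc ‖Pv B0 T x (fil Q W0 z1)‖ / ((∏ l, ε l) * D0)
        ≤ (2 / (L * c2) * 162 ^ n * Sy) / ((∏ l, ε l) * D0) := by gcongr
      _ = _ := by field_simp
  calc κ ^ n * ENNReal.ofReal (Yv A (WV E e v) T x)
      ≤ κ ^ n * ENNReal.ofReal (C1 * ((2 / (L * c2 * ∏ l, ε l) * 162 ^ n / D0) ^ 2 * Sy ^ 2)) := by
        gcongr
    _ = ENNReal.ofReal (C1 * (2 / (L * c2 * ∏ l, ε l) * 162 ^ n / D0) ^ 2) *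
          (κ ^ n * ENNReal.ofReal Sy ^ 2) := by
        rw [← mul_assoc C1, ENNReal.ofReal_mul (by positivity), ENNReal.ofReal_pow hSy0]
        ring
    _ ≤ ENNReal.ofReal (C1 * (2 / (L * c2 * ∏ l, ε l) * 162 ^ n / D0) ^ 2) *
          (ENNReal.ofReal (2 ^ n * D0 ^ 2) *
      (∫⋯∫⁻_Q, (fun v => ENNReal.ofReal (‖GV A (WV E e' v) T y‖ ^ 2)) ∂ν') v) := by
        exact mul_le_mul_of_nonneg_left (h17.trans h18) zero_le
    _ = _ := by
        have h25 : (52488 : ℝ) ^ n = (162 ^ n) ^ 2 * 2 ^ n := by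
          rw [← pow_mul, mul_comm n 2, pow_mul, ← mul_pow]
          norm_num
        have h26 : C1 * (2 / (L * c2 * ∏ l, ε l) * 162 ^ n / D0) ^ 2 * (2 ^ n * D0 ^ 2) =
            KB E L (e x) c2 (∏ l, ε l) n := by
          rw [KB, h25, ← hC1]
          field_simp
        rw [← mul_assoc, ← ENNReal.ofReal_mul (by positivity), h26]

/-- marginals over `s` see the laws of `s` only -/
theorem lmarginal_congr_law {ν ν' : ι → Measure ℝ} {s : Finset ι} (h : ∀ i ∈ s, ν i = ν' i)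
    (f : (ι → ℝ) → ℝ≥0∞) : ∫⋯∫⁻_s, f ∂ν = ∫⋯∫⁻_s, f ∂ν' := by
  ext v
  unfold lmarginal
  have : (fun i : s => ν i) = fun i : s => ν' i := funext fun i => h i i.2
  rw [this]

/-- resampling the patch with another law -/
theorem lintegral_lmarginal_law (ν ν' : ι → Measure ℝ) [∀ i, IsProbabilityMeasure (ν i)]
    [∀ i, IsProbabilityMeasure (ν' i)] {Q : Finset ι} (hoff : ∀ i ∉ Q, ν i = ν' i)
    {R : (ι → ℝ) → ℝ≥0∞} (hR : Measurable R) :
    ∫⁻ v, (∫⋯∫⁻_Q, R ∂ν') v ∂(Measure.pi ν) = ∫⁻ v, R v ∂(Measure.pi ν') := by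
  have hd : Disjoint (Finset.univ \ Q) Q := Finset.sdiff_disjoint
  have h1 : (Finset.univ : Finset ι) = (Finset.univ \ Q) ∪ Q := by
    rw [Finset.sdiff_union_of_subset (Finset.subset_univ Q)]
  have hRm : Measurable (∫⋯∫⁻_Q, R ∂ν') := hR.lmarginal ν'
  have h2 : ∫⋯∫⁻_Finset.univ, (∫⋯∫⁻_Q, R ∂ν') ∂ν = ∫⋯∫⁻_Finset.univ, R ∂ν' := by
    rw [h1, lmarginal_union ν _ hRm hd, lmarginal_union ν' _ hR hd]
    rw [lmarginal_const ν Q fun V V' h => lmarginal_congr ν' _ h]
    exact lmarginal_congr_law (fun i hi => hoff i (Finset.mem_sdiff.1 hi).2) _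
  rw [lmarginal_univ, lmarginal_univ] at h2
  exact congrFun h2 (fun _ => 0)

/-- **Two worlds, under the product laws** (exceptional events of the first world kept). -/
theorem bulk_T [MeasurableSpace F] [BorelSpace F] (hA : A.IsSymm) {Q : Finset ι} {E L lam : ℝ}
    (hL : 0 < L) {e e' : ι → ℝ} (he : ∀ i, 0 < e i) (he' : ∀ i, 0 < e' i)
    (hoff : ∀ i ∉ Q, e i = e' i) (x y : Q) (hxy : x ≠ y) (T : (ι → ℂ) →ₗ[ℂ] F)
    {c2 : ℝ} (hc2 : 0 < c2) (hcof : CofLe A Q E (fun _ => 0) L c2 x y) {ε : Q → ℝ}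
    (hε : ∀ l, 0 < ε l) (hεx : ε x ≤ 1)
    (hle : ∀ i ∈ Q, lam ^ 2 + e i ^ 2 ≤ L ^ 2) (hle' : ∀ i ∈ Q, lam ^ 2 + e' i ^ 2 ≤ L ^ 2)
    (ν ν' : ι → Measure ℝ) [∀ i, IsProbabilityMeasure (ν i)] [∀ i, IsProbabilityMeasure (ν' i)]
    (hνoff : ∀ i ∉ Q, ν i = ν' i) {κ : ℝ} (hκ : 0 < κ)
    (hν' : ∀ i ∈ Q, WinLaw F (ENNReal.ofReal κ) (2 * L) (ν' i))
    (hsupp : ∀ i ∈ Q, ν i {t | |t| ≤ lam}ᶜ = 0)
    (hsupp' : ∀ i ∈ Q, ν' i {t | |t| ≤ lam}ᶜ = 0) :
    ∫⁻ v, ENNReal.ofReal (Yv A (WV E e v) T x) ∂(Measure.pi ν) ≤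
      ∑ l ∈ (Finset.univ : Finset Q).erase x,
        ∫⁻ v in JP A Q E e L x (ε l) l, ENNReal.ofReal (Yv A (WV E e v) T x) ∂(Measure.pi ν)
      + ENNReal.ofReal (KB E L (e x) c2 (∏ l, ε l) Q.card / κ ^ Q.card) *
        ∫⁻ v, ENNReal.ofReal (‖GV A (WV E e' v) T y‖ ^ 2) ∂(Measure.pi ν') := by
  set Y : (ι → ℝ) → ℝ≥0∞ := fun v => ENNReal.ofReal (Yv A (WV E e v) T x) with hY
  set R : (ι → ℝ) → ℝ≥0∞ := fun v => ENNReal.ofReal (‖GV A (WV E e' v) T y‖ ^ 2) with hR
  have hRm : Measurable R :=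
    ((continuous_GV_WV hA he' T (y : ι)).norm.pow 2).measurable.ennreal_ofReal
  set U : Set (ι → ℝ) := ⋃ l ∈ (Finset.univ : Finset Q).erase x, JP A Q E e L x (ε l) l with hU
  have hUm : MeasurableSet U :=
    Finset.measurableSet_biUnion _ fun l _ => measurableSet_JP Q E e L x (ε l) l
  set c : ℝ≥0∞ := ENNReal.ofReal (KB E L (e x) c2 (∏ l, ε l) Q.card / κ ^ Q.card) with hc
  rw [← lintegral_add_compl Y hUm]
  refine add_le_add (lintegral_biUnion_le _ _ _) ?_
  have hlam0 : 0 ≤ L := hL.le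
  calc ∫⁻ v in Uᶜ, Y v ∂(Measure.pi ν)
      ≤ ∫⁻ v in Uᶜ, c * (∫⋯∫⁻_Q, R ∂ν') v ∂(Measure.pi ν) := by
        refine lintegral_mono_ae ?_
        filter_upwards [ae_restrict_mem hUm.compl, ae_restrict_of_ae (ae_cube ν Q hsupp)]
          with v h6 h7
        have h8 : ∀ l, l ≠ x → v ∉ JP A Q E e L x (ε l) l := fun l hl hmem =>
          h6 (Set.mem_biUnion (Finset.mem_coe.mpr (Finset.mem_erase.2 ⟨hl, Finset.mem_univ l⟩))
            hmem)
        have h9 := div_pow_aux (a := 0) (Y := Y v) (R := (∫⋯∫⁻_Q, R ∂ν') v)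
          (K := KB E L (e x) c2 (∏ l, ε l) Q.card) hκ Q.card (by
          rw [mul_zero, add_zero]
          exact bulk_pt hA hL he he' hoff x y hxy T hc2 hcof hε hεx h7 hle hle' h8 ν' hν' hsupp')
        rwa [add_zero] at h9
    _ ≤ ∫⁻ v, c * (∫⋯∫⁻_Q, R ∂ν') v ∂(Measure.pi ν) := setLIntegral_le_lintegral _ _
    _ = _ := by
        rw [lintegral_const_mul' _ _ ENNReal.ofReal_ne_top, lintegral_lmarginal_law ν ν' hνoff hRm]

end P365T1
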