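import Vale.Agent.P365.T1.BlkPath

/-!
# Cofactor bound for irregular patches (P365 T1, helper16)

`nb1 A S` : `S` and its neighbours.  For a finite set `KK` in which `z` and `y` are joined by a
chain of adjacent sites of `KK`, the cofactor bound `CofLe` holds on the patch `nb1 (nb1 KK)`.
-/

set_option autoImplicit false
set_option linter.all false

open MeasureTheory Finset Function Matrix
open scoped ENNReal NNReal BigOperators

namespace P365T1

open P365L P365O P365T1.MAff

variable {ι : Type*} [Fintype ι] [DecidableEq ι]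

/-- a chain of `k` steps inside `KK` -/
structure Chn (A : Matrix ι ι ℝ) (KK : Finset ι) (z y : ι) (k : ℕ) (p : ℕ → ι) : Prop where
  fst : p 0 = z
  lst : p k = y
  mem : ∀ i, i ≤ k → p i ∈ KK
  link : ∀ i, i < k → A (p i) (p (i + 1)) ≠ 0

/-- `z` and `y` are joined inside `KK` -/
def Joined (A : Matrix ι ι ℝ) (KK : Finset ι) (z y : ι) : Prop :=
  ∃ k p, Chn A KK z y k p

theorem Joined.refl {A : Matrix ι ι ℝ} {KK : Finset ι} {z : ι} (hz : z ∈ KK) :
    Joined A KK z z :=
  ⟨0, fun _ => z, ⟨rfl, rfl, fun _ _ => hz, fun i hi => absurd hi (Nat.not_lt_zero i)⟩⟩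

theorem Joined.left_mem {A : Matrix ι ι ℝ} {KK : Finset ι} {z y : ι} (h : Joined A KK z y) :
    z ∈ KK := by
  obtain ⟨k, p, hp⟩ := h
  rw [← hp.fst]; exact hp.mem 0 (Nat.zero_le _)

theorem Joined.right_mem {A : Matrix ι ι ℝ} {KK : Finset ι} {z y : ι} (h : Joined A KK z y) :
    y ∈ KK := by
  obtain ⟨k, p, hp⟩ := h
  rw [← hp.lst]; exact hp.mem k le_rfl

/-- one more step at the beginning -/
theorem Joined.cons {A : Matrix ι ι ℝ} {KK : Finset ι} {w z y : ι} (hw : w ∈ KK)
    (hwz : A w z ≠ 0) (h : Joined A KK z y) : Joined A KK w y := by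
  obtain ⟨k, p, hp⟩ := h
  refine ⟨k + 1, fun i => if i = 0 then w else p (i - 1), ⟨by simp, by simp [hp.lst], ?_, ?_⟩⟩
  · intro i hi
    by_cases h0 : i = 0
    · simp [h0, hw]
    · simp only [h0, if_false]
      exact hp.mem _ (by omega)
  · intro i hi
    by_cases h0 : i = 0
    · subst h0
      simpa [hp.fst] using hwz
    · have h1 : i + 1 ≠ 0 := by omega
      simp only [h0, h1, if_false]
      have h2 : i + 1 - 1 = (i - 1) + 1 := by omega
      rw [h2]
      exact hp.link (i - 1) (by omega)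

theorem Joined.trans {A : Matrix ι ι ℝ} {KK : Finset ι} {x z y : ι} (h1 : Joined A KK x z)
    (h2 : Joined A KK z y) : Joined A KK x y := by
  obtain ⟨k, p, hp⟩ := h1
  induction k generalizing p x with
  | zero =>
    have : x = z := by rw [← hp.fst, ← hp.lst]
    rw [this]; exact h2
  | succ k ih =>
    have h3 : Joined A KK (p 1) y := ih (p := fun i => p (i + 1))
      ⟨rfl, by simpa using hp.lst, fun i hi => hp.mem (i + 1) (by omega),
        fun i hi => hp.link (i + 1) (by omega)⟩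
    have h4 := hp.link 0 (by omega)
    rw [hp.fst] at h4
    refine Joined.cons ?_ h4 h3
    rw [← hp.fst]; exact hp.mem 0 (by omega)

theorem Joined.symm {A : Matrix ι ι ℝ} (hA : A.IsSymm) {KK : Finset ι} {z y : ι}
    (h : Joined A KK z y) : Joined A KK y z := by
  obtain ⟨k, p, hp⟩ := h
  refine ⟨k, fun i => p (k - i), ⟨by simp [hp.lst], by simp [hp.fst],
    fun i _ => hp.mem _ (by omega), fun i hi => ?_⟩⟩
  have h1 : k - i = (k - (i + 1)) + 1 := by omega
  show A (p (k - i)) (p (k - (i + 1))) ≠ 0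
  have h2 := hp.link (k - (i + 1)) (by omega)
  rw [← h1, ← hA.apply] at h2
  exact h2

theorem Joined.mono {A : Matrix ι ι ℝ} {KK KK' : Finset ι} (hK : KK ⊆ KK') {z y : ι}
    (h : Joined A KK z y) : Joined A KK' z y := by
  obtain ⟨k, p, hp⟩ := h
  exact ⟨k, p, ⟨hp.fst, hp.lst, fun i hi => hK (hp.mem i hi), hp.link⟩⟩

/-- a shortcut -/
theorem Chn.cut {A : Matrix ι ι ℝ} {KK : Finset ι} {z y : ι} {k : ℕ} {p : ℕ → ι}
    (hp : Chn A KK z y k p) {i j : ℕ} (hij : i < j) (hj : j ≤ k) (h : A (p i) (p j) ≠ 0) :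
    ∃ q, Chn A KK z y (k - (j - i - 1)) q := by
  refine ⟨fun n => if n ≤ i then p n else p (n + (j - i - 1)), ⟨?_, ?_, ?_, ?_⟩⟩
  · simp [hp.fst]
  · have h1 : ¬ (k - (j - i - 1)) ≤ i := by omega
    simp only [h1, if_false]
    rw [show k - (j - i - 1) + (j - i - 1) = k by omega]
    exact hp.lst
  · intro n hn
    by_cases h1 : n ≤ i
    · simp only [h1, if_true]; exact hp.mem n (by omega)
    · simp only [h1, if_false]; exact hp.mem _ (by omega)
  · intro n hn
    rcases lt_trichotomy n i with h1 | h1 | h1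
    · have h2 : n ≤ i := h1.le
      have h3 : n + 1 ≤ i := h1
      simp only [h2, h3, if_true]
      exact hp.link n (by omega)
    · subst h1
      have h3 : ¬ n + 1 ≤ n := by omega
      simp only [le_refl, if_true, h3, if_false]
      rw [show n + 1 + (j - n - 1) = j by omega]
      exact h
    · have h2 : ¬ n ≤ i := by omega
      have h3 : ¬ n + 1 ≤ i := by omega
      simp only [h2, h3, if_false]
      rw [show n + 1 + (j - i - 1) = n + (j - i - 1) + 1 by omega]
      exact hp.link _ (by omega)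

/-- a shortcut at a repeated site -/
theorem Chn.cut' {A : Matrix ι ι ℝ} {KK : Finset ι} {z y : ι} {k : ℕ} {p : ℕ → ι}
    (hp : Chn A KK z y k p) {i j : ℕ} (hij : i < j) (hj : j ≤ k) (h : p i = p j) :
    ∃ q, Chn A KK z y (k - (j - i)) q := by
  refine ⟨fun n => if n ≤ i then p n else p (n + (j - i)), ⟨?_, ?_, ?_, ?_⟩⟩
  · simp [hp.fst]
  · by_cases h1 : k - (j - i) ≤ i
    · have h2 : j = k := by omega
      have h3 : k - (j - i) = i := by omega
      simp only [h3, le_refl, if_true]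
      rw [h, h2]; exact hp.lst
    · simp only [h1, if_false]
      rw [show k - (j - i) + (j - i) = k by omega]
      exact hp.lst
  · intro n hn
    by_cases h1 : n ≤ i
    · simp only [h1, if_true]; exact hp.mem n (by omega)
    · simp only [h1, if_false]; exact hp.mem _ (by omega)
  · intro n hn
    rcases lt_trichotomy n i with h1 | h1 | h1
    · have h2 : n ≤ i := h1.le
      have h3 : n + 1 ≤ i := h1
      simp only [h2, h3, if_true]
      exact hp.link n (by omega)
    · subst h1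
      have h3 : ¬ n + 1 ≤ n := by omega
      simp only [le_refl, if_true, h3, if_false]
      rw [show n + 1 + (j - n) = j + 1 by omega, h]
      exact hp.link j (by omega)
    · have h2 : ¬ n ≤ i := by omega
      have h3 : ¬ n + 1 ≤ i := by omega
      simp only [h2, h3, if_false]
      rw [show n + 1 + (j - i) = n + (j - i) + 1 by omega]
      exact hp.link _ (by omega)

/-- a shortest chain is an induced path -/
theorem Joined.shortest {A : Matrix ι ι ℝ} (hA : A.IsSymm) {KK : Finset ι} {z y : ι}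
    (h : Joined A KK z y) : ∃ k p, Chn A KK z y k p ∧
      (∀ i, i ≤ k → ∀ j, j ≤ k → p i = p j → i = j) ∧
      (∀ i, i ≤ k → ∀ j, j ≤ k → i + 2 ≤ j ∨ j + 2 ≤ i → A (p i) (p j) = 0) := by
  classical
  have hex : ∃ k, ∃ p, Chn A KK z y k p := h
  set k := Nat.find hex with hk
  obtain ⟨p, hp⟩ := Nat.find_spec hex
  rw [← hk] at hp
  have hmin : ∀ k' < k, ∀ q, ¬ Chn A KK z y k' q := fun k' hk' q hq =>
    Nat.find_min hex hk' ⟨q, hq⟩
  have h1 : ∀ i j, i < j → j ≤ k → p i ≠ p j := by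
    intro i j hij hj heq
    obtain ⟨q, hq⟩ := hp.cut' hij hj heq
    exact hmin _ (by omega) q hq
  have h2 : ∀ i j, i + 2 ≤ j → j ≤ k → A (p i) (p j) = 0 := by
    intro i j hij hj
    by_contra hne
    obtain ⟨q, hq⟩ := hp.cut (by omega) hj hne
    exact hmin _ (by omega) q hq
  refine ⟨k, p, hp, fun i hi j hj heq => ?_, fun i hi j hj hij => ?_⟩
  · rcases lt_trichotomy i j with h | h | h
    · exact absurd heq (h1 i j h hj)
    · exact h
    · exact absurd heq.symm (h1 j i h hi)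
  · rcases hij with h | h
    · exact h2 i j h hj
    · rw [← hA.apply]; exact h2 j i h hi

/-- `S` and its neighbours -/
noncomputable def nb1 (A : Matrix ι ι ℝ) (S : Finset ι) : Finset ι :=
  S ∪ Finset.univ.filter fun j => ∃ i ∈ S, A i j ≠ 0

theorem sub_nb1 (A : Matrix ι ι ℝ) (S : Finset ι) : S ⊆ nb1 A S := Finset.subset_union_left

theorem mem_nb1_of {A : Matrix ι ι ℝ} {S : Finset ι} {i j : ι} (hi : i ∈ S) (h : A i j ≠ 0) :
    j ∈ nb1 A S :=
  Finset.mem_union_right _ (Finset.mem_filter.mpr ⟨Finset.mem_univ j, i, hi, h⟩)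

theorem mem_nb1 {A : Matrix ι ι ℝ} {S : Finset ι} {j : ι} :
    j ∈ nb1 A S ↔ j ∈ S ∨ ∃ i ∈ S, A i j ≠ 0 := by
  simp [nb1]

theorem nb1_mono {A : Matrix ι ι ℝ} {S S' : Finset ι} (h : S ⊆ S') : nb1 A S ⊆ nb1 A S' := by
  intro j hj
  rw [mem_nb1] at *
  rcases hj with hj | ⟨i, hi, hij⟩
  · exact Or.inl (h hj)
  · exact Or.inr ⟨i, h hi, hij⟩

/-- **Cofactor bound for irregular patches.** -/
theorem cofLe_conn {A : Matrix ι ι ℝ} (hG : Gph A) {KK : Finset ι} {z y : ι}
    (hzy : Joined A KK z y) {E L : ℝ} (hL : 0 < L) {e : ι → ℝ}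
    (he0 : ∀ i ∈ nb1 A (nb1 A KK), 0 ≤ e i) (he1 : ∀ i ∈ nb1 A (nb1 A KK), e i ≤ 1)
    (x x' : (nb1 A (nb1 A KK) : Finset ι)) (hx : (x : ι) = z) (hx' : (x' : ι) = y) :
    CofLe A (nb1 A (nb1 A KK)) E e L (c2c E L (nb1 A KK).card) x x' := by
  obtain ⟨k, p, hp, hinj, hfar⟩ := hzy.shortest hG.symm
  refine cofLe_of_path hG.symm hG.zo hG.diag hG.deg (sub_nb1 A _)
    (fun i hi j hij => mem_nb1_of hi hij) k p hinj
    (fun i hi => sub_nb1 A _ (hp.mem i hi)) (fun i hi => ?_) hfar
    (fun i _ hik j hij => mem_nb1_of (hp.mem i hik) hij) hL he0 he1 x x'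
    (by rw [hx, hp.fst]) (by rw [hx', hp.lst])
  rcases hG.zo (p i) (p (i + 1)) with h | h
  · exact absurd h (hp.link i hi)
  · exact h

/-- the same on any larger patch which contains the second neighbourhood of `KK` -/
theorem cofLe_conn' {A : Matrix ι ι ℝ} (hG : Gph A) {KK Q : Finset ι} {z y : ι}
    (hzy : Joined A KK z y) (hQ : nb1 A (nb1 A KK) ⊆ Q) {E L : ℝ} (hL : 0 < L) {e : ι → ℝ}
    (he0 : ∀ i ∈ Q, 0 ≤ e i) (he1 : ∀ i ∈ Q, e i ≤ 1)
    (x x' : Q) (hx : (x : ι) = z) (hx' : (x' : ι) = y) :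
    CofLe A Q E e L (c2c E L (nb1 A KK).card) x x' := by
  obtain ⟨k, p, hp, hinj, hfar⟩ := hzy.shortest hG.symm
  refine cofLe_of_path hG.symm hG.zo hG.diag hG.deg ((sub_nb1 A _).trans hQ)
    (fun i hi j hij => hQ (mem_nb1_of hi hij)) k p hinj
    (fun i hi => sub_nb1 A _ (hp.mem i hi)) (fun i hi => ?_) hfar
    (fun i _ hik j hij => mem_nb1_of (hp.mem i hik) hij) hL he0 he1 x x'
    (by rw [hx, hp.fst]) (by rw [hx', hp.lst])
  rcases hG.zo (p i) (p (i + 1)) with h | h
  · exact absurd h (hp.link i hi)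
  · exact h

/-- the constants: `c2c` is antitone in the number of sites -/
theorem c2c_anti {E L : ℝ} (hL : 0 < L) {n n' : ℕ} (h : n ≤ n') : c2c E L n' ≤ c2c E L n := by
  unfold c2c
  have h1 := C0c_pos (E := E) hL
  have h2 : 0 < min L 1 := lt_min hL one_pos
  refine pow_le_pow_of_le_one (by positivity) ?_ h
  have h3 : 1 ≤ C0c E L := by
    unfold C0c
    have := abs_nonneg E
    have : 0 < 16 / L := by positivity
    nlinarith
  calc min L 1 * (C0c E L)⁻¹ ≤ 1 * 1 := by
        refine mul_le_mul (min_le_right _ _) (inv_le_one_of_one_le₀ h3) (by positivity) zero_le_one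
    _ = 1 := one_mul 1

theorem CofLe.mono {A : Matrix ι ι ℝ} {Q : Finset ι} {E : ℝ} {e : ι → ℝ} {L c2 c2' : ℝ} {x y : Q}
    (h : CofLe A Q E e L c2 x y) (hc : c2' ≤ c2) : CofLe A Q E e L c2' x y := by
  intro W0 h0
  obtain ⟨y2, h1, h2⟩ := h W0 h0
  exact ⟨y2, h1, (mul_le_mul_of_nonneg_right hc (norm_nonneg _)).trans h2⟩

end P365T1
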