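import Vale.Agent.P365.T1.BulkF
import Vale.Agent.P365.T1.CofKK

/-!
# P365-T1: the two-world crude Harnack inequality for every pair `x, y` of the patch

`bulk_full` of 256 with the numerator comparison `NumLe` as a hypothesis; `NumLe` holds for `x ≠ y`
with a cofactor bound, and for `x = y` with `c2 ≤ 2 / L`.
-/

set_option autoImplicit false
set_option linter.all false

open MeasureTheory Finset Function Matrix Complex P365L P365O
open scoped ENNReal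

namespace P365T1

open P365T1.MAff P365T1.OneVar P365T1.Bad

variable {ι : Type*} [Fintype ι] [DecidableEq ι]
variable {F : Type*} [NormedAddCommGroup F] [NormedSpace ℂ F]
variable {A : Matrix ι ι ℝ} {W : ι → ℂ}

/-- comparison of the numerators `P_x` and `P_y` on the patch, for every exterior -/
def NumLe (A : Matrix ι ι ℝ) (Q : Finset ι) (E L c2 : ℝ) (x y : Q) (T : (ι → ℂ) →ₗ[ℂ] F) : Prop :=
  ∀ W0 : ι → ℂ, (∀ i ∉ Q, (W0 i).im < 0) → ∀ z1 : Q → ℂ, (∀ i, ‖z1 i‖ ≤ L) → ∀ Sy : ℝ,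
    (∀ V : Q → ℝ, (∀ i, |V i| ≤ L) → ‖Pv (Bp A Q E fun _ => 0) T y (fil Q W0 (cx V))‖ ≤ Sy) →
    c2 * ‖Pv (Bp A Q E fun _ => 0) T x (fil Q W0 z1)‖ ≤ 2 / L * 162 ^ Q.card * Sy

/-- `x ≠ y` : from the cofactor bound -/
theorem numLe_of_cofLe (hA : A.IsSymm) {Q : Finset ι} {E L c2 : ℝ} (hL : 0 < L) (hc2 : 0 < c2)
    {x y : Q} (hxy : x ≠ y) (hcof : CofLe A Q E (fun _ => 0) L c2 x y) (T : (ι → ℂ) →ₗ[ℂ] F) :
    NumLe A Q E L c2 x y T := by
  intro W0 h0 z1 hz1 Sy hSy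
  obtain ⟨y2, hy2, hc⟩ := hcof W0 h0
  exact norm_Pv_le (dissB_Bp hA Q E fun i _ => le_rfl) Q h0 hL x.2 y.2
    (fun h => hxy (Subtype.ext h)) T hc2.le hy2 hc hSy hz1

/-- `x = y` : trivial -/
theorem numLe_self {Q : Finset ι} {E L c2 : ℝ} (hL : 0 < L) (hc2 : c2 ≤ 2 / L)
    (x : Q) (T : (ι → ℂ) →ₗ[ℂ] F) : NumLe A Q E L c2 x x T := by
  intro W0 h0 z1 hz1 Sy hSy
  set B0 : Matrix ι ι ℂ := Bp A Q E fun _ => 0 with hB0
  obtain ⟨V, hVW, hV⟩ := exists_large (κ := Fin 1)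
    (fun _ => fun z : Q → ℂ => Pv B0 T x (fil Q W0 z))
    (fun _ => maff_fil (maff_Pv B0 T x) Q W0) (L := L) (ε := 1 / 9) hL.le (by norm_num)
    (by norm_num) (fun _ => z1) (fun _ i => hz1 i)
    (fun _ => {t : ℝ | |t| ≤ L}) (fun _ => le_rfl) (fun i => by
      have h1 : {t : ℝ | |t| ≤ L} = Set.Icc (-L) L := by
        ext t
        simp only [Set.mem_ofPred_eq, Set.mem_Icc]
        exact abs_le
      rw [h1, Real.volume_Icc, Fintype.card_fin]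
      have h2 : ((1 : ℕ) : ℝ≥0∞) * ENNReal.ofReal (8 * L * (1 / 9)) =
          ENNReal.ofReal (8 * L * (1 / 9)) := by simp
      rw [h2, ENNReal.ofReal_lt_ofReal_iff (by linarith : (0 : ℝ) < L - -L)]
      linarith)
  have hVL : ∀ i, |V i| ≤ L := hVW
  rw [Fintype.card_coe] at hV
  have h1 := (hV 0).trans (hSy V hVL)
  have hSy0 : 0 ≤ Sy := (norm_nonneg _).trans (hSy V hVL)
  have h3 : ‖Pv B0 T x (fil Q W0 z1)‖ ≤ 9 ^ Q.card * Sy := by
    have h4 : (9 : ℝ) ^ Q.card * (1 / 9) ^ Q.card = 1 := by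
      rw [← mul_pow]; norm_num
    calc ‖Pv B0 T x (fil Q W0 z1)‖ =
        9 ^ Q.card * ((1 / 9) ^ Q.card * ‖Pv B0 T x (fil Q W0 z1)‖) := by
          rw [← mul_assoc, h4, one_mul]
      _ ≤ 9 ^ Q.card * Sy := by gcongr
  have h5 : (9 : ℝ) ^ Q.card ≤ 162 ^ Q.card := pow_le_pow_left₀ (by norm_num) (by norm_num) _
  calc c2 * ‖Pv B0 T x (fil Q W0 z1)‖ ≤ 2 / L * ‖Pv B0 T x (fil Q W0 z1)‖ :=
        mul_le_mul_of_nonneg_right hc2 (norm_nonneg _)
    _ ≤ 2 / L * (162 ^ Q.card * Sy) := by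
        refine mul_le_mul_of_nonneg_left (h3.trans ?_) (by positivity)
        exact mul_le_mul_of_nonneg_right h5 hSy0
    _ = _ := by ring

/-- both cases -/
theorem numLe (hA : A.IsSymm) {Q : Finset ι} {E L c2 : ℝ} (hL : 0 < L) (hc2 : 0 < c2)
    (hc2L : c2 ≤ 2 / L) {x y : Q} (hcof : x ≠ y → CofLe A Q E (fun _ => 0) L c2 x y)
    (T : (ι → ℂ) →ₗ[ℂ] F) : NumLe A Q E L c2 x y T := by
  by_cases hxy : x = y
  · subst hxy
    exact numLe_self hL hc2L x T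
  · exact numLe_of_cofLe hA hL hc2 hxy (hcof hxy) T

/-- **Two worlds, pointwise in the exterior.** -/
theorem bulk_pt_gen [MeasurableSpace F] [BorelSpace F] (hA : A.IsSymm) {Q : Finset ι} {E L lam : ℝ}
    (hL : 0 < L) {e e' : ι → ℝ} (he : ∀ i, 0 < e i) (he' : ∀ i, 0 < e' i)
    (hoff : ∀ i ∉ Q, e i = e' i) (x y : Q) (T : (ι → ℂ) →ₗ[ℂ] F)
    {c2 : ℝ} (hc2 : 0 < c2) (hcof : NumLe A Q E L c2 x y T) {ε : Q → ℝ}
    (hε : ∀ l, 0 < ε l) (hεx : ε x ≤ 1) {v : ι → ℝ} (hv : ∀ i ∈ Q, |v i| ≤ lam)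
    (hle : ∀ i ∈ Q, lam ^ 2 + e i ^ 2 ≤ L ^ 2) (hle' : ∀ i ∈ Q, lam ^ 2 + e' i ^ 2 ≤ L ^ 2)
    (hJ : ∀ l, l ≠ x → v ∉ JP A Q E e L x (ε l) l)
    (ν' : ι → Measure ℝ) [∀ i, IsProbabilityMeasure (ν' i)] {κ : ℝ≥0∞}
    (hν : ∀ i ∈ Q, WinLaw F κ (2 * L) (ν' i))
    (hsupp : ∀ i ∈ Q, ν' i {t | |t| ≤ lam}ᶜ = 0) :
    κ ^ Q.card * ENNReal.ofReal (Yv A (WV E e v) T x) ≤
      ENNReal.ofReal (KB E L (e x) c2 (∏ l, ε l) Q.card) *
        (∫⋯∫⁻_Q, (fun v => ENNReal.ofReal (‖GV A (WV E e' v) T y‖ ^ 2)) ∂ν') v := by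
  have h0 : ∀ i ∉ Q, (WV E e v i).im < 0 := fun i _ => WV_im_neg he v i
  have hlam : ∀ t : ℝ, |t| ≤ lam → t ^ 2 ≤ lam ^ 2 := fun t ht => by
    rw [← sq_abs t]; exact pow_le_pow_left₀ (abs_nonneg t) ht 2
  have hlamL : lam ≤ L := by
    have h1 := hle x x.2
    nlinarith [sq_nonneg (e x), abs_nonneg (v x), hv x x.2]
  have hnum := hcof (WV E e v) h0
  set W0 : ι → ℂ := WV E e v with hW0
  set n := Q.card with hn
  set u : Q → ℝ := rs Q v with hu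
  have huL : ∀ i, |u i| ≤ lam := fun i => hv i i.2
  set B0 : Matrix ι ι ℂ := Bp A Q E (fun _ => 0) with hB0
  have hB : DissB B0 := dissB_Bp hA Q E fun i _ => le_rfl
  have hBe : DissB (Bp A Q E e) := dissB_Bp hA Q E fun i _ => (he i).le
  have hst : Stable fun z : Q → ℂ => (Mz B0 (fil Q W0 z)).det := stable_fil (stable_det hB) Q h0
  have hmd : MAff fun z : Q → ℂ => (Mz B0 (fil Q W0 z)).det := maff_fil (maff_det B0) Q W0
  have hcd : Continuous fun z : Q → ℂ => (Mz B0 (fil Q W0 z)).det :=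
    (continuous_det B0).comp (continuous_fil Q W0)
  set D0 : ℝ := ‖(Mz B0 (fil Q W0 fun _ => -(L : ℂ) * Complex.I)).det‖ with hD0
  have hD0pos : 0 < D0 := norm_pos_iff.mpr (stable_det hB _ fun i => by
    by_cases h : i ∈ Q
    · simp [fil, h, hL]
    · simpa [fil, h] using h0 i h)
  have hpε : 0 < ∏ l, ε l := Finset.prod_pos fun l _ => hε l
  -- (1) off the exceptional events
  have h10 := le_norm_of_notMem' Q.equivFin (fun k => (threshold_pos Q.equivFin hε k).le)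
    (notMem_Jset_of_forall Q.equivFin (Bp A Q E e) W0 L x hεx fun l hl => hJ l hl)
  have h11 : detx (Bp A Q E e) Q W0 L x (fun _ => -(L : ℂ) * Complex.I) =
      (Mz (Bp A Q E e) (fil Q W0 fun _ => -(L : ℂ) * Complex.I)).det := by
    unfold detx
    congr 3
    ext i
    by_cases hi : i = x
    · subst hi; simp
    · simp [hi]
  rw [h11, prod_threshold] at h10
  have h12 : D0 ≤ ‖(Mz (Bp A Q E e) (fil Q W0 fun _ => -(L : ℂ) * Complex.I)).det‖ := by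
    rw [Mz_shift]
    have h := stable_cmp hmd hcd hst (z1 := fun _ => -(L : ℂ) * Complex.I)
      (z2 := fun i => -(L : ℂ) * Complex.I + -(Complex.I * e i)) (fun i => by simp [hL.le])
      (fun i => by
        have := (he i).le
        simp only [Complex.add_im, Complex.mul_im, Complex.neg_re, Complex.ofReal_re, Complex.I_im,
          Complex.neg_im, Complex.ofReal_im, Complex.I_re]
        nlinarith) (C := 1) le_rfl (fun i s hs => by
        have h1 := mono_im hs hL.le (L' := L + e i) (by linarith [he i])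
        have h2 : -((L + e i : ℝ) : ℂ) * Complex.I = -(L : ℂ) * Complex.I + -(Complex.I * e i) := by
          push_cast; ring
        rwa [h2] at h1)
    simp only [one_pow, one_mul] at h
    exact (pow_le_pow_iff_left₀ (norm_nonneg _) (norm_nonneg _) two_ne_zero).1 h
  have h13 : (∏ l, ε l) * D0 ≤
      ‖(Mz (Bp A Q E e) (fil Q W0 (update (cx u) x (-(L : ℂ) * Complex.I)))).det‖ :=
    (mul_le_mul_of_nonneg_left h12 hpε.le).trans h10
  -- (2) the numerator at `x`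
  set z1 : Q → ℂ := fun i => cx u i + -(Complex.I * e i) with hz1
  have hz1L : ∀ i, ‖z1 i‖ ≤ L := fun i =>
    norm_sub_I_le ((add_le_add_left (hlam _ (huL i)) _).trans (hle i i.2)) hL.le
  have h14 : ‖MAff.GT (Bp A Q E e) T x (fil Q W0 (update (cx u) x (-(L : ℂ) * Complex.I)))‖ ≤
      ‖Pv B0 T x (fil Q W0 z1)‖ / ((∏ l, ε l) * D0) := by
    rw [GT_eq, norm_smul, norm_inv, fil_update, Pv_update_self, ← fil_update, div_eq_inv_mul]
    have h15 : Pv (Bp A Q E e) T x (fil Q W0 (cx u)) = Pv B0 T x (fil Q W0 z1) := by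
      unfold Pv
      rw [Mz_shift]
    rw [h15]
    gcongr
  -- (3) a maximum point of `P_y`
  have hcomp : IsCompact {V : Q → ℝ | ∀ i, |V i| ≤ L} := by
    have : {V : Q → ℝ | ∀ i, |V i| ≤ L} = Set.univ.pi fun _ => Set.Icc (-L) L := by
      ext V
      simp only [Set.mem_ofPred_eq, Set.mem_univ_pi, Set.mem_Icc]
      exact forall_congr' fun i => abs_le
    rw [this]
    exact isCompact_univ_pi fun _ => isCompact_Icc
  have hPc : Continuous fun V : Q → ℝ => ‖Pv B0 T y (fil Q W0 (cx V))‖ :=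
    ((continuous_Pv B0 T y).comp ((continuous_fil Q W0).comp continuous_cx)).norm
  obtain ⟨Vs, hVs, hmax⟩ := hcomp.exists_isMaxOn ⟨fun _ => 0, fun i => by simp [hL.le]⟩
    hPc.continuousOn
  set Sy : ℝ := ‖Pv B0 T y (fil Q W0 (cx Vs))‖ with hSy
  have hSy0 : 0 ≤ Sy := norm_nonneg _
  have h16 : c2 * ‖Pv B0 T x (fil Q W0 z1)‖ ≤ 2 / L * 162 ^ n * Sy :=
    hnum z1 hz1L Sy fun V' hV' => hmax hV'
  -- (4) second moment in the second world
  have h17 : κ ^ n * ENNReal.ofReal Sy ^ 2 ≤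
      ∫⁻ V', ‖Pv B0 T y (fil Q W0 fun i => cx V' i + -(Complex.I * e' i))‖ₑ ^ 2
        ∂(Measure.pi fun i : Q => ν' i) := by
    have h3 := lintegral_sq_ge_univ
      (f := fun z : Q → ℂ => Pv B0 T y (fil Q W0 fun i => z i + -(Complex.I * e' i)))
      (maff_shift (maff_fil (maff_Pv B0 T y) Q W0) fun i => -(Complex.I * e' i))
      ((continuous_Pv B0 T y).comp ((continuous_fil Q W0).comp
        (continuous_pi fun i => (continuous_apply i).add continuous_const))).measurable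
      (fun i : Q => ν' i) (L := 2 * L) (κ := κ) (z := fun i => (Vs i : ℂ) + Complex.I * e' i)
      (fun i => by
        have h1 : e' i ≤ L := by
          have := hle' i i.2
          nlinarith [sq_nonneg lam, he' i]
        calc ‖(Vs i : ℂ) + Complex.I * e' i‖ ≤ ‖(Vs i : ℂ)‖ + ‖Complex.I * (e' i : ℂ)‖ :=
              norm_add_le _ _
          _ = |Vs i| + e' i := by
              rw [norm_mul, Complex.norm_I, one_mul, Complex.norm_real, Complex.norm_real,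
                Real.norm_eq_abs, Real.norm_eq_abs, abs_of_pos (he' i)]
          _ ≤ 2 * L := by linarith [hVs i]) (fun i => hν i i.2)
    rw [Fintype.card_coe] at h3
    have h4 : (fun i : Q => (Vs i : ℂ) + Complex.I * e' i + -(Complex.I * e' i)) = cx Vs := by
      ext i
      simp [cx]
    rw [h4] at h3
    rwa [hSy, ofReal_norm]
  -- (5) the determinant in the second world
  have h18 : ∫⁻ V', ‖Pv B0 T y (fil Q W0 fun i => cx V' i + -(Complex.I * e' i))‖ₑ ^ 2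
        ∂(Measure.pi fun i : Q => ν' i) ≤ ENNReal.ofReal (2 ^ n * D0 ^ 2) *
      (∫⋯∫⁻_Q, (fun v => ENNReal.ofReal (‖GV A (WV E e' v) T y‖ ^ 2)) ∂ν') v := by
    unfold lmarginal
    rw [← lintegral_const_mul' _ _ ENNReal.ofReal_ne_top]
    refine lintegral_mono_ae ?_
    have hae : ∀ᵐ V' ∂(Measure.pi fun i : Q => ν' i), ∀ i, |V' i| ≤ lam := by
      rw [ae_all_iff]
      intro i
      have h5 : ∀ᵐ t ∂(ν' i), |t| ≤ lam := by
        rw [ae_iff]; exact hsupp i i.2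
      exact (Measure.quasiMeasurePreserving_eval (μ := fun i : Q => ν' i) i).ae h5
    filter_upwards [hae] with V' hV'
    set z2 : Q → ℂ := fun i => cx V' i + -(Complex.I * e' i) with hz2
    have h19 := stable_cmp hmd hcd hst (z1 := z2) (z2 := fun _ => -(L : ℂ) * Complex.I)
      (fun i => by
        have := (he' i).le
        simp only [hz2, cx, Complex.add_im, Complex.neg_im, Complex.mul_im, Complex.ofReal_re,
          Complex.I_im, Complex.ofReal_im, Complex.I_re]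
        nlinarith) (fun i => by simp [hL.le]) (C := 2) (by norm_num)
      (fun i s hs => sq_le_two_mul_c hs hL.le
        (norm_sub_I_le ((add_le_add_left (hlam _ (hV' i)) _).trans (hle' i i.2)) hL.le))
    rw [Fintype.card_coe] at h19
    have hdet0 : (Mz B0 (fil Q W0 z2)).det ≠ 0 := by
      have h5 := Mz_shift A W0 Q E e' (cx V')
      rw [← h5]
      refine det_Bp_ne_zero hA (Wc_im_neg h0 (fun i _ => he' i) fun i => by simp [cx])
    have h20 : MAff.GT B0 T y (fil Q W0 z2) = GV A (WV E e' (updateFinset v Q V')) T y := by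
      have h6 : MAff.GT B0 T y (fil Q W0 z2) = MAff.GT (Bp A Q E e') T y (fil Q W0 (cx V')) := by
        unfold MAff.GT
        rw [Mz_shift A W0 Q E e' (cx V')]
      rw [h6, GT_eq_GV hA, WV_updateFinset]
      congr 1
      refine Wc_congr (fun i hi => ?_) E e' _
      simp only [hW0, WV, hoff i hi]
    have h21 : Pv B0 T y (fil Q W0 z2) =
        (Mz B0 (fil Q W0 z2)).det • GV A (WV E e' (updateFinset v Q V')) T y := by
      rw [← h20, GT_eq, smul_smul, mul_inv_cancel₀ hdet0, one_smul]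
    rw [h21, ← ofReal_norm, ← ENNReal.ofReal_pow (norm_nonneg _),
      ← ENNReal.ofReal_mul (by positivity), norm_smul, mul_pow]
    refine ENNReal.ofReal_le_ofReal ?_
    gcongr
  -- (6) assembly
  have h22 := Yv_le_GT (E := E) hA h0 hL (fun i _ => he i) x T u
  rw [hu, WV_eq_Wc] at h22
  set C1 : ℝ := 2 * (1 + (E ^ 2 + (L + e x) ^ 2)) with hC1
  have hC1p : 0 < C1 := by positivity
  have h23 : Yv A (WV E e v) T x ≤
      C1 * ((2 / (L * c2 * ∏ l, ε l) * 162 ^ n / D0) ^ 2 * Sy ^ 2) := by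
    refine h22.trans (mul_le_mul_of_nonneg_left ?_ hC1p.le)
    rw [← mul_pow]
    refine pow_le_pow_left₀ (norm_nonneg _) (h14.trans ?_) 2
    have h24 : ‖Pv B0 T x (fil Q W0 z1)‖ ≤ 2 / (L * c2) * 162 ^ n * Sy := by
      have : ‖Pv B0 T x (fil Q W0 z1)‖ * c2 ≤ (2 / (L * c2) * 162 ^ n * Sy) * c2 := by
        calc ‖Pv B0 T x (fil Q W0 z1)‖ * c2 = c2 * ‖Pv B0 T x (fil Q W0 z1)‖ := mul_comm _ _
          _ ≤ 2 / L * 162 ^ n * Sy := h16
          _ = (2 / (L * c2) * 162 ^ n * Sy) * c2 := by field_simp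
      exact le_of_mul_le_mul_right this hc2
    calc ‖Pv B0 T x (fil Q W0 z1)‖ / ((∏ l, ε l) * D0)
        ≤ (2 / (L * c2) * 162 ^ n * Sy) / ((∏ l, ε l) * D0) := by gcongr
      _ = _ := by field_simp
  calc κ ^ n * ENNReal.ofReal (Yv A (WV E e v) T x)
      ≤ κ ^ n * ENNReal.ofReal (C1 * ((2 / (L * c2 * ∏ l, ε l) * 162 ^ n / D0) ^ 2 * Sy ^ 2)) := by
        gcongr
    _ = ENNReal.ofReal (C1 * (2 / (L * c2 * ∏ l, ε l) * 162 ^ n / D0) ^ 2) *
          (κ ^ n * ENNReal.ofReal Sy ^ 2) := by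
        rw [← mul_assoc C1, ENNReal.ofReal_mul (by positivity), ENNReal.ofReal_pow hSy0]
        ring
    _ ≤ ENNReal.ofReal (C1 * (2 / (L * c2 * ∏ l, ε l) * 162 ^ n / D0) ^ 2) *
          (ENNReal.ofReal (2 ^ n * D0 ^ 2) *
      (∫⋯∫⁻_Q, (fun v => ENNReal.ofReal (‖GV A (WV E e' v) T y‖ ^ 2)) ∂ν') v) := by
        exact mul_le_mul_of_nonneg_left (h17.trans h18) zero_le
    _ = _ := by
        have h25 : (52488 : ℝ) ^ n = (162 ^ n) ^ 2 * 2 ^ n := by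
          rw [← pow_mul, mul_comm n 2, pow_mul, ← mul_pow]
          norm_num
        have h26 : C1 * (2 / (L * c2 * ∏ l, ε l) * 162 ^ n / D0) ^ 2 * (2 ^ n * D0 ^ 2) =
            KB E L (e x) c2 (∏ l, ε l) n := by
          rw [KB, h25, ← hC1]
          field_simp
        rw [← mul_assoc, ← ENNReal.ofReal_mul (by positivity), h26]


/-- **Two worlds, under the product laws** (exceptional events of the first world kept). -/
theorem bulk_T_gen [MeasurableSpace F] [BorelSpace F] (hA : A.IsSymm) {Q : Finset ι} {E L lam : ℝ}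
    (hL : 0 < L) {e e' : ι → ℝ} (he : ∀ i, 0 < e i) (he' : ∀ i, 0 < e' i)
    (hoff : ∀ i ∉ Q, e i = e' i) (x y : Q) (T : (ι → ℂ) →ₗ[ℂ] F)
    {c2 : ℝ} (hc2 : 0 < c2) (hcof : NumLe A Q E L c2 x y T) {ε : Q → ℝ}
    (hε : ∀ l, 0 < ε l) (hεx : ε x ≤ 1)
    (hle : ∀ i ∈ Q, lam ^ 2 + e i ^ 2 ≤ L ^ 2) (hle' : ∀ i ∈ Q, lam ^ 2 + e' i ^ 2 ≤ L ^ 2)
    (ν ν' : ι → Measure ℝ) [∀ i, IsProbabilityMeasure (ν i)] [∀ i, IsProbabilityMeasure (ν' i)]
    (hνoff : ∀ i ∉ Q, ν i = ν' i) {κ : ℝ} (hκ : 0 < κ)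
    (hν' : ∀ i ∈ Q, WinLaw F (ENNReal.ofReal κ) (2 * L) (ν' i))
    (hsupp : ∀ i ∈ Q, ν i {t | |t| ≤ lam}ᶜ = 0)
    (hsupp' : ∀ i ∈ Q, ν' i {t | |t| ≤ lam}ᶜ = 0) :
    ∫⁻ v, ENNReal.ofReal (Yv A (WV E e v) T x) ∂(Measure.pi ν) ≤
      ∑ l ∈ (Finset.univ : Finset Q).erase x,
        ∫⁻ v in JP A Q E e L x (ε l) l, ENNReal.ofReal (Yv A (WV E e v) T x) ∂(Measure.pi ν)
      + ENNReal.ofReal (KB E L (e x) c2 (∏ l, ε l) Q.card / κ ^ Q.card) *
        ∫⁻ v, ENNReal.ofReal (‖GV A (WV E e' v) T y‖ ^ 2) ∂(Measure.pi ν') := by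
  set Y : (ι → ℝ) → ℝ≥0∞ := fun v => ENNReal.ofReal (Yv A (WV E e v) T x) with hY
  set R : (ι → ℝ) → ℝ≥0∞ := fun v => ENNReal.ofReal (‖GV A (WV E e' v) T y‖ ^ 2) with hR
  have hRm : Measurable R :=
    ((continuous_GV_WV hA he' T (y : ι)).norm.pow 2).measurable.ennreal_ofReal
  set U : Set (ι → ℝ) := ⋃ l ∈ (Finset.univ : Finset Q).erase x, JP A Q E e L x (ε l) l with hU
  have hUm : MeasurableSet U :=
    Finset.measurableSet_biUnion _ fun l _ => measurableSet_JP Q E e L x (ε l) l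
  set c : ℝ≥0∞ := ENNReal.ofReal (KB E L (e x) c2 (∏ l, ε l) Q.card / κ ^ Q.card) with hc
  rw [← lintegral_add_compl Y hUm]
  refine add_le_add (lintegral_biUnion_le _ _ _) ?_
  have hlam0 : 0 ≤ L := hL.le
  calc ∫⁻ v in Uᶜ, Y v ∂(Measure.pi ν)
      ≤ ∫⁻ v in Uᶜ, c * (∫⋯∫⁻_Q, R ∂ν') v ∂(Measure.pi ν) := by
        refine lintegral_mono_ae ?_
        filter_upwards [ae_restrict_mem hUm.compl, ae_restrict_of_ae (ae_cube ν Q hsupp)]
          with v h6 h7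
        have h8 : ∀ l, l ≠ x → v ∉ JP A Q E e L x (ε l) l := fun l hl hmem =>
          h6 (Set.mem_biUnion (Finset.mem_coe.mpr (Finset.mem_erase.2 ⟨hl, Finset.mem_univ l⟩))
            hmem)
        have h9 := div_pow_aux (a := 0) (Y := Y v) (R := (∫⋯∫⁻_Q, R ∂ν') v)
          (K := KB E L (e x) c2 (∏ l, ε l) Q.card) hκ Q.card (by
          rw [mul_zero, add_zero]
          exact bulk_pt_gen hA hL he he' hoff x y T hc2 hcof hε hεx h7 hle hle' h8 ν' hν' hsupp')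
        rwa [add_zero] at h9
    _ ≤ ∫⁻ v, c * (∫⋯∫⁻_Q, R ∂ν') v ∂(Measure.pi ν) := setLIntegral_le_lintegral _ _
    _ = _ := by
        rw [lintegral_const_mul' _ _ ENNReal.ofReal_ne_top, lintegral_lmarginal_law ν ν' hνoff hRm]


/-- **Two worlds, everything estimated.**  `(ν, e)` : first world (all labels of the patch good),
`(ν', e')` : second world (pattern inserted); they agree off the patch `Q` (any finite set). -/
theorem bulk_full_gen [MeasurableSpace F] [BorelSpace F] (hA : A.IsSymm) {Q : Finset ι} {E L lam : ℝ}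
    (hL : 0 < L) {e e' : ι → ℝ} (he : ∀ i, 0 < e i) (he' : ∀ i, 0 < e' i)
    (hoff : ∀ i ∉ Q, e i = e' i) (x y : Q) (hex : e x ≤ 1)
    (T : (ι → ℂ) →ₗ[ℂ] F)
    {c2 : ℝ} (hc2 : 0 < c2) (hcof : NumLe A Q E L c2 x y T) {ε : Q → ℝ}
    (hε : ∀ l, 0 < ε l) (hε1 : ∀ l, ε l ≤ 1 / 2)
    (hle : ∀ i ∈ Q, lam ^ 2 + e i ^ 2 ≤ L ^ 2) (hle' : ∀ i ∈ Q, lam ^ 2 + e' i ^ 2 ≤ L ^ 2)
    (ν ν' : ι → Measure ℝ) [∀ i, IsProbabilityMeasure (ν i)] [∀ i, IsProbabilityMeasure (ν' i)]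
    (hνoff : ∀ i ∉ Q, ν i = ν' i) {ρ ρ' : ι → ℝ → ℝ} {g g' : ι → GP}
    (hG : ∀ i ∈ Q, GLw (ν i) (ρ i) (g i)) (hG' : ∀ i ∈ Q, GLw (ν' i) (ρ' i) (g' i))
    (hgL : ∀ i ∈ Q, (g i).L ≤ lam) (hgL' : ∀ i ∈ Q, (g' i).L ≤ lam) {κ : ℝ} (hκ : 0 < κ)
    (hκg : ∀ i ∈ Q, κ ≤ (g' i).m * (g' i).δ ^ 2 / (16 * (2 * L) ^ 2)) :
    ∫⁻ v, ENNReal.ofReal (Yv A (WV E e v) T x) ∂(Measure.pi ν) ≤
      ∑ l ∈ (Finset.univ : Finset Q).erase x,
        ENNReal.ofReal (Cev E (g x) (g l) * (8 * L * ε l)) *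
          ∫⁻ v, ENNReal.ofReal (‖OneVar.GV A (WV E e v) T x‖ ^ 2 +
            ‖OneVar.GV A (WV E e v) T l‖ ^ 2) ∂(Measure.pi ν)
      + ENNReal.ofReal (KB E L (e x) c2 (∏ l, ε l) Q.card / κ ^ Q.card) *
        ∫⁻ v, ENNReal.ofReal (‖OneVar.GV A (WV E e' v) T y‖ ^ 2) ∂(Measure.pi ν') := by
  have hlamL : lam ≤ L := by
    have h1 := hle x x.2
    have h2 := (hgL x x.2)
    have h3 : 0 ≤ (g x).L := (hG x x.2).hL
    nlinarith [sq_nonneg (e x)]
  refine (bulk_T_gen hA hL he he' hoff x y T hc2 hcof hε ((hε1 x).trans (by norm_num)) hle hle'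
    ν ν' hνoff hκ
    (fun i hi => winLaw_mono (winLaw_of_GLaw (L' := 2 * L) (hG' i hi)
      (by linarith [hgL' i hi]) (by linarith)) (ENNReal.ofReal_le_ofReal (hκg i hi)))
    (fun i hi => GLaw_supp (hG i hi) (hgL i hi))
    (fun i hi => GLaw_supp (hG' i hi) (hgL' i hi))).trans ?_
  refine add_le_add (Finset.sum_le_sum fun l hl => ?_) le_rfl
  exact JP_cost hA hL he x l (Finset.mem_erase.mp hl).1 hex T ν hG
    (fun i hi => (hgL i hi).trans hlamL) (hε l).le (hε1 l)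


/-- the constants of the cofactor bound satisfy `c2 ≤ 2 / L` -/
theorem c2c_le_two_div {E L : ℝ} (hL : 0 < L) {n : ℕ} (hn : 1 ≤ n) : c2c E L n ≤ 2 / L := by
  refine (c2c_anti hL hn).trans ?_
  unfold c2c
  rw [pow_one]
  have h0 := C0c_pos (E := E) hL
  rw [← div_eq_mul_inv, div_le_div_iff₀ h0 hL]
  have h1 : min L 1 ≤ 1 := min_le_right _ _
  have h2 : 2 * L ≤ C0c E L := by
    unfold C0c
    have : 0 < 16 / L := by positivity
    nlinarith [abs_nonneg E]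
  nlinarith [abs_nonneg E]

/-- **Two worlds, everything estimated, all pairs `x, y`** (also `x = y`). -/
theorem bulk_full_all [MeasurableSpace F] [BorelSpace F] (hA : A.IsSymm) {Q : Finset ι}
    {E L lam : ℝ} (hL : 0 < L) {e e' : ι → ℝ} (he : ∀ i, 0 < e i) (he' : ∀ i, 0 < e' i)
    (hoff : ∀ i ∉ Q, e i = e' i) (x y : Q) (hex : e x ≤ 1)
    (T : (ι → ℂ) →ₗ[ℂ] F)
    {c2 : ℝ} (hc2 : 0 < c2) (hc2L : c2 ≤ 2 / L)
    (hcof : x ≠ y → CofLe A Q E (fun _ => 0) L c2 x y) {ε : Q → ℝ}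
    (hε : ∀ l, 0 < ε l) (hε1 : ∀ l, ε l ≤ 1 / 2)
    (hle : ∀ i ∈ Q, lam ^ 2 + e i ^ 2 ≤ L ^ 2) (hle' : ∀ i ∈ Q, lam ^ 2 + e' i ^ 2 ≤ L ^ 2)
    (ν ν' : ι → Measure ℝ) [∀ i, IsProbabilityMeasure (ν i)] [∀ i, IsProbabilityMeasure (ν' i)]
    (hνoff : ∀ i ∉ Q, ν i = ν' i) {ρ ρ' : ι → ℝ → ℝ} {g g' : ι → GP}
    (hG : ∀ i ∈ Q, GLw (ν i) (ρ i) (g i)) (hG' : ∀ i ∈ Q, GLw (ν' i) (ρ' i) (g' i))
    (hgL : ∀ i ∈ Q, (g i).L ≤ lam) (hgL' : ∀ i ∈ Q, (g' i).L ≤ lam) {κ : ℝ} (hκ : 0 < κ)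
    (hκg : ∀ i ∈ Q, κ ≤ (g' i).m * (g' i).δ ^ 2 / (16 * (2 * L) ^ 2)) :
    ∫⁻ v, ENNReal.ofReal (Yv A (WV E e v) T x) ∂(Measure.pi ν) ≤
      ∑ l ∈ (Finset.univ : Finset Q).erase x,
        ENNReal.ofReal (Cev E (g x) (g l) * (8 * L * ε l)) *
          ∫⁻ v, ENNReal.ofReal (‖OneVar.GV A (WV E e v) T x‖ ^ 2 +
            ‖OneVar.GV A (WV E e v) T l‖ ^ 2) ∂(Measure.pi ν)
      + ENNReal.ofReal (KB E L (e x) c2 (∏ l, ε l) Q.card / κ ^ Q.card) *
        ∫⁻ v, ENNReal.ofReal (‖OneVar.GV A (WV E e' v) T y‖ ^ 2) ∂(Measure.pi ν') :=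
  bulk_full_gen hA hL he he' hoff x y hex T hc2 (numLe hA hL hc2 hc2L hcof T) hε hε1 hle hle'
    ν ν' hνoff hG hG' hgL hgL' hκ hκg

end P365T1
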