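import Vale.Agent.P365.T1.PatchT

/-!
# The crude Harnack inequality with the exceptional events estimated (P365 T1, helper16)

* `winLaw_of_GLaw`, `GLaw_le`, `GLaw_supp` : regular laws satisfy the hypotheses of `PatchT`.
* `JP_cost` : `E[Yv_x ; JP l] ≤ C 8 L ε_l E[‖GV_x‖² + ‖GV_l‖²]`.
* `wch_full` : `E Yv_x ≤ Σ_l C 8 L ε_l E[‖GV_x‖² + ‖GV_l‖²] + K E ‖GV_y‖²`.
* `wch_full_event` : the version with a good event.
-/

set_option autoImplicit false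
set_option linter.all false

open MeasureTheory Finset Function Matrix
open scoped ENNReal NNReal BigOperators

namespace P365T1

open P365L P365O P365T1.MAff P365T1.OneVar

section law

variable {F : Type*} [NormedAddCommGroup F] [NormedSpace ℂ F]
variable {ν : Measure ℝ} {ρ : ℝ → ℝ} {L δ m κ₀ R η₀ : ℝ}

theorem GLaw_le (G : GLaw ν ρ L δ m κ₀ R η₀) (S : Set ℝ) : ν S ≤ ENNReal.ofReal R * volume S := by
  have h : ν ≤ ENNReal.ofReal R • (volume : Measure ℝ) := by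
    rw [G.dens, ← withDensity_const]
    exact withDensity_mono (Filter.Eventually.of_forall fun v => ENNReal.ofReal_le_ofReal (G.le v))
  have h2 := h S
  rwa [Measure.smul_apply, smul_eq_mul] at h2

theorem GLaw_supp (G : GLaw ν ρ L δ m κ₀ R η₀) {L' : ℝ} (hL : L ≤ L') :
    ν {t | |t| ≤ L'}ᶜ = 0 := by
  have hm : MeasurableSet {t : ℝ | |t| ≤ L'}ᶜ :=
    (measurableSet_le measurable_norm measurable_const).compl
  rw [G.dens, withDensity_apply _ hm]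
  refine (setLIntegral_congr_fun hm (g := fun _ => 0) fun v hv => ?_).trans (by simp)
  have : L < |v| := by
    have : ¬ |v| ≤ L' := hv
    linarith
  simp [G.supp v this]

theorem winLaw_of_GLaw (G : GLaw ν ρ L δ m κ₀ R η₀) {L' : ℝ} (hL : L ≤ L') (hL' : 0 < L') :
    WinLaw F (ENNReal.ofReal (m * δ ^ 2 / (16 * L' ^ 2))) L' ν := by
  intro a b z hz
  have hδ := G.hδ
  have hm := G.hm
  have h := two_points G (X := ‖a + z • b‖ ^ 2) (c := 8 * L' ^ 2 / δ ^ 2)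
    (f := fun u => ‖a + (u : ℂ) • b‖ ^ 2) (sq_nonneg _) (by positivity) (by
      intro u₁ u₂ h1 h2 h12
      have h3 : (0 : ℝ) < |u₁ - u₂| := hδ.trans_le h12
      have hne : ((u₁ : ℂ) - u₂) ≠ 0 := by
        have : u₁ - u₂ ≠ 0 := abs_pos.mp h3
        exact_mod_cast this
      have e1 : a + z • b = ((z - u₂) / (u₁ - u₂)) • (a + (u₁ : ℂ) • b) +
          ((u₁ - z) / (u₁ - u₂)) • (a + (u₂ : ℂ) • b) := by
        have h4 : (z - u₂) / (u₁ - u₂) + (u₁ - z) / ((u₁ : ℂ) - u₂) = 1 := by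
          rw [← add_div]; rw [div_eq_one_iff_eq hne]; ring
        have h5 : (z - u₂) / (u₁ - u₂) * u₁ + (u₁ - z) / ((u₁ : ℂ) - u₂) * u₂ = z := by
          field_simp; ring
        rw [smul_add, smul_add, smul_smul, smul_smul, add_add_add_comm, ← add_smul, ← add_smul,
          h4, h5, one_smul]
      have e2 : ∀ u : ℝ, |u| ≤ L → ‖z - (u : ℂ)‖ ≤ 2 * L' := by
        intro u hu
        refine (norm_sub_le _ _).trans ?_
        rw [Complex.norm_real, Real.norm_eq_abs]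
        linarith
      have e3 : ‖(u₁ : ℂ) - u₂‖ = |u₁ - u₂| := by
        rw [← Complex.ofReal_sub, Complex.norm_real, Real.norm_eq_abs]
      have e4 : ‖a + z • b‖ ≤ 2 * L' / δ * (‖a + (u₁ : ℂ) • b‖ + ‖a + (u₂ : ℂ) • b‖) := by
        rw [e1]
        refine (norm_add_le _ _).trans ?_
        rw [norm_smul, norm_smul, norm_div, norm_div, e3, mul_add]
        refine add_le_add ?_ ?_
        · refine mul_le_mul_of_nonneg_right ?_ (norm_nonneg _)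
          exact div_le_div₀ (by positivity) (e2 u₂ h2) hδ h12
        · refine mul_le_mul_of_nonneg_right ?_ (norm_nonneg _)
          rw [norm_sub_rev]
          exact div_le_div₀ (by positivity) (e2 u₁ h1) hδ h12
      have e5 := pow_le_pow_left₀ (norm_nonneg _) e4 2
      refine e5.trans ?_
      have e6 : (2 * L' / δ * (‖a + (u₁ : ℂ) • b‖ + ‖a + (u₂ : ℂ) • b‖)) ^ 2 =
          4 * L' ^ 2 / δ ^ 2 * (‖a + (u₁ : ℂ) • b‖ + ‖a + (u₂ : ℂ) • b‖) ^ 2 := by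
        ring
      rw [e6]
      have e7 : (‖a + (u₁ : ℂ) • b‖ + ‖a + (u₂ : ℂ) • b‖) ^ 2 ≤
          2 * (‖a + (u₁ : ℂ) • b‖ ^ 2 + ‖a + (u₂ : ℂ) • b‖ ^ 2) := by
        nlinarith [sq_nonneg (‖a + (u₁ : ℂ) • b‖ - ‖a + (u₂ : ℂ) • b‖)]
      calc 4 * L' ^ 2 / δ ^ 2 * (‖a + (u₁ : ℂ) • b‖ + ‖a + (u₂ : ℂ) • b‖) ^ 2
          ≤ 4 * L' ^ 2 / δ ^ 2 * (2 * (‖a + (u₁ : ℂ) • b‖ ^ 2 + ‖a + (u₂ : ℂ) • b‖ ^ 2)) := by
            gcongr
        _ = 8 * L' ^ 2 / δ ^ 2 * (‖a + (u₁ : ℂ) • b‖ ^ 2 + ‖a + (u₂ : ℂ) • b‖ ^ 2) := by ring)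
  have hf : ∀ u : ℝ, ENNReal.ofReal (‖a + (u : ℂ) • b‖ ^ 2) = ‖a + (u : ℂ) • b‖ₑ ^ 2 := fun u => by
    rw [ENNReal.ofReal_pow (norm_nonneg _), ofReal_norm]
  simp only [hf] at h
  rw [ENNReal.ofReal_pow (norm_nonneg _), ofReal_norm] at h
  calc ENNReal.ofReal (m * δ ^ 2 / (16 * L' ^ 2)) * ‖a + z • b‖ₑ ^ 2
      ≤ ENNReal.ofReal (m * δ ^ 2 / (16 * L' ^ 2)) *
          (ENNReal.ofReal (2 * (8 * L' ^ 2 / δ ^ 2) / m) * ∫⁻ u, ‖a + (u : ℂ) • b‖ₑ ^ 2 ∂ν) := by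
        gcongr
    _ = ∫⁻ u, ‖a + (u : ℂ) • b‖ₑ ^ 2 ∂ν := by
        rw [← mul_assoc, ← ENNReal.ofReal_mul (by positivity)]
        have : m * δ ^ 2 / (16 * L' ^ 2) * (2 * (8 * L' ^ 2 / δ ^ 2) / m) = 1 := by
          field_simp
          norm_num
        rw [this, ENNReal.ofReal_one, one_mul]

theorem winLaw_mono {κ κ' : ℝ≥0∞} (h : WinLaw F κ L ν) (hκ : κ' ≤ κ) : WinLaw F κ' L ν :=
  fun a b z hz => (mul_le_mul_of_nonneg_right hκ zero_le).trans (h a b z hz)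

end law

variable {ι : Type*} [Fintype ι] [DecidableEq ι]
variable {F : Type*} [NormedAddCommGroup F] [NormedSpace ℂ F]
variable {A : Matrix ι ι ℝ}

/-- parameters of a regular law -/
structure GP where
  L : ℝ
  δ : ℝ
  m : ℝ
  κ : ℝ
  R : ℝ
  η : ℝ

/-- regular law with given parameters -/
def GLw (ν : Measure ℝ) (ρ : ℝ → ℝ) (g : GP) : Prop := GLaw ν ρ g.L g.δ g.m g.κ g.R g.η

/-- constant of the one-variable event lemma -/
noncomputable def Cev (E : ℝ) (gx gl : GP) : ℝ :=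
  CC (gx.L + |E|) gx.δ gx.m (gl.L + |E|) gl.δ gl.m gl.κ gl.R gl.η

/-- cost of an event with short slices in a direction `l` of the cube -/
theorem event_cost (hA : A.IsSymm) {E L : ℝ} {e : ι → ℝ} (he : ∀ i, 0 < e i)
    (T : (ι → ℂ) →ₗ[ℂ] F) {x l : ι} (hxl : x ≠ l) (hex : e x ≤ 1)
    (ν : ι → Measure ℝ) [∀ i, IsProbabilityMeasure (ν i)] {ρx ρl : ℝ → ℝ} {gx gl : GP}
    (Gx : GLw (ν x) ρx gx) (Gl : GLw (ν l) ρl gl) (hL : gl.L ≤ L)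
    {J : Set (ι → ℝ)} (hJ : MeasurableSet J) {r : ℝ≥0∞}
    (hr : ∀ c : ι → ℝ, volume {t : ℝ | |t| ≤ L ∧ update c l t ∈ J} ≤ r) :
    ∫⁻ v in J, ENNReal.ofReal (Yv A (WV E e v) T x) ∂(Measure.pi ν) ≤
      ENNReal.ofReal (Cev E gx gl) * r *
        ∫⁻ v, ENNReal.ofReal (‖OneVar.GV A (WV E e v) T x‖ ^ 2 +
          ‖OneVar.GV A (WV E e v) T l‖ ^ 2) ∂(Measure.pi ν) := by
  have hm : MeasurableSet {v : ι → ℝ | |v l| ≤ L} :=
    measurableSet_le (measurable_pi_apply l).norm measurable_const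
  have h1 : ∀ᵐ v ∂(Measure.pi ν), v ∈ {v : ι → ℝ | |v l| ≤ L} := by
    have h5 : ∀ᵐ t ∂(ν l), |t| ≤ L := by
      rw [ae_iff]; exact GLaw_supp Gl hL
    exact (Measure.quasiMeasurePreserving_eval (μ := ν) l).ae h5
  have h2 : (J : Set (ι → ℝ)) ≤ᵐ[Measure.pi ν] (J ∩ {v : ι → ℝ | |v l| ≤ L} : Set (ι → ℝ)) := by
    filter_upwards [h1] with v hv hvJ
    exact ⟨hvJ, hv⟩
  refine (lintegral_mono_set' h2).trans ?_
  refine one_var_pi hA ν he T hxl hex Gx Gl (hJ.inter hm) fun c => ?_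
  refine (measure_mono fun t ht => ?_).trans (hr c)
  have h3 : update c l t ∈ J ∩ {v : ι → ℝ | |v l| ≤ L} := ht
  refine ⟨?_, h3.1⟩
  have := h3.2
  simpa using this

/-- **cost of the exceptional events** -/
theorem JP_cost (hA : A.IsSymm) {Q : Finset ι} {E L : ℝ} (hL : 0 < L) {e : ι → ℝ}
    (he : ∀ i, 0 < e i) (x l : Q) (hxl : l ≠ x) (hex : e x ≤ 1) (T : (ι → ℂ) →ₗ[ℂ] F)
    (ν : ι → Measure ℝ) [∀ i, IsProbabilityMeasure (ν i)] {ρ : ι → ℝ → ℝ} {g : ι → GP}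
    (hG : ∀ i ∈ Q, GLw (ν i) (ρ i) (g i)) (hgL : ∀ i ∈ Q, (g i).L ≤ L) {ε : ℝ}
    (h0 : 0 ≤ ε) (h1 : ε ≤ 1 / 2) :
    ∫⁻ v in JP A Q E e L x ε l, ENNReal.ofReal (Yv A (WV E e v) T x) ∂(Measure.pi ν) ≤
      ENNReal.ofReal (Cev E (g x) (g l) * (8 * L * ε)) *
        ∫⁻ v, ENNReal.ofReal (‖OneVar.GV A (WV E e v) T x‖ ^ 2 +
          ‖OneVar.GV A (WV E e v) T l‖ ^ 2) ∂(Measure.pi ν) := by
  have h := event_cost (E := E) (L := L) (J := JP A Q E e L x ε l) hA he T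
    (x := (x : ι)) (l := (l : ι)) (fun h => hxl (Subtype.ext h.symm)) hex ν
    (hG x x.2) (hG l l.2) (hgL l l.2) (measurableSet_JP Q E e L x ε l)
    (volume_section_JP_le Q E e hL.le x h0 h1 l)
  rwa [mul_comm (Cev E (g x) (g l)), ENNReal.ofReal_mul (by positivity),
    mul_comm (ENNReal.ofReal (8 * L * ε))]

section
variable [MeasurableSpace F] [BorelSpace F]

/-- **Crude Harnack inequality for one patch, everything estimated.** -/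
theorem wch_full (hA : A.IsSymm) {Q : Finset ι} {E L : ℝ} (hL : 0 < L) {e : ι → ℝ}
    (he : ∀ i, 0 < e i) (x y : Q) (hxy : x ≠ y) (hex : e x ≤ 1) (T : (ι → ℂ) →ₗ[ℂ] F)
    {c2 : ℝ} (hc2 : 0 < c2) (hcof : CofLe A Q E e L c2 x y) {ε : Q → ℝ} (hε : ∀ l, 0 < ε l)
    (hε1 : ∀ l, ε l ≤ 1 / 2) (ν : ι → Measure ℝ) [∀ i, IsProbabilityMeasure (ν i)]
    {ρ : ι → ℝ → ℝ} {g : ι → GP} (hG : ∀ i ∈ Q, GLw (ν i) (ρ i) (g i))
    (hgL : ∀ i ∈ Q, (g i).L ≤ L) {κ : ℝ} (hκ : 0 < κ)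
    (hκg : ∀ i ∈ Q, κ ≤ (g i).m * (g i).δ ^ 2 / (16 * L ^ 2)) :
    ∫⁻ v, ENNReal.ofReal (Yv A (WV E e v) T x) ∂(Measure.pi ν) ≤
      ∑ l ∈ (Finset.univ : Finset Q).erase x,
        ENNReal.ofReal (Cev E (g x) (g l) * (8 * L * ε l)) *
          ∫⁻ v, ENNReal.ofReal (‖OneVar.GV A (WV E e v) T x‖ ^ 2 +
            ‖OneVar.GV A (WV E e v) T l‖ ^ 2) ∂(Measure.pi ν)
      + ENNReal.ofReal (KT E L (e x) c2 (∏ l, ε l) Q.card / κ ^ Q.card) *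
        ∫⁻ v, ENNReal.ofReal (‖OneVar.GV A (WV E e v) T y‖ ^ 2) ∂(Measure.pi ν) := by
  refine (wch_T hA hL he x y hxy T hc2 hcof hε ((hε1 x).trans (by norm_num)) ν hκ
    (fun i hi => winLaw_mono (winLaw_of_GLaw (hG i hi) (hgL i hi) hL)
      (ENNReal.ofReal_le_ofReal (hκg i hi))) (fun i hi => GLaw_supp (hG i hi) (hgL i hi))).trans ?_
  refine add_le_add (Finset.sum_le_sum fun l hl => ?_) le_rfl
  exact JP_cost hA hL he x l (Finset.mem_erase.mp hl).1 hex T ν hG hgL (hε l).le (hε1 l)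

/-- **Crude Harnack inequality for one patch with a good event, the `J` events estimated.**
`Bd k`, `k ∈ s` : bad exterior events, with short slices in the direction `d k ∉ Q`. -/
theorem wch_full_event (hA : A.IsSymm) {Q : Finset ι} {E L : ℝ} (hL : 0 < L) {e : ι → ℝ}
    (he : ∀ i, 0 < e i) (x y : Q) (hxy : x ≠ y) (hex : e x ≤ 1) (T : (ι → ℂ) →ₗ[ℂ] F)
    {c2 : ℝ} (hc2 : 0 < c2) (hcof : CofLe A Q E e L c2 x y) {ε : Q → ℝ} (hε : ∀ l, 0 < ε l)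
    (hε1 : ∀ l, ε l ≤ 1 / 2) (ν : ι → Measure ℝ) [∀ i, IsProbabilityMeasure (ν i)]
    {ρ : ι → ℝ → ℝ} {g : ι → GP} (hG : ∀ i ∈ Q, GLw (ν i) (ρ i) (g i))
    (hgL : ∀ i ∈ Q, (g i).L ≤ L) {D : ℝ} (hD : ∀ i ∈ Q, (g i).R ≤ D)
    {δ : ℝ} (hδ0 : 0 < δ) (hδ1 : δ ≤ 1 / 2) (hδ : Q.card * (D * (8 * L * δ)) ≤ 1 / 2)
    {G : Set (ι → ℝ)} (hGm : MeasurableSet G) {α : Type*} [DecidableEq α] (s : Finset α)
    (Bd : α → Set (ι → ℝ)) (hBm : ∀ k ∈ s, MeasurableSet (Bd k))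
    (hGB : ∀ v : ι → ℝ, (∀ k ∈ s, v ∉ Bd k) → Bad.cp ν Q Gᶜ v ≤ 1 / 4)
    (d : α → ι) (hdx : ∀ k ∈ s, d k ≠ x) (hGd : ∀ k ∈ s, GLw (ν (d k)) (ρ (d k)) (g (d k)))
    {r : ℝ≥0∞} (hr : ∀ k ∈ s, ∀ c : ι → ℝ, volume {t : ℝ | update c (d k) t ∈ Bd k} ≤ r) :
    ∫⁻ v, ENNReal.ofReal (Yv A (WV E e v) T x) ∂(Measure.pi ν) ≤
      ∑ l ∈ (Finset.univ : Finset Q).erase x,
        ENNReal.ofReal (Cev E (g x) (g l) * (8 * L * ε l)) *
          ∫⁻ v, ENNReal.ofReal (‖OneVar.GV A (WV E e v) T x‖ ^ 2 +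
            ‖OneVar.GV A (WV E e v) T l‖ ^ 2) ∂(Measure.pi ν)
      + ∑ k ∈ s, ENNReal.ofReal (Cev E (g x) (g (d k))) * r *
          ∫⁻ v, ENNReal.ofReal (‖OneVar.GV A (WV E e v) T x‖ ^ 2 +
            ‖OneVar.GV A (WV E e v) T (d k)‖ ^ 2) ∂(Measure.pi ν)
      + ENNReal.ofReal (KE E L (e x) (e y) c2 (∏ l, ε l) δ Q.card) *
        ∫⁻ v in G, ENNReal.ofReal (Yv A (WV E e v) T y) ∂(Measure.pi ν) := by
  have hn : (0 : ℝ) ≤ Q.card := Nat.cast_nonneg _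
  have hδ' : (Q.card : ℝ≥0∞) * (ENNReal.ofReal D * ENNReal.ofReal (8 * L * δ)) ≤ 1 / 2 := by
    have hD0 : 0 ≤ D := (hG x x.2).hR.le.trans (hD x x.2)
    rw [← ENNReal.ofReal_mul hD0, ← ENNReal.ofReal_natCast, ← ENNReal.ofReal_mul hn]
    refine (ENNReal.ofReal_le_ofReal hδ).trans (le_of_eq ?_)
    rw [ENNReal.ofReal_div_of_pos (by norm_num)]; norm_num
  refine (wch_T_event hA hL he x y hxy T hc2 hcof hε ((hε1 x).trans (by norm_num)) ν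
    (D := ENNReal.ofReal D)
    (fun i hi S => (GLaw_le (hG i hi) S).trans
      (mul_le_mul_of_nonneg_right (ENNReal.ofReal_le_ofReal (hD i hi)) zero_le))
    (fun i hi => GLaw_supp (hG i hi) (hgL i hi)) hδ0 hδ1 hδ' hGm s Bd hBm hGB).trans ?_
  refine add_le_add (add_le_add (Finset.sum_le_sum fun l hl => ?_)
    (Finset.sum_le_sum fun k hk => ?_)) le_rfl
  · exact JP_cost hA hL he x l (Finset.mem_erase.mp hl).1 hex T ν hG hgL (hε l).le (hε1 l)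
  · exact one_var_pi hA ν he T (Ne.symm (hdx k hk)) hex (hG x x.2) (hGd k hk) (hBm k hk)
      (hr k hk)

end

end P365T1
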