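import Vale.Agent.P365.T1.Bulk
import Vale.Agent.P365.T1.PatchF

/-!
# P365-T1: two-world crude Harnack inequality, everything estimated
-/

set_option autoImplicit false
set_option linter.all false

open MeasureTheory Finset Function Matrix Complex P365L P365O
open scoped ENNReal

namespace P365T1

open P365T1.MAff P365T1.OneVar P365T1.Bad

variable {ι : Type*} [Fintype ι] [DecidableEq ι]
variable {F : Type*} [NormedAddCommGroup F] [NormedSpace ℂ F]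
variable {A : Matrix ι ι ℝ} {W : ι → ℂ}

/-- **Two worlds, everything estimated.**  `(ν, e)` : first world (all labels of the patch good),
`(ν', e')` : second world (pattern inserted); they agree off the patch `Q` (any finite set). -/
theorem bulk_full [MeasurableSpace F] [BorelSpace F] (hA : A.IsSymm) {Q : Finset ι} {E L lam : ℝ}
    (hL : 0 < L) {e e' : ι → ℝ} (he : ∀ i, 0 < e i) (he' : ∀ i, 0 < e' i)
    (hoff : ∀ i ∉ Q, e i = e' i) (x y : Q) (hxy : x ≠ y) (hex : e x ≤ 1)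
    (T : (ι → ℂ) →ₗ[ℂ] F)
    {c2 : ℝ} (hc2 : 0 < c2) (hcof : CofLe A Q E (fun _ => 0) L c2 x y) {ε : Q → ℝ}
    (hε : ∀ l, 0 < ε l) (hε1 : ∀ l, ε l ≤ 1 / 2)
    (hle : ∀ i ∈ Q, lam ^ 2 + e i ^ 2 ≤ L ^ 2) (hle' : ∀ i ∈ Q, lam ^ 2 + e' i ^ 2 ≤ L ^ 2)
    (ν ν' : ι → Measure ℝ) [∀ i, IsProbabilityMeasure (ν i)] [∀ i, IsProbabilityMeasure (ν' i)]
    (hνoff : ∀ i ∉ Q, ν i = ν' i) {ρ ρ' : ι → ℝ → ℝ} {g g' : ι → GP}
    (hG : ∀ i ∈ Q, GLw (ν i) (ρ i) (g i)) (hG' : ∀ i ∈ Q, GLw (ν' i) (ρ' i) (g' i))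
    (hgL : ∀ i ∈ Q, (g i).L ≤ lam) (hgL' : ∀ i ∈ Q, (g' i).L ≤ lam) {κ : ℝ} (hκ : 0 < κ)
    (hκg : ∀ i ∈ Q, κ ≤ (g' i).m * (g' i).δ ^ 2 / (16 * (2 * L) ^ 2)) :
    ∫⁻ v, ENNReal.ofReal (Yv A (WV E e v) T x) ∂(Measure.pi ν) ≤
      ∑ l ∈ (Finset.univ : Finset Q).erase x,
        ENNReal.ofReal (Cev E (g x) (g l) * (8 * L * ε l)) *
          ∫⁻ v, ENNReal.ofReal (‖OneVar.GV A (WV E e v) T x‖ ^ 2 +
            ‖OneVar.GV A (WV E e v) T l‖ ^ 2) ∂(Measure.pi ν)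
      + ENNReal.ofReal (KB E L (e x) c2 (∏ l, ε l) Q.card / κ ^ Q.card) *
        ∫⁻ v, ENNReal.ofReal (‖OneVar.GV A (WV E e' v) T y‖ ^ 2) ∂(Measure.pi ν') := by
  have hlamL : lam ≤ L := by
    have h1 := hle x x.2
    have h2 := (hgL x x.2)
    have h3 : 0 ≤ (g x).L := (hG x x.2).hL
    nlinarith [sq_nonneg (e x)]
  refine (bulk_T hA hL he he' hoff x y hxy T hc2 hcof hε ((hε1 x).trans (by norm_num)) hle hle'
    ν ν' hνoff hκ
    (fun i hi => winLaw_mono (winLaw_of_GLaw (L' := 2 * L) (hG' i hi)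
      (by linarith [hgL' i hi]) (by linarith)) (ENNReal.ofReal_le_ofReal (hκg i hi)))
    (fun i hi => GLaw_supp (hG i hi) (hgL i hi))
    (fun i hi => GLaw_supp (hG' i hi) (hgL' i hi))).trans ?_
  refine add_le_add (Finset.sum_le_sum fun l hl => ?_) le_rfl
  exact JP_cost hA hL he x l (Finset.mem_erase.mp hl).1 hex T ν hG
    (fun i hi => (hgL i hi).trans hlamL) (hε l).le (hε1 l)

end P365T1
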