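import Vale.Agent.P365.T1.Defs
import Vale.Agent.P365.SH.Box

/-!
# P365-T1: boxes of `ℤ²` inside the torus, block coordinates
-/

set_option linter.all false

namespace P365T1.Conc

open P365L P365SH Vale.Agent.P365.C937

variable {N : ℕ} [NeZero N]

/-- the site of the torus at the position `z` of a box whose site `o` is put at `x` -/
def tb (N : ℕ) (x : Tor N) (o z : ℤ × ℤ) : Tor N :=
  (x.1 + ((z.1 - o.1 : ℤ) : ZMod N), x.2 + ((z.2 - o.2 : ℤ) : ZMod N))

omit [NeZero N] in
theorem tb_self (x : Tor N) (o : ℤ × ℤ) : tb N x o o = x := by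
  simp [tb]

omit [NeZero N] in
/-- small integers are determined by their class -/
theorem int_eq_of_cast {a b : ℤ} (h : ((a : ℤ) : ZMod N) = (b : ZMod N)) (hab : |a - b| < N) :
    a = b := by
  have h1 : ((a - b : ℤ) : ZMod N) = 0 := by
    push_cast
    rw [h, sub_self]
  rw [ZMod.intCast_zmod_eq_zero_iff_dvd] at h1
  have := Int.eq_zero_of_abs_lt_dvd h1 hab
  omega

omit [NeZero N] in
theorem tb_sub (x : Tor N) (o z z' : ℤ × ℤ) :
    tb N x o z' - tb N x o z = (((z'.1 - z.1 : ℤ) : ZMod N), ((z'.2 - z.2 : ℤ) : ZMod N)) := by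
  unfold tb
  ext
  · simp only [Prod.fst_sub]
    push_cast
    ring
  · simp only [Prod.snd_sub]
    push_cast
    ring

omit [NeZero N] in
theorem tb_inj {x : Tor N} {o z z' : ℤ × ℤ} (h : tb N x o z = tb N x o z')
    (h1 : |z.1 - z'.1| < N) (h2 : |z.2 - z'.2| < N) : z = z' := by
  have h3 := tb_sub x o z' z
  rw [h, sub_self] at h3
  have h4 := congrArg Prod.fst h3
  have h5 := congrArg Prod.snd h3
  simp only [Prod.fst_zero, Prod.snd_zero] at h4 h5
  ext
  · refine int_eq_of_cast (N := N) ?_ h1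
    push_cast at h4
    exact (sub_eq_zero.1 h4.symm)
  · refine int_eq_of_cast (N := N) ?_ h2
    push_cast at h5
    exact (sub_eq_zero.1 h5.symm)

omit [NeZero N] in
/-- adjacency is preserved by small boxes -/
theorem AT_tb (x : Tor N) (o z z' : ℤ × ℤ) (h1 : |z'.1 - z.1| + 1 < N)
    (h2 : |z'.2 - z.2| + 1 < N) : AT N (tb N x o z) (tb N x o z') = adjw z z' := by
  unfold AT adjw
  rw [tb_sub]
  have key : ((((z'.1 - z.1 : ℤ) : ZMod N), ((z'.2 - z.2 : ℤ) : ZMod N)) ∈ nbs N) ↔
      (z.1 - z'.1).natAbs + (z.2 - z'.2).natAbs = 1 := by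
    have hN : (1 : ℤ) < N := by
      have := abs_nonneg (z'.1 - z.1)
      omega
    simp only [nbs, Finset.mem_insert, Finset.mem_singleton, Prod.mk.injEq]
    have c1 : ∀ k : ℤ, |k| + 1 < N → ((k : ZMod N) = 1 ↔ k = 1) := by
      intro k hk
      constructor
      · intro h
        refine int_eq_of_cast (N := N) (by simpa using h) ?_
        calc |k - 1| ≤ |k| + |1| := abs_sub _ _
          _ < N := by simpa using hk
      · rintro rfl
        simp
    have c2 : ∀ k : ℤ, |k| + 1 < N → ((k : ZMod N) = -1 ↔ k = -1) := by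
      intro k hk
      constructor
      · intro h
        refine int_eq_of_cast (N := N) (by simpa using h) ?_
        calc |k - -1| ≤ |k| + |-1| := abs_sub _ _
          _ < N := by simpa using hk
      · rintro rfl
        simp
    have c0 : ∀ k : ℤ, |k| + 1 < N → ((k : ZMod N) = 0 ↔ k = 0) := by
      intro k hk
      constructor
      · intro h
        refine int_eq_of_cast (N := N) (by simpa using h) ?_
        simp only [sub_zero]
        omega
      · rintro rfl
        simp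
    rw [c1 _ h1, c1 _ h2, c2 _ h1, c2 _ h2, c0 _ h1, c0 _ h2]
    omega
  by_cases h : (z.1 - z'.1).natAbs + (z.2 - z'.2).natAbs = 1
  · rw [if_pos h, if_pos (key.2 h)]
  · rw [if_neg h, if_neg fun hc => h (key.1 hc)]

omit [NeZero N] in
/-- neighbours of a box site are box sites -/
theorem exists_of_AT_ne {x : Tor N} {o z : ℤ × ℤ} {u : Tor N} (h : AT N (tb N x o z) u ≠ 0) :
    ∃ z' : ℤ × ℤ, (z'.1 - z.1).natAbs + (z'.2 - z.2).natAbs = 1 ∧ u = tb N x o z' := by
  have h1 : u - tb N x o z ∈ nbs N := by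
    by_contra hc
    exact h (by simp [AT, hc])
  have h2 : u = tb N x o z + (u - tb N x o z) := by abel
  simp only [nbs, Finset.mem_insert, Finset.mem_singleton] at h1
  rcases h1 with h1 | h1 | h1 | h1
  · refine ⟨(z.1 + 1, z.2), by simp, ?_⟩
    rw [h2, h1]
    ext <;> simp [tb]
    ring
  · refine ⟨(z.1 - 1, z.2), by simp, ?_⟩
    rw [h2, h1]
    ext <;> simp [tb]
    ring
  · refine ⟨(z.1, z.2 + 1), by simp, ?_⟩
    rw [h2, h1]
    ext <;> simp [tb]
    ring
  · refine ⟨(z.1, z.2 - 1), by simp, ?_⟩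
    rw [h2, h1]
    ext <;> simp [tb]
    ring

/-! ### block coordinates -/

/-- moving inside a block -/
theorem val_add_block {m : ℕ} (hm : 0 < m) (hmN : m ∣ N) (x : ZMod N) (j : ℤ)
    (h0 : 0 ≤ ((x.val % m : ℕ) : ℤ) + j) (h1 : ((x.val % m : ℕ) : ℤ) + j < m) :
    (x + (j : ZMod N)).val / m = x.val / m ∧
      (((x + (j : ZMod N)).val % m : ℕ) : ℤ) = ((x.val % m : ℕ) : ℤ) + j := by
  obtain ⟨M, rfl⟩ := hmN
  have hv : x.val < m * M := ZMod.val_lt x
  have hq : x.val / m < M := Nat.div_lt_of_lt_mul hv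
  have hd := Nat.div_add_mod x.val m
  generalize hqd : x.val / m = q at *
  generalize hsd : x.val % m = s at *
  obtain ⟨u, hu⟩ := Int.eq_ofNat_of_zero_le h0
  have hum : u < m := by
    rw [hu] at h1
    exact_mod_cast h1
  have hlt : m * q + u < m * M := by
    calc m * q + u < m * q + m := by omega
      _ = m * (q + 1) := by ring
      _ ≤ m * M := Nat.mul_le_mul_left m hq
  have hval : (x + (j : ZMod (m * M))).val = m * q + u := by
    have e1 : x + (j : ZMod (m * M)) = ((m * q + u : ℕ) : ZMod (m * M)) := by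
      have e2 : x = ((x.val : ℕ) : ZMod (m * M)) := (ZMod.natCast_zmod_val x).symm
      have e3 : (j : ZMod (m * M)) = (((u : ℤ) - s : ℤ) : ZMod (m * M)) := by
        congr 1
        omega
      rw [e2, ← hd, e3]
      push_cast
      ring
    rw [e1, ZMod.val_natCast, Nat.mod_eq_of_lt hlt]
  rw [hval, Nat.mul_add_div hm, Nat.div_eq_of_lt hum, Nat.mul_add_mod, Nat.mod_eq_of_lt hum, hu]
  simp

/-- **block coordinates of the sites of a box** -/
theorem bi_lc_tb {m : ℕ} (hm : 0 < m) (hmN : m ∣ N) {x : Tor N} {o z : ℤ × ℤ}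
    (h1 : 0 ≤ ((lc m x).1 : ℤ) + (z.1 - o.1)) (h2 : ((lc m x).1 : ℤ) + (z.1 - o.1) < m)
    (h3 : 0 ≤ ((lc m x).2 : ℤ) + (z.2 - o.2)) (h4 : ((lc m x).2 : ℤ) + (z.2 - o.2) < m) :
    bi m (tb N x o z) = bi m x ∧
      ((lc m (tb N x o z)).1 : ℤ) = ((lc m x).1 : ℤ) + (z.1 - o.1) ∧
      ((lc m (tb N x o z)).2 : ℤ) = ((lc m x).2 : ℤ) + (z.2 - o.2) := by
  have a := val_add_block hm hmN x.1 (z.1 - o.1) h1 h2
  have b := val_add_block hm hmN x.2 (z.2 - o.2) h3 h4
  refine ⟨?_, a.2, b.2⟩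
  unfold bi tb
  exact Prod.ext a.1 b.1

end P365T1.Conc
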