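import Vale.Agent.P365.J376.V3
import Vale.Agent.P365.T1.TorBox394

/-!
# P365-T1: the concrete chain (labels, patterns, V3 datum)
-/

set_option linter.all false

namespace P365T1.Conc

open P365L P365SH Vale.Agent.P365.C937 Vale.Agent.P365.J376 MeasureTheory

/-- combinatorial parameters of the chain -/
structure Par where
  /-- last family -/
  I : ℕ
  /-- radii of the cells -/
  r : ℕ → ℕ
  /-- positions of the centres in the cell boxes -/
  yo : ℕ → ℤ × ℤ

/-- window sites -/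
abbrev Par.Wn (P : Par) : Type :=
  Σ i : Fin (P.I + 1), ((Xr (P.r i)).erase (P.yo i) : Finset (ℤ × ℤ))

noncomputable instance (P : Par) : DecidableEq P.Wn := Classical.decEq _

/-- labels: `none` = good, `some none` = rest, marks, windows -/
abbrev Par.Lb (P : Par) : Type := Option (Option (Fin (P.I + 1) ⊕ P.Wn))

variable (P : Par)

/-- the mark of family `i` -/
def Par.mark (i : Fin (P.I + 1)) : P.Lb := some (some (Sum.inl i))

/-- the window labels -/
def Par.win (w : P.Wn) : P.Lb := some (some (Sum.inr w))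

/-- labels with the smooth law -/
def Par.mov (k : P.Lb) : Prop := k = none ∨ ∃ i, k = P.mark i

/-- position in the cell box of the site with local coordinates `a` in a block of side `8 r` -/
def locZ (r : ℕ) (a : Loc) : ℤ × ℤ := ((a.1 : ℤ) - 4 * r, (a.2 : ℤ) - 4 * r)

/-- patterns -/
noncomputable def Par.pat (i : ℕ) (a : Loc) : P.Lb :=
  if h : i < P.I + 1 then
    (if h2 : locZ (P.r i) a ∈ (Xr (P.r i)).erase (P.yo i) then P.win ⟨⟨i, h⟩, ⟨_, h2⟩⟩
      else P.mark ⟨i, h⟩)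
  else some none

/-- local coordinates of the centres -/
def Par.y (i : ℕ) : Loc :=
  ((4 * (P.r i : ℤ) + (P.yo i).1).toNat, (4 * (P.r i : ℤ) + (P.yo i).2).toNat)

/-- well-formed parameters -/
structure Par.Ok (P : Par) : Prop where
  r_pos : ∀ i, 0 < P.r i
  yo_mem : ∀ i, P.yo i ∈ Xr (P.r i)

variable {P}

theorem pat_ne_none (i : ℕ) (a : Loc) : P.pat i a ≠ none := by
  unfold Par.pat Par.win Par.mark
  split_ifs <;> simp

theorem pat_of_mem {i : ℕ} (hi : i < P.I + 1) {a : Loc}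
    (h : locZ (P.r i) a ∈ (Xr (P.r i)).erase (P.yo i)) :
    P.pat i a = P.win ⟨⟨i, hi⟩, ⟨_, h⟩⟩ := by
  unfold Par.pat
  rw [dif_pos hi, dif_pos h]

theorem pat_of_not_mem {i : ℕ} (hi : i < P.I + 1) {a : Loc}
    (h : locZ (P.r i) a ∉ (Xr (P.r i)).erase (P.yo i)) :
    P.pat i a = P.mark ⟨i, hi⟩ := by
  unfold Par.pat
  rw [dif_pos hi, dif_neg h]

/-- **MARKS**: the patterns of different families have no label in common -/
theorem pat_ne_pat {i j : ℕ} (hi : i ≤ P.I) (hij : i ≠ j) (a a' : Loc) :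
    P.pat i a ≠ P.pat j a' := by
  have hi' : i < P.I + 1 := by omega
  unfold Par.pat Par.win Par.mark
  rw [dif_pos hi']
  by_cases hj : j < P.I + 1
  · rw [dif_pos hj]
    split_ifs with h1 h2 h2
    · intro h
      simp only [Option.some.injEq, Sum.inr.injEq] at h
      have := congrArg (fun w : P.Wn => (w.1 : ℕ)) h
      exact hij this
    · simp
    · simp
    · intro h
      simp only [Option.some.injEq, Sum.inl.injEq, Fin.mk.injEq] at h
      exact hij h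
  · rw [dif_neg hj]
    split_ifs <;> simp

theorem locZ_y (h : P.Ok) (i : ℕ) : locZ (P.r i) (P.y i) = P.yo i := by
  have h1 := h.r_pos i
  have h2 := mem_Xr.1 (h.yo_mem i)
  unfold locZ Par.y
  ext <;> simp only <;> omega

theorem pat_y (h : P.Ok) {i : ℕ} (hi : i < P.I + 1) : P.pat i (P.y i) = P.mark ⟨i, hi⟩ := by
  refine pat_of_not_mem hi ?_
  rw [locZ_y h]
  simp

theorem y_lt (h : P.Ok) (i : ℕ) : (P.y i).1 < 8 * P.r i ∧ (P.y i).2 < 8 * P.r i := by
  have h1 := h.r_pos i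
  have h2 := mem_Xr.1 (h.yo_mem i)
  unfold Par.y
  constructor <;> simp only <;> omega

/-- analytic parameters of the chain -/
structure APar (P : Par) where
  a : ℕ → ℝ
  e0 : ℕ → ℝ
  t : ℕ → ℝ
  b : ℝ
  p : P.Lb → ℝ
  ν : P.Lb → Measure ℝ

/-- **the concrete chain** -/
noncomputable def mk (P : Par) (Q : APar P) : V3 where
  Λ := P.Lb
  fin := inferInstance
  dec := inferInstance
  good := none
  mov := P.mov
  I := P.I
  m := fun i => 8 * P.r i
  pat := P.pat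
  y := P.y
  a := Q.a
  e0 := Q.e0
  t := Q.t
  b := Q.b
  p := Q.p
  ν := Q.ν

section tor

variable {N : ℕ} [NeZero N]

/-- local coordinates of the box sites around a centre -/
theorem bi_lc_cen (h : P.Ok) {i : ℕ} {x : Tor N} (hN : 8 * P.r i ∣ N)
    (hx : lc (8 * P.r i) x = P.y i) {z : ℤ × ℤ} (h1 : -(4 * (P.r i : ℤ)) ≤ z.1)
    (h2 : z.1 < 4 * P.r i) (h3 : -(4 * (P.r i : ℤ)) ≤ z.2) (h4 : z.2 < 4 * P.r i) :
    bi (8 * P.r i) (tb N x (P.yo i) z) = bi (8 * P.r i) x ∧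
      locZ (P.r i) (lc (8 * P.r i) (tb N x (P.yo i) z)) = z := by
  have hr := h.r_pos i
  have hy := mem_Xr.1 (h.yo_mem i)
  have e1 : ((lc (8 * P.r i) x).1 : ℤ) = 4 * P.r i + (P.yo i).1 := by
    rw [hx]
    unfold Par.y
    simp only
    omega
  have e2 : ((lc (8 * P.r i) x).2 : ℤ) = 4 * P.r i + (P.yo i).2 := by
    rw [hx]
    unfold Par.y
    simp only
    omega
  obtain ⟨k1, k2, k3⟩ := bi_lc_tb (m := 8 * P.r i) (by omega) hN (x := x) (o := P.yo i) (z := z)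
    (by rw [e1]; linarith) (by rw [e1]; push_cast; linarith) (by rw [e2]; linarith)
    (by rw [e2]; push_cast; linarith)
  refine ⟨k1, ?_⟩
  unfold locZ
  rw [k2, k3, e1, e2]
  ext <;> simp only <;> ring

variable {Q : APar P}

/-- labels of the block around a matched centre -/
theorem label_of_cen (h : P.Ok) {i : ℕ} (hi : i < P.I + 1) (hN : 8 * P.r i ∣ N)
    {l : Tor N → (mk P Q).Λ} {x : Tor N} (hc : (mk P Q).cen i l x) {z : ℤ × ℤ}
    (h1 : -(4 * (P.r i : ℤ)) ≤ z.1) (h2 : z.1 < 4 * P.r i) (h3 : -(4 * (P.r i : ℤ)) ≤ z.2)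
    (h4 : z.2 < 4 * P.r i) :
    l (tb N x (P.yo i) z) = P.pat i (lc (8 * P.r i) (tb N x (P.yo i) z)) :=
  hc.1 _ (bi_lc_cen h hN hc.2 h1 h2 h3 h4).1

/-- **window labels** -/
theorem label_win (h : P.Ok) {i : ℕ} (hi : i < P.I + 1) (hN : 8 * P.r i ∣ N)
    {l : Tor N → (mk P Q).Λ} {x : Tor N} (hc : (mk P Q).cen i l x) {z : ℤ × ℤ}
    (hz : z ∈ (Xr (P.r i)).erase (P.yo i)) :
    l (tb N x (P.yo i) z) = P.win ⟨⟨i, hi⟩, ⟨z, hz⟩⟩ := by
  have hr := h.r_pos i
  have hzX := mem_Xr.1 (Finset.mem_of_mem_erase hz)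
  have b1 : -(4 * (P.r i : ℤ)) ≤ z.1 := by omega
  have b2 : z.1 < 4 * P.r i := by omega
  have b3 : -(4 * (P.r i : ℤ)) ≤ z.2 := by omega
  have b4 : z.2 < 4 * P.r i := by omega
  rw [label_of_cen h hi hN hc b1 b2 b3 b4]
  have e := (bi_lc_cen h hN hc.2 b1 b2 b3 b4).2
  have hz' : locZ (P.r i) (lc (8 * P.r i) (tb N x (P.yo i) z)) ∈ (Xr (P.r i)).erase (P.yo i) := by
    rw [e]; exact hz
  rw [pat_of_mem hi hz']
  congr 3

/-- **mark labels** -/
theorem label_mark (h : P.Ok) {i : ℕ} (hi : i < P.I + 1) (hN : 8 * P.r i ∣ N)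
    {l : Tor N → (mk P Q).Λ} {x : Tor N} (hc : (mk P Q).cen i l x) {z : ℤ × ℤ}
    (hz : z ∉ (Xr (P.r i)).erase (P.yo i)) (h1 : -(4 * (P.r i : ℤ)) ≤ z.1)
    (h2 : z.1 < 4 * P.r i) (h3 : -(4 * (P.r i : ℤ)) ≤ z.2) (h4 : z.2 < 4 * P.r i) :
    l (tb N x (P.yo i) z) = P.mark ⟨i, hi⟩ := by
  rw [label_of_cen h hi hN hc h1 h2 h3 h4]
  have e := (bi_lc_cen h hN hc.2 h1 h2 h3 h4).2
  refine pat_of_not_mem hi ?_
  rw [e]
  exact hz

end tor

end P365T1.Conc
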