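import Vale.Agent.P365.T1.Conc394
import Vale.Agent.P365.ISL.Geo77

/-!
# P365-T1: the cells of the concrete chain (instance of `CellIn`)
-/

set_option linter.all false

namespace P365T1.Conc

open P365L P365SH Vale.Agent.P365.C937 Vale.Agent.P365.J376 MeasureTheory P365T1.Link

variable {P : Par} {Q : APar P}

theorem locZ_loc {r : ℕ} (hr : 0 < r) {a : ℤ × ℤ} (ha : a ∈ Xr (r + 1)) :
    locZ r (loc (4 * r, 4 * r) a) = a := by
  rw [mem_Xr] at ha
  push_cast at ha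
  unfold locZ loc
  ext <;> simp only <;> push_cast <;> omega

theorem not_mov_win (w : P.Wn) : ¬ P.mov (P.win w) := by
  rintro (h | ⟨j, h⟩)
  · simp [Par.win] at h
  · simp [Par.win, Par.mark] at h

theorem mov_mark (i : Fin (P.I + 1)) : P.mov (P.mark i) := Or.inr ⟨i, rfl⟩

theorem mov_none : P.mov none := Or.inl rfl

theorem not_mov_rest : ¬ P.mov (some none) := by
  rintro (h | ⟨j, h⟩)
  · simp at h
  · simp [Par.mark] at h

/-- labels in the cell box -/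
theorem pat_loc_win {i : ℕ} (hi : i < P.I + 1) (hr : 0 < P.r i) {a : ℤ × ℤ}
    (ha : a ∈ (Xr (P.r i)).erase (P.yo i)) :
    P.pat i (loc (4 * P.r i, 4 * P.r i) a) = P.win ⟨⟨i, hi⟩, ⟨a, ha⟩⟩ := by
  have haX : a ∈ Xr (P.r i + 1) := Xr_mono (Nat.le_succ _) (Finset.mem_of_mem_erase ha)
  have e := locZ_loc hr haX
  have h : locZ (P.r i) (loc (4 * P.r i, 4 * P.r i) a) ∈ (Xr (P.r i)).erase (P.yo i) := by
    rw [e]; exact ha
  rw [pat_of_mem hi h]
  congr 3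

theorem pat_loc_mark {i : ℕ} (hi : i < P.I + 1) (hr : 0 < P.r i) {a : ℤ × ℤ}
    (haX : a ∈ Xr (P.r i + 1)) (ha : a ∉ (Xr (P.r i)).erase (P.yo i)) :
    P.pat i (loc (4 * P.r i, 4 * P.r i) a) = P.mark ⟨i, hi⟩ := by
  have e := locZ_loc hr haX
  refine pat_of_not_mem hi ?_
  rw [e]
  exact ha

/-- **the cells of the concrete chain** -/
theorem cellIn (h : P.Ok) {i : ℕ} (hi : i ≤ P.I) (hy1 : |(P.yo i).1| < P.r i)
    (hy2 : |(P.yo i).2| < P.r i) {Vs : ℤ × ℤ → ℝ} {w : ℝ}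
    (hwin : ∀ (a : ℤ × ℤ) (ha : a ∈ (Xr (P.r i)).erase (P.yo i)),
      ∀ᵐ t ∂(Q.ν (P.win ⟨⟨i, Nat.lt_succ_of_le hi⟩, ⟨a, ha⟩⟩)), |t - Vs a| ≤ w) :
    CellIn (mk P Q) i (P.r i) (4 * P.r i, 4 * P.r i) (P.yo i) Vs w where
  c1 := by have := h.r_pos i; simp only; omega
  c1' := by
    have := h.r_pos i
    show 4 * P.r i + P.r i + 1 < 8 * P.r i
    omega
  c2 := by have := h.r_pos i; simp only; omega
  c2' := by
    have := h.r_pos i
    show 4 * P.r i + P.r i + 1 < 8 * P.r i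
    omega
  y1 := hy1
  y2 := hy2
  y_eq := by
    show P.y i = loc (4 * P.r i, 4 * P.r i) (P.yo i)
    unfold Par.y loc
    push_cast
    rfl
  win_mov := by
    intro a ha hay
    show ¬ P.mov (P.pat i (loc (4 * P.r i, 4 * P.r i) a))
    rw [pat_loc_win (Nat.lt_succ_of_le hi) (h.r_pos i) (Finset.mem_erase.2 ⟨hay, ha⟩)]
    exact not_mov_win _
  win := by
    intro a ha hay
    show ∀ᵐ t ∂(Q.ν (P.pat i (loc (4 * P.r i, 4 * P.r i) a))), |t - Vs a| ≤ w
    rw [pat_loc_win (Nat.lt_succ_of_le hi) (h.r_pos i) (Finset.mem_erase.2 ⟨hay, ha⟩)]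
    exact hwin a _
  port := by
    intro a ha har
    show P.mov (P.pat i (loc (4 * P.r i, 4 * P.r i) a))
    rw [pat_loc_mark (Nat.lt_succ_of_le hi) (h.r_pos i) ha
      (fun hh => har (Finset.mem_of_mem_erase hh))]
    exact mov_mark _

end P365T1.Conc
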