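import Mathlib.Analysis.SpecialFunctions.Pow.Asymptotics
import Mathlib.Analysis.SpecialFunctions.Exp
import Mathlib.Analysis.SpecialFunctions.Log.Basic
import Mathlib.Analysis.SpecificLimits.Basic
import Mathlib.Analysis.Complex.ExponentialBounds

/-!
# P365-T1, block E5: the sequences of the chain (closed formulas) and their inequalities.

`r i = rs ^ (4 ^ i)`, block sides `8 * r i`, `e0 i = exp (-r i)`, `a i = (r i)^5`,
`t i = e0 i * exp (-a i) / 33` for `i ≤ I`, `b = (1/2)^(2 * (r (I+1))^5)`, `t (I+1) = b / 33`.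
-/

set_option linter.all false

namespace P365T1.Seq

open Real Filter Topology

/-- radii -/
def rr (rs i : ℕ) : ℕ := rs ^ (4 ^ i)

theorem rr_zero (rs : ℕ) : rr rs 0 = rs := by simp [rr]

theorem rr_succ (rs i : ℕ) : rr rs (i + 1) = rr rs i ^ 4 := by
  rw [rr, rr, ← pow_mul, pow_succ]

theorem rr_succ_cast (rs i : ℕ) : (rr rs (i + 1) : ℝ) = (rr rs i : ℝ) ^ 4 := by
  rw [rr_succ]
  push_cast
  ring

theorem one_le_rr {rs : ℕ} (h : 1 ≤ rs) (i : ℕ) : 1 ≤ rr rs i := Nat.one_le_pow _ _ h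

theorem rr_mono {rs : ℕ} (h : 1 ≤ rs) {i j : ℕ} (hij : i ≤ j) : rr rs i ≤ rr rs j :=
  Nat.pow_le_pow_right h (Nat.pow_le_pow_right (by norm_num) hij)

theorem le_rr {rs : ℕ} (h : 1 ≤ rs) (i : ℕ) : rs ≤ rr rs i := by
  have := rr_mono h (Nat.zero_le i)
  rwa [rr_zero] at this

theorem rr_dvd (rs : ℕ) {i j : ℕ} (hij : i ≤ j) : rr rs i ∣ rr rs j :=
  pow_dvd_pow _ (Nat.pow_le_pow_right (by norm_num) hij)

theorem succ_le_four_pow (i : ℕ) : i + 1 ≤ 4 ^ i := by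
  induction i with
  | zero => simp
  | succ i ih =>
    rw [pow_succ]
    omega

theorem two_pow_le_rr {rs : ℕ} (h : 2 ≤ rs) (i : ℕ) : 2 ^ (i + 1) ≤ rr rs i :=
  calc 2 ^ (i + 1) ≤ 2 ^ (4 ^ i) := Nat.pow_le_pow_right (by norm_num) (succ_le_four_pow i)
    _ ≤ rs ^ (4 ^ i) := Nat.pow_le_pow_left h _

theorem lt_rr {rs : ℕ} (h : 2 ≤ rs) (i : ℕ) : i < rr rs i := by
  have h1 := two_pow_le_rr h i
  have h2 : i + 1 < 2 ^ (i + 1) := Nat.lt_two_pow_self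
  omega

/-- block sides -/
def mS (rs i : ℕ) : ℕ := 8 * rr rs i

theorem mS_dvd (rs : ℕ) {i j : ℕ} (hij : i ≤ j) : mS rs i ∣ mS rs j :=
  Nat.mul_dvd_mul_left 8 (rr_dvd rs hij)

theorem mS_pos {rs : ℕ} (h : 1 ≤ rs) (i : ℕ) : 0 < mS rs i := by
  have := one_le_rr h i
  unfold mS
  omega

/-- diameter of the long clusters -/
def kS (rs i : ℕ) : ℕ := rr rs i / 2

/-- strengths -/
noncomputable def e0S (rs i : ℕ) : ℝ := Real.exp (-(rr rs i : ℝ))

/-- exponents of the bulk weights -/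
def aS (rs i : ℕ) : ℝ := (rr rs i : ℝ) ^ 5

/-- number of halvings of the background -/
def nS (rs I : ℕ) : ℕ := 2 * rr rs (I + 1) ^ 5

/-- background -/
noncomputable def bS (rs I : ℕ) : ℝ := (1 / 2) ^ nS rs I

/-- final factors of the stages -/
noncomputable def tS (rs I i : ℕ) : ℝ :=
  if i = I + 1 then bS rs I / 33 else e0S rs i * Real.exp (-(aS rs i)) / 33

theorem e0S_pos (rs i : ℕ) : 0 < e0S rs i := Real.exp_pos _

theorem e0S_le_one (rs i : ℕ) : e0S rs i ≤ 1 :=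
  Real.exp_le_one_iff.2 (by have : (0 : ℝ) ≤ rr rs i := Nat.cast_nonneg _; linarith)

theorem aS_nonneg (rs i : ℕ) : 0 ≤ aS rs i := by unfold aS; positivity

theorem bS_pos (rs I : ℕ) : 0 < bS rs I := by unfold bS; positivity

theorem bS_le_one (rs I : ℕ) : bS rs I ≤ 1 := by
  unfold bS
  exact pow_le_one₀ (by norm_num) (by norm_num)

theorem tS_of_le {rs I i : ℕ} (hi : i ≤ I) :
    tS rs I i = e0S rs i * Real.exp (-(aS rs i)) / 33 := by
  unfold tS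
  rw [if_neg (by omega)]

theorem tS_last (rs I : ℕ) : tS rs I (I + 1) = bS rs I / 33 := by
  unfold tS
  rw [if_pos rfl]

theorem tS_pos (rs I i : ℕ) : 0 < tS rs I i := by
  unfold tS
  have h1 := bS_pos rs I
  have h2 := e0S_pos rs i
  split_ifs <;> positivity

theorem tS_le_one (rs I i : ℕ) : tS rs I i ≤ 1 := by
  unfold tS
  have h1 := bS_le_one rs I
  have h2 := e0S_le_one rs i
  have h2' := e0S_pos rs i
  have h3 : Real.exp (-(aS rs i)) ≤ 1 := Real.exp_le_one_iff.2 (by linarith [aS_nonneg rs i])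
  have h3' := Real.exp_pos (-(aS rs i))
  split_ifs
  · linarith
  · have : e0S rs i * Real.exp (-(aS rs i)) ≤ 1 * 1 :=
      mul_le_mul h2 h3 h3'.le zero_le_one
    linarith

theorem tS_small {rs I i : ℕ} (hi : i ≤ I) :
    tS rs I i * 33 ≤ e0S rs i * Real.exp (-(aS rs i)) := by
  rw [tS_of_le hi]
  linarith

theorem tS_last_le (rs I : ℕ) : tS rs I (I + 1) * 33 ≤ bS rs I := by
  rw [tS_last]
  linarith

/-! ### logarithmic times -/

theorem log_33_le : Real.log 33 ≤ 4 := by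
  rw [Real.log_le_iff_le_exp (by norm_num)]
  have h1 : (2.7182818283 : ℝ) < Real.exp 1 := Real.exp_one_gt_d9
  have h2 : Real.exp 4 = Real.exp 1 ^ 4 := by
    rw [← Real.exp_nat_mul]
    norm_num
  rw [h2]
  have h3 : (2.7 : ℝ) ^ 4 ≤ Real.exp 1 ^ 4 := pow_le_pow_left₀ (by norm_num) (by linarith) 4
  refine le_trans ?_ h3
  norm_num

theorem log_inv_t_of_le {rs I i : ℕ} (hi : i ≤ I) :
    Real.log (1 / tS rs I i) ≤ 4 + (rr rs i : ℝ) + (rr rs i : ℝ) ^ 5 := by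
  rw [tS_of_le hi, one_div, Real.log_inv, Real.log_div
    (mul_pos (e0S_pos rs i) (Real.exp_pos _)).ne' (by norm_num),
    Real.log_mul (e0S_pos rs i).ne' (Real.exp_pos _).ne', Real.log_exp, e0S, Real.log_exp, aS]
  have := log_33_le
  linarith

theorem log_inv_t_last (rs I : ℕ) :
    Real.log (1 / tS rs I (I + 1)) ≤ 4 + 1.4 * (rr rs (I + 1) : ℝ) ^ 5 := by
  rw [tS_last, one_div, Real.log_inv, Real.log_div (bS_pos rs I).ne' (by norm_num), bS,
    Real.log_pow, one_div, Real.log_inv, nS]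
  push_cast
  have h1 := log_33_le
  have h2 : Real.log 2 ≤ 0.7 := by
    have := Real.log_two_lt_d9
    linarith
  have h3 : (0 : ℝ) ≤ (rr rs (I + 1) : ℝ) ^ 5 := by positivity
  have h4 : 2 * (rr rs (I + 1) : ℝ) ^ 5 * Real.log 2 ≤ 2 * (rr rs (I + 1) : ℝ) ^ 5 * 0.7 :=
    mul_le_mul_of_nonneg_left h2 (by positivity)
  linarith

theorem two_le_cast_rr {rs : ℕ} (h : 2 ≤ rs) (i : ℕ) : (2 : ℝ) ≤ rr rs i := by
  have h1 : 2 ≤ rr rs i := h.trans (le_rr (by omega) i)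
  exact_mod_cast h1

theorem pow20 {rs : ℕ} (i : ℕ) : (rr rs (i + 1) : ℝ) ^ 5 = (rr rs i : ℝ) ^ 20 := by
  rw [rr_succ_cast, ← pow_mul]

/-- `log (1 / t (i + 1)) ≤ 3 (r i)^20` -/
theorem log_inv_t {rs : ℕ} (h : 2 ≤ rs) {I i : ℕ} (hi : i ≤ I) :
    Real.log (1 / tS rs I (i + 1)) ≤ 3 * (rr rs i : ℝ) ^ 20 := by
  have h2 := two_le_cast_rr h i
  have h3 : (2 : ℝ) ^ 16 ≤ (rr rs i : ℝ) ^ 16 := pow_le_pow_left₀ (by norm_num) h2 16
  have h4 : (rr rs i : ℝ) ^ 20 = (rr rs i : ℝ) ^ 16 * (rr rs i : ℝ) ^ 4 := by ring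
  have h5 : (2 : ℝ) ^ 4 ≤ (rr rs i : ℝ) ^ 4 := pow_le_pow_left₀ (by norm_num) h2 4
  have h6 : (2 : ℝ) ^ 16 * (rr rs i : ℝ) ^ 4 ≤ (rr rs i : ℝ) ^ 16 * (rr rs i : ℝ) ^ 4 :=
    mul_le_mul_of_nonneg_right h3 (by positivity)
  rcases Nat.lt_or_ge i I with hlt | hge
  · have h1 := log_inv_t_of_le (rs := rs) (show i + 1 ≤ I by omega)
    rw [pow20, rr_succ_cast] at h1
    rw [← h4] at h6
    norm_num at h5 h6
    linarith
  · have hiI : i = I := by omega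
    subst hiI
    have h1 := log_inv_t_last rs i
    rw [pow20] at h1
    rw [← h4] at h6
    norm_num at h5 h6
    linarith

theorem log_inv_t_zero (rs I : ℕ) :
    Real.log (1 / tS rs I 0) ≤ 4 + (rs : ℝ) + (rs : ℝ) ^ 5 := by
  have h := log_inv_t_of_le (rs := rs) (Nat.zero_le I)
  rwa [rr_zero] at h

theorem log_inv_t_nonneg (rs I i : ℕ) : 0 ≤ Real.log (1 / tS rs I i) := by
  refine Real.log_nonneg ?_
  rw [le_div_iff₀ (tS_pos rs I i), one_mul]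
  exact tS_le_one rs I i

/-! ### strengths -/

theorem e0S_succ {rs : ℕ} (h : 2 ≤ rs) (i : ℕ) : 2 * e0S rs (i + 1) ≤ e0S rs i := by
  have h2 := two_le_cast_rr h i
  have h3 : (rr rs i : ℝ) + 1 ≤ (rr rs (i + 1) : ℝ) := by
    rw [rr_succ_cast]
    nlinarith [sq_nonneg ((rr rs i : ℝ)), mul_le_mul h2 h2 (by norm_num) (by linarith),
      sq_nonneg ((rr rs i : ℝ) ^ 2 - 1)]
  have h4 : e0S rs (i + 1) ≤ Real.exp (-1) * e0S rs i := by
    unfold e0S
    rw [← Real.exp_add]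
    exact Real.exp_le_exp.2 (by linarith)
  have h5 : Real.exp (-1) ≤ 1 / 2 := by
    rw [Real.exp_neg, ← one_div]
    have : (2.7182818283 : ℝ) < Real.exp 1 := Real.exp_one_gt_d9
    exact one_div_le_one_div_of_le (by norm_num) (by linarith)
  have h6 := e0S_pos rs i
  nlinarith

theorem bS_le {rs : ℕ} (h : 2 ≤ rs) (I : ℕ) : bS rs I ≤ e0S rs (I + 1) := by
  have h2 := two_le_cast_rr h (I + 1)
  unfold bS e0S nS
  rw [← Real.rpow_natCast, Real.rpow_def_of_pos (by norm_num)]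
  refine Real.exp_le_exp.2 ?_
  rw [one_div, Real.log_inv]
  push_cast
  have h3 : (0.5 : ℝ) ≤ Real.log 2 := by
    have := Real.log_two_gt_d9
    linarith
  have h4 : (rr rs (I + 1) : ℝ) ≤ (rr rs (I + 1) : ℝ) ^ 5 := by
    have := pow_le_pow_right₀ (show (1 : ℝ) ≤ rr rs (I + 1) by linarith) (show 1 ≤ 5 by norm_num)
    simpa using this
  have h5 : (0 : ℝ) ≤ (rr rs (I + 1) : ℝ) ^ 5 := by positivity
  nlinarith

theorem sum_e0S {rs : ℕ} (h : 2 ≤ rs) (I : ℕ) {i : ℕ} (hi : i ≤ I + 1) :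
    ∑ j ∈ Finset.Ico i (I + 1), e0S rs j + bS rs I ≤ 2 * e0S rs i := by
  obtain ⟨d, hd⟩ : ∃ d, I + 1 = i + d := ⟨I + 1 - i, by omega⟩
  induction d generalizing i with
  | zero =>
    have : i = I + 1 := by omega
    subst this
    simp only [Finset.Ico_self, Finset.sum_empty, zero_add]
    have h1 := bS_le h I
    have h2 := e0S_pos rs (I + 1)
    linarith
  | succ d ih =>
    rw [Finset.sum_eq_sum_Ico_succ_bot (show i < I + 1 by omega)]
    have h1 := ih (i := i + 1) (by omega) (by omega)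
    have h2 := e0S_succ h i
    linarith

/-- tail of the strengths and the background -/
theorem tail_e0S {rs : ℕ} (h : 2 ≤ rs) {I i : ℕ} (hi : i ≤ I) :
    ∑ j ∈ Finset.Ico (i + 1) (I + 1), e0S rs j + bS rs I ≤ e0S rs i :=
  (sum_e0S h I (show i + 1 ≤ I + 1 by omega)).trans (e0S_succ h i)

/-- lower bound of the own absorption of the movable sites during stage `i + 1` -/
theorem own_ge {rs : ℕ} (h : 2 ≤ rs) {I i : ℕ} (hi : i ≤ I) :
    Real.exp (-(8 * (rr rs i : ℝ) ^ 20)) ≤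
      tS rs I (i + 1) * (e0S rs i * Real.exp (-(aS rs i))) := by
  have h0 := tS_pos rs I (i + 1)
  have h1 := log_inv_t h hi
  rw [one_div, Real.log_inv] at h1
  have h2 := two_le_cast_rr h i
  have e1 : tS rs I (i + 1) * (e0S rs i * Real.exp (-(aS rs i))) =
      Real.exp (Real.log (tS rs I (i + 1)) + (-(rr rs i : ℝ) + -(aS rs i))) := by
    rw [Real.exp_add, Real.exp_log h0, Real.exp_add, e0S]
  rw [e1]
  refine Real.exp_le_exp.2 ?_
  have h3 : (rr rs i : ℝ) ≤ (rr rs i : ℝ) ^ 20 := by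
    have := pow_le_pow_right₀ (show (1 : ℝ) ≤ rr rs i by linarith) (show 1 ≤ 20 by norm_num)
    simpa using this
  have h4 : (rr rs i : ℝ) ^ 5 ≤ (rr rs i : ℝ) ^ 20 :=
    pow_le_pow_right₀ (by linarith) (by norm_num)
  unfold aS
  have h5 : (0 : ℝ) ≤ (rr rs i : ℝ) ^ 20 := by positivity
  linarith

/-! ### choice of `rs` -/

theorem exists_rs {P : ℕ → Prop} (hP : ∀ᶠ r : ℕ in atTop, P r) :
    ∃ R, 2 ≤ R ∧ ∀ rs, R ≤ rs → ∀ i, P (rr rs i) := by
  obtain ⟨R, hR⟩ := eventually_atTop.1 hP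
  refine ⟨max R 2, le_max_right _ _, fun rs hrs i => hR _ ?_⟩
  have h1 : R ≤ rs := (le_max_left _ _).trans hrs
  have h2 : 2 ≤ rs := (le_max_right _ _).trans hrs
  exact h1.trans (le_rr (by omega) i)

theorem sum_inv_rr {rs : ℕ} (h : 2 ≤ rs) (n : ℕ) :
    ∑ i ∈ Finset.range n, (1 : ℝ) / rr rs i ≤ 1 := by
  have h1 : ∀ i, (1 : ℝ) / rr rs i ≤ (1 / 2) ^ (i + 1) := by
    intro i
    have h2 : (2 : ℝ) ^ (i + 1) ≤ rr rs i := by exact_mod_cast two_pow_le_rr h i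
    rw [one_div_pow]
    exact one_div_le_one_div_of_le (by positivity) h2
  have h2 : ∀ n : ℕ, ∑ i ∈ Finset.range n, (1 / 2 : ℝ) ^ (i + 1) = 1 - (1 / 2 : ℝ) ^ n := by
    intro n
    induction n with
    | zero => simp
    | succ n ih =>
      rw [Finset.sum_range_succ, ih]
      ring
  calc ∑ i ∈ Finset.range n, (1 : ℝ) / rr rs i
      ≤ ∑ i ∈ Finset.range n, (1 / 2 : ℝ) ^ (i + 1) := Finset.sum_le_sum fun i _ => h1 i
    _ = 1 - (1 / 2 : ℝ) ^ n := h2 n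
    _ ≤ 1 := by
        have : (0 : ℝ) < (1 / 2 : ℝ) ^ n := by positivity
        linarith

/-- sums over the families of rapidly decaying functions of the radius -/
theorem exists_sum_le {f : ℕ → ℝ} {ε : ℝ} (hε : 0 ≤ ε)
    (hf : ∀ᶠ r : ℕ in atTop, f r ≤ ε / r) :
    ∃ R, 2 ≤ R ∧ ∀ rs, R ≤ rs → ∀ n, ∑ i ∈ Finset.range n, f (rr rs i) ≤ ε := by
  obtain ⟨R, hR2, hR⟩ := exists_rs hf
  refine ⟨R, hR2, fun rs hrs n => ?_⟩
  calc ∑ i ∈ Finset.range n, f (rr rs i)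
      ≤ ∑ i ∈ Finset.range n, ε * (1 / rr rs i) :=
        Finset.sum_le_sum fun i _ => (hR rs hrs i).trans (le_of_eq (by ring))
    _ = ε * ∑ i ∈ Finset.range n, (1 : ℝ) / rr rs i := by rw [Finset.mul_sum]
    _ ≤ ε * 1 := mul_le_mul_of_nonneg_left (sum_inv_rr (hR2.trans hrs) n) hε
    _ = ε := mul_one _

/-! ### polynomials against exponentials -/

theorem tendsto_pow_mul_exp (A : ℝ) (d : ℕ) {c : ℝ} (hc : 0 < c) :
    Tendsto (fun r : ℕ => A * (r : ℝ) ^ d * Real.exp (-(c * r))) atTop (𝓝 0) := by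
  have h1 := (tendsto_pow_mul_exp_neg_atTop_nhds_zero d).comp
    (Filter.Tendsto.const_mul_atTop hc (tendsto_natCast_atTop_atTop (R := ℝ)))
  have h2 := h1.const_mul (A / c ^ d)
  rw [mul_zero] at h2
  refine h2.congr fun r => ?_
  simp only [Function.comp_apply]
  rw [mul_pow]
  field_simp

/-- `A r^d exp(-c r) ≤ ε` for all large `r` -/
theorem ev_pow_exp_le (A : ℝ) (d : ℕ) {c ε : ℝ} (hc : 0 < c) (hε : 0 < ε) :
    ∀ᶠ r : ℕ in atTop, A * (r : ℝ) ^ d * Real.exp (-(c * r)) ≤ ε :=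
  ((tendsto_pow_mul_exp A d hc).eventually (gt_mem_nhds hε)).mono fun _ h => le_of_lt h

/-- `A r^d exp(-c r) ≤ ε / r` for all large `r` -/
theorem ev_pow_exp_le_div (A : ℝ) (d : ℕ) {c ε : ℝ} (hc : 0 < c) (hε : 0 < ε) :
    ∀ᶠ r : ℕ in atTop, A * (r : ℝ) ^ d * Real.exp (-(c * r)) ≤ ε / r := by
  filter_upwards [ev_pow_exp_le A (d + 1) hc hε, eventually_ge_atTop 1] with r h hr
  have h1 : (0 : ℝ) < r := by exact_mod_cast hr
  rw [le_div_iff₀ h1]
  calc A * (r : ℝ) ^ d * Real.exp (-(c * r)) * r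
      = A * (r : ℝ) ^ (d + 1) * Real.exp (-(c * r)) := by ring
    _ ≤ ε := h

/-- `A r^d ≤ exp (c r)` for all large `r` -/
theorem ev_pow_le_exp (A : ℝ) (d : ℕ) {c : ℝ} (hc : 0 < c) :
    ∀ᶠ r : ℕ in atTop, A * (r : ℝ) ^ d ≤ Real.exp (c * r) := by
  filter_upwards [ev_pow_exp_le A d hc one_pos] with r h
  have h1 := Real.exp_pos (c * r)
  rw [Real.exp_neg, ← div_eq_mul_inv, div_le_one h1] at h
  exact h

/-- `A r^d ≤ c r^(d+1)` for all large `r` -/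
theorem ev_pow_le_pow (A : ℝ) {d d' : ℕ} (hd : d < d') {c : ℝ} (hc : 0 < c) :
    ∀ᶠ r : ℕ in atTop, A * (r : ℝ) ^ d ≤ c * (r : ℝ) ^ d' := by
  have h1 : ∀ᶠ r : ℕ in atTop, A / c ≤ (r : ℝ) :=
    (tendsto_natCast_atTop_atTop (R := ℝ)).eventually_ge_atTop (A / c)
  filter_upwards [h1, eventually_ge_atTop 1] with r h hr
  have h2 : (1 : ℝ) ≤ r := by exact_mod_cast hr
  rw [div_le_iff₀ hc] at h
  have h3 : (r : ℝ) ^ d * r ≤ (r : ℝ) ^ d' := by
    rw [← pow_succ]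
    exact pow_le_pow_right₀ h2 hd
  calc A * (r : ℝ) ^ d ≤ (r * c) * (r : ℝ) ^ d := mul_le_mul_of_nonneg_right h (by positivity)
    _ = c * ((r : ℝ) ^ d * r) := by ring
    _ ≤ c * (r : ℝ) ^ d' := mul_le_mul_of_nonneg_left h3 hc.le

/-! ### masses of the labels -/

/-- total mass of the labels which are not good or rest -/
theorem exists_mass {ε : ℝ} (hε : 0 < ε) :
    ∃ R, 2 ≤ R ∧ ∀ rs, R ≤ rs → ∀ n,
      ∑ i ∈ Finset.range n, 65 * (rr rs i : ℝ) ^ 2 * Real.exp (-(rr rs i : ℝ)) ≤ ε := by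
  have h := ev_pow_exp_le_div 65 2 (c := 1) one_pos hε
  simp only [one_mul] at h
  exact exists_sum_le (f := fun r => 65 * (r : ℝ) ^ 2 * Real.exp (-(r : ℝ))) hε.le h

/-- total density of the windows -/
theorem exists_dens (A : ℝ) (ms : ℕ) {ε : ℝ} (hε : 0 < ε) :
    ∃ R, 2 ≤ R ∧ ∀ rs, R ≤ rs → ∀ n,
      ∑ i ∈ Finset.range n, A * (rr rs i : ℝ) ^ 2 * (2 * (rr rs i : ℝ) + 1) ^ ms *
        Real.exp (-(rr rs i : ℝ)) ≤ ε := by
  have h := ev_pow_exp_le_div (|A| * 3 ^ ms) (2 + ms) (c := 1) one_pos hε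
  simp only [one_mul] at h
  refine exists_sum_le (f := fun r => A * (r : ℝ) ^ 2 * (2 * (r : ℝ) + 1) ^ ms *
    Real.exp (-(r : ℝ))) hε.le ?_
  filter_upwards [h, eventually_ge_atTop 1] with r h1 hr
  refine le_trans ?_ h1
  have h2 : (1 : ℝ) ≤ r := by exact_mod_cast hr
  have h3 : (2 * (r : ℝ) + 1) ^ ms ≤ 3 ^ ms * (r : ℝ) ^ ms := by
    rw [← mul_pow]
    exact pow_le_pow_left₀ (by positivity) (by linarith) ms
  have h4 := Real.exp_pos (-(r : ℝ))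
  calc A * (r : ℝ) ^ 2 * (2 * (r : ℝ) + 1) ^ ms * Real.exp (-(r : ℝ))
      ≤ |A| * (r : ℝ) ^ 2 * (2 * (r : ℝ) + 1) ^ ms * Real.exp (-(r : ℝ)) := by
        gcongr
        exact le_abs_self A
    _ ≤ |A| * (r : ℝ) ^ 2 * (3 ^ ms * (r : ℝ) ^ ms) * Real.exp (-(r : ℝ)) := by
        gcongr
    _ = |A| * 3 ^ ms * (r : ℝ) ^ (2 + ms) * Real.exp (-(r : ℝ)) := by
        rw [pow_add]
        ring

/-! ### choices of `n` and `N` -/

theorem le_nS {rs : ℕ} (h : 2 ≤ rs) (I : ℕ) : I ≤ nS rs I := by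
  have h1 := lt_rr h (I + 1)
  have h2 : rr rs (I + 1) ≤ rr rs (I + 1) ^ 5 := Nat.le_self_pow (by norm_num) _
  unfold nS
  omega

/-- large tori: `N = m I * (N₀ + 4)` -/
theorem exists_N {rs : ℕ} (h : 1 ≤ rs) (I N₀ : ℕ) :
    ∃ N, N₀ ≤ N ∧ N ≠ 0 ∧ 4 * mS rs I ≤ N ∧ ∀ i ≤ I, mS rs i ∣ N := by
  have hm := mS_pos h I
  refine ⟨mS rs I * (N₀ + 4), ?_, ?_, ?_, fun i hi => ?_⟩
  · nlinarith
  · positivity
  · nlinarith
  · exact (mS_dvd rs hi).mul_right _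

end P365T1.Seq
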