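import Vale.Agent.P365.T1.Conc394
import Vale.Agent.P365.J376.V3Main
import Vale.Agent.P365.T1.Seq795

/-!
# P365-T1: the flow from the two hub inequalities for the concrete chain
-/

set_option linter.all false

namespace P365T1.Conc

open P365L P365L.TL P365SH Vale.Agent.P365.C937 Vale.Agent.P365.J376 MeasureTheory P365T1.Seq Set
open scoped ENNReal

/-- combinatorial parameters from the first radius and the positions of the centres -/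
def PP (yf : ℕ → ℤ × ℤ) (rs I : ℕ) : Par := ⟨I, rr rs, fun i => yf (rr rs i)⟩

theorem PP_ok {yf : ℕ → ℤ × ℤ} {rs : ℕ} (hrs : 2 ≤ rs) (hy : ∀ r, rs ≤ r → yf r ∈ Xr r) (I : ℕ) :
    (PP yf rs I).Ok where
  r_pos := fun i => one_le_rr (by omega) i
  yo_mem := fun i => hy _ (le_rr (by omega) i)

/-- analytic parameters -/
noncomputable def QQ {yf : ℕ → ℤ × ℤ} {rs I : ℕ} (p : (PP yf rs I).Lb → ℝ)
    (ν : (PP yf rs I).Lb → Measure ℝ) : APar (PP yf rs I) :=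
  ⟨aS rs, e0S rs, tS rs I, bS rs I, p, ν⟩

/-- the concrete chain with the closed formulas -/
noncomputable abbrev DD {yf : ℕ → ℤ × ℤ} {rs I : ℕ} (p : (PP yf rs I).Lb → ℝ)
    (ν : (PP yf rs I).Lb → Measure ℝ) : V3 := mk (PP yf rs I) (QQ p ν)

/-- what is used of the label laws in the skeleton -/
structure Lw {P : Par} (ρ : Measure ℝ) (p : P.Lb → ℝ) (ν : P.Lb → Measure ℝ) : Prop where
  prob : ∀ k, IsProbabilityMeasure (ν k)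
  p_nonneg : ∀ k, 0 ≤ p k
  p_sum : ∑ k, p k = 1
  mix : ∑ k, ENNReal.ofReal (p k) • ν k = ρ
  p_good : 1 - p none ≤ 1 / 8192

theorem DD_ok {yf : ℕ → ℤ × ℤ} {rs I : ℕ} (hrs : 2 ≤ rs) (hy : ∀ r, rs ≤ r → yf r ∈ Xr r)
    {ρ : Measure ℝ} {p : (PP yf rs I).Lb → ℝ} {ν : (PP yf rs I).Lb → Measure ℝ}
    (h : Lw ρ p ν) : (DD p ν).Ok ρ where
  b_pos := bS_pos rs I
  prob := h.prob
  p_nonneg := h.p_nonneg
  p_sum := h.p_sum
  mix := h.mix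
  p_good := h.p_good
  mov_good := Or.inl rfl
  mov_cen := fun i hi => Or.inr ⟨⟨i, Nat.lt_succ_of_le hi⟩,
    pat_y (PP_ok hrs hy I) (i := i) (Nat.lt_succ_of_le hi)⟩
  e0_pos := fun i _ => e0S_pos rs i
  e0_le := fun i _ => e0S_le_one rs i
  a_nonneg := fun i _ => aS_nonneg rs i
  t_pos := fun i _ => tS_pos rs I i
  t_le := fun i _ => tS_le_one rs I i
  t_small := fun i hi => tS_small hi
  t_last := tS_last_le rs I

/-- the hubs for all tori -/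
structure HubsAll (E Ca : ℝ) {P : Par} (D : V3) (η : ℕ → ℝ) (C : ℝ) (N : ℕ) [NeZero N] :
    Prop where
  cost : ∀ k, D.mov k → CostLe E Ca (D.ν k)
  HC : ∀ i ≤ D.I, ∀ s ∈ Ioo (D.t (i + 1)) 1, D.HC N E i s (η i)
  HB : ∀ i ≤ D.I, ∀ s ∈ Ioo (D.t (i + 1)) 1, D.HB N E i s (η i) (C * (N : ℝ) ^ 2)

theorem nS_ge {rs : ℕ} (h : 2 ≤ rs) (n₀ : ℕ) : ∃ I, n₀ ≤ nS rs I := ⟨n₀, le_nS h n₀⟩

/-- **flow_in from the label laws and the two hubs**, `η i = (r i)^{-30}` -/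
theorem flow_in_of {lam : ℝ} {ρ : Measure ℝ}
    (hsum : ∀ Ca : ℝ, 0 ≤ Ca → ∃ R : ℕ, ∀ rs : ℕ, R ≤ rs → ∃ B : ℝ, ∀ I : ℕ,
      10 * Real.log (1 / tS rs I 0) + ∑ i ∈ Finset.range (I + 1),
        Ca * (1 / (rr rs i : ℝ) ^ 30 + 1 / (rr rs i : ℝ) ^ 30) * Real.log (1 / tS rs I (i + 1)) ≤ B)
    (H : ∀ E : ℝ, |E| < 4 + lam → ∃ (yf : ℕ → ℤ × ℤ) (Ca : ℝ) (R : ℕ), 0 ≤ Ca ∧ 2 ≤ R ∧
      (∀ r, R ≤ r → yf r ∈ Xr r) ∧
      ∀ rs, R ≤ rs → ∀ I, ∃ (p : (PP yf rs I).Lb → ℝ) (ν : (PP yf rs I).Lb → Measure ℝ),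
        Lw ρ p ν ∧ (∀ k, (DD p ν).mov k → CostLe E Ca (ν k)) ∧
        ∃ N₁ : ℕ, ∀ N : ℕ, N₁ ≤ N → (∀ i ≤ I, mS rs i ∣ N) → ∀ _ : NeZero N,
          (∀ i ≤ I, ∀ s ∈ Ioo (tS rs I (i + 1)) 1, (DD p ν).HC N E i s (1 / (rr rs i : ℝ) ^ 30)) ∧
          (∀ i ≤ I, ∀ s ∈ Ioo (tS rs I (i + 1)) 1, (DD p ν).HB N E i s (1 / (rr rs i : ℝ) ^ 30)
            (88 * (N : ℝ) ^ 2))) :
    FlowIn ρ lam := by
  refine flow_of_hubs fun E hE => ?_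
  obtain ⟨yf, Ca, R, hCa, hR, hy, h⟩ := H E hE
  obtain ⟨R', hsum⟩ := hsum Ca hCa
  obtain ⟨B, hB⟩ := hsum (max R R') (le_max_right _ _)
  refine ⟨max 88 B, le_max_left _ _, fun n₀ => ?_⟩
  have hrs : 2 ≤ max R R' := hR.trans (le_max_left _ _)
  obtain ⟨I, hI⟩ := nS_ge hrs n₀
  obtain ⟨p, ν, hL, hcost, N₁, h1⟩ := h (max R R') (le_max_left _ _) I
  refine ⟨nS (max R R') I, hI, fun N₀ => ?_⟩
  obtain ⟨N, hN, hN0, -, hdvd⟩ := exists_N (show 1 ≤ max R R' by omega) I (max N₀ N₁)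
  haveI : NeZero N := ⟨hN0⟩
  obtain ⟨hHC, hHB⟩ := h1 N ((le_max_right _ _).trans hN) hdvd inferInstance
  refine ⟨N, (le_max_left _ _).trans hN, inferInstance, DD p ν, rfl, ?_, Ca,
    fun i => 1 / (rr (max R R') i : ℝ) ^ 30, fun i => 1 / (rr (max R R') i : ℝ) ^ 30, hCa,
    fun i _ => by positivity, fun i _ => by positivity, hcost, hHC, ?_, ?_⟩
  · exact DD_ok hrs (fun r hr => hy r ((le_max_left _ _).trans hr)) hL
  · intro i hi s hs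
    refine (hHB i hi s hs).trans ?_
    gcongr
    exact le_max_left _ _
  · exact (hB I).trans (le_max_right _ _)

end P365T1.Conc
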