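import Vale.Agent.P365.T1.OneVarL
import Vale.Agent.P365.T1G.Fin

/-!
# P365 T1: the label laws.

Labels `good = none`, `rest = some none`, marks `some (some (inl i))`, windows
`some (some (inr a))`, with arbitrary finite index types.  Good and marks carry the smooth law
`nuS lam (lam τ / 2)`, the window `a` carries the bump `nuB (c a) (w a)`, `rest` the remaining
part of the uniform law `nuL lam` on `[-lam, lam]`.
-/

set_option linter.all false

namespace P365T1

open P365L P365O Matrix Complex MeasureTheory P365T1.Bump P365T1.OneVar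
open scoped ComplexConjugate ENNReal

namespace Lab37

/-! ### the uniform law -/

/-- density of the uniform law on `[-lam, lam]` -/
noncomputable def rhoU (lam : ℝ) (v : ℝ) : ℝ :=
  (Set.Icc (-lam) lam).indicator (fun _ => (2 * lam)⁻¹) v

theorem rhoU_nonneg {lam : ℝ} (hl : 0 < lam) (v : ℝ) : 0 ≤ rhoU lam v :=
  Set.indicator_nonneg (fun _ _ => by positivity) v

theorem measurable_rhoU (lam : ℝ) : Measurable (rhoU lam) :=
  measurable_const.indicator measurableSet_Icc

theorem rhoU_of_mem {lam v : ℝ} (h : v ∈ Set.Icc (-lam) lam) : rhoU lam v = (2 * lam)⁻¹ :=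
  Set.indicator_of_mem h _

theorem rhoU_of_notMem {lam v : ℝ} (h : v ∉ Set.Icc (-lam) lam) : rhoU lam v = 0 :=
  Set.indicator_of_notMem h _

theorem rhoU_apply (lam : ℝ) {s : Set ℝ} (hs : MeasurableSet s) :
    (volume.withDensity fun v => ENNReal.ofReal (rhoU lam v)) s =
      ENNReal.ofReal ((2 * lam)⁻¹) * volume (s ∩ Set.Icc (-lam) lam) := by
  rw [withDensity_apply _ hs]
  have e : ∀ v, ENNReal.ofReal (rhoU lam v) =
      (Set.Icc (-lam) lam).indicator (fun _ => ENNReal.ofReal ((2 * lam)⁻¹)) v := by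
    intro v
    by_cases hv : v ∈ Set.Icc (-lam) lam
    · rw [rhoU_of_mem hv, Set.indicator_of_mem hv]
    · rw [rhoU_of_notMem hv, Set.indicator_of_notMem hv, ENNReal.ofReal_zero]
  simp only [e]
  rw [lintegral_indicator measurableSet_Icc, setLIntegral_const, Measure.restrict_apply
    measurableSet_Icc, Set.inter_comm]

theorem nuL_eq {lam : ℝ} (hl : 0 < lam) :
    P365L.TL.nuL lam = volume.withDensity fun v => ENNReal.ofReal (rhoU lam v) := by
  have hm : Measurable fun t : ℝ => lam * t := measurable_const_mul lam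
  ext s hs
  rw [rhoU_apply lam hs, P365L.TL.nuL, Measure.map_apply hm hs, ProbabilityTheory.cond_apply
    measurableSet_Icc, Real.volume_Icc]
  have e1 : Set.Icc (-1 : ℝ) 1 ∩ (fun t : ℝ => lam * t) ⁻¹' s =
      (fun t : ℝ => lam * t) ⁻¹' (s ∩ Set.Icc (-lam) lam) := by
    ext t
    simp only [Set.mem_inter_iff, Set.mem_Icc, Set.mem_preimage]
    constructor
    · rintro ⟨⟨h1, h2⟩, h3⟩
      exact ⟨h3, by nlinarith, by nlinarith⟩
    · rintro ⟨h3, h1, h2⟩
      refine ⟨⟨?_, ?_⟩, h3⟩
      · by_contra h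
        push Not at h
        nlinarith
      · by_contra h
        push Not at h
        nlinarith
  rw [e1, Real.volume_preimage_mul_left hl.ne']
  rw [abs_of_pos (inv_pos.2 hl), ← mul_assoc]
  congr 1
  have e2 : ENNReal.ofReal (1 - -1) = 2 := by norm_num
  rw [e2, mul_inv, ENNReal.ofReal_mul (by norm_num)]
  congr 1
  rw [ENNReal.ofReal_inv_of_pos (by norm_num)]
  norm_num

/-! ### sums of laws with densities -/

theorem sum_withDensity {K : Type*} [Fintype K] {p : K → ℝ} (hp : ∀ k, 0 ≤ p k)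
    {d : K → ℝ → ℝ} (hd : ∀ k, Measurable (d k)) (hn : ∀ k v, 0 ≤ d k v) :
    ∑ k, ENNReal.ofReal (p k) • (volume.withDensity fun v => ENNReal.ofReal (d k v)) =
      volume.withDensity fun v => ENNReal.ofReal (∑ k, p k * d k v) := by
  ext s hs
  rw [Measure.finset_sum_apply, withDensity_apply _ hs]
  simp only [Measure.smul_apply, smul_eq_mul, withDensity_apply _ hs]
  rw [show (fun v => ENNReal.ofReal (∑ k, p k * d k v)) =
      fun v => ∑ k, ENNReal.ofReal (p k) * ENNReal.ofReal (d k v) from by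
    funext v
    rw [ENNReal.ofReal_sum_of_nonneg fun k _ => mul_nonneg (hp k) (hn k v)]
    exact Finset.sum_congr rfl fun k _ => ENNReal.ofReal_mul (hp k)]
  rw [lintegral_finsetSum _ fun k _ => (hd k).ennreal_ofReal.const_mul _]
  exact Finset.sum_congr rfl fun k _ => (lintegral_const_mul _ (hd k).ennreal_ofReal).symm

theorem densLe_of {d : ℝ → ℝ} {D : ℝ} (h : ∀ v, d v ≤ D) :
    DensLe D (volume.withDensity fun v => ENNReal.ofReal (d v)) := by
  rw [DensLe, ← withDensity_const]
  exact withDensity_mono (Filter.Eventually.of_forall fun v => ENNReal.ofReal_le_ofReal (h v))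

/-! ### labels -/

/-- labels -/
abbrev LabT (Mk Wn : Type) : Type := Option (Option (Mk ⊕ Wn))

section labels

variable {Mk Wn : Type} [Fintype Mk] [Fintype Wn] (lam τ : ℝ) (q : Mk ⊕ Wn → ℝ)
  (c w : Wn → ℝ)

/-- label masses -/
noncomputable def pL : LabT Mk Wn → ℝ
  | none => 1 - τ - ∑ i, q (Sum.inl i)
  | some none => τ - ∑ a, q (Sum.inr a)
  | some (some j) => q j

/-- the remaining density -/
noncomputable def rhoR (v : ℝ) : ℝ :=
  rhoU lam v - (1 - τ) * rhoS lam (lam * τ / 2) v -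
    ∑ a, q (Sum.inr a) * rhoB (c a) (w a) v

/-- label densities -/
noncomputable def dL : LabT Mk Wn → ℝ → ℝ
  | none => rhoS lam (lam * τ / 2)
  | some none => fun v => (τ - ∑ a, q (Sum.inr a))⁻¹ * rhoR lam τ q c w v
  | some (some (Sum.inl _)) => rhoS lam (lam * τ / 2)
  | some (some (Sum.inr a)) => rhoB (c a) (w a)

/-- label laws -/
noncomputable def nuT (k : LabT Mk Wn) : Measure ℝ :=
  volume.withDensity fun v => ENNReal.ofReal (dL lam τ q c w k v)

/-- bounds of the label densities -/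
noncomputable def DL : LabT Mk Wn → ℝ
  | none => (2 * (lam - lam * τ / 2))⁻¹
  | some none => (τ - ∑ a, q (Sum.inr a))⁻¹ * (2 * lam)⁻¹
  | some (some (Sum.inl _)) => (2 * (lam - lam * τ / 2))⁻¹
  | some (some (Sum.inr a)) => 15 / (16 * w a)

/-- admissible data -/
structure Adm : Prop where
  hlam : 0 < lam
  hτ : 0 < τ
  hτ' : τ ≤ 1 / 16384
  hq : ∀ j, 0 < q j
  hw : ∀ a, 0 < w a
  hc : ∀ a, |c a| + w a ≤ lam
  sum_mark : ∑ i, q (Sum.inl i) ≤ τ
  sum_win : ∑ a, q (Sum.inr a) / w a ≤ τ / (8 * lam)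

variable {lam τ q c w}

theorem Adm.l_pos (h : Adm lam τ q c w) : 0 < lam * τ / 2 := by
  have := h.hlam
  have := h.hτ
  positivity

theorem Adm.l_lt (h : Adm lam τ q c w) : lam * τ / 2 < lam := by
  have h1 := h.hlam
  have h2 := h.hτ'
  nlinarith

theorem Adm.w_le (h : Adm lam τ q c w) (a : Wn) : w a ≤ lam := by
  have := h.hc a
  have := abs_nonneg (c a)
  linarith

theorem Adm.sum_win_le (h : Adm lam τ q c w) : ∑ a, q (Sum.inr a) ≤ τ / 8 := by
  have hl := h.hlam
  calc ∑ a, q (Sum.inr a) ≤ ∑ a, lam * (q (Sum.inr a) / w a) := by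
        refine Finset.sum_le_sum fun a _ => ?_
        have h1 := h.hw a
        have h2 := h.hq (Sum.inr a)
        have h3 := h.w_le a
        rw [← mul_div_assoc, le_div_iff₀ h1]
        nlinarith
    _ = lam * ∑ a, q (Sum.inr a) / w a := by rw [Finset.mul_sum]
    _ ≤ lam * (τ / (8 * lam)) := by
        gcongr
        exact h.sum_win
    _ = τ / 8 := by field_simp

theorem Adm.sum_win_nonneg (h : Adm lam τ q c w) : 0 ≤ ∑ a, q (Sum.inr a) :=
  Finset.sum_nonneg fun a _ => (h.hq _).le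

theorem Adm.sum_mark_nonneg (h : Adm lam τ q c w) : 0 ≤ ∑ i, q (Sum.inl i) :=
  Finset.sum_nonneg fun a _ => (h.hq _).le

theorem Adm.rest_pos (h : Adm lam τ q c w) : 0 < τ - ∑ a, q (Sum.inr a) := by
  have := h.sum_win_le
  have := h.hτ
  linarith

theorem Adm.good_ge (h : Adm lam τ q c w) : 1 - 1 / 8192 ≤ pL τ q none := by
  have h1 := h.sum_mark
  have h2 := h.hτ'
  simp only [pL]
  linarith

theorem Adm.pL_pos (h : Adm lam τ q c w) (k : LabT Mk Wn) : 0 < pL τ q k := by
  rcases k with _ | _ | j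
  · have := h.good_ge
    linarith
  · exact h.rest_pos
  · exact h.hq j

theorem Adm.pL_sum (h : Adm lam τ q c w) : ∑ k, pL τ q k = 1 := by
  rw [Fintype.sum_option, Fintype.sum_option, Fintype.sum_sum_type]
  simp only [pL]
  ring

theorem Adm.good_le_one (h : Adm lam τ q c w) : pL τ q none ≤ 1 := by
  have h1 := h.sum_mark_nonneg
  have h2 := h.hτ
  simp only [pL]
  linarith

theorem Adm.smooth_le (h : Adm lam τ q c w) (v : ℝ) :
    (1 - τ) * rhoS lam (lam * τ / 2) v ≤ (1 - τ / 2) * (2 * lam)⁻¹ := by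
  have hl := h.hlam
  have ht := h.hτ
  have ht' := h.hτ'
  have h1 := rhoS_le h.l_pos h.l_lt v
  calc (1 - τ) * rhoS lam (lam * τ / 2) v ≤ (1 - τ) * (2 * (lam - lam * τ / 2))⁻¹ := by
        gcongr
        linarith
    _ ≤ (1 - τ / 2) * (2 * lam)⁻¹ := by
        have e : lam - lam * τ / 2 = lam * (1 - τ / 2) := by ring
        rw [e, ← div_eq_mul_inv, ← div_eq_mul_inv, div_le_div_iff₀ (by
          have : 0 < 1 - τ / 2 := by linarith
          positivity) (by positivity)]
        nlinarith [sq_nonneg τ, mul_pos hl ht, mul_nonneg hl.le (sq_nonneg τ)]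

theorem Adm.win_le (h : Adm lam τ q c w) (v : ℝ) :
    ∑ a, q (Sum.inr a) * rhoB (c a) (w a) v ≤ τ / 4 * (2 * lam)⁻¹ := by
  have hl := h.hlam
  calc ∑ a, q (Sum.inr a) * rhoB (c a) (w a) v ≤ ∑ a, q (Sum.inr a) / w a := by
        refine Finset.sum_le_sum fun a _ => ?_
        have h1 := h.hw a
        have h2 := h.hq (Sum.inr a)
        have h3 : rhoB (c a) (w a) v ≤ 15 / (16 * w a) := rhoB_le h1
        have h4 : (15 : ℝ) / (16 * w a) ≤ 1 / w a := by
          rw [div_le_div_iff₀ (by positivity) h1]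
          linarith
        calc q (Sum.inr a) * rhoB (c a) (w a) v ≤ q (Sum.inr a) * (1 / w a) := by
              gcongr
              exact h3.trans h4
          _ = _ := by ring
    _ ≤ τ / (8 * lam) := h.sum_win
    _ = τ / 4 * (2 * lam)⁻¹ := by
        field_simp
        ring

theorem Adm.rhoB_out (h : Adm lam τ q c w) (a : Wn) {v : ℝ} (hv : v ∉ Set.Icc (-lam) lam) :
    rhoB (c a) (w a) v = 0 := by
  refine rhoB_eq_zero (h.hw a) fun h1 => hv ?_
  have h2 := h.hc a
  have h3 := abs_le.1 (le_refl |c a|)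
  exact ⟨by linarith [h1.1, h3.1], by linarith [h1.2, h3.2]⟩

theorem Adm.rhoS_out (h : Adm lam τ q c w) {v : ℝ} (hv : v ∉ Set.Icc (-lam) lam) :
    rhoS lam (lam * τ / 2) v = 0 := by
  refine rhoS_supp h.l_pos h.l_lt ?_
  by_contra h1
  push Not at h1
  rw [abs_le] at h1
  exact hv ⟨h1.1, h1.2⟩

theorem Adm.rhoR_out (h : Adm lam τ q c w) {v : ℝ} (hv : v ∉ Set.Icc (-lam) lam) :
    rhoR lam τ q c w v = 0 := by
  rw [rhoR, rhoU_of_notMem hv, h.rhoS_out hv]
  have : ∑ a, q (Sum.inr a) * rhoB (c a) (w a) v = 0 :=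
    Finset.sum_eq_zero fun a _ => by rw [h.rhoB_out a hv, mul_zero]
  rw [this]
  ring

theorem Adm.rhoR_ge (h : Adm lam τ q c w) {v : ℝ} (hv : v ∈ Set.Icc (-lam) lam) :
    τ / 4 * (2 * lam)⁻¹ ≤ rhoR lam τ q c w v := by
  have h1 := h.smooth_le v
  have h2 := h.win_le v
  have h3 := h.hτ
  have h4 : 0 < (2 * lam)⁻¹ := inv_pos.2 (by linarith [h.hlam])
  rw [rhoR, rhoU_of_mem hv]
  nlinarith [mul_pos h3 h4]

theorem Adm.rhoR_nonneg (h : Adm lam τ q c w) (v : ℝ) : 0 ≤ rhoR lam τ q c w v := by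
  by_cases hv : v ∈ Set.Icc (-lam) lam
  · have h3 := h.hτ
    have h4 : 0 < (2 * lam)⁻¹ := inv_pos.2 (by linarith [h.hlam])
    exact le_trans (by positivity) (h.rhoR_ge hv)
  · rw [h.rhoR_out hv]

theorem Adm.rhoR_le (h : Adm lam τ q c w) (v : ℝ) : rhoR lam τ q c w v ≤ (2 * lam)⁻¹ := by
  have h4 : 0 < (2 * lam)⁻¹ := inv_pos.2 (by linarith [h.hlam])
  by_cases hv : v ∈ Set.Icc (-lam) lam
  · rw [rhoR, rhoU_of_mem hv]
    have h1 : 0 ≤ (1 - τ) * rhoS lam (lam * τ / 2) v :=
      mul_nonneg (by linarith [h.hτ']) (rhoS_nonneg h.l_pos h.l_lt v)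
    have h2 : 0 ≤ ∑ a, q (Sum.inr a) * rhoB (c a) (w a) v :=
      Finset.sum_nonneg fun a _ => mul_nonneg (h.hq _).le (rhoB_nonneg (h.hw a))
    linarith
  · rw [h.rhoR_out hv]
    exact h4.le

theorem Adm.measurable_rhoR (h : Adm lam τ q c w) : Measurable (rhoR lam τ q c w) := by
  unfold rhoR
  refine ((measurable_rhoU lam).sub ((measurable_rhoS lam _).const_mul _)).sub ?_
  exact Finset.measurable_fun_sum _ fun a _ => (measurable_rhoB _ _).const_mul _

theorem Adm.measurable_dL (h : Adm lam τ q c w) (k : LabT Mk Wn) :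
    Measurable (dL lam τ q c w k) := by
  rcases k with _ | _ | _ | a
  · exact measurable_rhoS lam _
  · exact h.measurable_rhoR.const_mul _
  · exact measurable_rhoS lam _
  · exact measurable_rhoB _ _

theorem Adm.dL_nonneg (h : Adm lam τ q c w) (k : LabT Mk Wn) (v : ℝ) :
    0 ≤ dL lam τ q c w k v := by
  rcases k with _ | _ | _ | a
  · exact rhoS_nonneg h.l_pos h.l_lt v
  · exact mul_nonneg (inv_nonneg.2 h.rest_pos.le) (h.rhoR_nonneg v)
  · exact rhoS_nonneg h.l_pos h.l_lt v
  · exact rhoB_nonneg (h.hw a)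

theorem Adm.dL_le (h : Adm lam τ q c w) (k : LabT Mk Wn) (v : ℝ) :
    dL lam τ q c w k v ≤ DL lam τ q w k := by
  rcases k with _ | _ | _ | a
  · exact rhoS_le h.l_pos h.l_lt v
  · exact mul_le_mul_of_nonneg_left (h.rhoR_le v) (inv_nonneg.2 h.rest_pos.le)
  · exact rhoS_le h.l_pos h.l_lt v
  · exact rhoB_le (h.hw a)

theorem Adm.dL_out (h : Adm lam τ q c w) (k : LabT Mk Wn) {v : ℝ}
    (hv : v ∉ Set.Icc (-lam) lam) : dL lam τ q c w k v = 0 := by
  rcases k with _ | _ | _ | a
  · exact h.rhoS_out hv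
  · simp only [dL]
    rw [h.rhoR_out hv, mul_zero]
  · exact h.rhoS_out hv
  · exact h.rhoB_out a hv

/-- **the mixture of the label laws is the uniform law** -/
theorem Adm.mix (h : Adm lam τ q c w) :
    ∑ k, ENNReal.ofReal (pL τ q k) • nuT lam τ q c w k = P365L.TL.nuL lam := by
  unfold nuT
  rw [sum_withDensity (fun k => (h.pL_pos k).le) h.measurable_dL h.dL_nonneg, nuL_eq h.hlam]
  congr 1
  funext v
  congr 1
  rw [Fintype.sum_option, Fintype.sum_option, Fintype.sum_sum_type]
  simp only [pL, dL]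
  have h1 : (τ - ∑ a, q (Sum.inr a)) * ((τ - ∑ a, q (Sum.inr a))⁻¹ * rhoR lam τ q c w v) =
      rhoR lam τ q c w v := by
    rw [← mul_assoc, mul_inv_cancel₀ h.rest_pos.ne', one_mul]
  rw [h1, rhoR, ← Finset.sum_mul]
  ring

theorem Adm.nuT_good (h : Adm lam τ q c w) :
    nuT lam τ q c w none = nuS lam (lam * τ / 2) := (nuS_eq h.l_pos h.l_lt).symm

theorem Adm.nuT_mark (h : Adm lam τ q c w) (i : Mk) :
    nuT lam τ q c w (some (some (Sum.inl i))) = nuS lam (lam * τ / 2) :=
  (nuS_eq h.l_pos h.l_lt).symm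

theorem nuT_win (a : Wn) : nuT lam τ q c w (some (some (Sum.inr a))) = nuB (c a) (w a) := rfl

theorem Adm.prob (h : Adm lam τ q c w) (k : LabT Mk Wn) :
    IsProbabilityMeasure (nuT lam τ q c w k) := by
  rcases k with _ | _ | i | a
  · rw [h.nuT_good]
    exact isProbabilityMeasure_nuS h.l_pos h.l_lt
  · have h1 := congrArg (fun μ : Measure ℝ => μ Set.univ) h.mix
    simp only [Measure.finset_sum_apply, Measure.smul_apply, smul_eq_mul, measure_univ] at h1
    rw [Fintype.sum_option, Fintype.sum_option, Fintype.sum_sum_type] at h1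
    haveI := isProbabilityMeasure_nuS h.l_pos h.l_lt
    have e1 : nuT lam τ q c w none Set.univ = 1 := by rw [h.nuT_good, measure_univ]
    have e2 : ∀ i : Mk, nuT lam τ q c w (some (some (Sum.inl i))) Set.univ = 1 := by
      intro i
      rw [h.nuT_mark, measure_univ]
    have e3 : ∀ a : Wn, nuT lam τ q c w (some (some (Sum.inr a))) Set.univ = 1 := by
      intro a
      haveI := isProbabilityMeasure_nuB (v₀ := c a) (h.hw a)
      rw [nuT_win, measure_univ]
    simp only [e1, e2, e3, mul_one] at h1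
    set X := nuT lam τ q c w (some none) Set.univ with hX
    set pr := pL τ q (some none : LabT Mk Wn) with hpr
    have hpr0 : 0 < pr := h.rest_pos
    have e4 : ENNReal.ofReal (pL τ q none) + (∑ x, ENNReal.ofReal (pL τ q (some (some (Sum.inl x)))) +
        ∑ x, ENNReal.ofReal (pL τ q (some (some (Sum.inr x))))) = ENNReal.ofReal (1 - pr) := by
      rw [← ENNReal.ofReal_sum_of_nonneg fun k _ => (h.pL_pos _).le,
        ← ENNReal.ofReal_sum_of_nonneg fun k _ => (h.pL_pos _).le,
        ← ENNReal.ofReal_add (Finset.sum_nonneg fun k _ => (h.pL_pos _).le)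
          (Finset.sum_nonneg fun k _ => (h.pL_pos _).le),
        ← ENNReal.ofReal_add (h.pL_pos _).le (add_nonneg
          (Finset.sum_nonneg fun k _ => (h.pL_pos _).le)
          (Finset.sum_nonneg fun k _ => (h.pL_pos _).le))]
      congr 1
      have h2 := h.pL_sum
      rw [Fintype.sum_option, Fintype.sum_option, Fintype.sum_sum_type] at h2
      linarith
    have hle : 0 ≤ 1 - pr := by
      have h5 := h.sum_win_nonneg
      have h6 := h.hτ'
      simp only [hpr, pL]
      linarith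
    have e5 : ENNReal.ofReal (1 - pr) + ENNReal.ofReal pr * X =
        ENNReal.ofReal (1 - pr) + ENNReal.ofReal pr := by
      rw [← ENNReal.ofReal_add hle hpr0.le]
      have : 1 - pr + pr = 1 := by ring
      rw [this, ENNReal.ofReal_one, ← e4, ← h1]
      ring
    have e6 : ENNReal.ofReal pr * X = ENNReal.ofReal pr :=
      (ENNReal.add_right_inj ENNReal.ofReal_ne_top).1 e5
    refine ⟨?_⟩
    have h5 : ENNReal.ofReal pr ≠ 0 := by
      rw [Ne, ENNReal.ofReal_eq_zero, not_le]
      exact hpr0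
    have h6 : ENNReal.ofReal pr * X = ENNReal.ofReal pr * 1 := by rw [e6, mul_one]
    exact (ENNReal.mul_right_inj h5 ENNReal.ofReal_ne_top).1 h6
  · rw [h.nuT_mark]
    exact isProbabilityMeasure_nuS h.l_pos h.l_lt
  · exact isProbabilityMeasure_nuB (h.hw a)

theorem Adm.densLe (h : Adm lam τ q c w) (k : LabT Mk Wn) :
    DensLe (DL lam τ q w k) (nuT lam τ q c w k) := densLe_of (h.dL_le k)

theorem Adm.DL_pos (h : Adm lam τ q c w) (k : LabT Mk Wn) : 0 < DL lam τ q w k := by
  have h1 := h.l_lt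
  have h2 := h.hlam
  have h3 := h.rest_pos
  have h4 : 0 < lam - lam * τ / 2 := by linarith
  rcases k with _ | _ | _ | a
  · simp only [DL]
    positivity
  · simp only [DL]
    positivity
  · simp only [DL]
    positivity
  · have := h.hw a
    simp only [DL]
    positivity

theorem Adm.supp (h : Adm lam τ q c w) (k : LabT Mk Wn) :
    nuT lam τ q c w k (Set.Icc (-lam) lam)ᶜ = 0 := by
  rw [nuT, withDensity_apply _ measurableSet_Icc.compl, ← lintegral_indicator
    measurableSet_Icc.compl]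
  refine (lintegral_congr fun v => ?_).trans lintegral_zero
  by_cases hv : v ∈ (Set.Icc (-lam) lam)ᶜ
  · rw [Set.indicator_of_mem hv, h.dL_out k hv, ENNReal.ofReal_zero]
  · rw [Set.indicator_of_notMem hv]

theorem Adm.law (h : Adm lam τ q c w) (k : LabT Mk Wn) : Law lam (nuT lam τ q c w k) :=
  ⟨h.prob k, h.supp k⟩

theorem Adm.inv_le (h : Adm lam τ q c w) : (2 * (lam - lam * τ / 2))⁻¹ ≤ 1 / lam := by
  have h1 := h.hlam
  have h2 := h.hτ'
  rw [inv_eq_one_div, div_le_div_iff₀ (by nlinarith) h1]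
  nlinarith

theorem Adm.mul_le (h : Adm lam τ q c w) (k : LabT Mk Wn) :
    pL τ q k * DL lam τ q w k ≤ 1 / lam := by
  have hl := h.hlam
  have hi := h.inv_le
  have h0 := h.DL_pos k
  have hone : pL τ q k ≤ 1 := by
    rw [← h.pL_sum]
    exact Finset.single_le_sum (f := fun k => pL τ q k) (fun j _ => (h.pL_pos j).le)
      (Finset.mem_univ k)
  rcases k with _ | _ | j | a
  · calc pL τ q none * DL lam τ q w none ≤ 1 * DL lam τ q w none := by gcongr
      _ = (2 * (lam - lam * τ / 2))⁻¹ := by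
          rw [one_mul]
          rfl
      _ ≤ 1 / lam := hi
  · simp only [pL, DL]
    rw [← mul_assoc, mul_inv_cancel₀ h.rest_pos.ne', one_mul, inv_eq_one_div]
    gcongr
    linarith
  · calc pL τ q (some (some (Sum.inl j))) * DL lam τ q w (some (some (Sum.inl j))) ≤
        1 * DL lam τ q w (some (some (Sum.inl j))) := by gcongr
      _ = (2 * (lam - lam * τ / 2))⁻¹ := by
          rw [one_mul]
          rfl
      _ ≤ 1 / lam := hi
  · simp only [pL, DL]
    have h1 := h.hw a
    have h2 := h.hq (Sum.inr a)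
    have h4 : (15 : ℝ) / (16 * w a) ≤ 1 / w a := by
      rw [div_le_div_iff₀ (by positivity) h1]
      linarith
    calc q (Sum.inr a) * (15 / (16 * w a)) ≤ q (Sum.inr a) * (1 / w a) :=
          mul_le_mul_of_nonneg_left h4 h2.le
      _ = q (Sum.inr a) / w a := by ring
      _ ≤ ∑ a, q (Sum.inr a) / w a :=
          Finset.single_le_sum (f := fun a => q (Sum.inr a) / w a)
            (fun b _ => div_nonneg (h.hq _).le (h.hw b).le) (Finset.mem_univ a)
      _ ≤ τ / (8 * lam) := h.sum_win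
      _ ≤ 1 / lam := by
          rw [div_le_div_iff₀ (by positivity) hl]
          have := h.hτ'
          nlinarith

theorem Adm.sum_mul_le (h : Adm lam τ q c w) :
    ∑ k, pL τ q k * DL lam τ q w k ≤ 2 / lam := by
  have hl := h.hlam
  have hi := h.inv_le
  have hsm := h.sum_mark
  have ht := h.hτ
  have ht' := h.hτ'
  rw [Fintype.sum_option, Fintype.sum_option, Fintype.sum_sum_type]
  have e1 : pL τ q (none : LabT Mk Wn) * DL lam τ q w none +
      ∑ x, pL τ q (some (some (Sum.inl x)) : LabT Mk Wn) * DL lam τ q w (some (some (Sum.inl x))) =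
      (1 - τ) * (2 * (lam - lam * τ / 2))⁻¹ := by
    simp only [pL, DL]
    rw [← Finset.sum_mul]
    ring
  have e2 : pL τ q (some none : LabT Mk Wn) * DL lam τ q w (some none) = (2 * lam)⁻¹ := by
    simp only [pL, DL]
    rw [← mul_assoc, mul_inv_cancel₀ h.rest_pos.ne', one_mul]
  have e3 : ∑ x, pL τ q (some (some (Sum.inr x)) : LabT Mk Wn) *
      DL lam τ q w (some (some (Sum.inr x))) ≤ τ / (8 * lam) := by
    refine le_trans (Finset.sum_le_sum fun a _ => ?_) h.sum_win
    simp only [pL, DL]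
    have h1 := h.hw a
    have h2 := h.hq (Sum.inr a)
    have h4 : (15 : ℝ) / (16 * w a) ≤ 1 / w a := by
      rw [div_le_div_iff₀ (by positivity) h1]
      linarith
    calc q (Sum.inr a) * (15 / (16 * w a)) ≤ q (Sum.inr a) * (1 / w a) :=
          mul_le_mul_of_nonneg_left h4 h2.le
      _ = _ := by ring
  have e4 : (1 - τ) * (2 * (lam - lam * τ / 2))⁻¹ ≤ 1 / lam := by
    have h5 : 0 ≤ (2 * (lam - lam * τ / 2))⁻¹ := by
      have := h.l_lt
      exact inv_nonneg.2 (by linarith)
    nlinarith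
  have e5 : (2 * lam)⁻¹ + τ / (8 * lam) ≤ 1 / lam := by
    have e6 : (2 * lam)⁻¹ + τ / (8 * lam) = (4 + τ) / (8 * lam) := by
      field_simp
      ring
    rw [e6, div_le_div_iff₀ (by positivity) hl]
    nlinarith
  have e7 : 2 / lam = 1 / lam + 1 / lam := by ring
  linarith

end labels

end Lab37

end P365T1
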