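import Vale.Agent.P365.T1.Conc755
import Vale.Agent.P365.T1.Final394
import Vale.Agent.P365.T1.Lab37

/-!
# P365-T1: the cells of the chain `DD`
-/

set_option linter.all false

namespace P365T1.Conc

open P365L P365L.TL P365SH Vale.Agent.P365.C937 Vale.Agent.P365.J376 MeasureTheory P365T1.Seq Set
open P365T1.Link P365T1.Bump
open scoped ENNReal

theorem nuB_ae {v₀ l : ℝ} (hl : 0 < l) : ∀ᵐ t ∂(nuB v₀ l), |t - v₀| ≤ l := by
  have h := nuB_compl (v₀ := v₀) hl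
  rw [ae_iff]
  refine measure_mono_null (fun t ht => ?_) h
  intro hm
  apply ht
  rw [Set.mem_Icc] at hm
  rw [abs_le]
  constructor <;> linarith [hm.1, hm.2]

theorem mem_Xr_of_abs {r : ℕ} {y : ℤ × ℤ} (h1 : |y.1| < r) (h2 : |y.2| < r) : y ∈ Xr r := by
  rw [mem_Xr]
  have := abs_lt.1 h1
  have := abs_lt.1 h2
  omega

/-- **the cells of the chain `DD`** -/
theorem cellIn_DD {yf : ℕ → ℤ × ℤ} {rs I : ℕ} (hrs : 2 ≤ rs)
    (hy : ∀ r, rs ≤ r → |(yf r).1| < r ∧ |(yf r).2| < r)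
    {p : (PP yf rs I).Lb → ℝ} {ν : (PP yf rs I).Lb → Measure ℝ} {Vsf : ℕ → ℤ × ℤ → ℝ}
    {w : ℕ → ℝ} {i : ℕ} (hi : i ≤ I) (hw : 0 < w i)
    (hν : ∀ z : ((Xr (rr rs i)).erase (yf (rr rs i)) : Finset (ℤ × ℤ)),
      ν ((PP yf rs I).win ⟨⟨i, Nat.lt_succ_of_le hi⟩, z⟩) = nuB (Vsf (rr rs i) z) (w i)) :
    CellIn (DD p ν) i (rr rs i) (4 * rr rs i, 4 * rr rs i) (yf (rr rs i)) (Vsf (rr rs i))
      (w i) := by
  have hok : (PP yf rs I).Ok := PP_ok hrs (fun r hr => mem_Xr_of_abs (hy r hr).1 (hy r hr).2) I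
  have hr : rs ≤ rr rs i := le_rr (by omega) i
  refine cellIn (P := PP yf rs I) (Q := QQ p ν) hok (i := i) hi (hy _ hr).1 (hy _ hr).2
    (Vs := Vsf (rr rs i)) (w := w i) ?_
  intro a ha
  have h2 := hν ⟨a, ha⟩
  exact (congrArg (fun μ : Measure ℝ => ∀ᵐ t ∂μ, |t - Vsf (rr rs i) a| ≤ w i) h2).mpr
    (nuB_ae hw)

end P365T1.Conc
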