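import Mathlib.Analysis.SpecificLimits.Normed
import Mathlib.Analysis.SpecialFunctions.Exp
import Mathlib.Analysis.SpecialFunctions.Pow.Real
import Mathlib.Tactic

/-!
# P365-T1: constants of the centre hub (HC)

With `q = r ^ 64`, windows of half width `≤ (2 r + 1) ^ (-(2 ms + 340))` and the decay
`κ ^ (r - R0 - 1)` of the shield, all numerical conditions of the insulated site lemma hold for
large `r`, and the rate is at most `1 / r ^ 30`.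
-/

set_option autoImplicit false
set_option linter.all false

namespace P365T1.HCnum

open Filter Topology Real

theorem ev_ge (A : ℝ) : ∀ᶠ r : ℕ in atTop, A ≤ (r : ℝ) :=
  tendsto_natCast_atTop_atTop.eventually_ge_atTop A

/-- polynomial times geometric -/
theorem ev_geom {κ : ℝ} (h0 : 0 < κ) (h1 : κ < 1) (n : ℕ) {A : ℝ} (hA : 0 < A) :
    ∀ᶠ r : ℕ in atTop, A * ((r : ℝ) ^ n * κ ^ r) ≤ 1 := by
  have h := tendsto_pow_const_mul_const_pow_of_abs_lt_one n (r := κ)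
    (by rw [abs_of_pos h0]; exact h1)
  have h2 : ∀ᶠ r : ℕ in atTop, (r : ℝ) ^ n * κ ^ r < 1 / A :=
    h.eventually_lt_const (by positivity)
  filter_upwards [h2] with r hr
  rw [lt_div_iff₀ hA] at hr
  linarith

/-- polynomial times exponential -/
theorem ev_exp (n : ℕ) {A : ℝ} (hA : 0 < A) :
    ∀ᶠ r : ℕ in atTop, A * ((r : ℝ) ^ n * Real.exp (-(r : ℝ))) ≤ 1 := by
  have h := ev_geom (κ := Real.exp (-1)) (Real.exp_pos _)
    (by rw [Real.exp_lt_one_iff]; norm_num) n hA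
  filter_upwards [h] with r hr
  have e : Real.exp (-1) ^ r = Real.exp (-(r : ℝ)) := by
    rw [← Real.exp_nat_mul]
    congr 1
    ring
  rwa [e] at hr

/-- the shield decay with the shift -/
theorem ev_shift {κ : ℝ} (h0 : 0 < κ) (h1 : κ < 1) (n R1 : ℕ) {A : ℝ} (hA : 0 < A) :
    ∀ᶠ r : ℕ in atTop, A * ((r : ℝ) ^ n * κ ^ (r - R1)) ≤ 1 := by
  have h := ev_geom h0 h1 n (A := A * (κ ^ R1)⁻¹) (by positivity)
  filter_upwards [h, eventually_ge_atTop R1] with r hr hR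
  have e : κ ^ r = κ ^ (r - R1) * κ ^ R1 := by rw [← pow_add, Nat.sub_add_cancel hR]
  rw [e] at hr
  have h2 : 0 < κ ^ R1 := by positivity
  calc A * ((r : ℝ) ^ n * κ ^ (r - R1))
      = A * (κ ^ R1)⁻¹ * ((r : ℝ) ^ n * (κ ^ (r - R1) * κ ^ R1)) := by field_simp
    _ ≤ 1 := hr

theorem hc_num {C κ : ℝ} (hC : 1 ≤ C) (hκ0 : 0 < κ) (hκ1 : κ < 1) (ms R0 : ℕ) :
    ∀ᶠ r : ℕ in atTop, ∀ w b ε T k g : ℝ, 0 ≤ w → w ≤ ((2 * (r : ℝ) + 1) ^ (2 * ms + 340))⁻¹ →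
      0 ≤ b → b ≤ ((2 * (r : ℝ) + 1) ^ (2 * ms + 340))⁻¹ → 0 ≤ ε → ε ≤ 3 * Real.exp (-(r : ℝ)) →
      0 ≤ T → T ≤ 8 * (r : ℝ) ^ 20 → 0 ≤ k → k ≤ 8 * (r : ℝ) + 8 → 0 ≤ g →
      g ≤ κ ^ (r - (R0 + 1)) →
      1 ≤ (r : ℝ) ^ 64 ∧ C * (k + 1) * (1 + T) ≤ ((r : ℝ) ^ 64) ^ 2 ∧
      (32 * (2 * (r : ℝ) + 1) ^ (2 * ms + 2) * (w + b) + 32 * (2 * (r : ℝ) + 1) ^ ms * g) *
        (C * (k + 1) ^ 4 * ((r : ℝ) ^ 64) ^ 5) ≤ 1 ∧
      ε + 1 / (r : ℝ) ^ 64 ≤ 1 / C ∧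
      C * (k + 1) * Real.sqrt (ε + 1 / (r : ℝ) ^ 64) ≤ 1 / (r : ℝ) ^ 30 := by
  have hC0 : 0 < C := by linarith
  filter_upwards [ev_ge 1, ev_ge (153 * C), ev_ge (2 * (64 * 83521 * C)), ev_ge (4 * C),
    ev_ge (34 * C), ev_exp 64 (A := 3) (by norm_num),
    ev_shift hκ0 hκ1 (ms + 324) (R0 + 1) (A := 2 * (32 * 3 ^ ms * 83521 * C)) (by positivity)]
    with r h1 hb1 hb2 hb3 hb4 hexp hsh w b ε T k g hw0 hw hb0 hb hε0 hε hT0 hT hk0 hk hg0 hg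
  generalize hx : (r : ℝ) = x at *
  have hx0 : 0 < x := by linarith
  have hxp : ∀ n : ℕ, 1 ≤ x ^ n := fun n => one_le_pow₀ h1
  have hk1 : k + 1 ≤ 17 * x := by linarith
  have hxx : ∀ {n m : ℕ}, n ≤ m → x ^ n ≤ x ^ m := fun h => pow_le_pow_right₀ h1 h
  refine ⟨hxp 64, ?_, ?_, ?_, ?_⟩
  · -- (b)
    have h2 : 1 + T ≤ 9 * x ^ 20 := by linarith [hxp 20]
    calc C * (k + 1) * (1 + T) ≤ C * (17 * x) * (9 * x ^ 20) := by gcongr
      _ = (153 * C) * x ^ 21 := by ring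
      _ ≤ x * x ^ 21 := by gcongr
      _ = x ^ 22 := by ring
      _ ≤ x ^ 128 := hxx (by norm_num)
      _ = (x ^ 64) ^ 2 := by ring
  · -- (c)
    have hq : C * (k + 1) ^ 4 * (x ^ 64) ^ 5 ≤ 83521 * C * x ^ 324 := by
      calc C * (k + 1) ^ 4 * (x ^ 64) ^ 5 ≤ C * (17 * x) ^ 4 * (x ^ 64) ^ 5 := by gcongr
        _ = 83521 * C * x ^ 324 := by ring
    have hq0 : 0 ≤ C * (k + 1) ^ 4 * (x ^ 64) ^ 5 := by positivity
    have hy : 0 < 2 * x + 1 := by linarith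
    have e1 : 32 * (2 * x + 1) ^ (2 * ms + 2) * (w + b) ≤ 64 / x ^ 338 := by
      calc 32 * (2 * x + 1) ^ (2 * ms + 2) * (w + b)
          ≤ 32 * (2 * x + 1) ^ (2 * ms + 2) * (((2 * x + 1) ^ (2 * ms + 340))⁻¹ +
            ((2 * x + 1) ^ (2 * ms + 340))⁻¹) := by gcongr
        _ = 64 / (2 * x + 1) ^ 338 := by
            have e : (2 * x + 1) ^ (2 * ms + 340) = (2 * x + 1) ^ (2 * ms + 2) *
              (2 * x + 1) ^ 338 := by
              rw [← pow_add]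
            rw [e]
            field_simp
            ring
        _ ≤ 64 / x ^ 338 := by
            gcongr
            linarith
    have e2 : 32 * (2 * x + 1) ^ ms * g ≤ 32 * 3 ^ ms * (x ^ ms * κ ^ (r - (R0 + 1))) := by
      calc 32 * (2 * x + 1) ^ ms * g ≤ 32 * (3 * x) ^ ms * κ ^ (r - (R0 + 1)) := by
            gcongr
            linarith
        _ = _ := by
            rw [mul_pow]
            ring
    have f1 : 32 * (2 * x + 1) ^ (2 * ms + 2) * (w + b) * (C * (k + 1) ^ 4 * (x ^ 64) ^ 5) ≤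
        1 / 2 := by
      calc _ ≤ 64 / x ^ 338 * (83521 * C * x ^ 324) := by gcongr
        _ = (64 * 83521 * C) / x ^ 14 := by
            field_simp
        _ ≤ (64 * 83521 * C) / x := by
            gcongr
            calc x = x ^ 1 := (pow_one x).symm
              _ ≤ x ^ 14 := hxx (by norm_num)
        _ ≤ 1 / 2 := by
            rw [div_le_iff₀ hx0]
            linarith
    have f2 : 32 * (2 * x + 1) ^ ms * g * (C * (k + 1) ^ 4 * (x ^ 64) ^ 5) ≤ 1 / 2 := by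
      calc _ ≤ 32 * 3 ^ ms * (x ^ ms * κ ^ (r - (R0 + 1))) * (83521 * C * x ^ 324) := by gcongr
        _ = (32 * 3 ^ ms * 83521 * C) * (x ^ (ms + 324) * κ ^ (r - (R0 + 1))) := by
            rw [pow_add]
            ring
        _ ≤ 1 / 2 := by linarith
    rw [add_mul]
    linarith
  · -- (d)
    have h2 : 3 * Real.exp (-x) ≤ 3 / x := by
      have h3 : x ≤ Real.exp x := by linarith [Real.add_one_le_exp x]
      rw [Real.exp_neg, le_div_iff₀ hx0]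
      calc 3 * (Real.exp x)⁻¹ * x ≤ 3 * (Real.exp x)⁻¹ * Real.exp x := by gcongr
        _ = 3 := by field_simp
    have h3 : 1 / x ^ 64 ≤ 1 / x := by
      gcongr
      calc x = x ^ 1 := (pow_one x).symm
        _ ≤ x ^ 64 := hxx (by norm_num)
    have h4 : 4 / x ≤ 1 / C := by
      rw [div_le_div_iff₀ hx0 hC0]
      linarith
    have h5 : 3 / x + 1 / x = 4 / x := by ring
    linarith
  · -- (e)
    have h2 : ε ≤ 1 / x ^ 64 := by
      refine hε.trans ?_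
      rw [le_div_iff₀ (by positivity)]
      linarith
    have h3 : Real.sqrt (ε + 1 / x ^ 64) ≤ 2 / x ^ 32 := by
      rw [Real.sqrt_le_left (by positivity)]
      have e : (2 / x ^ 32) ^ 2 = 4 * (1 / x ^ 64) := by
        field_simp
        ring
      rw [e]
      have : 0 ≤ 1 / x ^ 64 := by positivity
      linarith
    calc C * (k + 1) * Real.sqrt (ε + 1 / x ^ 64) ≤ C * (17 * x) * (2 / x ^ 32) := by gcongr
      _ = (34 * C) / x ^ 31 := by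
          field_simp
          ring
      _ ≤ x / x ^ 31 := by gcongr
      _ = 1 / x ^ 30 := by
          field_simp

/-- `exp (-r)` is below every power -/
theorem ev_exp_le_pow (n : ℕ) :
    ∀ᶠ r : ℕ in atTop, Real.exp (-(r : ℝ)) ≤ ((2 * (r : ℝ) + 1) ^ n)⁻¹ := by
  filter_upwards [ev_ge 1, ev_exp n (A := 3 ^ n) (by positivity)] with r h1 h2
  have h3 : 0 < (2 * (r : ℝ) + 1) ^ n := by positivity
  rw [le_inv_comm₀ (Real.exp_pos _) h3]
  have h4 : (2 * (r : ℝ) + 1) ^ n ≤ (3 * (r : ℝ)) ^ n := by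
    gcongr
    linarith
  refine h4.trans ?_
  rw [mul_pow]
  have h5 : 0 < Real.exp (-(r : ℝ)) := Real.exp_pos _
  rw [← one_div, le_div_iff₀ h5]
  linarith

/-- the constants of (HC) with 394's windows `w = exp (-r)`; 701's form of the conditions
(`k` = number of ports) -/
theorem hc_num_exp {C κ : ℝ} (hC : 1 ≤ C) (hκ0 : 0 < κ) (hκ1 : κ < 1) (ms R0 : ℕ) :
    ∀ᶠ r : ℕ in atTop, ∀ w b ε T k g : ℝ, 0 ≤ w → w ≤ Real.exp (-(r : ℝ)) →
      0 ≤ b → b ≤ Real.exp (-(r : ℝ)) → 0 ≤ ε → ε ≤ 3 * Real.exp (-(r : ℝ)) →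
      0 ≤ T → T ≤ 8 * (r : ℝ) ^ 20 → 0 ≤ k → k ≤ 8 * (r : ℝ) + 8 → 0 ≤ g →
      g ≤ κ ^ (r - (R0 + 1)) →
      1 ≤ (r : ℝ) ^ 64 ∧ C * ((k + 1) * (1 + T)) ≤ ((r : ℝ) ^ 64) ^ 2 ∧
      (32 * (2 * (r : ℝ) + 1) ^ (2 * ms + 2) * (w + b) + 32 * (2 * (r : ℝ) + 1) ^ ms * g) *
        (C * ((k + 1) ^ 4 * ((r : ℝ) ^ 64) ^ 5)) ≤ 1 ∧ ε + 1 / (r : ℝ) ^ 64 ≤ 1 / C ∧
      C * ((k + 1) * Real.sqrt (ε + 1 / (r : ℝ) ^ 64)) ≤ 1 / (r : ℝ) ^ 30 := by
  filter_upwards [hc_num hC hκ0 hκ1 ms R0, ev_exp_le_pow (2 * ms + 340)] with r h h1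
    w b ε T k g hw0 hw hb0 hb hε0 hε hT0 hT hk0 hk hg0 hg
  obtain ⟨a1, a2, a3, a4, a5⟩ := h w b ε T k g hw0 (hw.trans h1) hb0 (hb.trans h1) hε0 hε hT0 hT
    hk0 hk hg0 hg
  refine ⟨a1, by rw [← mul_assoc]; exact a2, ?_, a4, by rw [← mul_assoc]; exact a5⟩
  refine le_trans (le_of_eq ?_) a3
  ring

/-- 417/77's condition on the windows: `2 (w + b) (2 r + 1) ^ (ms + 2) ≤ 1` -/
theorem window_num (ms : ℕ) : ∀ᶠ r : ℕ in atTop, ∀ w b : ℝ, w ≤ Real.exp (-(r : ℝ)) →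
    b ≤ Real.exp (-(r : ℝ)) → 2 * (w + b) * (2 * (r : ℝ) + 1) ^ (ms + 2) ≤ 1 := by
  filter_upwards [ev_ge 4, ev_exp_le_pow (ms + 3)] with r h4 h1 w b hw hb
  have hy : 0 < 2 * (r : ℝ) + 1 := by linarith
  have h2 : w + b ≤ 2 * ((2 * (r : ℝ) + 1) ^ (ms + 3))⁻¹ := by linarith [hw.trans h1, hb.trans h1]
  calc 2 * (w + b) * (2 * (r : ℝ) + 1) ^ (ms + 2)
      ≤ 2 * (2 * ((2 * (r : ℝ) + 1) ^ (ms + 3))⁻¹) * (2 * (r : ℝ) + 1) ^ (ms + 2) := by gcongr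
    _ = 4 / (2 * (r : ℝ) + 1) := by
        rw [pow_succ (2 * (r : ℝ) + 1) (ms + 2)]
        field_simp
        ring
    _ ≤ 1 := by
        rw [div_le_one hy]
        linarith

end P365T1.HCnum
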