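import Vale.Agent.P365.T1.Seq795

/-!
# P365-T1, block E5: masses and densities of the labels, constants of the centre hub.
-/

set_option linter.all false

namespace P365T1.Seq

open Real Filter Topology

/-- sums of `A r^d exp (-c r)` over the families -/
theorem exists_sum_exp (A : ℝ) (d : ℕ) {c ε : ℝ} (hc : 0 < c) (hε : 0 < ε) :
    ∃ R, 2 ≤ R ∧ ∀ rs, R ≤ rs → ∀ n,
      ∑ i ∈ Finset.range n, A * (rr rs i : ℝ) ^ d * Real.exp (-(c * rr rs i)) ≤ ε :=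
  exists_sum_le (f := fun r => A * (r : ℝ) ^ d * Real.exp (-(c * r))) hε.le
    (ev_pow_exp_le_div A d hc hε)

/-- the same over `Fin (I + 1)` -/
theorem exists_sum_exp_fin (A : ℝ) (d : ℕ) {c ε : ℝ} (hc : 0 < c) (hε : 0 < ε) :
    ∃ R, 2 ≤ R ∧ ∀ rs, R ≤ rs → ∀ I,
      ∑ i : Fin (I + 1), A * (rr rs i : ℝ) ^ d * Real.exp (-(c * rr rs i)) ≤ ε := by
  obtain ⟨R, hR2, hR⟩ := exists_sum_exp A d hc hε
  refine ⟨R, hR2, fun rs hrs I => ?_⟩
  rw [Fin.sum_univ_eq_sum_range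
    (fun i => A * (rr rs i : ℝ) ^ d * Real.exp (-(c * rr rs i))) (I + 1)]
  exact hR rs hrs (I + 1)

/-- number of sites of the box of radius `r`, as a real polynomial bound -/
theorem box_le (r : ℕ) (h : 1 ≤ r) : ((2 * r + 1 : ℕ) : ℝ) ^ 2 ≤ 9 * (r : ℝ) ^ 2 := by
  have h1 : (1 : ℝ) ≤ r := by exact_mod_cast h
  push_cast
  nlinarith

/-- label masses: every family has at most `(2 r + 1)^2` window labels and one mark, each of mass
`exp (-3 r)`; total mass at most `ε` -/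
theorem exists_mass3 {ε : ℝ} (hε : 0 < ε) :
    ∃ R, 2 ≤ R ∧ ∀ rs, R ≤ rs → ∀ I,
      ∑ i : Fin (I + 1), (((2 * rr rs i + 1 : ℕ) : ℝ) ^ 2 + 1) * Real.exp (-(3 * (rr rs i : ℝ))) ≤
        ε := by
  obtain ⟨R, hR2, hR⟩ := exists_sum_exp_fin 10 2 (c := 3) (by norm_num) hε
  refine ⟨R, hR2, fun rs hrs I => le_trans (Finset.sum_le_sum fun i _ => ?_) (hR rs hrs I)⟩
  have h1 : 1 ≤ rr rs i := one_le_rr (by omega) _
  have h2 := box_le _ h1
  have h3 : (1 : ℝ) ≤ (rr rs i : ℝ) ^ 2 := by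
    have : (1 : ℝ) ≤ rr rs i := by exact_mod_cast h1
    exact one_le_pow₀ this
  exact mul_le_mul_of_nonneg_right (by linarith) (Real.exp_pos _).le

/-- densities: `(2 r + 1)^2` windows of mass `exp (-3 r)` and density at most `A / exp (-r)` -/
theorem exists_dens3 (A : ℝ) {ε : ℝ} (hA : 0 ≤ A) (hε : 0 < ε) :
    ∃ R, 2 ≤ R ∧ ∀ rs, R ≤ rs → ∀ I,
      ∑ i : Fin (I + 1), ((2 * rr rs i + 1 : ℕ) : ℝ) ^ 2 * (Real.exp (-(3 * (rr rs i : ℝ))) *
        (A / Real.exp (-(rr rs i : ℝ)))) ≤ ε := by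
  obtain ⟨R, hR2, hR⟩ := exists_sum_exp_fin (9 * A) 2 (c := 2) (by norm_num) hε
  refine ⟨R, hR2, fun rs hrs I => le_trans (Finset.sum_le_sum fun i _ => ?_) (hR rs hrs I)⟩
  have h1 : 1 ≤ rr rs i := one_le_rr (by omega) _
  have h2 := box_le _ h1
  have e1 : Real.exp (-(3 * (rr rs i : ℝ))) * (A / Real.exp (-(rr rs i : ℝ))) =
      A * Real.exp (-(2 * (rr rs i : ℝ))) := by
    have : Real.exp (-(3 * (rr rs i : ℝ))) =
        Real.exp (-(2 * (rr rs i : ℝ))) * Real.exp (-(rr rs i : ℝ)) := by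
      rw [← Real.exp_add]
      congr 1
      ring
    rw [this]
    field_simp
  rw [e1]
  calc ((2 * rr rs i + 1 : ℕ) : ℝ) ^ 2 * (A * Real.exp (-(2 * (rr rs i : ℝ))))
      ≤ 9 * (rr rs i : ℝ) ^ 2 * (A * Real.exp (-(2 * (rr rs i : ℝ)))) :=
        mul_le_mul_of_nonneg_right h2 (by positivity)
    _ = 9 * A * (rr rs i : ℝ) ^ 2 * Real.exp (-(2 * (rr rs i : ℝ))) := by ring

/-- the background is smaller than any given exponential of the last radius -/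
theorem bS_le_exp {rs : ℕ} (h : 2 ≤ rs) {I i : ℕ} (hi : i ≤ I) :
    bS rs I ≤ Real.exp (-((rr rs i : ℝ) ^ 4)) := by
  have h1 := bS_le h I
  refine h1.trans (Real.exp_le_exp.2 ?_)
  have h2 : rr rs (i + 1) ≤ rr rs (I + 1) := rr_mono (by omega) (by omega)
  have h3 : (rr rs (i + 1) : ℝ) ≤ rr rs (I + 1) := by exact_mod_cast h2
  rw [rr_succ_cast] at h3
  linarith

/-- `A (2 r + 1)^d κ^(r - R0) ≤ exp (-c r)` for some `c > 0` and all large `r` -/
theorem ev_shield {κ : ℝ} (hκ : 0 < κ) (hκ1 : κ < 1) (A : ℝ) (d R0 : ℕ) :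
    ∃ c : ℝ, 0 < c ∧ ∀ᶠ r : ℕ in atTop,
      A * (2 * (r : ℝ) + 1) ^ d * κ ^ (r - R0) ≤ Real.exp (-(c * r)) := by
  have hl : Real.log κ < 0 := Real.log_neg hκ hκ1
  refine ⟨-Real.log κ / 2, by linarith, ?_⟩
  have h := ev_pow_exp_le (|A| * 3 ^ d * κ⁻¹ ^ R0) d (c := -Real.log κ / 2) (by linarith) one_pos
  filter_upwards [h, eventually_ge_atTop (R0 + 1)] with r h1 hr
  have hr1 : (1 : ℝ) ≤ r := by
    have : 1 ≤ r := by omega
    exact_mod_cast this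
  have h2 : κ ^ (r - R0) = Real.exp (Real.log κ * r) * κ⁻¹ ^ R0 := by
    have h3 : κ ^ (r - R0) * κ ^ R0 = κ ^ r := by
      rw [← pow_add]
      congr 1
      omega
    have h4 : Real.exp (Real.log κ * r) = κ ^ r := by
      rw [mul_comm, Real.exp_nat_mul, Real.exp_log hκ]
    rw [h4, ← h3, inv_pow]
    field_simp
  have h5 : (2 * (r : ℝ) + 1) ^ d ≤ 3 ^ d * (r : ℝ) ^ d := by
    rw [← mul_pow]
    exact pow_le_pow_left₀ (by positivity) (by linarith) d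
  have e1 : Real.exp (Real.log κ * r) =
      Real.exp (-(-Real.log κ / 2 * r)) * Real.exp (-(-Real.log κ / 2 * r)) := by
    rw [← Real.exp_add]
    congr 1
    ring
  set X := Real.exp (-(-Real.log κ / 2 * r)) with hX
  have hX0 : 0 < X := Real.exp_pos _
  rw [h2, e1]
  calc A * (2 * (r : ℝ) + 1) ^ d * (X * X * κ⁻¹ ^ R0)
      ≤ |A| * (3 ^ d * (r : ℝ) ^ d) * (X * X * κ⁻¹ ^ R0) := by
        have : A * (2 * (r : ℝ) + 1) ^ d ≤ |A| * (3 ^ d * (r : ℝ) ^ d) :=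
          mul_le_mul (le_abs_self A) h5 (by positivity) (abs_nonneg A)
        exact mul_le_mul_of_nonneg_right this (by positivity)
    _ = (|A| * 3 ^ d * κ⁻¹ ^ R0 * (r : ℝ) ^ d * X) * X := by ring
    _ ≤ 1 * X := mul_le_mul_of_nonneg_right h1 hX0.le
    _ = X := one_mul _

end P365T1.Seq
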