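import Vale.Agent.P365.ISL.Dens77
import Vale.Agent.P365.T1.ConcDD755
import Vale.Agent.P365.T1.HCnum320
import Vale.Agent.P365.T1.SeqB795

/-!
# P365-T1: the centre hub for the concrete chain
-/

set_option linter.all false

namespace P365T1.Conc

open P365L P365L.TL P365SH Vale.Agent.P365.C937 Vale.Agent.P365.J376 MeasureTheory P365T1.Seq Set
open P365T1.Link P365T1.Bump P365T1.HCnum Filter
open scoped ENNReal

/-- **(HC) for the concrete chain** -/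
theorem hc_dd {lam E l : ℝ} (hlam : 0 < lam) (hE : |E| < 4 + lam) (hl : 0 < l)
    (hl2 : 2 * l ≤ lam) :
    ∃ (lam' : ℝ) (yf : ℕ → ℤ × ℤ) (Vsf : ℕ → ℤ × ℤ → ℝ) (R : ℕ), 0 < lam' ∧ lam' < lam ∧
      2 ≤ R ∧ (∀ r, R ≤ r → yf r ∈ Xr r) ∧ (∀ r z, |Vsf r z| ≤ lam') ∧
      ∀ rs, R ≤ rs → ∀ (I : ℕ) (ρ : Measure ℝ) (p : (PP yf rs I).Lb → ℝ)
        (ν : (PP yf rs I).Lb → Measure ℝ), Lw ρ p ν →
        (∀ k, (DD p ν).mov k → ν k = nuS lam l) →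
        (∀ (i : ℕ) (hi : i ≤ I) (z : ((Xr (rr rs i)).erase (yf (rr rs i)) : Finset (ℤ × ℤ))),
          ν ((PP yf rs I).win ⟨⟨i, Nat.lt_succ_of_le hi⟩, z⟩) =
            nuB (Vsf (rr rs i) z) (Real.exp (-(rr rs i : ℝ)))) →
        ∀ (N : ℕ) [NeZero N], (∀ i ≤ I, mS rs i ∣ N) →
          ∀ i ≤ I, ∀ s ∈ Ioo (tS rs I (i + 1)) 1,
            (DD p ν).HC N E i s (1 / (rr rs i : ℝ) ^ 30) := by
  obtain ⟨C, κ, lam', ms, R0, r0, hC, hκ0, hκ1, hl0, hl1, hcell, hmain⟩ :=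
    hc_nuS hlam hE hl hl2
  have hch : ∀ r : ℕ, ∃ (Vs : ℤ × ℤ → ℝ) (y : ℤ × ℤ), (∀ z, |Vs z| ≤ lam') ∧
      (r0 ≤ r → ∃ hy : y ∈ Xr r, CellGood E lam' κ ms R0 r Vs ⟨y, hy⟩) := by
    intro r
    by_cases hr : r0 ≤ r
    · obtain ⟨Vs, y, h⟩ := hcell r hr
      exact ⟨Vs, (y : ℤ × ℤ), h.Vs_le, fun _ => ⟨y.2, h⟩⟩
    · exact ⟨fun _ => 0, 0, fun z => by rw [abs_zero]; exact hl0.le, fun h => absurd h hr⟩
  choose Vsf yf hVs hgood using hch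
  obtain ⟨R1, -, hR1⟩ := exists_rs ((hc_num_exp hC hκ0 hκ1 ms R0).and (window_num ms))
  refine ⟨lam', yf, Vsf, max (max r0 R0) (max R1 5), hl0, hl1, by omega, ?_, hVs, ?_⟩
  · intro r hr
    obtain ⟨hy, -⟩ := hgood r (by omega)
    exact hy
  intro rs hrs I ρ p ν hL hmov hwin N _ hN i hi s hs
  have hrs2 : 2 ≤ rs := by omega
  have hrr : rs ≤ rr rs i := le_rr (by omega) i
  obtain ⟨hnum, hwn⟩ := hR1 rs (by omega) i
  obtain ⟨hy, hG⟩ := hgood (rr rs i) (by omega)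
  have hyb : ∀ r, rs ≤ r → |(yf r).1| < r ∧ |(yf r).2| < r := by
    intro r hr
    obtain ⟨hy', hG'⟩ := hgood r (by omega)
    have h1 := hG'.y1
    have h2 := hG'.y2
    simp only at h1 h2
    constructor
    · refine lt_of_lt_of_le h1 ?_
      exact_mod_cast (show R0 ≤ r by omega)
    · refine lt_of_lt_of_le h2 ?_
      exact_mod_cast (show R0 ≤ r by omega)
  have hok : (DD p ν).Ok ρ := DD_ok hrs2 (fun r hr => mem_Xr_of_abs (hyb r hr).1 (hyb r hr).2) hL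
  have hcin : CellIn (DD p ν) i (rr rs i) (4 * rr rs i, 4 * rr rs i) (yf (rr rs i))
      (Vsf (rr rs i)) (Real.exp (-(rr rs i : ℝ))) :=
    cellIn_DD (Vsf := Vsf) (w := fun i => Real.exp (-(rr rs i : ℝ))) hrs2 hyb hi
      (Real.exp_pos _) (fun z => hwin i hi z)
  -- numbers
  have hr5 : (5 : ℝ) ≤ rr rs i := by exact_mod_cast (show 5 ≤ rr rs i by omega)
  have hb0 := bS_pos rs I
  have hb1 : bS rs I ≤ Real.exp (-(rr rs i : ℝ)) := by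
    refine (bS_le_exp hrs2 hi).trans (Real.exp_le_exp.2 ?_)
    have h1 : (rr rs i : ℝ) ≤ (rr rs i : ℝ) ^ 4 := by
      calc (rr rs i : ℝ) = (rr rs i : ℝ) ^ 1 := (pow_one _).symm
        _ ≤ (rr rs i : ℝ) ^ 4 := pow_le_pow_right₀ (by linarith) (by norm_num)
    linarith
  have he := Real.exp_pos (-(rr rs i : ℝ))
  have hκp : κ ^ (rr rs i - R0) ≤ κ ^ (rr rs i - (R0 + 1)) :=
    pow_le_pow_of_le_one hκ0.le hκ1.le (by omega)
  obtain ⟨a1, a2, a3, a4, a5⟩ := hnum (Real.exp (-(rr rs i : ℝ))) (bS rs I)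
    (3 * Real.exp (-(rr rs i : ℝ))) (8 * (rr rs i : ℝ) ^ 20) (8 * (rr rs i : ℝ) + 8)
    (κ ^ (rr rs i - R0)) he.le le_rfl hb0.le hb1 (by positivity) le_rfl (by positivity) le_rfl
    (by positivity) le_rfl (by positivity) hκp
  have hw1 := hwn (Real.exp (-(rr rs i : ℝ))) (bS rs I) le_rfl hb1
  have hk1 : 8 * (rr rs i : ℝ) + 8 + 1 = 8 * (rr rs i : ℝ) + 9 := by ring
  rw [hk1] at a2 a3 a5
  have hε2 : 3 * Real.exp (-(rr rs i : ℝ)) ≤ 1 / 2 := by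
    have h1 := Real.add_one_le_exp (rr rs i : ℝ)
    rw [Real.exp_neg]
    have h2 : (Real.exp (rr rs i : ℝ))⁻¹ ≤ (6 : ℝ)⁻¹ := inv_anti₀ (by norm_num) (by linarith)
    linarith
  have htail := tail_e0S hrs2 (rs := rs) hi
  refine hmain (D := DD p ν) (y := ⟨yf (rr rs i), hy⟩) hcin hok hi ?_ hG he.le hmov hw1
    (δ := 32 * (2 * (rr rs i : ℝ) + 1) ^ (2 * ms + 2) * (Real.exp (-(rr rs i : ℝ)) + bS rs I) +
      32 * (2 * (rr rs i : ℝ) + 1) ^ ms * κ ^ (rr rs i - R0)) ?_ ?_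
    (ε := 3 * Real.exp (-(rr rs i : ℝ))) ?_ hε2 (T := 8 * (rr rs i : ℝ) ^ 20) (by positivity)
    (own_ge hrs2 hi) (q := (rr rs i : ℝ) ^ 64) a1 ?_ ?_ a4 ?_ hs.1.le hs.2.le
  · exact hN i hi
  · have : 0 ≤ 32 * (2 * (rr rs i : ℝ) + 1) ^ (2 * ms + 2) *
        (Real.exp (-(rr rs i : ℝ)) + bS rs I) := by positivity
    linarith
  · have : 0 ≤ 32 * (2 * (rr rs i : ℝ) + 1) ^ ms * κ ^ (rr rs i - R0) := by positivity
    exact le_add_of_nonneg_right this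
  · show bS rs I + (∑ j ∈ Finset.Ico (i + 1) (I + 1), e0S rs j) + 2 * e0S rs i ≤
      3 * Real.exp (-(rr rs i : ℝ))
    have h1 : e0S rs i = Real.exp (-(rr rs i : ℝ)) := rfl
    rw [← h1]
    linarith
  · rw [mul_assoc]; exact a2
  · have h1 : C * (8 * (rr rs i : ℝ) + 9) ^ 4 * ((rr rs i : ℝ) ^ 64) ^ 5 =
        C * ((8 * (rr rs i : ℝ) + 9) ^ 4 * ((rr rs i : ℝ) ^ 64) ^ 5) := by ring
    rw [h1]; exact a3
  · rw [mul_assoc]; exact a5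

end P365T1.Conc
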