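import Vale.Agent.P365.T1.LawInst795
import Vale.Agent.P365.T1.HCDD77
import Vale.Agent.P365.J376.Fin

/-!
# P365-T1: the flow from the bulk hub alone (the centre hub is `hc_dd`)
-/

set_option linter.all false

namespace P365T1.Conc

open P365L P365L.TL P365SH Vale.Agent.P365.C937 Vale.Agent.P365.J376 MeasureTheory P365T1.Seq Set
open P365T1.Lab37 P365T1.Bump
open scoped ENNReal

/-- the bulk hub of the concrete chain at energy `E`, for all positions and potentials -/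
def HBall795 (lam E : ℝ) : Prop :=
  ∀ (lam' : ℝ) (yf : ℕ → ℤ × ℤ) (Vsf : ℕ → ℤ × ℤ → ℝ) (R₀ : ℕ), 0 < lam' → lam' < lam →
    (∀ r, R₀ ≤ r → yf r ∈ Xr r) → (∀ r z, |Vsf r z| ≤ lam') →
    ∃ R : ℕ, ∀ rs, R ≤ rs → ∀ I, AdmS lam yf Vsf rs I →
      ∃ N₁ : ℕ, ∀ N : ℕ, N₁ ≤ N → (∀ i ≤ I, mS rs i ∣ N) → ∀ _ : NeZero N,
        ∀ i ≤ I, ∀ s ∈ Ioo (tS rs I (i + 1)) 1,
          (DD (pS yf rs I) (nuD lam yf Vsf rs I)).HB N E i s (1 / (rr rs i : ℝ) ^ 30)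
            (88 * (N : ℝ) ^ 2)

/-- **flow_in from the bulk hub alone** -/
theorem flow_in_of_HB795 {lam : ℝ} (hlam : 0 < lam)
    (H : ∀ E : ℝ, |E| < 4 + lam → HBall795 lam E) : FlowIn (nuL lam) lam := by
  refine flow_in_of_hubs hlam fun E hE => ?_
  obtain ⟨lam', yf, Vsf, R1, h0, h1, h2, hy, hV, hHC⟩ :=
    hc_dd hlam hE (l0_pos hlam) (two_l0_le hlam)
  obtain ⟨R2, hHB⟩ := H E hE lam' yf Vsf R1 h0 h1 hy hV
  refine ⟨yf, Vsf, lam', max R1 R2, h1, fun r hr => hy r ((le_max_left _ _).trans hr),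
    fun r _ z => hV r z, fun rs hrs I hA => ?_⟩
  obtain ⟨N₁, hN₁⟩ := hHB rs ((le_max_right _ _).trans hrs) I hA
  refine ⟨N₁, fun N hN hdvd hne => ⟨?_, hN₁ N hN hdvd hne⟩⟩
  exact hHC rs ((le_max_left _ _).trans hrs) I (nuL lam) _ _ (lw_DD hA)
    (fun k hk => nuD_mov' hA hk) (fun i hi z => nuD_win hi z) N hdvd

open ProbabilityTheory in
/-- **everything from the bulk hub** -/
theorem final_of_HB795 (H : ∀ lam : ℝ, 0 < lam → ∀ E : ℝ, |E| < 4 + lam → HBall795 lam E) :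
    ∀ {Ω : Type} [MeasurableSpace Ω] (P : Measure Ω) [IsProbabilityMeasure P]
      (w : Site → Ω → ℝ), (∀ x, Measurable (w x)) → iIndepFun w P →
      (∀ x, P.map (w x) = cond volume (Set.Icc (-1) 1)) → ∀ lam : ℝ, 0 < lam →
      ∀ᵐ o ∂P,
        (∀ (ψ : L2) (μ : Measure ℝ), IsSpectralMeasure (fun x => lam * w x o) ψ μ →
          μ ⟂ₘ (volume : Measure ℝ)) ∧
        ∀ I : Set ℝ, ¬ PurelyAC (fun x => lam * w x o) I :=
  P365L.J376.final fun lam hlam => flow_in_of_HB795 hlam (H lam hlam)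

end P365T1.Conc
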