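import Vale.Agent.P365.T1.LawInst795
import Vale.Agent.P365.T1.HCDD77

/-!
# P365-T1: the flow from the bulk hub of the concrete chain (the centre hub is `hc_dd`)
-/

set_option linter.all false

namespace P365T1.Conc

open P365L P365L.TL P365SH Vale.Agent.P365.C937 Vale.Agent.P365.J376 MeasureTheory P365T1.Seq Set
open P365T1.Lab37
open scoped ENNReal

/-- **(HB) for the concrete chain**, the only remaining input -/
def HBconc (lam : ℝ) : Prop :=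
  ∀ E : ℝ, |E| < 4 + lam → ∀ lam' : ℝ, lam' < lam → ∀ (yf : ℕ → ℤ × ℤ) (Vsf : ℕ → ℤ × ℤ → ℝ)
    (R₀ : ℕ), (∀ r, R₀ ≤ r → yf r ∈ Xr r) → (∀ r z, |Vsf r z| ≤ lam') →
    ∃ R : ℕ, ∀ rs, R ≤ rs → ∀ I, AdmS lam yf Vsf rs I →
      ∃ N₁ : ℕ, ∀ N : ℕ, N₁ ≤ N → (∀ i ≤ I, mS rs i ∣ N) → ∀ _ : NeZero N,
        ∀ i ≤ I, ∀ s ∈ Ioo (tS rs I (i + 1)) 1,
          (DD (pS yf rs I) (nuD lam yf Vsf rs I)).HB N E i s (1 / (rr rs i : ℝ) ^ 30)
            (88 * (N : ℝ) ^ 2)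

/-- **flow_in from (HB)** -/
theorem flow_in_of_HBconc {lam : ℝ} (hlam : 0 < lam) (hHB : HBconc lam) : FlowIn (nuL lam) lam := by
  refine flow_in_of_hubs hlam fun E hE => ?_
  obtain ⟨lam', yf, Vsf, R, hl0, hl1, hR2, hy, hV, hHC⟩ :=
    hc_dd hlam hE (l0_pos hlam) (two_l0_le hlam)
  obtain ⟨R', hR'⟩ := hHB E hE lam' hl1 yf Vsf R hy hV
  refine ⟨yf, Vsf, lam', max R R', hl1, fun r hr => hy r (by omega), fun r _ z => hV r z, ?_⟩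
  intro rs hrs I hA
  obtain ⟨N₁, h1⟩ := hR' rs (by omega) I hA
  refine ⟨N₁, fun N hN hdvd hz => ⟨?_, h1 N hN hdvd hz⟩⟩
  exact hHC rs (by omega) I (nuL lam) (pS yf rs I) (nuD lam yf Vsf rs I) (lw_DD hA)
    (fun k hk => nuD_mov' hA hk) (fun i hi z => nuD_win hi z) N hdvd

end P365T1.Conc
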