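import Vale.Agent.P365.T1.SeqSum795

/-!
# P365-T1, block E5: the sum of the logarithmic times, polynomial rates.
-/

set_option linter.all false

namespace P365T1.Seq

open Real Filter Topology

/-- **the sum of the logarithmic times**, polynomial rates `ηc i + ηb i ≤ (r i)^(-22)` -/
theorem hsum_poly {rs : ℕ} (hrs : 4 ≤ rs) (I : ℕ) {Ca : ℝ} {ηc ηb : ℕ → ℝ} (hCa : 0 ≤ Ca)
    (hηc : ∀ i, 0 ≤ ηc i) (hηb : ∀ i, 0 ≤ ηb i)
    (hη : ∀ i, ηc i + ηb i ≤ 1 / (rr rs i : ℝ) ^ 22) :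
    10 * Real.log (1 / tS rs I 0) + ∑ i ∈ Finset.range (I + 1),
      Ca * (ηc i + ηb i) * Real.log (1 / tS rs I (i + 1)) ≤
        10 * (4 + (rs : ℝ) + (rs : ℝ) ^ 5) + 2 * Ca := by
  have hrs2 : 2 ≤ rs := by omega
  have h4 : (4 : ℝ) ≤ (rr rs 0 : ℝ) := by
    rw [rr_zero]
    exact_mod_cast hrs
  have hpos : ∀ i, (0 : ℝ) < rr rs i := fun i => by
    have := two_le_cast_rr hrs2 i
    linarith
  refine Vale.Agent.P365.J376.hsum_of (A := 3) (B := 4 + (rs : ℝ) + (rs : ℝ) ^ 5) (c := 5) (I := I)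
    (r := fun i => (rr rs i : ℝ)) (ηc := ηc) (ηb := ηb) (t := tS rs I) hCa (by norm_num)
    (by linarith) (by rw [abs_of_pos (by norm_num : (0 : ℝ) < 3)]; linarith)
    (fun i => rr_succ_cast rs i) hηc hηb hη (log_inv_t_zero rs I) ?_ ?_
  · intro i hi
    have h5 := log_inv_t hrs2 (show i ≤ I by omega)
    rw [pow20]
    exact h5
  · have h5 := log_inv_t hrs2 (le_refl I)
    have h7 : 0 ≤ ηc I + ηb I := add_nonneg (hηc I) (hηb I)
    have h8 := two_le_cast_rr hrs2 I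
    calc (ηc I + ηb I) * Real.log (1 / tS rs I (I + 1))
        ≤ (ηc I + ηb I) * (3 * (rr rs I : ℝ) ^ 20) := mul_le_mul_of_nonneg_left h5 h7
      _ ≤ (1 / (rr rs I : ℝ) ^ 22) * (3 * (rr rs I : ℝ) ^ 20) :=
          mul_le_mul_of_nonneg_right (hη I) (by positivity)
      _ = 3 / (rr rs I : ℝ) ^ 2 := by
          have h9 := (hpos I).ne'
          field_simp
      _ ≤ 1 := by
          rw [div_le_one (by positivity)]
          nlinarith

end P365T1.Seq
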