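import Vale.Agent.P365.T1.Final394
import Vale.Agent.P365.T1.LabAdm37
import Vale.Agent.P365.T1.SeqSumB795

/-!
# P365-T1: the label laws of the concrete chain `DD`

Masses `exp (-3 r_i)` for all labels of family `i`, window laws `nuB (Vs z) (exp (-r_i))`,
moving laws `nuS lam (lam tau / 2)` with `tau = 1 / 16384`.
-/

set_option linter.all false

namespace P365T1.Conc

open P365L P365L.TL P365SH Vale.Agent.P365.C937 Vale.Agent.P365.J376 MeasureTheory P365T1.Seq Set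
open P365T1.Lab37 P365T1.Bump
open scoped ENNReal

/-- the mass outside the smooth part -/
noncomputable def tau0 : ℝ := 1 / 16384

theorem tau0_pos : 0 < tau0 := by unfold tau0; norm_num

theorem tau0_le : tau0 ≤ 1 / 16384 := le_rfl

section law

/-- centres of the window laws -/
noncomputable def cS (yf : ℕ → ℤ × ℤ) (Vsf : ℕ → ℤ × ℤ → ℝ) (rs I : ℕ)
    (a : (PP yf rs I).Wn) : ℝ := Vsf (rr rs a.1) a.2

/-- label masses of the chain -/
noncomputable def pS (yf : ℕ → ℤ × ℤ) (rs I : ℕ) (k : (PP yf rs I).Lb) : ℝ :=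
  pL tau0 (qC (PP yf rs I)) k

/-- label laws of the chain -/
noncomputable def nuD (lam : ℝ) (yf : ℕ → ℤ × ℤ) (Vsf : ℕ → ℤ × ℤ → ℝ) (rs I : ℕ)
    (k : (PP yf rs I).Lb) : Measure ℝ :=
  nuT lam tau0 (qC (PP yf rs I)) (cS yf Vsf rs I) (wC (PP yf rs I)) k

/-- density bounds of the label laws of the chain -/
noncomputable def DS (lam : ℝ) (yf : ℕ → ℤ × ℤ) (rs I : ℕ) (k : (PP yf rs I).Lb) : ℝ :=
  DL lam tau0 (qC (PP yf rs I)) (wC (PP yf rs I)) k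

/-- admissible data of the chain -/
abbrev AdmS (lam : ℝ) (yf : ℕ → ℤ × ℤ) (Vsf : ℕ → ℤ × ℤ → ℝ) (rs I : ℕ) : Prop :=
  Adm lam tau0 (qC (PP yf rs I)) (cS yf Vsf rs I) (wC (PP yf rs I))

/-- **the laws are admissible from some first radius on** -/
theorem exists_admS {lam lam' : ℝ} (hlam : 0 < lam) (h : lam' < lam) :
    ∃ R : ℕ, 2 ≤ R ∧ ∀ rs, R ≤ rs → ∀ (yf : ℕ → ℤ × ℤ) (Vsf : ℕ → ℤ × ℤ → ℝ),
      (∀ r, rs ≤ r → ∀ z, |Vsf r z| ≤ lam') → ∀ I, AdmS lam yf Vsf rs I := by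
  obtain ⟨R, hR⟩ := exists_adm_tau hlam h tau0_pos tau0_le
  refine ⟨max 2 R, le_max_left _ _, fun rs hrs yf Vsf hV I => ?_⟩
  refine hR rs ((le_max_right _ _).trans hrs) (PP yf rs I) (fun i => rfl) _ fun a => ?_
  exact hV _ (le_rr (by
    have := (le_max_left 2 R).trans hrs
    omega) _) _

variable {lam : ℝ} {yf : ℕ → ℤ × ℤ} {Vsf : ℕ → ℤ × ℤ → ℝ} {rs I : ℕ}

/-- the skeleton facts -/
theorem lw_DD (h : AdmS lam yf Vsf rs I) : Lw (nuL lam) (pS yf rs I) (nuD lam yf Vsf rs I) where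
  prob := fun k => h.prob k
  p_nonneg := fun k => (h.pL_pos k).le
  p_sum := h.pL_sum
  mix := h.mix
  p_good := by
    have := h.good_ge
    show 1 - pL tau0 (qC (PP yf rs I)) none ≤ 1 / 8192
    linarith

theorem pS_pos (h : AdmS lam yf Vsf rs I) (k : (PP yf rs I).Lb) : 0 < pS yf rs I k := h.pL_pos k

/-- the smooth law at the moving labels -/
theorem nuD_mov (h : AdmS lam yf Vsf rs I) {k : (PP yf rs I).Lb} (hk : (PP yf rs I).mov k) :
    nuD lam yf Vsf rs I k = nuS lam (lam * tau0 / 2) := by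
  rcases hk with rfl | ⟨i, rfl⟩
  · exact h.nuT_good
  · exact h.nuT_mark i

theorem nuD_mov' (h : AdmS lam yf Vsf rs I) {k : (PP yf rs I).Lb}
    (hk : (DD (pS yf rs I) (nuD lam yf Vsf rs I)).mov k) :
    nuD lam yf Vsf rs I k = nuS lam (lam * tau0 / 2) := nuD_mov h hk

theorem l0_pos (hlam : 0 < lam) : 0 < lam * tau0 / 2 := by
  have := tau0_pos
  positivity

theorem l0_lt (hlam : 0 < lam) : lam * tau0 / 2 < lam := by
  have : tau0 = 1 / 16384 := rfl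
  rw [this]
  linarith

theorem two_l0_le (hlam : 0 < lam) : 2 * (lam * tau0 / 2) ≤ lam := by
  have : tau0 = 1 / 16384 := rfl
  rw [this]
  linarith

/-- the laws at the marks -/
theorem nuD_mark (h : AdmS lam yf Vsf rs I) (i : Fin (I + 1)) :
    nuD lam yf Vsf rs I ((PP yf rs I).mark i) = nuS lam (lam * tau0 / 2) := h.nuT_mark i

theorem nuD_good (h : AdmS lam yf Vsf rs I) :
    nuD lam yf Vsf rs I none = nuS lam (lam * tau0 / 2) := h.nuT_good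

/-- the window laws -/
theorem nuD_win {i : ℕ} (hi : i ≤ I)
    (z : ((Xr (rr rs i)).erase (yf (rr rs i)) : Finset (ℤ × ℤ))) :
    nuD lam yf Vsf rs I ((PP yf rs I).win ⟨⟨i, Nat.lt_succ_of_le hi⟩, z⟩) =
      nuB (Vsf (rr rs i) z) (Real.exp (-(rr rs i : ℝ))) := rfl

/-- masses of the pattern labels -/
theorem pS_pat {i : ℕ} (hi : i ≤ I) (a : Loc) :
    pS yf rs I ((PP yf rs I).pat i a) = Real.exp (-(3 * (rr rs i : ℝ))) := by
  unfold Par.pat
  rw [dif_pos (show i < (PP yf rs I).I + 1 from Nat.lt_succ_of_le hi)]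
  split_ifs with h2
  · rfl
  · rfl

theorem pS_pat_DD {i : ℕ} (hi : i ≤ I) (a : Loc) :
    (DD (pS yf rs I) (nuD lam yf Vsf rs I)).p ((DD (pS yf rs I) (nuD lam yf Vsf rs I)).pat i a) =
      Real.exp (-(3 * (rr rs i : ℝ))) := pS_pat hi a

/-- supports -/
theorem nuD_law (h : AdmS lam yf Vsf rs I) (k : (PP yf rs I).Lb) :
    Law lam (nuD lam yf Vsf rs I k) := h.law k

theorem nuD_supp (h : AdmS lam yf Vsf rs I) (k : (PP yf rs I).Lb) :
    nuD lam yf Vsf rs I k (Set.Icc (-lam) lam)ᶜ = 0 := h.supp k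

/-- densities -/
theorem nuD_densLe (h : AdmS lam yf Vsf rs I) (k : (PP yf rs I).Lb) :
    DensLe (DS lam yf rs I k) (nuD lam yf Vsf rs I k) := h.densLe k

theorem DS_pos (h : AdmS lam yf Vsf rs I) (k : (PP yf rs I).Lb) : 0 < DS lam yf rs I k := h.DL_pos k

theorem sum_pS_DS (h : AdmS lam yf Vsf rs I) :
    ∑ k, pS yf rs I k * DS lam yf rs I k ≤ 2 / lam := h.sum_mul_le

theorem pS_mul_DS_le (h : AdmS lam yf Vsf rs I) (k : (PP yf rs I).Lb) :
    pS yf rs I k * DS lam yf rs I k ≤ 1 / lam := h.mul_le k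

/-- cost constant -/
noncomputable def CaS (lam E : ℝ) : ℝ := 20 * CS lam (lam * tau0 / 2) * (1 + E ^ 2)

theorem CaS_nonneg (lam E : ℝ) : 0 ≤ CaS lam E := by
  unfold CaS CS
  positivity

/-- **costs of the moving labels** -/
theorem cost_nuS_le {lam : ℝ} (hlam : 0 < lam) (E : ℝ) :
    CostLe E (CaS lam E) (nuS lam (lam * tau0 / 2)) := by
  intro ι _ _ A W f z hA hW
  exact cost_nuS (l0_pos hlam) (l0_lt hlam) hA hW f z E

theorem cost_DD (h : AdmS lam yf Vsf rs I) (E : ℝ) {k : (PP yf rs I).Lb}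
    (hk : (DD (pS yf rs I) (nuD lam yf Vsf rs I)).mov k) :
    CostLe E (CaS lam E) (nuD lam yf Vsf rs I k) := by
  rw [nuD_mov' h hk]
  exact cost_nuS_le h.hlam E

end law

/-- **the sum of the errors**, in the form of `flow_in_of` -/
theorem hsum_DD (Ca : ℝ) (hCa : 0 ≤ Ca) : ∃ R : ℕ, ∀ rs : ℕ, R ≤ rs → ∃ B : ℝ, ∀ I : ℕ,
    10 * Real.log (1 / tS rs I 0) + ∑ i ∈ Finset.range (I + 1),
      Ca * (1 / (rr rs i : ℝ) ^ 30 + 1 / (rr rs i : ℝ) ^ 30) *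
        Real.log (1 / tS rs I (i + 1)) ≤ B := by
  refine ⟨4, fun rs hrs => ⟨10 * (4 + (rs : ℝ) + (rs : ℝ) ^ 5) + 2 * Ca, fun I => ?_⟩⟩
  refine hsum_poly hrs I hCa (fun i => by positivity) (fun i => by positivity) fun i => ?_
  have h2 : (2 : ℝ) ≤ (rr rs i : ℝ) := two_le_cast_rr (by omega) i
  have h8 : (2 : ℝ) ≤ (rr rs i : ℝ) ^ 8 := by
    calc (2 : ℝ) ≤ 2 ^ 8 := by norm_num
      _ ≤ (rr rs i : ℝ) ^ 8 := by gcongr
  have h22 : (0 : ℝ) < (rr rs i : ℝ) ^ 22 := by positivity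
  have h30 : (rr rs i : ℝ) ^ 30 = (rr rs i : ℝ) ^ 22 * (rr rs i : ℝ) ^ 8 := by ring
  rw [h30, ← two_mul, mul_one_div, div_le_div_iff₀ (by positivity) h22]
  nlinarith

/-- **flow_in from the hub inequalities of the concrete laws** -/
theorem flow_in_of_hubs {lam : ℝ} (hlam : 0 < lam)
    (H : ∀ E : ℝ, |E| < 4 + lam → ∃ (yf : ℕ → ℤ × ℤ) (Vsf : ℕ → ℤ × ℤ → ℝ) (lam' : ℝ) (R : ℕ),
      lam' < lam ∧ (∀ r, R ≤ r → yf r ∈ Xr r) ∧ (∀ r, R ≤ r → ∀ z, |Vsf r z| ≤ lam') ∧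
      ∀ rs, R ≤ rs → ∀ I, AdmS lam yf Vsf rs I →
        ∃ N₁ : ℕ, ∀ N : ℕ, N₁ ≤ N → (∀ i ≤ I, mS rs i ∣ N) → ∀ _ : NeZero N,
          (∀ i ≤ I, ∀ s ∈ Ioo (tS rs I (i + 1)) 1,
            (DD (pS yf rs I) (nuD lam yf Vsf rs I)).HC N E i s (1 / (rr rs i : ℝ) ^ 30)) ∧
          (∀ i ≤ I, ∀ s ∈ Ioo (tS rs I (i + 1)) 1,
            (DD (pS yf rs I) (nuD lam yf Vsf rs I)).HB N E i s (1 / (rr rs i : ℝ) ^ 30)
              (88 * (N : ℝ) ^ 2))) :
    FlowIn (nuL lam) lam := by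
  refine flow_in_of hsum_DD fun E hE => ?_
  obtain ⟨yf, Vsf, lam', R, hl, hy, hV, h⟩ := H E hE
  obtain ⟨R', hR', hadm⟩ := exists_admS hlam hl
  refine ⟨yf, CaS lam E, max R R', CaS_nonneg _ _, hR'.trans (le_max_right _ _),
    fun r hr => hy r ((le_max_left _ _).trans hr), fun rs hrs I => ?_⟩
  have h1 : R ≤ rs := (le_max_left _ _).trans hrs
  have h2 : R' ≤ rs := (le_max_right _ _).trans hrs
  have hA : AdmS lam yf Vsf rs I := hadm rs h2 yf Vsf (fun r hr z => hV r (h1.trans hr) z) I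
  exact ⟨pS yf rs I, nuD lam yf Vsf rs I, lw_DD hA, fun k hk => cost_DD hA E hk,
    h rs h1 I hA⟩

end P365T1.Conc
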