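import Vale.Agent.P365.T1.HCDD77
import Vale.Agent.P365.T1.LawInst795

/-!
# P365-T1: the flow from the bulk hub alone
-/

set_option linter.all false

namespace P365T1.Conc

open P365L P365L.TL P365SH Vale.Agent.P365.C937 Vale.Agent.P365.J376 MeasureTheory P365T1.Seq Set
open P365T1.Link P365T1.Bump P365T1.HCnum P365T1.Lab37 Filter
open scoped ENNReal

/-- the bulk hub of the concrete chain, for all large first radii -/
def HBall (lam : ℝ) : Prop :=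
  ∀ (E : ℝ), |E| < 4 + lam → ∀ (yf : ℕ → ℤ × ℤ) (Vsf : ℕ → ℤ × ℤ → ℝ) (lam' : ℝ) (R : ℕ),
    0 < lam' → lam' < lam → 2 ≤ R → (∀ r, R ≤ r → yf r ∈ Xr r) → (∀ r z, |Vsf r z| ≤ lam') →
    ∃ R' : ℕ, R ≤ R' ∧ ∀ rs, R' ≤ rs → ∀ I, AdmS lam yf Vsf rs I →
      ∃ N₁ : ℕ, ∀ N : ℕ, N₁ ≤ N → (∀ i ≤ I, mS rs i ∣ N) → ∀ _ : NeZero N,
        ∀ i ≤ I, ∀ s ∈ Ioo (tS rs I (i + 1)) 1,
          (DD (pS yf rs I) (nuD lam yf Vsf rs I)).HB N E i s (1 / (rr rs i : ℝ) ^ 30)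
            (88 * (N : ℝ) ^ 2)

/-- **the flow from the bulk hub** -/
theorem flow_in_of_HB {lam : ℝ} (hlam : 0 < lam) (H : HBall lam) : FlowIn (nuL lam) lam := by
  refine flow_in_of_hubs hlam fun E hE => ?_
  obtain ⟨lam', yf, Vsf, R, hl0, hl1, hR, hy, hV, hHC⟩ :=
    hc_dd hlam hE (l0_pos hlam) (two_l0_le hlam)
  obtain ⟨R', hRR, hHB⟩ := H E hE yf Vsf lam' R hl0 hl1 hR hy hV
  refine ⟨yf, Vsf, lam', R', hl1, fun r hr => hy r (hRR.trans hr), fun r _ z => hV r z,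
    fun rs hrs I hA => ?_⟩
  obtain ⟨N₁, hN₁⟩ := hHB rs hrs I hA
  refine ⟨N₁, fun N hN hdvd hne => ⟨?_, hN₁ N hN hdvd hne⟩⟩
  intro i hi s hs
  exact hHC rs (hRR.trans hrs) I (nuL lam) (pS yf rs I) (nuD lam yf Vsf rs I) (lw_DD hA)
    (fun k hk => nuD_mov' hA hk) (fun i hi z => nuD_win hi z) N hdvd i hi s hs

end P365T1.Conc
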