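import Vale.Agent.P365.T1.Seq795

/-!
# P365-T1: numerics of the NORMAL half of the bulk hub, real-number part (helper968)
-/

set_option linter.all false

namespace P365T1.HBnum

open Real Filter Topology P365T1.Seq

/-- `A r^d exp(C r^4) exp(-r^5) ≤ δ / r^30` for all large `r` -/
theorem ev_five (A C : ℝ) (d : ℕ) {δ : ℝ} (hA : 0 ≤ A) (hδ : 0 < δ) :
    ∀ᶠ r : ℕ in atTop, A * (r : ℝ) ^ d * Real.exp (C * (r : ℝ) ^ 4) * Real.exp (-((r : ℝ) ^ 5)) ≤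
      δ / (r : ℝ) ^ 30 := by
  have h1 : ∀ᶠ r : ℕ in atTop, C + 1 ≤ (r : ℝ) :=
    (tendsto_natCast_atTop_atTop (R := ℝ)).eventually_ge_atTop (C + 1)
  filter_upwards [h1, ev_pow_exp_le A (d + 30) one_pos hδ, eventually_ge_atTop 1] with r h2 h3 h4
  have hr : (1 : ℝ) ≤ r := by exact_mod_cast h4
  have hr0 : (0 : ℝ) < r := by linarith
  rw [le_div_iff₀ (by positivity), mul_assoc (A * (r : ℝ) ^ d), ← Real.exp_add]
  have h5 : C * (r : ℝ) ^ 4 + -((r : ℝ) ^ 5) ≤ -(1 * r) := by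
    have h6 : (r : ℝ) ≤ (r : ℝ) ^ 4 := by
      calc (r : ℝ) = (r : ℝ) ^ 1 := (pow_one _).symm
        _ ≤ (r : ℝ) ^ 4 := pow_le_pow_right₀ hr (by norm_num)
    have h7 : (C + 1) * (r : ℝ) ^ 4 ≤ r * (r : ℝ) ^ 4 := by gcongr
    have h8 : (r : ℝ) * (r : ℝ) ^ 4 = (r : ℝ) ^ 5 := by ring
    linarith
  calc A * (r : ℝ) ^ d * Real.exp (C * (r : ℝ) ^ 4 + -((r : ℝ) ^ 5)) * (r : ℝ) ^ 30
      ≤ A * (r : ℝ) ^ d * Real.exp (-(1 * r)) * (r : ℝ) ^ 30 := by gcongr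
    _ = A * (r : ℝ) ^ (d + 30) * Real.exp (-(1 * r)) := by ring
    _ ≤ δ := h3

/-- `A r^d exp(-r^2) ≤ δ / r^30` for all large `r` -/
theorem ev_sq (A : ℝ) (d : ℕ) {δ : ℝ} (hA : 0 ≤ A) (hδ : 0 < δ) :
    ∀ᶠ r : ℕ in atTop, A * (r : ℝ) ^ d * Real.exp (-((r : ℝ) ^ 2)) ≤ δ / (r : ℝ) ^ 30 := by
  filter_upwards [ev_pow_exp_le A (d + 30) one_pos hδ, eventually_ge_atTop 1] with r h3 h4
  have hr : (1 : ℝ) ≤ r := by exact_mod_cast h4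
  have hr0 : (0 : ℝ) < r := by linarith
  rw [le_div_iff₀ (by positivity)]
  have h5 : -((r : ℝ) ^ 2) ≤ -(1 * r) := by nlinarith
  calc A * (r : ℝ) ^ d * Real.exp (-((r : ℝ) ^ 2)) * (r : ℝ) ^ 30
      ≤ A * (r : ℝ) ^ d * Real.exp (-(1 * r)) * (r : ℝ) ^ 30 := by gcongr
    _ = A * (r : ℝ) ^ (d + 30) * Real.exp (-(1 * r)) := by ring
    _ ≤ δ := h3

/-- number of sites of the window -/
def nn (r : ℕ) : ℕ := 9 * (8 * r) ^ 2

theorem nn_cast (r : ℕ) : (nn r : ℝ) = 576 * (r : ℝ) ^ 2 := by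
  unfold nn
  push_cast
  ring

/-- exponent of the cut-off -/
noncomputable def C3 (B : ℝ) : ℝ := 576 * Real.log B + 1

theorem C3_ge {B : ℝ} (hB : 1 ≤ B) : 1 ≤ C3 B := by
  unfold C3
  have := Real.log_nonneg hB
  linarith

/-- the cut-off -/
noncomputable def ee (B : ℝ) (r : ℕ) : ℝ := Real.exp (-(C3 B * (r : ℝ) ^ 2))

theorem ee_pos (B : ℝ) (r : ℕ) : 0 < ee B r := Real.exp_pos _

theorem ee_le_half {B : ℝ} (hB : 1 ≤ B) {r : ℕ} (hr : 1 ≤ r) : ee B r ≤ 1 / 2 := by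
  have h1 : (1 : ℝ) ≤ r := by exact_mod_cast hr
  have h2 := C3_ge hB
  have h3 : (1 : ℝ) ≤ C3 B * (r : ℝ) ^ 2 := by nlinarith
  unfold ee
  have h4 : Real.exp (-(C3 B * (r : ℝ) ^ 2)) ≤ Real.exp (-1) := Real.exp_le_exp.2 (by linarith)
  have h5 : Real.exp (-1) ≤ 1 / 2 := by
    have := Real.exp_one_gt_d9
    rw [Real.exp_neg, one_div]
    exact inv_anti₀ (by norm_num) (by linarith)
  exact h4.trans h5

/-- the power of the switch constant is beaten by the cut-off -/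
theorem pow_mul_ee {B : ℝ} (hB : 1 ≤ B) (r : ℕ) :
    B ^ nn r * ee B r = Real.exp (-((r : ℝ) ^ 2)) := by
  have hB0 : 0 < B := by linarith
  have h1 : B ^ nn r = Real.exp (Real.log B * nn r) := by
    rw [Real.exp_mul, Real.exp_log hB0, Real.rpow_natCast]
  rw [h1, ee, ← Real.exp_add, nn_cast, C3]
  congr 1
  ring

theorem pow_le_exp {B : ℝ} (hB : 1 ≤ B) {r : ℕ} (hr : 1 ≤ r) :
    B ^ nn r ≤ Real.exp (576 * Real.log B * (r : ℝ) ^ 4) := by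
  have hB0 : 0 < B := by linarith
  have h1 : B ^ nn r = Real.exp (Real.log B * nn r) := by
    rw [Real.exp_mul, Real.exp_log hB0, Real.rpow_natCast]
  rw [h1, nn_cast]
  refine Real.exp_le_exp.2 ?_
  have h2 := Real.log_nonneg hB
  have h3 : (1 : ℝ) ≤ r := by exact_mod_cast hr
  have h4 : (r : ℝ) ^ 2 ≤ (r : ℝ) ^ 4 := pow_le_pow_right₀ h3 (by norm_num)
  calc Real.log B * (576 * (r : ℝ) ^ 2) = 576 * Real.log B * (r : ℝ) ^ 2 := by ring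
    _ ≤ 576 * Real.log B * (r : ℝ) ^ 4 := by gcongr

/-- the main factor of the target constant -/
theorem big_le_exp {B G : ℝ} (hB : 1 ≤ B) (hG : 1 ≤ G) {r : ℕ} (hr : 1 ≤ r) :
    (G / (ee B r ^ 2 * Real.exp (-(r : ℝ)) ^ 2)) ^ nn r ≤
      Real.exp (576 * (Real.log G + 2 * C3 B + 2) * (r : ℝ) ^ 4) := by
  have hG0 : 0 < G := by linarith
  have h3 : (1 : ℝ) ≤ r := by exact_mod_cast hr
  have h0 : G / (ee B r ^ 2 * Real.exp (-(r : ℝ)) ^ 2) =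
      Real.exp (Real.log G + 2 * (C3 B * (r : ℝ) ^ 2) + 2 * r) := by
    rw [Real.exp_add, Real.exp_add, Real.exp_log hG0, ee, ← Real.exp_nat_mul, ← Real.exp_nat_mul,
      div_eq_mul_inv, mul_inv, ← Real.exp_neg, ← Real.exp_neg, mul_assoc]
    push_cast
    congr 3 <;> ring
  rw [h0, ← Real.exp_nat_mul, nn_cast]
  refine Real.exp_le_exp.2 ?_
  have h2 := Real.log_nonneg hG
  have h5 := C3_ge hB
  have h4 : (r : ℝ) ^ 2 ≤ (r : ℝ) ^ 4 := pow_le_pow_right₀ h3 (by norm_num)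
  have h6 : (r : ℝ) ^ 3 ≤ (r : ℝ) ^ 4 := pow_le_pow_right₀ h3 (by norm_num)
  calc 576 * (r : ℝ) ^ 2 * (Real.log G + 2 * (C3 B * (r : ℝ) ^ 2) + 2 * r)
      = 576 * (Real.log G * (r : ℝ) ^ 2 + 2 * C3 B * (r : ℝ) ^ 4 + 2 * (r : ℝ) ^ 3) := by ring
    _ ≤ 576 * (Real.log G * (r : ℝ) ^ 4 + 2 * C3 B * (r : ℝ) ^ 4 + 2 * (r : ℝ) ^ 4) := by gcongr
    _ = 576 * (Real.log G + 2 * C3 B + 2) * (r : ℝ) ^ 4 := by ring

/-- real form of `ε1` -/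
noncomputable def e1R (B Cv : ℝ) (r : ℕ) : ℝ := 16 * Cv * nn r * (B ^ nn r * ee B r)

/-- real form of `K2` -/
noncomputable def K2R (B B1 G : ℝ) (r : ℕ) : ℝ :=
  8 * B1 * nn r * (B ^ nn r * (G / (ee B r ^ 2 * Real.exp (-(r : ℝ)) ^ 2)) ^ nn r)

/-- real form of the additive constant -/
noncomputable def A1R (B Cv B1 G Dm : ℝ) (r : ℕ) : ℝ :=
  4 * (4 * (16 * (r : ℝ)) ^ 2 * 2 ^ nn r +
    (e1R B Cv r * nn r + K2R B B1 G r) * ((16 * (r : ℝ)) ^ 2 * (Real.pi * Dm)))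

theorem e1R_nonneg {B Cv : ℝ} (hB : 1 ≤ B) (hCv : 0 ≤ Cv) (r : ℕ) : 0 ≤ e1R B Cv r := by
  unfold e1R
  have := ee_pos B r
  positivity

theorem K2R_nonneg {B B1 G : ℝ} (hB : 1 ≤ B) (hB1 : 0 ≤ B1) (hG : 1 ≤ G) (r : ℕ) :
    0 ≤ K2R B B1 G r := by
  unfold K2R
  have := ee_pos B r
  positivity

theorem A1R_nonneg {B Cv B1 G Dm : ℝ} (hB : 1 ≤ B) (hCv : 0 ≤ Cv) (hB1 : 0 ≤ B1) (hG : 1 ≤ G)
    (hDm : 0 ≤ Dm) (r : ℕ) : 0 ≤ A1R B Cv B1 G Dm r := by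
  unfold A1R
  have := e1R_nonneg hB hCv r
  have := K2R_nonneg hB hB1 hG r
  have := Real.pi_pos
  positivity

theorem K2R_le {B B1 G : ℝ} (hB : 1 ≤ B) (hB1 : 0 ≤ B1) (hG : 1 ≤ G) {r : ℕ} (hr : 1 ≤ r) :
    K2R B B1 G r ≤ 4608 * B1 * (r : ℝ) ^ 2 *
      Real.exp (576 * (Real.log B + Real.log G + 2 * C3 B + 2) * (r : ℝ) ^ 4) := by
  have h1 := pow_le_exp hB hr
  have h2 := big_le_exp hB hG hr
  have h0 : 0 ≤ (G / (ee B r ^ 2 * Real.exp (-(r : ℝ)) ^ 2)) ^ nn r := by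
    have := ee_pos B r
    positivity
  calc K2R B B1 G r
      ≤ 8 * B1 * nn r * (Real.exp (576 * Real.log B * (r : ℝ) ^ 4) *
        Real.exp (576 * (Real.log G + 2 * C3 B + 2) * (r : ℝ) ^ 4)) := by
        unfold K2R
        gcongr
    _ = 4608 * B1 * (r : ℝ) ^ 2 *
      Real.exp (576 * (Real.log B + Real.log G + 2 * C3 B + 2) * (r : ℝ) ^ 4) := by
        rw [← Real.exp_add, nn_cast, show 576 * Real.log B * (r : ℝ) ^ 4 +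
          576 * (Real.log G + 2 * C3 B + 2) * (r : ℝ) ^ 4 =
          576 * (Real.log B + Real.log G + 2 * C3 B + 2) * (r : ℝ) ^ 4 by ring]
        ring

/-- **first numerical condition** of the NORMAL half -/
theorem ev_h1 {B Cv B1 G : ℝ} (hB : 1 ≤ B) (hCv : 0 ≤ Cv) (hB1 : 0 ≤ B1) (hG : 1 ≤ G) :
    ∀ᶠ r : ℕ in atTop, 2 * (e1R B Cv r * (25 * ((8 * r : ℕ) : ℝ) ^ 2) +
      K2R B B1 G r * ((Real.exp (-(3 * (r : ℝ))))⁻¹) ^ ((8 * r) ^ 2) * ((8 * r : ℕ) : ℝ) ^ 2 *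
        Real.exp (-((r : ℝ) ^ 5))) ≤ 1 / (r : ℝ) ^ 30 / 2 := by
  filter_upwards [ev_sq (2 * 25 * 64 * 9216 * Cv) 4 (δ := 1 / 4) (by positivity) (by norm_num),
    ev_five (2 * 64 * 4608 * B1)
      (576 * (Real.log B + Real.log G + 2 * C3 B + 2) + 192) 4 (δ := 1 / 4) (by positivity)
      (by norm_num), eventually_ge_atTop 1] with r h1 h2 hr
  have h3 : (1 : ℝ) ≤ r := by exact_mod_cast hr
  have hr0 : (0 : ℝ) < r := by linarith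
  have hc : ((8 * r : ℕ) : ℝ) = 8 * (r : ℝ) := by push_cast; ring
  have e1 : 2 * (e1R B Cv r * (25 * ((8 * r : ℕ) : ℝ) ^ 2)) =
      2 * 25 * 64 * 9216 * Cv * (r : ℝ) ^ 4 * Real.exp (-((r : ℝ) ^ 2)) := by
    unfold e1R
    rw [pow_mul_ee hB, nn_cast, hc]
    ring
  have e2 : ((Real.exp (-(3 * (r : ℝ))))⁻¹) ^ ((8 * r) ^ 2) ≤ Real.exp (192 * (r : ℝ) ^ 4) := by
    rw [← Real.exp_neg, ← Real.exp_nat_mul]
    refine Real.exp_le_exp.2 ?_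
    push_cast
    have h6 : (r : ℝ) ^ 3 ≤ (r : ℝ) ^ 4 := pow_le_pow_right₀ h3 (by norm_num)
    nlinarith
  have hK := K2R_le hB hB1 hG hr
  have hK0 := K2R_nonneg hB hB1 hG r
  have e3 : 2 * (K2R B B1 G r * ((Real.exp (-(3 * (r : ℝ))))⁻¹) ^ ((8 * r) ^ 2) *
      ((8 * r : ℕ) : ℝ) ^ 2 * Real.exp (-((r : ℝ) ^ 5))) ≤
      2 * 64 * 4608 * B1 * (r : ℝ) ^ 4 * Real.exp
        ((576 * (Real.log B + Real.log G + 2 * C3 B + 2) + 192) * (r : ℝ) ^ 4) *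
        Real.exp (-((r : ℝ) ^ 5)) := by
    calc _ ≤ 2 * ((4608 * B1 * (r : ℝ) ^ 2 *
          Real.exp (576 * (Real.log B + Real.log G + 2 * C3 B + 2) * (r : ℝ) ^ 4)) *
          Real.exp (192 * (r : ℝ) ^ 4) *
          ((8 * r : ℕ) : ℝ) ^ 2 * Real.exp (-((r : ℝ) ^ 5))) := by gcongr
      _ = _ := by
        rw [hc, add_mul, Real.exp_add]
        ring
  have e4 : 1 / (r : ℝ) ^ 30 / 2 = 1 / 4 / (r : ℝ) ^ 30 + 1 / 4 / (r : ℝ) ^ 30 := by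
    field_simp
    norm_num
  rw [mul_add, e1, e4]
  exact add_le_add h1 (e3.trans h2)

/-- **second numerical condition** of the NORMAL half -/
theorem ev_h2 {B Cv B1 G Dm : ℝ} (hB : 1 ≤ B) (hCv : 0 ≤ Cv) (hB1 : 0 ≤ B1) (hG : 1 ≤ G)
    (hDm : 0 ≤ Dm) :
    ∀ᶠ r : ℕ in atTop, 2 * (Real.exp (-(r : ℝ)) * Real.exp (-((r : ℝ) ^ 5))) *
      A1R B Cv B1 G Dm r ≤ 1 / (r : ℝ) ^ 30 / 2 := by
  have hpi := Real.pi_pos
  filter_upwards [ev_five (8 * 4 * 256) (576 * Real.log 2) 2 (δ := 1 / 8) (by positivity)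
      (by norm_num),
    ev_five (8 * 16 * Cv * 576 ^ 2 * 256 * (Real.pi * Dm)) 0 6 (δ := 1 / 8) (by positivity)
      (by norm_num),
    ev_five (8 * 4608 * B1 * 256 * (Real.pi * Dm))
      (576 * (Real.log B + Real.log G + 2 * C3 B + 2)) 4 (δ := 1 / 8) (by positivity)
      (by norm_num), eventually_ge_atTop 1] with r h1 h2 h4 hr
  have h3 : (1 : ℝ) ≤ r := by exact_mod_cast hr
  have hr0 : (0 : ℝ) < r := by linarith
  have hK := K2R_le hB hB1 hG hr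
  have hK0 := K2R_nonneg hB hB1 hG r
  have h2n := pow_le_exp (B := 2) (by norm_num) hr
  have hx : Real.exp (-(r : ℝ)) ≤ 1 := Real.exp_le_one_iff.2 (by linarith)
  have he1 : e1R B Cv r ≤ 16 * Cv * 576 * (r : ℝ) ^ 2 := by
    unfold e1R
    rw [pow_mul_ee hB, nn_cast]
    have : Real.exp (-((r : ℝ) ^ 2)) ≤ 1 := Real.exp_le_one_iff.2 (by nlinarith)
    calc 16 * Cv * (576 * (r : ℝ) ^ 2) * Real.exp (-((r : ℝ) ^ 2))
        ≤ 16 * Cv * (576 * (r : ℝ) ^ 2) * 1 := by gcongr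
      _ = _ := by ring
  have hA0 := A1R_nonneg hB hCv hB1 hG hDm r
  have hA : A1R B Cv B1 G Dm r ≤ 4 * (4 * (16 * (r : ℝ)) ^ 2 *
      Real.exp (576 * Real.log 2 * (r : ℝ) ^ 4) +
      (16 * Cv * 576 * (r : ℝ) ^ 2 * (576 * (r : ℝ) ^ 2) + 4608 * B1 * (r : ℝ) ^ 2 *
      Real.exp (576 * (Real.log B + Real.log G + 2 * C3 B + 2) * (r : ℝ) ^ 4)) *
        ((16 * (r : ℝ)) ^ 2 * (Real.pi * Dm))) := by
    unfold A1R
    rw [nn_cast] at *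
    gcongr
  calc 2 * (Real.exp (-(r : ℝ)) * Real.exp (-((r : ℝ) ^ 5))) * A1R B Cv B1 G Dm r
      ≤ 2 * (1 * Real.exp (-((r : ℝ) ^ 5))) * (4 * (4 * (16 * (r : ℝ)) ^ 2 *
      Real.exp (576 * Real.log 2 * (r : ℝ) ^ 4) +
      (16 * Cv * 576 * (r : ℝ) ^ 2 * (576 * (r : ℝ) ^ 2) + 4608 * B1 * (r : ℝ) ^ 2 *
      Real.exp (576 * (Real.log B + Real.log G + 2 * C3 B + 2) * (r : ℝ) ^ 4)) *
        ((16 * (r : ℝ)) ^ 2 * (Real.pi * Dm)))) := by gcongr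
    _ = 8 * 4 * 256 * (r : ℝ) ^ 2 * Real.exp (576 * Real.log 2 * (r : ℝ) ^ 4) *
          Real.exp (-((r : ℝ) ^ 5)) +
        8 * 16 * Cv * 576 ^ 2 * 256 * (Real.pi * Dm) * (r : ℝ) ^ 6 * Real.exp (0 * (r : ℝ) ^ 4) *
          Real.exp (-((r : ℝ) ^ 5)) +
        8 * 4608 * B1 * 256 * (Real.pi * Dm) * (r : ℝ) ^ 4 *
          Real.exp (576 * (Real.log B + Real.log G + 2 * C3 B + 2) * (r : ℝ) ^ 4) *
          Real.exp (-((r : ℝ) ^ 5)) := by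
        rw [zero_mul, Real.exp_zero]
        ring
    _ ≤ 1 / 8 / (r : ℝ) ^ 30 + 1 / 8 / (r : ℝ) ^ 30 + 1 / 8 / (r : ℝ) ^ 30 :=
        add_le_add (add_le_add h1 h2) h4
    _ ≤ 1 / (r : ℝ) ^ 30 / 2 := by
        rw [← add_div, ← add_div, div_div, div_le_div_iff₀ (by positivity) (by positivity)]
        nlinarith [pow_pos hr0 30]

end P365T1.HBnum
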