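import Vale.Agent.P365.T1c.NormalB
import Vale.Agent.P365.T1.HBreal968

/-!
# P365-T1: numerics of the NORMAL half of the bulk hub: the constants of `V3.Ok.normA` (helper968)
-/

set_option linter.all false

namespace P365T1.HBnum

open MeasureTheory P365T1 P365T1.Normal P365T1.Switch P365T1.MAff P365T1.OneVar P365T1.Bad
open Filter
open scoped ENNReal

variable {Λ : Type*} [Fintype Λ]

theorem ofReal_two : ENNReal.ofReal 2 = 2 := by simp

theorem ofReal_four : ENNReal.ofReal 4 = 4 := by simp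

/-- the switch constant -/
theorem Csw_le {p D : Λ → ℝ} {g : Λ} {L κg ag C0 : ℝ}
    (hS : ∑ b, ENNReal.ofReal (p b) * CuE L (D b) ≤ ENNReal.ofReal C0) (hp : 1 / 2 ≤ p g) (n : ℕ) :
    Csw p D g L κg ag n ≤
      ENNReal.ofReal (2 * (max 1 C0 * 2 * max 1 (Kd L κg ag)) ^ n) := by
  have h1 : ENNReal.ofReal (1 / p g) ≤ ENNReal.ofReal 2 := by
    refine ENNReal.ofReal_le_ofReal ?_
    rw [div_le_iff₀ (by linarith)]
    linarith
  have h2 := hS.trans (ENNReal.ofReal_le_ofReal (le_max_right 1 C0))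
  have m1 : (0 : ℝ) ≤ max 1 C0 := zero_le_one.trans (le_max_left _ _)
  have m2 : (0 : ℝ) ≤ max 1 (Kd L κg ag) := zero_le_one.trans (le_max_left _ _)
  calc Csw p D g L κg ag n
      ≤ ENNReal.ofReal 2 * ENNReal.ofReal (max 1 C0) ^ n * ENNReal.ofReal 2 ^ n *
          ENNReal.ofReal (max 1 (Kd L κg ag)) ^ n := by
        unfold Csw
        rw [ofReal_two]
        gcongr
        rw [← ofReal_two]
        exact h1
    _ = _ := by
        rw [← ENNReal.ofReal_pow m1, ← ENNReal.ofReal_pow (by norm_num), ← ENNReal.ofReal_pow m2,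
          ← ENNReal.ofReal_mul (by norm_num), ← ENNReal.ofReal_mul (by positivity),
          ← ENNReal.ofReal_mul (by positivity)]
        congr 1
        rw [mul_pow, mul_pow]
        ring

/-- base of the cofactor bound -/
noncomputable def c00 (E L : ℝ) : ℝ := min L 1 * (C0c E L)⁻¹

theorem c00_pos {E L : ℝ} (hL : 0 < L) : 0 < c00 E L := by
  unfold c00
  have h1 := C0c_pos (E := E) hL
  have h2 : 0 < min L 1 := lt_min hL one_pos
  positivity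

/-- front factor of the Harnack constant -/
noncomputable def B1c (E L : ℝ) : ℝ := 2 * (1 + (E ^ 2 + (L + 1) ^ 2)) * (4 / L ^ 2)

/-- base of the Harnack constant -/
noncomputable def Gc (E L k0 : ℝ) : ℝ := max 1 (52488 / (c00 E L ^ 2 * k0))

theorem KBm_le {E L κ ε k0 x : ℝ} (hL : 0 < L) (hε : 0 < ε) (hk0 : 0 < k0) (hx : 0 < x)
    (hκ : k0 * x ^ 2 ≤ κ) (n : ℕ) :
    KBm E L κ ε n ≤ B1c E L * (Gc E L k0 / (ε ^ 2 * x ^ 2)) ^ n := by
  have hc := c00_pos (E := E) hL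
  have hκ0 : 0 < κ := lt_of_lt_of_le (by positivity) hκ
  have h1 : KBm E L κ ε n = B1c E L * (52488 / (c00 E L ^ 2 * ε ^ 2 * κ)) ^ n := by
    unfold KBm KB c2c B1c
    rw [show min L 1 * (C0c E L)⁻¹ = c00 E L from rfl]
    rw [div_pow, div_pow (52488 : ℝ), mul_pow, mul_pow, mul_pow, mul_pow, ← pow_mul, ← pow_mul,
      ← pow_mul, ← pow_mul, mul_comm n 2]
    field_simp
    ring
  rw [h1]
  have hB : 0 ≤ B1c E L := by
    unfold B1c
    positivity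
  refine mul_le_mul_of_nonneg_left (pow_le_pow_left₀ (by positivity) ?_ n) hB
  calc 52488 / (c00 E L ^ 2 * ε ^ 2 * κ) ≤ 52488 / (c00 E L ^ 2 * ε ^ 2 * (k0 * x ^ 2)) := by
        gcongr
    _ = 52488 / (c00 E L ^ 2 * k0) / (ε ^ 2 * x ^ 2) := by
        field_simp
    _ ≤ Gc E L k0 / (ε ^ 2 * x ^ 2) := by
        gcongr
        exact le_max_right _ _

theorem ofReal_two_nat (n : ℕ) : (2 * n : ℝ≥0∞) = ENNReal.ofReal (2 * n) := by
  rw [ENNReal.ofReal_mul (by norm_num), ofReal_two, ENNReal.ofReal_natCast]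

theorem Ceps_le {p D : Λ → ℝ} {g : Λ} {gp : Λ → GP} {lam κg ag E ε C0 : ℝ} {gpg : GP}
    (hε : 0 ≤ ε) (hS : ∑ b, ENNReal.ofReal (p b) * CuE (lam + |E| + 1) (D b) ≤ ENNReal.ofReal C0)
    (hp : 1 / 2 ≤ p g) (hg : gp g = gpg) (n : ℕ) :
    Ceps p D g gp lam κg ag E ε n ≤ ENNReal.ofReal (16 * |Cev E gpg gpg * (8 * (lam + 1))| * n *
      ((max 1 C0 * 2 * max 1 (Kd (lam + |E| + 1) κg ag)) ^ n * ε)) := by
  have h1 := Csw_le (κg := κg) (ag := ag) hS hp n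
  have m1 : (0 : ℝ) ≤ max 1 C0 := zero_le_one.trans (le_max_left _ _)
  have m2 : (0 : ℝ) ≤ max 1 (Kd (lam + |E| + 1) κg ag) := zero_le_one.trans (le_max_left _ _)
  have h2 : ENNReal.ofReal (Cev E (gp g) (gp g) * (8 * (lam + 1) * ε)) ≤
      ENNReal.ofReal (|Cev E gpg gpg * (8 * (lam + 1))| * ε) := by
    refine ENNReal.ofReal_le_ofReal ?_
    rw [hg, ← mul_assoc]
    exact mul_le_mul_of_nonneg_right (le_abs_self _) hε
  calc Ceps p D g gp lam κg ag E ε n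
      ≤ ENNReal.ofReal 4 *
          ENNReal.ofReal (2 * (max 1 C0 * 2 * max 1 (Kd (lam + |E| + 1) κg ag)) ^ n) *
          (ENNReal.ofReal (|Cev E gpg gpg * (8 * (lam + 1))| * ε) * ENNReal.ofReal (2 * n)) := by
        unfold Ceps
        rw [ofReal_four, ofReal_two_nat]
        gcongr
    _ = _ := by
        rw [← ENNReal.ofReal_mul (by norm_num), ← ENNReal.ofReal_mul (by positivity),
          ← ENNReal.ofReal_mul (by positivity)]
        congr 1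
        ring

theorem Ctar_le {p D : Λ → ℝ} {g : Λ} {lam κg ag κ E ε C0 k0 x : ℝ} (hlam : 0 < lam)
    (hε : 0 < ε) (hk0 : 0 < k0) (hx : 0 < x) (hκ : k0 * x ^ 2 ≤ κ)
    (hS : ∑ b, ENNReal.ofReal (p b) * CuE (lam + |E| + 1) (D b) ≤ ENNReal.ofReal C0)
    (hp : 1 / 2 ≤ p g) (n : ℕ) :
    Ctar p D g lam κg ag κ E ε n ≤ ENNReal.ofReal (8 * B1c E (lam + 1) * n *
      ((max 1 C0 * 2 * max 1 (Kd (lam + |E| + 1) κg ag)) ^ n *
        (Gc E (lam + 1) k0 / (ε ^ 2 * x ^ 2)) ^ n)) := by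
  have h1 := Csw_le (κg := κg) (ag := ag) hS hp n
  have m1 : (0 : ℝ) ≤ max 1 C0 := zero_le_one.trans (le_max_left _ _)
  have m2 : (0 : ℝ) ≤ max 1 (Kd (lam + |E| + 1) κg ag) := zero_le_one.trans (le_max_left _ _)
  have m3 : (0 : ℝ) ≤ Gc E (lam + 1) k0 := zero_le_one.trans (le_max_left _ _)
  have m4 : 0 ≤ B1c E (lam + 1) := by
    unfold B1c
    positivity
  have h2 := KBm_le (E := E) (L := lam + 1) (by linarith) hε hk0 hx hκ n
  calc Ctar p D g lam κg ag κ E ε n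
      ≤ ENNReal.ofReal 4 *
          ENNReal.ofReal (2 * (max 1 C0 * 2 * max 1 (Kd (lam + |E| + 1) κg ag)) ^ n) *
          (ENNReal.ofReal (B1c E (lam + 1) * (Gc E (lam + 1) k0 / (ε ^ 2 * x ^ 2)) ^ n) *
            ENNReal.ofReal (n : ℝ)) := by
        unfold Ctar
        rw [ofReal_four, ENNReal.ofReal_natCast]
        gcongr
    _ = _ := by
        rw [← ENNReal.ofReal_mul (by norm_num), ← ENNReal.ofReal_mul (by positivity),
          ← ENNReal.ofReal_mul (by positivity)]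
        congr 1
        ring

theorem Cadd_le {p D : Λ → ℝ} {g : Λ} {gp : Λ → GP} {lam κg ag κ E ε m Dm Dm' e1 K2 : ℝ}
    (he1 : 0 ≤ e1) (hK2 : 0 ≤ K2) (hDm : Dm ≤ Dm') (hDm' : 0 ≤ Dm') (hp : 1 / 2 ≤ p g) {n : ℕ}
    (h1 : Ceps p D g gp lam κg ag E ε n ≤ ENNReal.ofReal e1)
    (h2 : Ctar p D g lam κg ag κ E ε n ≤ ENNReal.ofReal K2) :
    4 * Cadd p D g gp lam κg ag κ E ε m Dm n ≤
      ENNReal.ofReal (4 * (4 * m ^ 2 * 2 ^ n + (e1 * n + K2) * (m ^ 2 * (Real.pi * Dm')))) := by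
  have hpi := Real.pi_pos
  have h3 : ENNReal.ofReal (1 / p g) ≤ ENNReal.ofReal 2 := by
    refine ENNReal.ofReal_le_ofReal ?_
    rw [div_le_iff₀ (by linarith)]
    linarith
  have h4 : ENNReal.ofReal (m ^ 2 * (Real.pi * Dm)) ≤ ENNReal.ofReal (m ^ 2 * (Real.pi * Dm')) := by
    refine ENNReal.ofReal_le_ofReal ?_
    gcongr
  calc 4 * Cadd p D g gp lam κg ag κ E ε m Dm n
      ≤ ENNReal.ofReal 4 * (ENNReal.ofReal (4 * m ^ 2) * ENNReal.ofReal 2 ^ n +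
          (ENNReal.ofReal e1 * ENNReal.ofReal (n : ℝ) + ENNReal.ofReal K2) *
            ENNReal.ofReal (m ^ 2 * (Real.pi * Dm'))) := by
        unfold Cadd
        rw [ofReal_four, ENNReal.ofReal_natCast]
        gcongr
    _ = _ := by
        rw [← ENNReal.ofReal_pow (by norm_num), ← ENNReal.ofReal_mul (by positivity),
          ← ENNReal.ofReal_mul he1, ← ENNReal.ofReal_add (by positivity) hK2,
          ← ENNReal.ofReal_mul (by positivity), ← ENNReal.ofReal_add (by positivity) (by positivity),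
          ← ENNReal.ofReal_mul (by norm_num)]

/-- **NORMAL NUMERICS.** With the cut-off `e r`, the constants of `V3.Ok.normA` satisfy the two
numerical conditions of `V3.Ok.norm_hN` with `ηN = r^-30 / 2`, `c = 88 N²`, for all large `r`. -/
theorem normal_num {lam : ℝ} (hlam : 0 < lam) (E C0 κg ag k0 Dm : ℝ) (hk0 : 0 < k0) (gpg : GP) :
    ∃ (e : ℕ → ℝ) (R : ℕ), 1 ≤ R ∧ ∀ r : ℕ, R ≤ r → 0 < e r ∧ e r ≤ 1 / 2 ∧
      ∃ A1 e1 K2 : ℝ, 0 ≤ A1 ∧ 0 ≤ e1 ∧ 0 ≤ K2 ∧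
        (∀ {Λ : Type} [Fintype Λ] (p D : Λ → ℝ) (g : Λ) (gp : Λ → GP) (κ : ℝ),
          ∑ b, ENNReal.ofReal (p b) * CuE (lam + |E| + 1) (D b) ≤ ENNReal.ofReal C0 →
          1 / 2 ≤ p g → gp g = gpg → k0 * Real.exp (-(r : ℝ)) ^ 2 ≤ κ →
          4 * Cadd p D g gp lam κg ag κ E (e r) (2 * ((8 * r : ℕ) : ℝ)) Dm (9 * (8 * r) ^ 2) ≤
              ENNReal.ofReal A1 ∧
            Ceps p D g gp lam κg ag E (e r) (9 * (8 * r) ^ 2) ≤ ENNReal.ofReal e1 ∧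
            Ctar p D g lam κg ag κ E (e r) (9 * (8 * r) ^ 2) ≤ ENNReal.ofReal K2) ∧
        2 * (e1 * (25 * ((8 * r : ℕ) : ℝ) ^ 2) +
          K2 * ((Real.exp (-(3 * (r : ℝ))))⁻¹) ^ ((8 * r) ^ 2) * ((8 * r : ℕ) : ℝ) ^ 2 *
            Real.exp (-((r : ℝ) ^ 5))) ≤ 1 / (r : ℝ) ^ 30 / 2 ∧
        ∀ s N : ℝ, 0 < s → s ≤ 1 →
          2 * s * (Real.exp (-(r : ℝ)) * Real.exp (-((r : ℝ) ^ 5))) * A1 * N ^ 2 ≤
            1 / (r : ℝ) ^ 30 / 2 * (88 * N ^ 2) := by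
  set B : ℝ := max 1 C0 * 2 * max 1 (Kd (lam + |E| + 1) κg ag) with hBd
  set Cv : ℝ := |Cev E gpg gpg * (8 * (lam + 1))| with hCvd
  set B1 : ℝ := B1c E (lam + 1) with hB1d
  set G : ℝ := Gc E (lam + 1) k0 with hGd
  have hB : 1 ≤ B := by
    have h1 : (1 : ℝ) ≤ max 1 C0 := le_max_left _ _
    have h2 : (1 : ℝ) ≤ max 1 (Kd (lam + |E| + 1) κg ag) := le_max_left _ _
    rw [hBd]
    nlinarith
  have hCv : 0 ≤ Cv := abs_nonneg _
  have hB1 : 0 ≤ B1 := by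
    rw [hB1d]
    unfold B1c
    positivity
  have hG : 1 ≤ G := le_max_left _ _
  have hDm : 0 ≤ max 0 Dm := le_max_left _ _
  obtain ⟨R, hR⟩ := eventually_atTop.1 ((ev_h1 hB hCv hB1 hG).and (ev_h2 hB hCv hB1 hG hDm))
  refine ⟨ee B, max 1 R, le_max_left _ _, fun r hr => ?_⟩
  have hr1 : 1 ≤ r := (le_max_left _ _).trans hr
  obtain ⟨n1, n2⟩ := hR r ((le_max_right _ _).trans hr)
  have h0 := ee_pos B r
  refine ⟨h0, ee_le_half hB hr1, A1R B Cv B1 G (max 0 Dm) r, e1R B Cv r, K2R B B1 G r,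
    A1R_nonneg hB hCv hB1 hG hDm r, e1R_nonneg hB hCv r, K2R_nonneg hB hB1 hG r, ?_, n1, ?_⟩
  · intro Λ _ p D g gp κ hS hp hg hκ
    have c1 : Ceps p D g gp lam κg ag E (ee B r) (9 * (8 * r) ^ 2) ≤
        ENNReal.ofReal (e1R B Cv r) := Ceps_le h0.le hS hp hg _
    have c2 : Ctar p D g lam κg ag κ E (ee B r) (9 * (8 * r) ^ 2) ≤
        ENNReal.ofReal (K2R B B1 G r) :=
      Ctar_le hlam h0 hk0 (Real.exp_pos _) hκ hS hp _
    refine ⟨?_, c1, c2⟩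
    have c3 := Cadd_le (m := 2 * ((8 * r : ℕ) : ℝ)) (e1R_nonneg hB hCv r)
      (K2R_nonneg hB hB1 hG r) (le_max_right 0 Dm) hDm hp c1 c2
    refine c3.trans (le_of_eq ?_)
    congr 1
    have e16 : 2 * ((8 * r : ℕ) : ℝ) = 16 * (r : ℝ) := by
      push_cast
      ring
    rw [e16]
    rfl
  · intro s N hs hs1
    have hA := A1R_nonneg hB hCv hB1 hG hDm r
    have hx : 0 < Real.exp (-(r : ℝ)) * Real.exp (-((r : ℝ) ^ 5)) := by positivity
    have hr0 : (0 : ℝ) < r := by exact_mod_cast hr1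
    calc 2 * s * (Real.exp (-(r : ℝ)) * Real.exp (-((r : ℝ) ^ 5))) *
          A1R B Cv B1 G (max 0 Dm) r * N ^ 2
        = s * (2 * (Real.exp (-(r : ℝ)) * Real.exp (-((r : ℝ) ^ 5))) *
          A1R B Cv B1 G (max 0 Dm) r) * N ^ 2 := by ring
      _ ≤ 1 * (1 / (r : ℝ) ^ 30 / 2) * N ^ 2 := by
          gcongr
      _ ≤ 1 / (r : ℝ) ^ 30 / 2 * (88 * N ^ 2) := by
          have : 0 ≤ 1 / (r : ℝ) ^ 30 / 2 * N ^ 2 := by positivity
          nlinarith

end P365T1.HBnum
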