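import Mathlib.Analysis.SpecificLimits.Normed
import Mathlib.Analysis.SpecialFunctions.Exp
import Mathlib.Analysis.SpecialFunctions.Pow.Real
import Mathlib.Data.ENNReal.Real

/-!
# P365-T1, numeric half of the LONG part of (HB)

Exponentially small tails `∑_{s ≥ n} (s+1)^d q^s`, `n ≥ r / 10 - 10`, beat every polynomial in `r`.
-/

set_option linter.all false

namespace P365T1.HBnumL

open Filter Topology Finset

/-- `(s+1)^d q^s ≤ C √q^s`-type bound, with an arbitrary larger base -/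
theorem poly_le {q Q : ℝ} (hq : 0 ≤ q) (hqQ : q < Q) (d : ℕ) :
    ∃ C : ℝ, 0 < C ∧ ∀ s : ℕ, ((s : ℝ) + 1) ^ d * q ^ s ≤ C * Q ^ s := by
  have hQ : 0 < Q := hq.trans_lt hqQ
  have h1 : Tendsto (fun n : ℕ => (n : ℝ) ^ d * (q / Q) ^ n) atTop (𝓝 0) :=
    tendsto_pow_const_mul_const_pow_of_abs_lt_one d (by
      rw [abs_of_nonneg (by positivity)]
      exact (div_lt_one hQ).2 hqQ)
  have h2 : Tendsto (fun n : ℕ => ((n + 1 : ℕ) : ℝ) ^ d * (q / Q) ^ (n + 1)) atTop (𝓝 0) :=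
    h1.comp (tendsto_add_atTop_nat 1)
  obtain ⟨B, hB⟩ := h2.bddAbove_range
  rcases hq.eq_or_lt with h0 | h0
  · refine ⟨1, one_pos, fun s => ?_⟩
    subst h0
    rcases Nat.eq_zero_or_pos s with rfl | hs
    · simp
    · rw [zero_pow hs.ne', mul_zero]
      positivity
  · refine ⟨(|B| + 1) * (Q / q), by positivity, fun s => ?_⟩
    have h3 : ((s + 1 : ℕ) : ℝ) ^ d * (q / Q) ^ (s + 1) ≤ |B| + 1 :=
      (hB ⟨s, rfl⟩).trans ((le_abs_self B).trans (by linarith))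
    have h4 : (q / Q) ^ (s + 1) = q ^ s / Q ^ s * (q / Q) := by
      rw [pow_succ, div_pow]
    rw [h4] at h3
    push_cast at h3
    have h5 : ((s : ℝ) + 1) ^ d * q ^ s = ((s : ℝ) + 1) ^ d * (q ^ s / Q ^ s * (q / Q)) *
        (Q / q) * Q ^ s := by
      have : Q ^ s ≠ 0 := by positivity
      field_simp
    rw [h5]
    have h6 := mul_le_mul_of_nonneg_right (mul_le_mul_of_nonneg_right h3
      (show 0 ≤ Q / q by positivity)) (show 0 ≤ Q ^ s by positivity)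
    exact h6

/-- geometric tails -/
theorem geom_tail {Q : ℝ} (hQ : 0 ≤ Q) (hQ1 : Q < 1) (n K : ℕ) :
    ∑ s ∈ Ico n K, Q ^ s ≤ Q ^ n / (1 - Q) := by
  rcases le_or_gt K n with h | h
  · rw [Ico_eq_empty (by omega), sum_empty]
    have : 0 < 1 - Q := by linarith
    positivity
  · have h0 : 0 < 1 - Q := by linarith
    rw [Finset.sum_Ico_eq_sum_range, le_div_iff₀ h0]
    have h1 : ∑ i ∈ range (K - n), Q ^ (n + i) = Q ^ n * ∑ i ∈ range (K - n), Q ^ i := by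
      rw [mul_sum]
      exact sum_congr rfl fun i _ => pow_add _ _ _
    rw [h1, mul_assoc, ← neg_sub Q 1, mul_neg, geom_sum_mul]
    have h2 : 0 ≤ Q ^ (K - n) := by positivity
    have h3 : 0 ≤ Q ^ n := by positivity
    nlinarith

/-- **the tail**: with `n ≥ r / 10 - 10`, every polynomial prefactor is beaten -/
theorem tail {q : ℝ} (hq : 0 ≤ q) (hq1 : q < 1) (C : ℝ) (hC : 0 ≤ C) (d d' g : ℕ) :
    ∃ R : ℕ, ∀ r : ℕ, R ≤ r → ∀ n : ℕ, r ≤ 10 * n + 100 → ∀ K : ℕ,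
      C * (r : ℝ) ^ d' * ∑ s ∈ Ico n K, ((s : ℝ) + 1) ^ d * q ^ s ≤ 1 / (r : ℝ) ^ g / 2 := by
  obtain ⟨Q, hqQ, hQ1⟩ := exists_between hq1
  have hQ : 0 < Q := hq.trans_lt hqQ
  obtain ⟨C1, hC1, hle⟩ := poly_le hq hqQ d
  -- `Q = x^10`
  set x : ℝ := Q ^ ((1 : ℝ) / 10) with hx
  have hx0 : 0 < x := Real.rpow_pos_of_pos hQ _
  have hx10 : x ^ 10 = Q := by
    rw [hx, ← Real.rpow_natCast, ← Real.rpow_mul hQ.le]
    norm_num
  have hx1 : x < 1 := Real.rpow_lt_one hQ.le hQ1 (by norm_num)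
  have hlim : Tendsto (fun r : ℕ => (C * C1 / (1 - Q) / x ^ 100) *
      ((r : ℝ) ^ (d' + g) * x ^ r)) atTop (𝓝 0) := by
    have := (tendsto_pow_const_mul_const_pow_of_abs_lt_one (d' + g)
      (show |x| < 1 by rwa [abs_of_pos hx0])).const_mul (C * C1 / (1 - Q) / x ^ 100)
    simpa using this
  have hev := hlim.eventually (gt_mem_nhds (show (0 : ℝ) < 1 / 2 by norm_num))
  obtain ⟨R, hR⟩ := eventually_atTop.1 hev
  refine ⟨R + 1, fun r hr n hn K => ?_⟩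
  have hr0 : (0 : ℝ) < r := by
    have : 0 < r := by omega
    exact_mod_cast this
  have h1 := hR r (by omega)
  have h0 : 0 < 1 - Q := by linarith
  have hsum : ∑ s ∈ Ico n K, ((s : ℝ) + 1) ^ d * q ^ s ≤ C1 * (Q ^ n / (1 - Q)) :=
    calc ∑ s ∈ Ico n K, ((s : ℝ) + 1) ^ d * q ^ s ≤ ∑ s ∈ Ico n K, C1 * Q ^ s :=
          sum_le_sum fun s _ => hle s
      _ = C1 * ∑ s ∈ Ico n K, Q ^ s := by rw [mul_sum]
      _ ≤ _ := mul_le_mul_of_nonneg_left (geom_tail hQ.le hQ1 n K) hC1.le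
  have hQn : Q ^ n ≤ x ^ r / x ^ 100 := by
    rw [← hx10, ← pow_mul, le_div_iff₀ (by positivity), ← pow_add]
    exact pow_le_pow_of_le_one hx0.le hx1.le (by omega)
  have h2 : C * (r : ℝ) ^ d' * ∑ s ∈ Ico n K, ((s : ℝ) + 1) ^ d * q ^ s ≤
      C * (r : ℝ) ^ d' * (C1 * ((x ^ r / x ^ 100) / (1 - Q))) := by
    refine mul_le_mul_of_nonneg_left (hsum.trans ?_) (by positivity)
    exact mul_le_mul_of_nonneg_left (div_le_div_of_nonneg_right hQn h0.le) hC1.le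
  refine h2.trans ?_
  rw [show (1 : ℝ) / (r : ℝ) ^ g / 2 = 1 / ((r : ℝ) ^ g * 2) by rw [div_div],
    le_div_iff₀ (by positivity)]
  have h3 : C * (r : ℝ) ^ d' * (C1 * ((x ^ r / x ^ 100) / (1 - Q))) * ((r : ℝ) ^ g * 2) =
      2 * ((C * C1 / (1 - Q) / x ^ 100) * ((r : ℝ) ^ (d' + g) * x ^ r)) := by
    rw [pow_add]
    field_simp
  rw [h3]
  linarith

/-- `ENNReal` form of the tail -/
theorem tail_ennreal {q : ℝ} (hq : 0 ≤ q) (hq1 : q < 1) (C : ℝ) (hC : 0 ≤ C) (d d' g : ℕ) :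
    ∃ R : ℕ, ∀ r : ℕ, R ≤ r → ∀ n : ℕ, r ≤ 10 * n + 100 → ∀ K : ℕ,
      ENNReal.ofReal C * ENNReal.ofReal r ^ d' *
        ∑ s ∈ Ico n K, ENNReal.ofReal ((s : ℝ) + 1) ^ d * ENNReal.ofReal q ^ s ≤
      ENNReal.ofReal (1 / (r : ℝ) ^ g / 2) := by
  obtain ⟨R, hR⟩ := tail hq hq1 C hC d d' g
  refine ⟨R, fun r hr n hn K => ?_⟩
  refine le_trans (le_of_eq ?_) (ENNReal.ofReal_le_ofReal (hR r hr n hn K))
  rw [ENNReal.ofReal_mul (by positivity), ENNReal.ofReal_mul hC, ENNReal.ofReal_pow (by positivity),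
    ENNReal.ofReal_sum_of_nonneg fun s _ => by positivity]
  congr 1
  refine Finset.sum_congr rfl fun s _ => ?_
  rw [ENNReal.ofReal_mul (by positivity), ENNReal.ofReal_pow (by positivity),
    ENNReal.ofReal_pow hq]

/-- one term of the tail: `n ≥ r / 10 - 10` -/
theorem term {q : ℝ} (hq : 0 ≤ q) (hq1 : q < 1) (C : ℝ) (hC : 0 ≤ C) (d g : ℕ) :
    ∃ R : ℕ, ∀ r : ℕ, R ≤ r → ∀ n : ℕ, r ≤ 10 * n + 100 →
      C * ((r : ℝ) + 1) ^ d * q ^ n ≤ 1 / (r : ℝ) ^ g / 2 := by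
  obtain ⟨R, hR⟩ := tail hq hq1 (C * 2 ^ d) (by positivity) 0 d g
  refine ⟨max R 1, fun r hr n hn => ?_⟩
  have h1 := hR r ((le_max_left _ _).trans hr) n hn (n + 1)
  rw [Nat.Ico_succ_singleton, Finset.sum_singleton, pow_zero, one_mul] at h1
  refine le_trans ?_ h1
  have hr1 : (1 : ℝ) ≤ r := by exact_mod_cast (le_max_right R 1).trans hr
  have h2 : ((r : ℝ) + 1) ^ d ≤ 2 ^ d * (r : ℝ) ^ d := by
    rw [← mul_pow]
    exact pow_le_pow_left₀ (by positivity) (by linarith) d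
  have h3 : C * ((r : ℝ) + 1) ^ d ≤ C * (2 ^ d * (r : ℝ) ^ d) := mul_le_mul_of_nonneg_left h2 hC
  calc C * ((r : ℝ) + 1) ^ d * q ^ n ≤ C * (2 ^ d * (r : ℝ) ^ d) * q ^ n :=
        mul_le_mul_of_nonneg_right h3 (by positivity)
    _ = C * 2 ^ d * (r : ℝ) ^ d * q ^ n := by ring

/-- **LONG**: `η_L = C (2R+1)^2 (R+1)^2 (1/2)^n` with `R = 2 m = 16 r` and `n ≥ r` -/
theorem long_num (C : ℝ) (hC : 0 ≤ C) :
    ∃ R0 : ℕ, ∀ r : ℕ, R0 ≤ r → ∀ n : ℕ, r ≤ 10 * n + 100 →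
      C * (2 * (16 * (r : ℝ)) + 1) ^ 2 * (16 * (r : ℝ) + 1) ^ 2 * (1 / 2) ^ n ≤
        1 / (r : ℝ) ^ 30 / 2 := by
  obtain ⟨R, hR⟩ := term (q := 1 / 2) (by norm_num) (by norm_num) (C * (32 ^ 2 * 16 ^ 2))
    (by positivity) 4 30
  refine ⟨R, fun r hr n hn => le_trans ?_ (hR r hr n hn)⟩
  have h0 : (0 : ℝ) ≤ r := Nat.cast_nonneg r
  have h1 : (2 * (16 * (r : ℝ)) + 1) ^ 2 ≤ 32 ^ 2 * ((r : ℝ) + 1) ^ 2 := by
    rw [← mul_pow]
    exact pow_le_pow_left₀ (by positivity) (by linarith) 2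
  have h2 : (16 * (r : ℝ) + 1) ^ 2 ≤ 16 ^ 2 * ((r : ℝ) + 1) ^ 2 := by
    rw [← mul_pow]
    exact pow_le_pow_left₀ (by positivity) (by linarith) 2
  have h3 : (2 * (16 * (r : ℝ)) + 1) ^ 2 * (16 * (r : ℝ) + 1) ^ 2 ≤
      32 ^ 2 * 16 ^ 2 * ((r : ℝ) + 1) ^ 4 :=
    calc (2 * (16 * (r : ℝ)) + 1) ^ 2 * (16 * (r : ℝ) + 1) ^ 2
        ≤ (32 ^ 2 * ((r : ℝ) + 1) ^ 2) * (16 ^ 2 * ((r : ℝ) + 1) ^ 2) :=
          mul_le_mul h1 h2 (by positivity) (by positivity)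
      _ = _ := by ring
  refine mul_le_mul_of_nonneg_right ?_ (by positivity)
  rw [mul_assoc, mul_assoc C]
  exact mul_le_mul_of_nonneg_left h3 hC

/-- **LONG, in the form of `H509`**: block side `m = 8 r`, `R = 2 m`, `3 n + 6 ≥ m`-type `n ≥ r` -/
theorem etaL (C3 Cc : ℝ) (h3 : 0 ≤ C3) (hc : 0 ≤ Cc) :
    ∃ R0 : ℕ, ∀ r : ℕ, R0 ≤ r → ∀ R n : ℕ, R = 2 * (8 * r) → r ≤ n →
      C3 * ((R : ℝ) + 1) ^ 2 * Cc * (2 * (R : ℝ) + 1) ^ 2 * (1 / 2) ^ n ≤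
        1 / (r : ℝ) ^ 30 / 2 := by
  obtain ⟨R0, hR⟩ := long_num (C3 * Cc) (mul_nonneg h3 hc)
  refine ⟨R0, fun r hr R n hRr hn => le_trans (le_of_eq ?_) (hR r hr n (by omega))⟩
  subst hRr
  push_cast
  ring

end P365T1.HBnumL
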