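import Vale.Agent.P365.T1.Seq795
import Vale.Agent.P365.T1.HCnum320

/-!
# P365-T1: the parameters of the centre hub (HC) for the concrete chain

For the closed formulas of `Seq795` and windows of half width `exp (-r i)`, all numerical
hypotheses of `hc_of_isl` hold with `q = (r i) ^ 64`, `T = 8 (r i) ^ 20`, `ε = 3 exp (-r i)`,
rate `1 / (r i) ^ 30`.
-/

set_option autoImplicit false
set_option linter.all false

namespace P365T1.HCnum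

open Filter Topology Real P365T1.Seq

/-- **the numerical hypotheses of `hc_of_isl` for the concrete chain** -/
theorem hc_params {C κ : ℝ} (hC : 1 ≤ C) (hκ0 : 0 < κ) (hκ1 : κ < 1) (ms R0 : ℕ) :
    ∃ R : ℕ, 2 ≤ R ∧ ∀ rs : ℕ, R ≤ rs → ∀ I i : ℕ, i ≤ I → ∃ δ ε T q : ℝ,
      2 * (Real.exp (-(rr rs i : ℝ)) + bS rs I) * (2 * (rr rs i : ℝ) + 1) ^ (ms + 2) ≤ 1 ∧
      32 * (2 * (rr rs i : ℝ) + 1) ^ ms * κ ^ (rr rs i - R0) ≤ δ ∧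
      32 * (2 * (rr rs i : ℝ) + 1) ^ (2 * ms + 2) * (Real.exp (-(rr rs i : ℝ)) + bS rs I) ≤ δ ∧
      bS rs I + (∑ j ∈ Finset.Ico (i + 1) (I + 1), e0S rs j) + 2 * e0S rs i ≤ ε ∧ ε ≤ 1 / 2 ∧
      0 ≤ T ∧ Real.exp (-T) ≤ tS rs I (i + 1) * (e0S rs i * Real.exp (-(aS rs i))) ∧ 1 ≤ q ∧
      C * (8 * (rr rs i : ℝ) + 9) * (1 + T) ≤ q ^ 2 ∧
      δ * (C * (8 * (rr rs i : ℝ) + 9) ^ 4 * q ^ 5) ≤ 1 ∧ ε + 1 / q ≤ 1 / C ∧
      C * (8 * (rr rs i : ℝ) + 9) * Real.sqrt (ε + 1 / q) ≤ 1 / (rr rs i : ℝ) ^ 30 := by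
  obtain ⟨R, hR2, hR⟩ := exists_rs (((hc_num_exp hC hκ0 hκ1 ms R0).and (window_num ms)).and
    (ev_exp 0 (A := 6) (by norm_num)))
  refine ⟨R, hR2, fun rs hrs I i hi => ?_⟩
  have hrs2 : 2 ≤ rs := hR2.trans hrs
  obtain ⟨⟨hnum, hwin⟩, h6⟩ := hR rs hrs i
  have hb0 := (bS_pos rs I).le
  have hb : bS rs I ≤ Real.exp (-(rr rs i : ℝ)) := by
    refine (bS_le hrs2 I).trans (Real.exp_le_exp.2 ?_)
    have h1 : rr rs i ≤ rr rs (I + 1) := rr_mono (by omega) (by omega)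
    have h2 : (rr rs i : ℝ) ≤ rr rs (I + 1) := by exact_mod_cast h1
    linarith
  have hw0 : (0 : ℝ) ≤ Real.exp (-(rr rs i : ℝ)) := (Real.exp_pos _).le
  have hr0 : (0 : ℝ) ≤ (rr rs i : ℝ) := Nat.cast_nonneg _
  have hT0 : (0 : ℝ) ≤ 8 * (rr rs i : ℝ) ^ 20 := by positivity
  have hg0 : (0 : ℝ) ≤ κ ^ (rr rs i - (R0 + 1)) := by positivity
  obtain ⟨a1, a2, a3, a4, a5⟩ := hnum (Real.exp (-(rr rs i : ℝ))) (bS rs I)
    (3 * Real.exp (-(rr rs i : ℝ))) (8 * (rr rs i : ℝ) ^ 20) (8 * (rr rs i : ℝ) + 8)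
    (κ ^ (rr rs i - (R0 + 1))) hw0 le_rfl hb0 hb (by positivity) le_rfl hT0 le_rfl
    (by positivity) le_rfl hg0 le_rfl
  have e9 : 8 * (rr rs i : ℝ) + 8 + 1 = 8 * (rr rs i : ℝ) + 9 := by ring
  rw [e9] at a2 a3 a5
  have hκ : κ ^ (rr rs i - R0) ≤ κ ^ (rr rs i - (R0 + 1)) :=
    pow_le_pow_of_le_one hκ0.le hκ1.le (by omega)
  refine ⟨32 * (2 * (rr rs i : ℝ) + 1) ^ (2 * ms + 2) *
      (Real.exp (-(rr rs i : ℝ)) + bS rs I) +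
      32 * (2 * (rr rs i : ℝ) + 1) ^ ms * κ ^ (rr rs i - (R0 + 1)),
    3 * Real.exp (-(rr rs i : ℝ)), 8 * (rr rs i : ℝ) ^ 20, (rr rs i : ℝ) ^ 64,
    hwin _ _ le_rfl hb, ?_, ?_, ?_, ?_, hT0, own_ge hrs2 hi, a1, ?_, ?_, a4, ?_⟩
  · have h1 : 0 ≤ 32 * (2 * (rr rs i : ℝ) + 1) ^ (2 * ms + 2) *
      (Real.exp (-(rr rs i : ℝ)) + bS rs I) := by positivity
    have h2 : 32 * (2 * (rr rs i : ℝ) + 1) ^ ms * κ ^ (rr rs i - R0) ≤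
        32 * (2 * (rr rs i : ℝ) + 1) ^ ms * κ ^ (rr rs i - (R0 + 1)) := by gcongr
    linarith
  · have h1 : 0 ≤ 32 * (2 * (rr rs i : ℝ) + 1) ^ ms * κ ^ (rr rs i - (R0 + 1)) := by positivity
    linarith
  · have h1 := tail_e0S hrs2 hi
    have h2 : e0S rs i = Real.exp (-(rr rs i : ℝ)) := rfl
    rw [h2] at h1 ⊢
    linarith
  · rw [pow_zero, one_mul] at h6
    linarith
  · rw [mul_assoc]
    exact a2
  · rw [mul_assoc C]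
    exact a3
  · rw [mul_assoc]
    exact a5

end P365T1.HCnum
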