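import Vale.Agent.P365.T1.MDet

/-!
# Comparison of the numerators `P_x`, `P_y` in a patch with arbitrary dissipative exterior
(556's (3); P365 T1, chapters C, D).  No Schur complement: the matrix is the full one, the
variables of the patch `Q` are free, the exterior ones are frozen in the open lower half plane.
-/

set_option autoImplicit false
set_option linter.unusedSectionVars false
set_option linter.unusedVariables false
set_option linter.dupNamespace false
set_option linter.style.header false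
set_option linter.unusedSimpArgs false

open MeasureTheory Finset Function Matrix
open scoped ENNReal NNReal BigOperators

namespace P365T1.MAff

variable {ι : Type*} [Fintype ι] [DecidableEq ι]

/-- dissipative matrices: `Im ⟨v, B v⟩ ≤ 0` -/
def DissB (B : Matrix ι ι ℂ) : Prop := ∀ v : ι → ℂ, (star v ⬝ᵥ (B *ᵥ v)).im ≤ 0

theorem form_im (B : Matrix ι ι ℂ) (z v : ι → ℂ) :
    (star v ⬝ᵥ (Mz B z *ᵥ v)).im =
      ∑ i, (z i).im * ‖v i‖ ^ 2 + (star v ⬝ᵥ (B *ᵥ v)).im := by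
  rw [Mz, add_mulVec, dotProduct_add, Complex.add_im]
  congr 1
  simp only [dotProduct, mulVec_diagonal, Pi.star_apply, Complex.im_sum]
  refine Finset.sum_congr rfl fun i _ => ?_
  have : star (v i) * (z i * v i) = z i * (star (v i) * v i) := by ring
  rw [this, Complex.star_def, ← Complex.normSq_eq_conj_mul_self,
    Complex.mul_im, Complex.ofReal_re, Complex.ofReal_im, mul_zero, zero_add,
    Complex.normSq_eq_norm_sq]

/-- the determinant has no zero in the product of open lower half planes -/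
theorem stable_det {B : Matrix ι ι ℂ} (hB : DissB B) : Stable fun z : ι → ℂ => (Mz B z).det := by
  intro z hz hdet
  obtain ⟨v, hv, hMv⟩ := Matrix.exists_mulVec_eq_zero_iff.mpr hdet
  have h1 := form_im B z v
  rw [hMv, dotProduct_zero, Complex.zero_im] at h1
  have h2 : ∑ i, (z i).im * ‖v i‖ ^ 2 < 0 := by
    obtain ⟨j, hj⟩ : ∃ j, v j ≠ 0 := by
      by_contra hcon
      push Not at hcon
      exact hv (funext hcon)
    refine Finset.sum_neg' (fun i _ => ?_) ⟨j, Finset.mem_univ j, ?_⟩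
    · exact mul_nonpos_of_nonpos_of_nonneg (hz i).le (sq_nonneg _)
    · exact mul_neg_of_neg_of_pos (hz j) (by positivity)
  linarith [hB v]

/-- free the variables of `Q`, freeze the others at `z0` -/
def fil (Q : Finset ι) (z0 : ι → ℂ) (y : Q → ℂ) : ι → ℂ :=
  fun i => if h : i ∈ Q then y ⟨i, h⟩ else z0 i

theorem fil_update (Q : Finset ι) (z0 : ι → ℂ) (y : Q → ℂ) (i : Q) (w : ℂ) :
    fil Q z0 (update y i w) = update (fil Q z0 y) i w := by
  ext j
  by_cases hj : j = i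
  · subst hj
    simp [fil]
  · rw [update_of_ne hj]
    by_cases h : j ∈ Q
    · have : (⟨j, h⟩ : Q) ≠ i := fun h2 => hj (by rw [← h2])
      simp [fil, h, this]
    · simp [fil, h]

variable {F : Type*} [NormedAddCommGroup F] [NormedSpace ℂ F]

theorem maff_fil {f : (ι → ℂ) → F} (hf : MAff f) (Q : Finset ι) (z0 : ι → ℂ) :
    MAff fun y : Q → ℂ => f (fil Q z0 y) := by
  intro y i
  obtain ⟨a, b, h⟩ := hf (fil Q z0 y) i
  exact ⟨a, b, fun w => by simp only [fil_update]; exact h w⟩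

theorem continuous_fil (Q : Finset ι) (z0 : ι → ℂ) : Continuous (fil Q z0) := by
  refine continuous_pi fun i => ?_
  by_cases h : i ∈ Q
  · simp only [fil, h, dif_pos]; exact continuous_apply _
  · simp only [fil, h, dif_neg, not_false_eq_true]; exact continuous_const

theorem stable_fil {f : (ι → ℂ) → ℂ} (hf : Stable f) (Q : Finset ι) {z0 : ι → ℂ}
    (h0 : ∀ i ∉ Q, (z0 i).im < 0) : Stable fun y : Q → ℂ => f (fil Q z0 y) := by
  intro y hy
  refine hf _ fun i => ?_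
  by_cases h : i ∈ Q
  · have := hy ⟨i, h⟩
    simp only [P365T1.MAff.fil, h, dif_pos]
    exact this
  · have := h0 i h
    simp only [P365T1.MAff.fil, h, dif_neg, not_false_eq_true]
    exact this

/-- the vector numerator of the column `x`: `P_x(z) = T (adj(M(z))_{· x})` -/
noncomputable def Pv (B : Matrix ι ι ℂ) (T : (ι → ℂ) →ₗ[ℂ] F) (x : ι) (z : ι → ℂ) : F :=
  T fun a => (Mz B z).adjugate a x

theorem maff_Pv (B : Matrix ι ι ℂ) (T : (ι → ℂ) →ₗ[ℂ] F) (x : ι) : MAff (Pv B T x) :=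
  (maff_adj_col (κ := ι) B id x).linear T

theorem adj_del_self {N : Matrix ι ι ℂ} {x y : ι} (hxy : x ≠ y) : (del {x} N).adjugate x y = 0 := by
  rw [adjugate_apply]
  refine det_zero_of_row_eq hxy ?_
  rw [updateRow_ne hxy, updateRow_self, del_row (Finset.mem_singleton_self x)]

theorem Mz_update (B : Matrix ι ι ℂ) (z : ι → ℂ) (x : ι) (t : ℂ) :
    Mz B (update z x t) =
      (Mz B (update z x 0)).updateRow x ((Mz B (update z x 0)) x + t • Pi.single x 1) := by
  ext i j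
  by_cases hi : i = x
  · subst hi
    by_cases hj : j = i
    · subst hj; simp [Mz, add_comm]
    · simp [Mz, Ne.symm hj, hj]
  · rw [updateRow_ne hi]
    by_cases hj : i = j
    · subst hj; simp [Mz, hi]
    · simp [Mz, hj]

theorem del_Mz_update (B : Matrix ι ι ℂ) (z : ι → ℂ) (x : ι) (t : ℂ) :
    del {x} (Mz B (update z x t)) = del {x} (Mz B z) := by
  ext i j
  by_cases hi : i = x
  · subst hi; simp [del]
  · by_cases hj : j = x
    · subst hj; simp [del]
    · by_cases hij : i = j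
      · subst hij; simp [del, Mz, hi]
      · simp [del, Mz, hi, hj, hij]

/-- the coefficient of `z_x` in the cofactor `a, y` -/
theorem coe1_adj (B : Matrix ι ι ℂ) {x y : ι} (hy : y ≠ x) (a : ι) (z : ι → ℂ) :
    coe1 (fun z => (Mz B z).adjugate a y) x z = (del {x} (Mz B z)).adjugate a y := by
  by_cases ha : a = x
  · subst ha
    rw [adj_del_self hy.symm]
    -- no dependence on the `x` variable
    simp only [coe1]
    rw [sub_eq_zero, Mz_update B z a 1, adjugate_apply, adjugate_apply]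
    set N := Mz B (update z a 0)
    have h1 : (N.updateRow a (N a + (1 : ℂ) • Pi.single a 1)).updateRow y (Pi.single a 1) =
        (N.updateRow y (Pi.single a 1)).updateRow a
          ((N.updateRow y (Pi.single a 1)) a + (1 : ℂ) • (N.updateRow y (Pi.single a 1)) y) := by
      ext i k
      by_cases hi : i = a
      · subst hi
        rw [updateRow_ne hy.symm, updateRow_self, updateRow_self, updateRow_ne hy.symm,
          updateRow_self]
      · by_cases hiy : i = y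
        · subst hiy
          rw [updateRow_self, updateRow_ne hi, updateRow_self]
        · rw [updateRow_ne hiy, updateRow_ne hi, updateRow_ne hi, updateRow_ne hiy]
    rw [h1, det_updateRow_add_smul_self _ hy.symm]
  · simp only [coe1]
    rw [Mz_update B z x 1, adj_add_diag ha hy, del_Mz_update]
    ring

/-- **Jacobi, vector form**: `adj_{xy} P_x = adj_{xx} P_y - det · ∂_{z_x} P_y`. -/
theorem jac_vec (B : Matrix ι ι ℂ) (T : (ι → ℂ) →ₗ[ℂ] F) {x y : ι} (hxy : x ≠ y) (z : ι → ℂ) :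
    (Mz B z).adjugate x y • Pv B T x z =
      (Mz B z).adjugate x x • Pv B T y z - (Mz B z).det • coe1 (Pv B T y) x z := by
  have h1 : coe1 (Pv B T y) x z = T fun a => coe1 (fun z => (Mz B z).adjugate a y) x z := by
    simp only [coe1, Pv]
    rw [← map_sub]
    rfl
  rw [h1]
  simp only [Pv]
  rw [← map_smul, ← map_smul, ← map_smul, ← map_sub]
  congr 1
  ext a
  simp only [Pi.smul_apply, Pi.sub_apply, smul_eq_mul, coe1_adj B hxy.symm]
  by_cases ha : a = x
  · subst ha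
    rw [adj_del_self hxy]
    ring
  · have := jacobi (M := Mz B z) ha hxy.symm
    linear_combination this

theorem det_le {B : Matrix ι ι ℂ} (hB : DissB B) (Q : Finset ι) {z0 : ι → ℂ}
    (h0 : ∀ i ∉ Q, (z0 i).im < 0) {L : ℝ} (hL : 0 < L) {V : Q → ℝ}
    (hV : ∀ i, |V i| ≤ L) :
    ‖(Mz B (fil Q z0 (cx V))).det‖ ≤
      2 ^ Q.card * ‖(Mz B (fil Q z0 fun _ => -(L : ℂ) * Complex.I)).det‖ := by
  have hm : MAff fun y : Q → ℂ => (Mz B (fil Q z0 y)).det := maff_fil (maff_det B) Q z0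
  have hst : Stable fun y : Q → ℂ => (Mz B (fil Q z0 y)).det := stable_fil (stable_det hB) Q h0
  have hc : Continuous fun y : Q → ℂ => (Mz B (fil Q z0 y)).det :=
    (continuous_det B).comp (continuous_fil Q z0)
  have h1 := stable_le hm hc hst hL hV
  rw [Fintype.card_coe] at h1
  have h2 : (‖(Mz B (fil Q z0 (cx V))).det‖) ^ 2 ≤
      (2 ^ Q.card * ‖(Mz B (fil Q z0 fun _ => -(L : ℂ) * Complex.I)).det‖) ^ 2 := by
    rw [mul_pow]
    refine h1.trans (mul_le_mul_of_nonneg_right ?_ (sq_nonneg _))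
    have : (1 : ℝ) ≤ 2 ^ Q.card := one_le_pow₀ (by norm_num)
    nlinarith
  exact (pow_le_pow_iff_left₀ (norm_nonneg _) (by positivity) two_ne_zero).mp h2

theorem coe1_det (B : Matrix ι ι ℂ) (x : ι) (z : ι → ℂ) :
    coe1 (fun z => (Mz B z).det) x z = (Mz B z).adjugate x x := by
  simp only [coe1]
  rw [Mz_update B z x 1, det_add_diag, del_Mz_update, det_del_singleton]
  ring

theorem cx_update_real {κ : Type*} [DecidableEq κ] (V : κ → ℝ) (i : κ) (t : ℝ) :
    update (cx V) i (t : ℂ) = cx (update V i t) := (cx_update V i t).symm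

/-- bound of a coefficient in the patch by values on the real cube -/
theorem norm_coe1_fil_le {f : (ι → ℂ) → F} (hf : MAff f) (Q : Finset ι) {z0 : ι → ℂ} {L M : ℝ}
    (hL : 0 < L) (hM : ∀ V : Q → ℝ, (∀ i, |V i| ≤ L) → ‖f (fil Q z0 (cx V))‖ ≤ M) {x : ι}
    (hx : x ∈ Q) {V : Q → ℝ} (hV : ∀ i, |V i| ≤ L) :
    ‖coe1 f x (fil Q z0 (cx V))‖ ≤ M / L := by
  have key : ∀ t : ℝ, |t| ≤ L → ‖f (update (fil Q z0 (cx V)) x (t : ℂ))‖ ≤ M := by
    intro t ht
    have h1 : update (fil Q z0 (cx V)) x (t : ℂ) = fil Q z0 (cx (update V ⟨x, hx⟩ t)) := by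
      rw [cx_update, fil_update]
    rw [h1]
    refine hM _ fun i => ?_
    by_cases hi : i = ⟨x, hx⟩
    · subst hi; simpa using ht
    · rw [update_of_ne hi]; exact hV i
  refine hf.norm_coef_le _ x hL (key L (abs_of_pos hL).le) ?_
  have := key (-L) (by rw [abs_neg]; exact (abs_of_pos hL).le)
  push_cast at this
  exact this

/-- the determinant bounds its own coefficient -/
theorem norm_adj_self_le {B : Matrix ι ι ℂ} (hB : DissB B) (Q : Finset ι) {z0 : ι → ℂ}
    (h0 : ∀ i ∉ Q, (z0 i).im < 0) {L : ℝ} (hL : 0 < L) {x : ι} (hx : x ∈ Q) {V : Q → ℝ}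
    (hV : ∀ i, |V i| ≤ L) :
    ‖(Mz B (fil Q z0 (cx V))).adjugate x x‖ ≤
      2 ^ Q.card * ‖(Mz B (fil Q z0 fun _ => -(L : ℂ) * Complex.I)).det‖ / L := by
  have h := norm_coe1_fil_le (maff_det B) Q hL (fun V hV => det_le hB Q h0 hL hV) hx hV
  rwa [coe1_det] at h

/-- **Comparison of the numerators** (556's (3)).  `c₂`: lower bound for the cofactor `x, y` at some
point of the polydisc, relative to the determinant at `-iL`.  `Sy`: bound for `P_y` on the real
cube.  Conclusion: `P_x` is bounded by `C^n Sy` on the whole polydisc. -/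
theorem norm_Pv_le {B : Matrix ι ι ℂ} (hB : DissB B) (Q : Finset ι) {z0 : ι → ℂ}
    (h0 : ∀ i ∉ Q, (z0 i).im < 0) {L : ℝ} (hL : 0 < L) {x y : ι} (hx : x ∈ Q) (hy : y ∈ Q)
    (hxy : x ≠ y) (T : (ι → ℂ) →ₗ[ℂ] F) {c2 : ℝ} (hc2 : 0 ≤ c2) {y2 : Q → ℂ}
    (hy2 : ∀ i, ‖y2 i‖ ≤ L)
    (hcof : c2 * ‖(Mz B (fil Q z0 fun _ => -(L : ℂ) * Complex.I)).det‖ ≤
      ‖(Mz B (fil Q z0 y2)).adjugate x y‖) {Sy : ℝ}
    (hSy : ∀ V : Q → ℝ, (∀ i, |V i| ≤ L) → ‖Pv B T y (fil Q z0 (cx V))‖ ≤ Sy)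
    {y1 : Q → ℂ} (hy1 : ∀ i, ‖y1 i‖ ≤ L) :
    c2 * ‖Pv B T x (fil Q z0 y1)‖ ≤ 2 / L * 162 ^ Q.card * Sy := by
  set D0 : ℝ := ‖(Mz B (fil Q z0 fun _ => -(L : ℂ) * Complex.I)).det‖ with hD0
  have hD0pos : 0 < D0 := norm_pos_iff.mpr (stable_det hB _ fun i => by
    by_cases h : i ∈ Q
    · simp [fil, h, hL]
    · simpa [fil, h] using h0 i h)
  -- the two functions, with values in `F × ℂ`
  let f1 : (Q → ℂ) → F × ℂ := fun z => (Pv B T x (fil Q z0 z), 0)
  let f2 : (Q → ℂ) → F × ℂ := fun z => (0, (Mz B (fil Q z0 z)).adjugate x y)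
  have hf1 : MAff f1 := by
    have := (maff_fil (maff_Pv B T x) Q z0).linear (LinearMap.inl ℂ F ℂ)
    exact this
  have hf2 : MAff f2 := by
    have := (maff_fil (maff_adj B x y) Q z0).linear (LinearMap.inr ℂ F ℂ)
    exact this
  obtain ⟨V, hVW, hV⟩ := exists_large (κ := Fin 2) (fun j => if j = 0 then f1 else f2)
    (fun j => by fin_cases j <;> simp [hf1, hf2]) (L := L) (ε := 1 / 9) hL.le (by norm_num)
    (by norm_num) (fun j => if j = 0 then y1 else y2)
    (fun j i => by fin_cases j <;> simp [hy1, hy2])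
    (fun _ => {t : ℝ | |t| ≤ L}) (fun _ => le_rfl) (fun i => by
      have h1 : {t : ℝ | |t| ≤ L} = Set.Icc (-L) L := by
        ext t
        simp only [Set.mem_ofPred_eq, Set.mem_Icc]
        exact abs_le
      rw [h1, Real.volume_Icc, Fintype.card_fin]
      have h2 : ((2 : ℕ) : ℝ≥0∞) * ENNReal.ofReal (8 * L * (1 / 9)) =
          ENNReal.ofReal (2 * (8 * L * (1 / 9))) := by
        rw [ENNReal.ofReal_mul (by norm_num : (0 : ℝ) ≤ 2)]
        congr 1
        simp
      rw [h2, ENNReal.ofReal_lt_ofReal_iff (by linarith : (0 : ℝ) < L - -L)]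
      linarith)
  have hVL : ∀ i, |V i| ≤ L := hVW
  rw [Fintype.card_coe] at hV
  have h1 := hV 0
  have h2 := hV 1
  simp only [if_true, f1, f2, Prod.norm_def, norm_zero] at h1 h2
  rw [if_neg (by decide), if_neg (by decide)] at h2
  simp only [Prod.norm_def, norm_zero, max_eq_left (norm_nonneg _),
    max_eq_right (norm_nonneg _)] at h1 h2
  -- `h1 : (1/9)^n ‖P_x(y1)‖ ≤ ‖P_x(V)‖`, `h2 : (1/9)^n ‖cof(y2)‖ ≤ ‖cof(V)‖`
  have h3 := congrArg norm (jac_vec B T hxy (fil Q z0 (cx V)))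
  rw [norm_smul] at h3
  have h4 : ‖(Mz B (fil Q z0 (cx V))).adjugate x y‖ * ‖Pv B T x (fil Q z0 (cx V))‖ ≤
      (2 ^ Q.card * D0 / L) * Sy + (2 ^ Q.card * D0) * (Sy / L) := by
    rw [h3]
    refine (norm_sub_le _ _).trans ?_
    rw [norm_smul, norm_smul]
    have hSy0 : 0 ≤ Sy := (norm_nonneg _).trans (hSy V hVL)
    refine add_le_add ?_ ?_
    · exact mul_le_mul (norm_adj_self_le hB Q h0 hL hx hVL) (hSy V hVL) (norm_nonneg _)
        (by positivity)
    · exact mul_le_mul (det_le hB Q h0 hL hVL) (norm_coe1_fil_le (maff_Pv B T y) Q hL hSy hx hVL)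
        (norm_nonneg _) (by positivity)
  have h5 : ((1 / 9 : ℝ) ^ Q.card * (c2 * D0)) * ((1 / 9 : ℝ) ^ Q.card * ‖Pv B T x (fil Q z0 y1)‖) ≤
      (2 ^ Q.card * D0 / L) * Sy + (2 ^ Q.card * D0) * (Sy / L) := by
    refine le_trans ?_ h4
    refine mul_le_mul ?_ h1 (by positivity) (norm_nonneg _)
    refine le_trans ?_ h2
    gcongr
  have h6 : (162 : ℝ) ^ Q.card = 9 ^ Q.card * 9 ^ Q.card * 2 ^ Q.card := by
    rw [← mul_pow, ← mul_pow]; norm_num
  have h7 : (1 / 9 : ℝ) ^ Q.card * 9 ^ Q.card = 1 := by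
    rw [← mul_pow]; norm_num
  have h8 : D0 * (c2 * ‖Pv B T x (fil Q z0 y1)‖) ≤ D0 * (2 / L * 162 ^ Q.card * Sy) := by
    have h9 := mul_le_mul_of_nonneg_left h5
      (by positivity : (0 : ℝ) ≤ 9 ^ Q.card * 9 ^ Q.card)
    calc D0 * (c2 * ‖Pv B T x (fil Q z0 y1)‖)
        = ((1 / 9 : ℝ) ^ Q.card * 9 ^ Q.card) * ((1 / 9 : ℝ) ^ Q.card * 9 ^ Q.card) *
          (D0 * (c2 * ‖Pv B T x (fil Q z0 y1)‖)) := by rw [h7]; ring
      _ = (9 ^ Q.card * 9 ^ Q.card) * (((1 / 9 : ℝ) ^ Q.card * (c2 * D0)) *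
          ((1 / 9 : ℝ) ^ Q.card * ‖Pv B T x (fil Q z0 y1)‖)) := by ring
      _ ≤ (9 ^ Q.card * 9 ^ Q.card) * ((2 ^ Q.card * D0 / L) * Sy +
          (2 ^ Q.card * D0) * (Sy / L)) := h9
      _ = D0 * (2 / L * 162 ^ Q.card * Sy) := by rw [h6]; ring
  exact le_of_mul_le_mul_left h8 hD0pos

/-! ### The Green function form -/

/-- `T` applied to the column `x` of the Green function -/
noncomputable def GT (B : Matrix ι ι ℂ) (T : (ι → ℂ) →ₗ[ℂ] F) (x : ι) (z : ι → ℂ) : F :=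
  T fun a => (Mz B z)⁻¹ a x

theorem GT_eq (B : Matrix ι ι ℂ) (T : (ι → ℂ) →ₗ[ℂ] F) (x : ι) (z : ι → ℂ) :
    GT B T x z = ((Mz B z).det)⁻¹ • Pv B T x z := by
  unfold GT Pv
  rw [← map_smul]
  congr 1
  ext a
  simp [Matrix.inv_def, Ring.inverse_eq_inv']

theorem Pv_update_self (B : Matrix ι ι ℂ) (T : (ι → ℂ) →ₗ[ℂ] F) (x : ι) (z : ι → ℂ) (w : ℂ) :
    Pv B T x (update z x w) = Pv B T x z := by
  unfold Pv
  congr 1
  ext a
  rw [adjugate_apply, adjugate_apply]
  congr 1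
  ext i j
  by_cases hi : i = x
  · subst hi; simp
  · rw [updateRow_ne hi, updateRow_ne hi]
    by_cases hj : i = j
    · subst hj; simp [Mz, hi]
    · simp [Mz, hj]

theorem continuous_Pv (B : Matrix ι ι ℂ) {F : Type*} [NormedAddCommGroup F] [NormedSpace ℂ F]
    (T : (ι → ℂ) →ₗ[ℂ] F) (x : ι) : Continuous (Pv B T x) := by
  have hT : Continuous T := T.continuous_of_finiteDimensional
  exact hT.comp (continuous_pi fun a => continuous_adj B a x)

theorem continuous_cx {κ : Type*} : Continuous (cx : (κ → ℝ) → κ → ℂ) :=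
  continuous_pi fun i => Complex.continuous_ofReal.comp (continuous_apply i)

/-- the function whose exceptional events are used in `wch_pointwise` -/
def detx (B : Matrix ι ι ℂ) (Q : Finset ι) (z0 : ι → ℂ) (L : ℝ) (x : Q) : (Q → ℂ) → ℂ :=
  fun y => (Mz B (fil Q z0 (update y x (-(L : ℂ) * Complex.I)))).det

theorem maff_detx (B : Matrix ι ι ℂ) (Q : Finset ι) (z0 : ι → ℂ) (L : ℝ) (x : Q) :
    MAff (detx B Q z0 L x) :=
  (maff_fil (maff_det B) Q z0).fix x (-(L : ℂ) * Complex.I)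

theorem continuous_detx (B : Matrix ι ι ℂ) (Q : Finset ι) (z0 : ι → ℂ) (L : ℝ) (x : Q) :
    Continuous (detx B Q z0 L x) := by
  unfold detx
  refine (continuous_det B).comp ((continuous_fil Q z0).comp ?_)
  exact continuous_id.update x continuous_const

/-- **Crude Harnack inequality off the one-variable exceptional events** (556's (4)).
`n = |Q|`; `c₂`: relative lower bound for the cofactor `x, y` at some point of the polydisc. -/
theorem wch_pointwise [MeasurableSpace F] [BorelSpace F] {B : Matrix ι ι ℂ} (hB : DissB B)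
    (Q : Finset ι) {z0 : ι → ℂ} (h0 : ∀ i ∉ Q, (z0 i).im < 0) {L : ℝ} (hL : 0 < L) (x y : Q)
    (hxy : x ≠ y) (T : (ι → ℂ) →ₗ[ℂ] F) {c2 : ℝ} (hc2 : 0 < c2) {y2 : Q → ℂ}
    (hy2 : ∀ i, ‖y2 i‖ ≤ L)
    (hcof : c2 * ‖(Mz B (fil Q z0 fun _ => -(L : ℂ) * Complex.I)).det‖ ≤
      ‖(Mz B (fil Q z0 y2)).adjugate x y‖)
    {ε : ℝ} (hε : 0 < ε) (e : Q ≃ Fin Q.card) {V : Q → ℝ} (hV : ∀ i, |V i| ≤ L)
    (hJ : ∀ k < Q.card, V ∉ Jset e (detx B Q z0 L x) (fun _ => -(L : ℂ) * Complex.I) ε k)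
    (μ : Q → Measure ℝ) [∀ i, IsProbabilityMeasure (μ i)] {κ : ℝ≥0∞}
    (hμ : ∀ i, WinLaw F κ L (μ i)) (hsupp : ∀ i, μ i {t | |t| ≤ L}ᶜ = 0)
    (hdet : ∀ V' : Q → ℝ, (∀ i, |V' i| ≤ L) → (Mz B (fil Q z0 (cx V'))).det ≠ 0) :
    κ ^ Q.card * ‖GT B T x (fil Q z0 (update (cx V) x (-(L : ℂ) * Complex.I)))‖ₑ ^ 2 ≤
      ENNReal.ofReal ((2 / (L * c2)) ^ 2 * (104976 / ε ^ 2) ^ Q.card) *
        ∫⁻ V', ‖GT B T y (fil Q z0 (cx V'))‖ₑ ^ 2 ∂(Measure.pi μ) := by
  have h10 := le_norm_of_notMem e hε.le hJ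
  set n := Q.card with hn
  set D0 : ℝ := ‖(Mz B (fil Q z0 fun _ => -(L : ℂ) * Complex.I)).det‖ with hD0
  have hD0pos : 0 < D0 := norm_pos_iff.mpr (stable_det hB _ fun i => by
    by_cases h : i ∈ Q
    · simp [fil, h, hL]
    · simpa [fil, h] using h0 i h)
  -- a maximum point of `P_y` on the real cube
  have hcomp : IsCompact {V : Q → ℝ | ∀ i, |V i| ≤ L} := by
    have : {V : Q → ℝ | ∀ i, |V i| ≤ L} = Set.univ.pi fun _ => Set.Icc (-L) L := by
      ext V
      simp only [Set.mem_ofPred_eq, Set.mem_univ_pi, Set.mem_Icc]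
      exact forall_congr' fun i => abs_le
    rw [this]
    exact isCompact_univ_pi fun _ => isCompact_Icc
  have hPc : Continuous fun V : Q → ℝ => ‖Pv B T y (fil Q z0 (cx V))‖ :=
    ((continuous_Pv B T y).comp ((continuous_fil Q z0).comp continuous_cx)).norm
  obtain ⟨Vs, hVs, hmax⟩ := hcomp.exists_isMaxOn ⟨fun _ => 0, fun i => by simp [hL.le]⟩
    hPc.continuousOn
  set Sy : ℝ := ‖Pv B T y (fil Q z0 (cx Vs))‖ with hSy
  have h1 : c2 * ‖Pv B T x (fil Q z0 (cx V))‖ ≤ 2 / L * 162 ^ n * Sy := by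
    refine norm_Pv_le hB Q h0 hL x.2 y.2 (fun h => hxy (Subtype.ext h)) T hc2.le hy2 hcof
      (fun V' hV' => hmax hV') (fun i => ?_)
    simpa [cx] using hV i
  -- second moment
  have h2 : κ ^ n * ENNReal.ofReal Sy ^ 2 ≤ ∫⁻ V', ‖Pv B T y (fil Q z0 (cx V'))‖ₑ ^ 2
      ∂(Measure.pi μ) := by
    have h3 := lintegral_sq_ge_univ (f := fun z : Q → ℂ => Pv B T y (fil Q z0 z))
      (maff_fil (maff_Pv B T y) Q z0)
      ((continuous_Pv B T y).comp (continuous_fil Q z0)).measurable μ (L := L) (z := cx Vs)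
      (fun i => by simpa [cx] using hVs i) hμ
    rw [Fintype.card_coe] at h3
    rwa [hSy, ofReal_norm]
  -- the determinant on the cube
  have h4 : ∫⁻ V', ‖Pv B T y (fil Q z0 (cx V'))‖ₑ ^ 2 ∂(Measure.pi μ) ≤
      ENNReal.ofReal ((2 ^ n * D0) ^ 2) *
        ∫⁻ V', ‖GT B T y (fil Q z0 (cx V'))‖ₑ ^ 2 ∂(Measure.pi μ) := by
    rw [← lintegral_const_mul' _ _ ENNReal.ofReal_ne_top]
    refine lintegral_mono_ae ?_
    have hae : ∀ᵐ V' ∂(Measure.pi μ), ∀ i, |V' i| ≤ L := by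
      rw [ae_all_iff]
      intro i
      have h5 : ∀ᵐ t ∂(μ i), |t| ≤ L := by
        rw [ae_iff]; exact hsupp i
      exact (Measure.quasiMeasurePreserving_eval (μ := μ) i).ae h5
    filter_upwards [hae] with V' hV'
    have h6 := det_le hB Q h0 hL hV'
    have h7 : ‖Pv B T y (fil Q z0 (cx V'))‖ ≤
        (2 ^ n * D0) * ‖GT B T y (fil Q z0 (cx V'))‖ := by
      have h8 : Pv B T y (fil Q z0 (cx V')) =
          (Mz B (fil Q z0 (cx V'))).det • GT B T y (fil Q z0 (cx V')) := by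
        rw [GT_eq, smul_smul, mul_inv_cancel₀ (hdet V' hV'), one_smul]
      rw [h8, norm_smul]
      gcongr
    rw [← ofReal_norm, ← ofReal_norm, ← ENNReal.ofReal_pow (norm_nonneg _),
      ← ENNReal.ofReal_pow (norm_nonneg _), ← ENNReal.ofReal_mul (by positivity), ← mul_pow]
    exact ENNReal.ofReal_le_ofReal (pow_le_pow_left₀ (norm_nonneg _) h7 2)
  -- off the exceptional events
  have h9 : ε ^ n * D0 ≤ ‖(Mz B (fil Q z0 (update (cx V) x (-(L : ℂ) * Complex.I)))).det‖ := by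
    have h11 : detx B Q z0 L x (fun _ => -(L : ℂ) * Complex.I) =
        (Mz B (fil Q z0 fun _ => -(L : ℂ) * Complex.I)).det := by
      unfold detx
      congr 3
      ext i
      by_cases hi : i = x
      · subst hi; simp
      · simp [hi]
    rw [h11] at h10
    exact h10
  have h12 : ‖GT B T x (fil Q z0 (update (cx V) x (-(L : ℂ) * Complex.I)))‖ ≤
      ‖Pv B T x (fil Q z0 (cx V))‖ / (ε ^ n * D0) := by
    rw [GT_eq, norm_smul, norm_inv, fil_update, Pv_update_self, ← fil_update, div_eq_inv_mul]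
    gcongr
  set X : ℝ := ‖Pv B T x (fil Q z0 (cx V))‖ with hX
  have hSy0 : 0 ≤ Sy := norm_nonneg _
  have h13 : ‖GT B T x (fil Q z0 (update (cx V) x (-(L : ℂ) * Complex.I)))‖ ≤
      (2 / (L * c2) * (162 / ε) ^ n / D0) * Sy := by
    refine h12.trans ?_
    have h14 : X ≤ 2 / (L * c2) * 162 ^ n * Sy := by
      have : X * c2 ≤ (2 / (L * c2) * 162 ^ n * Sy) * c2 := by
        calc X * c2 = c2 * X := mul_comm _ _
          _ ≤ 2 / L * 162 ^ n * Sy := h1
          _ = (2 / (L * c2) * 162 ^ n * Sy) * c2 := by field_simp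
      exact le_of_mul_le_mul_right this hc2
    calc X / (ε ^ n * D0) ≤ (2 / (L * c2) * 162 ^ n * Sy) / (ε ^ n * D0) := by gcongr
      _ = (2 / (L * c2) * (162 / ε) ^ n / D0) * Sy := by rw [div_pow]; field_simp
  set Y : ℝ≥0∞ := ∫⁻ V', ‖GT B T y (fil Q z0 (cx V'))‖ₑ ^ 2 ∂(Measure.pi μ) with hY
  calc κ ^ n * ‖GT B T x (fil Q z0 (update (cx V) x (-(L : ℂ) * Complex.I)))‖ₑ ^ 2
      ≤ κ ^ n * ENNReal.ofReal ((2 / (L * c2) * (162 / ε) ^ n / D0) * Sy) ^ 2 := by
        gcongr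
        rw [← ofReal_norm]
        exact ENNReal.ofReal_le_ofReal h13
    _ = ENNReal.ofReal (2 / (L * c2) * (162 / ε) ^ n / D0) ^ 2 * (κ ^ n * ENNReal.ofReal Sy ^ 2) := by
        rw [ENNReal.ofReal_mul (by positivity), mul_pow]; ring
    _ ≤ ENNReal.ofReal (2 / (L * c2) * (162 / ε) ^ n / D0) ^ 2 *
          (ENNReal.ofReal ((2 ^ n * D0) ^ 2) * Y) := by
        exact mul_le_mul_of_nonneg_left (h2.trans h4) zero_le
    _ = ENNReal.ofReal ((2 / (L * c2)) ^ 2 * (104976 / ε ^ 2) ^ n) * Y := by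
        rw [← mul_assoc, ← ENNReal.ofReal_pow (by positivity), ← ENNReal.ofReal_mul (by positivity)]
        congr 2
        have h15 : (104976 / ε ^ 2) ^ n = ((162 / ε) ^ n) ^ 2 * (2 ^ n) ^ 2 := by
          rw [← pow_mul, ← pow_mul, mul_comm n 2, pow_mul, pow_mul, ← mul_pow]
          congr 1
          ring
        rw [h15]
        field_simp

end P365T1.MAff
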