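import Vale.Agent.P365.T1.MPath
import Vale.Agent.P365.T1.WCH

/-!
P365 T1 (helper791): lower bound for the cofactor between the ends of a path.
-/

set_option linter.all false

open Finset Matrix Function

namespace P365T1.MAff

variable {ι : Type*} [Fintype ι] [DecidableEq ι]

theorem del_congr {S : Finset ι} {B : Matrix ι ι ℂ} {z z' : ι → ℂ} (h : ∀ i, i ∉ S → z i = z' i) :
    del S (Mz B z) = del S (Mz B z') := by
  ext i j
  simp only [del, Matrix.of_apply]
  by_cases hi : i ∈ S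
  · simp [hi]
  · by_cases hj : j ∈ S
    · simp [hi, hj]
    · simp only [hi, hj, or_self, if_false]
      simp only [Mz, Matrix.add_apply, Matrix.diagonal_apply]
      by_cases hij : i = j
      · subst hij; simp [h i hi]
      · simp [hij]

theorem del_Mz_update' {S : Finset ι} {B : Matrix ι ι ℂ} {z : ι → ℂ} {w : ι} (hw : w ∉ S) (t : ℂ) :
    del S (Mz B (update z w t)) =
      (del S (Mz B (update z w 0))).updateRow w
        ((del S (Mz B (update z w 0))) w + t • Pi.single w 1) := by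
  ext i j
  by_cases hi : i = w
  · subst hi
    rw [updateRow_self, Pi.add_apply, Pi.smul_apply]
    simp only [del, Matrix.of_apply]
    by_cases hj : j ∈ S
    · have : i ≠ j := fun h => hw (h ▸ hj)
      simp [hj, this, Pi.single_apply, Ne.symm this]
    · simp only [hw, hj, or_self, if_false]
      by_cases hij : i = j
      · subst hij; simp [Mz]; ring
      · simp [Mz, hij, Pi.single_apply, Ne.symm hij]
  · rw [updateRow_ne hi]
    simp only [del, Matrix.of_apply]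
    by_cases hc : i ∈ S ∨ j ∈ S
    · simp [hc]
    · simp only [hc, if_false]
      by_cases hij : i = j
      · subst hij; simp [Mz, hi]
      · simp [Mz, hij]

/-- un-removing sites: values of modulus `L` at the sites of `S` can be chosen so that the cofactor
of the full matrix is at least `L ^ |S|` times the cofactor of the matrix without the sites -/
theorem exists_fill (B : Matrix ι ι ℂ) {x y : ι} {L : ℝ} (hL : 0 ≤ L) (S : Finset ι) :
    x ∉ S → y ∉ S → ∀ z : ι → ℂ, ∃ z' : ι → ℂ, (∀ i, i ∉ S → z' i = z i) ∧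
      (∀ i ∈ S, z' i = (L : ℂ) ∨ z' i = -(L : ℂ)) ∧
      L ^ S.card * ‖(del S (Mz B z)).adjugate x y‖ ≤ ‖(Mz B z').adjugate x y‖ := by
  induction S using Finset.induction_on with
  | empty =>
    intro _ _ z
    exact ⟨z, fun i _ => rfl, by simp, by simp [del_empty]⟩
  | insert w S hw ih =>
    intro hx hy z
    rw [Finset.mem_insert, not_or] at hx hy
    set c := (del (insert w S) (Mz B z)).adjugate x y with hc
    set N := del S (Mz B (update z w 0)) with hN
    have hcN : (del {w} N).adjugate x y = c := by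
      have e : del (insert w S) (Mz B (update z w 0)) = del (insert w S) (Mz B z) := by
        apply del_congr
        intro i hi
        rw [Finset.mem_insert, not_or] at hi
        rw [update_of_ne hi.1]
      rw [hN, ← del_insert, hc, e]
    have hval : ∀ t : ℂ, (del S (Mz B (update z w t))).adjugate x y = N.adjugate x y + t * c := by
      intro t
      rw [del_Mz_update' hw t, ← hN, adj_add_diag hx.1 hy.1, hcN]
    have hmax : ∃ t : ℂ, (t = (L : ℂ) ∨ t = -(L : ℂ)) ∧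
        L * ‖c‖ ≤ ‖(del S (Mz B (update z w t))).adjugate x y‖ := by
      by_contra hcon
      push Not at hcon
      have h1 := hcon L (Or.inl rfl)
      have h2 := hcon (-L) (Or.inr rfl)
      rw [hval] at h1 h2
      have h3 : (2 * L : ℂ) * c = (N.adjugate x y + L * c) - (N.adjugate x y + -L * c) := by ring
      have h4 : 2 * L * ‖c‖ ≤ ‖N.adjugate x y + L * c‖ + ‖N.adjugate x y + -L * c‖ := by
        calc 2 * L * ‖c‖ = ‖(2 * L : ℂ) * c‖ := by
              rw [norm_mul, norm_mul]; simp [abs_of_nonneg hL]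
          _ ≤ _ := by rw [h3]; exact norm_sub_le _ _
      linarith
    obtain ⟨t, ht, hle⟩ := hmax
    obtain ⟨z', h1, h2, h3⟩ := ih hx.2 hy.2 (update z w t)
    refine ⟨z', ?_, ?_, ?_⟩
    · intro i hi
      rw [Finset.mem_insert, not_or] at hi
      rw [h1 i hi.2, update_of_ne hi.1]
    · intro i hi
      rcases Finset.mem_insert.1 hi with rfl | hi
      · rw [h1 i hw, update_self]; exact ht
      · exact h2 i hi
    · rw [Finset.card_insert_of_notMem hw, pow_succ, mul_assoc]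
      exact (mul_le_mul_of_nonneg_left hle (pow_nonneg hL _)).trans h3

/-- **Lower bound for the cofactor**, general form: `z` arbitrary off `Q`. -/
theorem cof_lower_aux (B : Matrix ι ι ℂ) (Q : Finset ι) {L : ℝ} (hL : 0 ≤ L) (k : ℕ) (p : ℕ → ι)
    (hinj : ∀ i, i ≤ k → ∀ j, j ≤ k → p i = p j → i = j)
    (hpQ : ∀ i, i ≤ k → p i ∈ Q)
    (hlink : ∀ i, i < k → ‖B (p i) (p (i + 1))‖ = 1)
    (hfar : ∀ i, i ≤ k → ∀ j, j ≤ k → i + 2 ≤ j ∨ j + 2 ≤ i → B (p i) (p j) = 0)
    (hrow : ∀ i, 1 ≤ i → i ≤ k → ∀ j, j ∉ Q → B (p i) j = 0)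
    (hcol : ∀ i, 1 ≤ i → i ≤ k → ∀ j, j ∉ Q → B j (p i) = 0)
    (z : ι → ℂ) :
    ∃ z' : ι → ℂ, (∀ i, i ∉ Q → z' i = z i) ∧
      (∀ i ∈ Q, ‖z' i‖ ≤ L) ∧
      L ^ (Q.card - (k + 1)) * ‖(del Q (Mz B z)).det‖ ≤ ‖(Mz B z').adjugate (p 0) (p k)‖ := by
  set P : Finset ι := (range (k + 1)).image p with hP
  have hPQ : P ⊆ Q := by
    intro a ha
    obtain ⟨i, hi, rfl⟩ := Finset.mem_image.1 ha
    rw [Finset.mem_range] at hi
    exact hpQ i (by omega)
  have hPc : P.card = k + 1 := by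
    rw [hP, Finset.card_image_of_injOn, Finset.card_range]
    intro i hi j hj h
    simp only [Finset.coe_range, Set.mem_Iio] at hi hj
    exact hinj i (by omega) j (by omega) h
  have hmemP : ∀ i, i ≤ k → p i ∈ P := fun i hi =>
    Finset.mem_image.2 ⟨i, by rw [Finset.mem_range]; omega, rfl⟩
  have hnS : ∀ i, i ≤ k → p i ∉ Q \ P := by
    intro i hi h
    exact (Finset.mem_sdiff.1 h).2 (hmemP i hi)
  -- the base configuration: zero on the path
  set z₀ : ι → ℂ := fun i => if i ∈ P then 0 else z i with hz₀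
  obtain ⟨z', h1, h2, h3⟩ := exists_fill B (x := p 0) (y := p k) hL (Q \ P)
    (hnS 0 (by omega)) (hnS k le_rfl) z₀
  have hoff : ∀ a b, a ≠ b → Mz B z₀ a b = B a b := by
    intro a b hab
    simp [Mz, hab]
  set N := del (Q \ P) (Mz B z₀) with hN
  have Nzero : ∀ a b, a ≠ b → (a ∈ Q \ P ∨ b ∈ Q \ P) → N a b = 0 := by
    intro a b hab h
    rw [hN, del]
    simp only [Matrix.of_apply, h, if_true, hab, if_false]
  have Noff : ∀ a b, a ≠ b → a ∉ Q \ P → b ∉ Q \ P → N a b = B a b := by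
    intro a b hab ha hb
    rw [hN, del_apply_off ha hb, hoff a b hab]
  have hpath := norm_adj_path k N p hinj ?_ ?_ ?_ ?_
  · refine ⟨z', ?_, ?_, ?_⟩
    · intro i hi
      rw [h1 i (fun h => hi (Finset.mem_sdiff.1 h).1), hz₀]
      simp only
      rw [if_neg (fun h => hi (hPQ h))]
    · intro i hi
      by_cases hiP : i ∈ P
      · rw [h1 i (fun h => (Finset.mem_sdiff.1 h).2 hiP), hz₀]
        simp [hiP, hL]
      · rcases h2 i (Finset.mem_sdiff.2 ⟨hi, hiP⟩) with h | h <;> rw [h] <;>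
          simp [abs_of_nonneg hL]
    · have hc : (Q \ P).card = Q.card - (k + 1) := by
        rw [Finset.card_sdiff_of_subset hPQ, hPc]
      rw [hc] at h3
      refine le_trans (le_of_eq ?_) h3
      rw [hpath, hN, del_del, ← hP, Finset.union_sdiff_of_subset hPQ]
      congr 3
      apply del_congr
      intro i hi
      rw [hz₀]
      simp only
      rw [if_neg (fun h => hi (hPQ h))]
  · intro i hi1 hik j hj
    by_cases hji : j = p i
    · exact ⟨i, hik, hji, by omega, by omega⟩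
    have hne : p i ≠ j := Ne.symm hji
    have hjS : j ∉ Q \ P := fun h => hj (Nzero _ _ hne (Or.inr h))
    rw [Noff _ _ hne (hnS i hik) hjS] at hj
    have hjQ : j ∈ Q := by
      by_contra hjQ
      exact hj (hrow i hi1 hik j hjQ)
    have hjP : j ∈ P := by
      by_contra hjP
      exact hjS (Finset.mem_sdiff.2 ⟨hjQ, hjP⟩)
    obtain ⟨i', hi', rfl⟩ := Finset.mem_image.1 hjP
    rw [Finset.mem_range] at hi'
    refine ⟨i', by omega, rfl, ?_, ?_⟩
    · by_contra hcon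
      exact hj (hfar i hik i' (by omega) (Or.inl (by omega)))
    · by_contra hcon
      exact hj (hfar i hik i' (by omega) (Or.inr (by omega)))
  · intro i hi hik
    have hne : p 0 ≠ p i := by
      intro h
      have := hinj 0 (by omega) i hik h
      omega
    rw [Noff _ _ hne (hnS 0 (by omega)) (hnS i hik)]
    exact hfar 0 (by omega) i hik (Or.inl (by omega))
  · intro i hi1 hik j hj
    by_cases hji : j = p i
    · exact ⟨i, hik, hji⟩
    have hjS : j ∉ Q \ P := fun h => hj (Nzero _ _ hji (Or.inl h))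
    rw [Noff _ _ hji hjS (hnS i hik)] at hj
    have hjQ : j ∈ Q := by
      by_contra hjQ
      exact hj (hcol i hi1 hik j hjQ)
    have hjP : j ∈ P := by
      by_contra hjP
      exact hjS (Finset.mem_sdiff.2 ⟨hjQ, hjP⟩)
    obtain ⟨i', hi', rfl⟩ := Finset.mem_image.1 hjP
    rw [Finset.mem_range] at hi'
    exact ⟨i', by omega, rfl⟩
  · intro i hi
    have hne : p i ≠ p (i + 1) := by
      intro h
      have := hinj i (by omega) (i + 1) (by omega) h
      omega
    rw [Noff _ _ hne (hnS i (by omega)) (hnS (i + 1) (by omega))]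
    exact hlink i hi

/-- **Lower bound for the cofactor**, with the chain bound for `|det M(-iL)|` as an input -/
theorem cof_lower_of_chain (B : Matrix ι ι ℂ) (Q : Finset ι) {L C₀ : ℝ} (hL : 0 < L)
    (hC₀ : 0 < C₀) (k : ℕ) (p : ℕ → ι)
    (hinj : ∀ i, i ≤ k → ∀ j, j ≤ k → p i = p j → i = j)
    (hpQ : ∀ i, i ≤ k → p i ∈ Q)
    (hlink : ∀ i, i < k → ‖B (p i) (p (i + 1))‖ = 1)
    (hfar : ∀ i, i ≤ k → ∀ j, j ≤ k → i + 2 ≤ j ∨ j + 2 ≤ i → B (p i) (p j) = 0)
    (hrow : ∀ i, 1 ≤ i → i ≤ k → ∀ j, j ∉ Q → B (p i) j = 0)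
    (hcol : ∀ i, 1 ≤ i → i ≤ k → ∀ j, j ∉ Q → B j (p i) = 0)
    (z z₁ : ι → ℂ) (hzz : ∀ i, i ∉ Q → z₁ i = z i)
    (hchain : ‖(Mz B z₁).det‖ ≤ C₀ ^ Q.card * ‖(del Q (Mz B z₁)).det‖) :
    ∃ z' : ι → ℂ, (∀ i, i ∉ Q → z' i = z i) ∧ (∀ i ∈ Q, ‖z' i‖ ≤ L) ∧
      (min L 1 * C₀⁻¹) ^ Q.card * ‖(Mz B z₁).det‖ ≤ ‖(Mz B z').adjugate (p 0) (p k)‖ := by
  obtain ⟨z', h1, h2, h3⟩ := cof_lower_aux B Q hL.le k p hinj hpQ hlink hfar hrow hcol z
  refine ⟨z', h1, h2, le_trans ?_ h3⟩
  have e : del Q (Mz B z₁) = del Q (Mz B z) := del_congr hzz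
  rw [e] at hchain
  have hm : 0 < min L 1 := lt_min hL one_pos
  have hle : (min L 1) ^ Q.card ≤ L ^ (Q.card - (k + 1)) := by
    calc (min L 1) ^ Q.card ≤ (min L 1) ^ (Q.card - (k + 1)) :=
          pow_le_pow_of_le_one hm.le (min_le_right _ _) (by omega)
      _ ≤ L ^ (Q.card - (k + 1)) := pow_le_pow_left₀ hm.le (min_le_left _ _) _
  calc (min L 1 * C₀⁻¹) ^ Q.card * ‖(Mz B z₁).det‖ ≤
        (min L 1 * C₀⁻¹) ^ Q.card * (C₀ ^ Q.card * ‖(del Q (Mz B z)).det‖) :=
        mul_le_mul_of_nonneg_left hchain (by positivity)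
    _ = (min L 1) ^ Q.card * ‖(del Q (Mz B z)).det‖ := by
        rw [mul_pow, inv_pow]
        field_simp
    _ ≤ _ := mul_le_mul_of_nonneg_right hle (norm_nonneg _)

/-- the same in helper16's notation -/
theorem cof_lower_fil (B : Matrix ι ι ℂ) (Q : Finset ι) {L C₀ : ℝ} (hL : 0 < L)
    (hC₀ : 0 < C₀) (k : ℕ) (p : ℕ → ι)
    (hinj : ∀ i, i ≤ k → ∀ j, j ≤ k → p i = p j → i = j)
    (hpQ : ∀ i, i ≤ k → p i ∈ Q)
    (hlink : ∀ i, i < k → ‖B (p i) (p (i + 1))‖ = 1)
    (hfar : ∀ i, i ≤ k → ∀ j, j ≤ k → i + 2 ≤ j ∨ j + 2 ≤ i → B (p i) (p j) = 0)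
    (hrow : ∀ i, 1 ≤ i → i ≤ k → ∀ j, j ∉ Q → B (p i) j = 0)
    (hcol : ∀ i, 1 ≤ i → i ≤ k → ∀ j, j ∉ Q → B j (p i) = 0)
    (z0 : ι → ℂ) (y1 : Q → ℂ)
    (hchain : ‖(Mz B (fil Q z0 y1)).det‖ ≤ C₀ ^ Q.card * ‖(del Q (Mz B (fil Q z0 y1))).det‖) :
    ∃ y2 : Q → ℂ, (∀ i, ‖y2 i‖ ≤ L) ∧
      (min L 1 * C₀⁻¹) ^ Q.card * ‖(Mz B (fil Q z0 y1)).det‖ ≤
        ‖(Mz B (fil Q z0 y2)).adjugate (p 0) (p k)‖ := by
  obtain ⟨z', h1, h2, h3⟩ := cof_lower_of_chain B Q hL hC₀ k p hinj hpQ hlink hfar hrow hcol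
    z0 (fil Q z0 y1) (fun i hi => by simp [fil, hi]) hchain
  refine ⟨fun i => z' i, fun i => h2 i i.2, ?_⟩
  have e : fil Q z0 (fun i => z' i) = z' := by
    ext i
    by_cases hi : i ∈ Q
    · simp [fil, hi]
    · simp [fil, hi, h1 i hi]
  rw [e]
  exact h3

end P365T1.MAff
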