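import Vale.Agent.P365.T1.MAff

/-!
# Determinants and adjugates of `diagonal z + B` as multi-affine functions (P365 T1, chapters C, D)
-/

set_option autoImplicit false
set_option linter.unusedSectionVars false
set_option linter.unusedVariables false
set_option linter.dupNamespace false
set_option linter.style.header false
set_option linter.unusedSimpArgs false

open MeasureTheory Finset Function Matrix
open scoped ENNReal NNReal BigOperators

namespace P365T1.MAff

section Algebra

variable {ι : Type*} [DecidableEq ι]
variable {F G : Type*} [NormedAddCommGroup F] [NormedSpace ℂ F]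
  [NormedAddCommGroup G] [NormedSpace ℂ G]

theorem MAff.const (c : F) : MAff (fun _ : ι → ℂ => c) := fun _ _ => ⟨c, 0, fun z => by simp⟩

theorem MAff.linear {f : (ι → ℂ) → F} (hf : MAff f) (T : F →ₗ[ℂ] G) : MAff fun z => T (f z) := by
  intro x i
  obtain ⟨a, b, h⟩ := hf x i
  exact ⟨T a, T b, fun z => by simp only [h, map_add, map_smul]⟩

theorem MAff.add {f g : (ι → ℂ) → F} (hf : MAff f) (hg : MAff g) : MAff fun z => f z + g z := by
  intro x i
  obtain ⟨a, b, h⟩ := hf x i
  obtain ⟨a', b', h'⟩ := hg x i
  exact ⟨a + a', b + b', fun z => by simp only [h, h', smul_add]; abel⟩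

theorem MAff.const_smul {f : (ι → ℂ) → F} (hf : MAff f) (c : ℂ) : MAff fun z => c • f z :=
  hf.linear (c • LinearMap.id)

theorem MAff.neg {f : (ι → ℂ) → F} (hf : MAff f) : MAff fun z => -f z :=
  hf.linear (-LinearMap.id)

theorem MAff.sub {f g : (ι → ℂ) → F} (hf : MAff f) (hg : MAff g) : MAff fun z => f z - g z := by
  simpa only [sub_eq_add_neg] using hf.add hg.neg

/-- vector valued functions with multi-affine components -/
theorem MAff.pi {κ : Type*} [Fintype κ] {f : (ι → ℂ) → κ → ℂ} (hf : ∀ k, MAff fun z => f z k) :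
    MAff f := by
  intro x i
  choose a b h using fun k => hf k x i
  refine ⟨a, b, fun z => ?_⟩
  ext k
  simpa using h k z

/-- fixing a variable -/
theorem MAff.fix {f : (ι → ℂ) → F} (hf : MAff f) (i : ι) (w : ℂ) :
    MAff fun z => f (update z i w) := by
  intro x j
  by_cases hj : j = i
  · subst hj
    exact ⟨f (update x j w), 0, fun z => by simp⟩
  · obtain ⟨a, b, h⟩ := hf (update x i w) j
    exact ⟨a, b, fun z => by
      rw [← h]
      simp only [update_comm hj]⟩

/-- the coefficient of one variable -/
def coe1 (f : (ι → ℂ) → F) (i : ι) : (ι → ℂ) → F :=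
  fun z => f (update z i 1) - f (update z i 0)

theorem MAff.coef {f : (ι → ℂ) → F} (hf : MAff f) (i : ι) : MAff (coe1 f i) :=
  (hf.fix i 1).sub (hf.fix i 0)

theorem MAff.eq_coef {f : (ι → ℂ) → F} (hf : MAff f) (x : ι → ℂ) (i : ι) (w : ℂ) :
    f (update x i w) = f (update x i 0) + w • coe1 f i x := by
  obtain ⟨a, b, h⟩ := hf x i
  simp only [coe1, h]
  simp

/-- Cauchy-type bound: the coefficient is controlled by two values at `±L` -/
theorem MAff.norm_coef_le {f : (ι → ℂ) → F} (hf : MAff f) (x : ι → ℂ) (i : ι) {L M : ℝ}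
    (hL : 0 < L) (h1 : ‖f (update x i (L : ℂ))‖ ≤ M) (h2 : ‖f (update x i (-(L : ℂ)))‖ ≤ M) :
    ‖coe1 f i x‖ ≤ M / L := by
  have h3 : ((2 * L : ℝ) : ℂ) • coe1 f i x =
      f (update x i (L : ℂ)) - f (update x i (-(L : ℂ))) := by
    rw [hf.eq_coef x i L, hf.eq_coef x i (-L)]
    push_cast
    rw [neg_smul, mul_smul, two_smul]
    abel
  have h4 : 2 * L * ‖coe1 f i x‖ ≤ M + M := by
    calc 2 * L * ‖coe1 f i x‖ = ‖((2 * L : ℝ) : ℂ) • coe1 f i x‖ := by
          rw [norm_smul]; simp [abs_of_pos hL]
      _ ≤ ‖f (update x i (L : ℂ))‖ + ‖f (update x i (-(L : ℂ)))‖ := by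
          rw [h3]; exact norm_sub_le _ _
      _ ≤ M + M := add_le_add h1 h2
  rw [le_div_iff₀ hL]
  linarith

end Algebra

section Det

variable {ι : Type*} [Fintype ι] [DecidableEq ι]

/-- a determinant is multi-affine when the `i`-th variable occurs in the `i`-th row only -/
theorem maff_det_rows (R S : ι → ι → ℂ) :
    MAff fun z : ι → ℂ => (Matrix.of fun i j => R i j + z i * S i j).det := by
  intro x i
  set N : Matrix ι ι ℂ := Matrix.of fun i j => R i j + x i * S i j with hN
  refine ⟨(N.updateRow i (R i)).det, (N.updateRow i (S i)).det, fun w => ?_⟩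
  have h1 : (Matrix.of fun k j => R k j + update x i w k * S k j) =
      N.updateRow i (R i + w • S i) := by
    ext k j
    by_cases hk : k = i
    · subst hk; simp
    · simp [hN, hk]
  simp only [h1]
  rw [det_updateRow_add, det_updateRow_smul, smul_eq_mul]

/-- the matrix `diagonal z + B` -/
def Mz (B : Matrix ι ι ℂ) (z : ι → ℂ) : Matrix ι ι ℂ := Matrix.diagonal z + B

theorem maff_det (B : Matrix ι ι ℂ) : MAff fun z => (Mz B z).det := by
  have h := maff_det_rows (fun i j => B i j) fun i j => if i = j then (1 : ℂ) else 0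
  have h2 : (fun z : ι → ℂ => (Mz B z).det) =
      fun z => (Matrix.of fun i j => B i j + z i * (if i = j then (1 : ℂ) else 0)).det := by
    ext z
    congr 1
    ext i j
    by_cases hij : i = j
    · subst hij; simp [Mz, add_comm]
    · simp [Mz, hij]
  rw [h2]
  exact h

theorem maff_adj (B : Matrix ι ι ℂ) (x y : ι) : MAff fun z => (Mz B z).adjugate x y := by
  have h := maff_det_rows
    (fun i j => if i = y then (Pi.single x 1 : ι → ℂ) j else B i j)
    fun i j => if i = y then (0 : ℂ) else if i = j then (1 : ℂ) else 0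
  have h2 : (fun z : ι → ℂ => (Mz B z).adjugate x y) =
      fun z => (Matrix.of fun i j => (if i = y then (Pi.single x 1 : ι → ℂ) j else B i j) +
        z i * (if i = y then (0 : ℂ) else if i = j then (1 : ℂ) else 0)).det := by
    ext z
    rw [adjugate_apply]
    congr 1
    ext i j
    by_cases hi : i = y
    · subst hi; simp
    · rw [updateRow_ne hi]
      by_cases hij : i = j
      · subst hij; simp [Mz, hi, add_comm]
      · simp [Mz, hi, hij]
  rw [h2]
  exact h

theorem continuous_Mz (B : Matrix ι ι ℂ) : Continuous fun z : ι → ℂ => Mz B z := by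
  unfold Mz
  fun_prop

theorem continuous_det (B : Matrix ι ι ℂ) : Continuous fun z : ι → ℂ => (Mz B z).det :=
  (continuous_Mz B).matrix_det

theorem continuous_adj (B : Matrix ι ι ℂ) (x y : ι) :
    Continuous fun z : ι → ℂ => (Mz B z).adjugate x y :=
  ((continuous_Mz B).matrix_adjugate).matrix_elem x y

/-- the column `adj(M)_{d x}`, `d ∈ κ`, as a vector -/
theorem maff_adj_col {κ : Type*} [Fintype κ] (B : Matrix ι ι ℂ) (g : κ → ι) (x : ι) :
    MAff fun z => fun d : κ => (Mz B z).adjugate (g d) x :=
  MAff.pi fun d => maff_adj B (g d) x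

/-- replaced row and column: the matrix with the sites of `S` removed (identity there) -/
def del (S : Finset ι) (M : Matrix ι ι ℂ) : Matrix ι ι ℂ :=
  Matrix.of fun i j => if i ∈ S ∨ j ∈ S then (if i = j then 1 else 0) else M i j

theorem del_empty (M : Matrix ι ι ℂ) : del ∅ M = M := by
  ext i j; simp [del]

theorem del_insert (S : Finset ι) (x : ι) (M : Matrix ι ι ℂ) :
    del (insert x S) M = del {x} (del S M) := by
  ext i j
  simp only [del, Matrix.of_apply, Finset.mem_insert, Finset.mem_singleton]
  by_cases h1 : i = x <;> by_cases h2 : j = x <;> by_cases h3 : i ∈ S <;> by_cases h4 : j ∈ S <;>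
    simp [h1, h2, h3, h4]

/-- `det` with one site removed is the diagonal cofactor -/
theorem det_del_singleton (M : Matrix ι ι ℂ) (x : ι) : (del {x} M).det = M.adjugate x x := by
  set N := M.updateRow x (Pi.single x 1) with hN
  have h1 : del {x} M = (Nᵀ.updateRow x (Pi.single x 1))ᵀ := by
    ext i j
    simp only [del, Matrix.of_apply, Finset.mem_singleton, transpose_apply]
    by_cases h1 : i = x
    · subst h1
      by_cases h2 : j = i
      · subst h2; simp
      · simp [h2, hN, Ne.symm h2, updateRow_ne h2, Pi.single_apply]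
    · by_cases h2 : j = x
      · subst h2
        simp [Pi.single_apply, h1]
      · simp [updateRow_ne h2, hN, h1, h2, updateRow_ne h1]
  have h2 : (Nᵀ).adjugate x x = N.adjugate x x := by
    rw [← adjugate_transpose]; rfl
  rw [h1, det_transpose, ← adjugate_apply, h2, adjugate_apply, adjugate_apply]
  congr 1
  rw [hN]
  ext i j
  by_cases h : i = x
  · subst h; simp
  · simp [updateRow_ne h]

theorem del_apply_off {S : Finset ι} {M : Matrix ι ι ℂ} {i j : ι} (hi : i ∉ S) (hj : j ∉ S) :
    del S M i j = M i j := by simp [del, hi, hj]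

theorem del_row {S : Finset ι} {M : Matrix ι ι ℂ} {i : ι} (hi : i ∈ S) :
    del S M i = Pi.single i 1 := by
  ext j
  by_cases h : j = i
  · subst h; simp [del, hi]
  · simp [del, hi, Ne.symm h, h]

/-- if the row `x` is the unit vector, the column `x` may be cleared -/
theorem det_eq_det_del {K : Matrix ι ι ℂ} {x : ι} (h : K x = Pi.single x 1) :
    K.det = (del {x} K).det := by
  rw [det_del_singleton, adjugate_apply]
  congr 1
  rw [← h, updateRow_eq_self]

/-- the adjugate of the matrix with the site `x` removed -/
theorem adj_del_eq {N : Matrix ι ι ℂ} {x j y : ι} (hj : j ≠ x) (hy : y ≠ x) :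
    (del {x} N).adjugate j y = ((N.updateRow x (Pi.single x 1)).updateRow y (Pi.single j 1)).det := by
  have h1 : ((N.updateRow x (Pi.single x 1)).updateRow y (Pi.single j 1)) x = Pi.single x 1 := by
    rw [updateRow_ne hy.symm, updateRow_self]
  rw [det_eq_det_del h1, adjugate_apply]
  congr 1
  ext i k
  by_cases hiy : i = y
  · subst hiy
    by_cases hkx : k = x
    · subst hkx; simp [del, hy, hj.symm]
    · simp [del, hy, hkx]
  · rw [updateRow_ne hiy]
    by_cases hix : i = x
    · subst hix
      simp [del]
    · by_cases hkx : k = x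
      · subst hkx; simp [del, hix]
      · simp [del, hix, hkx, updateRow_ne hiy, updateRow_ne hix]

/-- **Removing the first site.**  `adj_{xy}(N) = - ∑_{j ≠ x} N_{xj} adj_{jy}(N^{(x)})`, `x ≠ y`. -/
theorem adj_recursion {N : Matrix ι ι ℂ} {x y : ι} (hxy : x ≠ y) :
    N.adjugate x y = -∑ j ∈ Finset.univ.erase x, N x j * (del {x} N).adjugate j y := by
  rw [adjugate_apply]
  set K := N.updateRow y (Pi.single x 1) with hK
  have hKx : K x = N x := by rw [hK, updateRow_ne hxy]
  rw [det_eq_sum_mul_adjugate_row K x, ← Finset.add_sum_erase _ _ (Finset.mem_univ x)]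
  have h0 : K.adjugate x x = 0 := by
    rw [adjugate_apply]
    refine det_zero_of_row_eq hxy ?_
    rw [updateRow_self, updateRow_ne hxy.symm, hK, updateRow_self]
  rw [h0, mul_zero, zero_add, ← Finset.sum_neg_distrib]
  refine Finset.sum_congr rfl fun j hj => ?_
  have hjx : j ≠ x := Finset.ne_of_mem_erase hj
  rw [adj_del_eq hjx hxy.symm, adjugate_apply, hKx]
  -- swap the rows `x` and `y`
  have h1 : ((N.updateRow x (Pi.single x 1)).updateRow y (Pi.single j 1)) =
      (K.updateRow x (Pi.single j 1)).submatrix (Equiv.swap x y) id := by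
    ext i k
    simp only [submatrix_apply, id_eq]
    by_cases hi : i = x
    · subst hi
      rw [Equiv.swap_apply_left, updateRow_ne hxy, updateRow_self, updateRow_ne hxy.symm, hK,
        updateRow_self]
    · by_cases hiy : i = y
      · subst hiy
        rw [Equiv.swap_apply_right, updateRow_self, updateRow_self]
      · rw [Equiv.swap_apply_of_ne_of_ne hi hiy, updateRow_ne hiy, updateRow_ne hi,
          updateRow_ne hi, hK, updateRow_ne hiy]
  rw [h1, det_permute, Equiv.Perm.sign_swap hxy]
  simp

/-- the coefficient of a diagonal entry in a cofactor -/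
theorem adj_add_diag {N : Matrix ι ι ℂ} {x y w : ι} (hx : x ≠ w) (hy : y ≠ w) (t : ℂ) :
    (N.updateRow w (N w + t • Pi.single w 1)).adjugate x y =
      N.adjugate x y + t * (del {w} N).adjugate x y := by
  rw [adjugate_apply, adj_del_eq hx hy, adjugate_apply]
  have h1 : (N.updateRow w (N w + t • Pi.single w 1)).updateRow y (Pi.single x 1) =
      (N.updateRow y (Pi.single x 1)).updateRow w
        ((N.updateRow y (Pi.single x 1)) w + t • Pi.single w 1) := by
    ext i k
    by_cases hi : i = y
    · subst hi; rw [updateRow_self, updateRow_ne hy, updateRow_self]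
    · rw [updateRow_ne hi]
      by_cases hiw : i = w
      · subst hiw; rw [updateRow_self, updateRow_self, updateRow_ne hi]
      · rw [updateRow_ne hiw, updateRow_ne hiw, updateRow_ne hi]
  have h2 : (N.updateRow w (Pi.single w 1)).updateRow y (Pi.single x 1) =
      (N.updateRow y (Pi.single x 1)).updateRow w (Pi.single w 1) := by
    ext i k
    by_cases hi : i = y
    · subst hi; rw [updateRow_self, updateRow_ne hy, updateRow_self]
    · rw [updateRow_ne hi]
      by_cases hiw : i = w
      · subst hiw; rw [updateRow_self, updateRow_self]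
      · rw [updateRow_ne hiw, updateRow_ne hiw, updateRow_ne hi]
  rw [h1, h2, det_updateRow_add, det_updateRow_smul, updateRow_eq_self]

theorem det_add_diag {N : Matrix ι ι ℂ} {w : ι} (t : ℂ) :
    (N.updateRow w (N w + t • Pi.single w 1)).det = N.det + t * (del {w} N).det := by
  rw [det_updateRow_add, det_updateRow_smul, updateRow_eq_self, det_del_singleton, adjugate_apply]

/-- **Jacobi's identity** for two by two minors of the adjugate -/
theorem jacobi {M : Matrix ι ι ℂ} {d x y : ι} (hd : d ≠ x)
    (hy : y ≠ x) :
    M.adjugate d x * M.adjugate x y =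
      M.adjugate d y * M.adjugate x x - M.det * (del {x} M).adjugate d y := by
  -- `M' = M + E_xx`; `M' adj(M') = det M'`
  set N := M.updateRow x (M x + (1 : ℂ) • Pi.single x 1) with hN
  have h1 : N.adjugate d y = M.adjugate d y + (del {x} M).adjugate d y := by
    have := adj_add_diag (N := M) hd hy (1 : ℂ)
    rw [one_mul] at this
    exact this
  have h2 : N.det = M.det + M.adjugate x x := by
    have := det_add_diag (N := M) (w := x) (1 : ℂ)
    rw [one_mul, det_del_singleton] at this
    exact this
  -- the column `x` of the adjugate does not change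
  have h3 : ∀ k, N.adjugate k x = M.adjugate k x := by
    intro k
    rw [adjugate_apply, adjugate_apply, hN, updateRow_idem]
  -- `N = M + E_xx` as matrices
  have h4 : N = M + Matrix.single x x 1 := by
    ext i k
    by_cases hi : i = x
    · subst hi
      simp [hN, Matrix.single_apply, Pi.single_apply, eq_comm]
    · simp [hN, hi, Matrix.single_apply, Ne.symm hi]
  -- adj N · M = adj N · N - adj N E_xx
  have h5 : N.adjugate * M = N.det • (1 : Matrix ι ι ℂ) -
      N.adjugate * (Matrix.single x x (1 : ℂ) : Matrix ι ι ℂ) := by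
    rw [← adjugate_mul N]
    nth_rewrite 3 [h4]
    rw [mul_add]
    abel
  have h6 : M.det • N.adjugate = N.det • M.adjugate -
      N.adjugate * (Matrix.single x x (1 : ℂ) : Matrix ι ι ℂ) * M.adjugate := by
    calc M.det • N.adjugate = N.adjugate * (M * M.adjugate) := by
          rw [mul_adjugate, Matrix.mul_smul, mul_one]
      _ = (N.adjugate * M) * M.adjugate := by rw [mul_assoc]
      _ = _ := by rw [h5, sub_mul, smul_mul, one_mul]
  have h7 := congrFun (congrFun h6 d) y
  have h8 : (N.adjugate * (Matrix.single x x (1 : ℂ) : Matrix ι ι ℂ) * M.adjugate) d y =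
      M.adjugate d x * M.adjugate x y := by
    rw [Matrix.mul_apply]
    rw [Finset.sum_eq_single x]
    · congr 1
      rw [Matrix.mul_apply, Finset.sum_eq_single x]
      · simp [h3]
      · intro b _ hb; simp [Matrix.single_apply, Ne.symm hb]
      · simp
    · intro b _ hb
      rw [Matrix.mul_apply, Finset.sum_eq_zero, zero_mul]
      intro k _
      simp [Matrix.single_apply, Ne.symm hb]
    · simp
  simp only [Matrix.smul_apply, Matrix.sub_apply, smul_eq_mul] at h7
  rw [h8, h1, h2] at h7
  linear_combination h7

end Det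

end P365T1.MAff
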