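import Mathlib

/-!
# P365 T1: Jacobi's identity for the adjugate (removed-site matrices)

`rem S M` : rows and columns in `S` replaced by the identity.
`cf M x d y` : coefficient of `M x x` in `adjugate M d y`.
-/

set_option linter.all false

namespace P365T1

open Matrix

variable {ι : Type*} [Fintype ι] [DecidableEq ι] {R : Type*} [CommRing R]

/-- rows and columns in `S` replaced by those of the identity -/
def rem (S : Finset ι) (M : Matrix ι ι R) : Matrix ι ι R :=
  Matrix.of fun i j => if i ∈ S ∨ j ∈ S then (if i = j then 1 else 0) else M i j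

/-- coefficient of the entry `(x, x)` in `adjugate M d y` -/
noncomputable def cf (M : Matrix ι ι R) (x d y : ι) : R :=
  if d = x ∨ y = x then 0 else adjugate (rem {x} M) d y

/-! ### elementary facts -/

theorem adj_apply' (M : Matrix ι ι R) (i j : ι) :
    adjugate M i j = (M.updateCol i (Pi.single j 1)).det := by
  have h : adjugate M i j = adjugate Mᵀ j i := by
    rw [← adjugate_transpose]
    rfl
  rw [h, adjugate_apply, ← det_transpose, updateRow_transpose, transpose_transpose]

omit [Fintype ι] in
theorem rem_singleton (x : ι) (M : Matrix ι ι R) :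
    rem {x} M = (M.updateRow x (Pi.single x 1)).updateCol x (Pi.single x 1) := by
  ext i j
  simp only [rem, of_apply, Finset.mem_singleton, updateCol_apply, updateRow_apply,
    Pi.single_apply]
  by_cases hi : i = x
  · by_cases hj : j = x
    · simp [hi, hj]
    · simp [hi, hj, Ne.symm hj, eq_comm]
  · by_cases hj : j = x
    · simp [hi, hj]
    · simp [hi, hj]

omit [Fintype ι] in
theorem rem_insert (w : ι) (S : Finset ι) (M : Matrix ι ι R) :
    rem (insert w S) M = rem {w} (rem S M) := by
  ext i j
  simp only [rem, of_apply, Finset.mem_singleton, Finset.mem_insert]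
  by_cases h1 : i = w ∨ j = w
  · have h2 : (i = w ∨ i ∈ S) ∨ (j = w ∨ j ∈ S) := by tauto
    rw [if_pos h1, if_pos h2]
  · rw [if_neg h1]
    by_cases h2 : i ∈ S ∨ j ∈ S
    · have h3 : (i = w ∨ i ∈ S) ∨ (j = w ∨ j ∈ S) := by tauto
      rw [if_pos h2, if_pos h3]
    · have h3 : ¬ ((i = w ∨ i ∈ S) ∨ (j = w ∨ j ∈ S)) := by tauto
      rw [if_neg h2, if_neg h3]

omit [Fintype ι] in
theorem rem_empty (M : Matrix ι ι R) : rem ∅ M = M := by
  ext i j
  simp [rem]

omit [Fintype ι] in
theorem rem_of_mem {S : Finset ι} {M : Matrix ι ι R} {i j : ι} (h : i ∈ S ∨ j ∈ S) :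
    rem S M i j = if i = j then 1 else 0 := by
  simp only [rem, of_apply]
  rw [if_pos h]

omit [Fintype ι] in
theorem rem_of_not_mem {S : Finset ι} {M : Matrix ι ι R} {i j : ι} (hi : i ∉ S) (hj : j ∉ S) :
    rem S M i j = M i j := by
  simp only [rem, of_apply]
  rw [if_neg (by tauto)]

/-- a determinant with row `x` equal to `e_x` does not see column `x` -/
theorem det_row_single (N : Matrix ι ι R) (x : ι) :
    (N.updateRow x (Pi.single x 1)).det =
      ((N.updateRow x (Pi.single x 1)).updateCol x (Pi.single x 1)).det := by
  rw [← adj_apply', adjugate_apply, updateRow_idem]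

theorem det_rem_singleton (x : ι) (M : Matrix ι ι R) : (rem {x} M).det = adjugate M x x := by
  rw [rem_singleton, ← det_row_single, adjugate_apply]

theorem det_two_rows (M : Matrix ι ι R) {x y : ι} (hxy : x ≠ y) (d : ι) :
    ((M.updateRow y (Pi.single d 1)).updateRow x (Pi.single x 1)).det = cf M x d y := by
  unfold cf
  by_cases hd : d = x
  · rw [if_pos (Or.inl hd)]
    subst hd
    refine det_zero_of_row_eq hxy ?_
    rw [updateRow_self, updateRow_ne (Ne.symm hxy), updateRow_self]
  · rw [if_neg (by push Not; exact ⟨hd, Ne.symm hxy⟩), det_row_single, adjugate_apply]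
    congr 1
    rw [rem_singleton]
    ext i j
    simp only [updateCol_apply, updateRow_apply, Pi.single_apply]
    by_cases hi : i = x
    · subst hi
      by_cases hj : j = i
      · subst hj
        simp [hxy]
      · simp [hj, hxy]
    · by_cases hj : j = x
      · subst hj
        by_cases hi2 : i = y
        · subst hi2
          simp [hi, Ne.symm hd]
        · simp [hi, hi2]
      · by_cases hi2 : i = y
        · subst hi2
          simp [hi, hj]
        · simp [hi, hj, hi2]

/-- **`adj` is affine in each diagonal entry** -/
theorem adj_add_single (M : Matrix ι ι R) (t : R) (x d y : ι) :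
    adjugate (M + Matrix.single x x t) d y = adjugate M d y + t * cf M x d y := by
  by_cases hy : y = x
  · subst hy
    rw [cf, if_pos (Or.inr rfl), mul_zero, add_zero, adjugate_apply, adjugate_apply]
    congr 1
    ext i j
    by_cases hi : i = y
    · subst hi
      rw [updateRow_self, updateRow_self]
    · rw [updateRow_ne hi, updateRow_ne hi, Matrix.add_apply, single_apply_of_ne]
      · rw [add_zero]
      · rintro ⟨h, -⟩
        exact hi h.symm
  · rw [adjugate_apply, adjugate_apply, ← det_two_rows M (Ne.symm hy)]
    have h1 : (M + Matrix.single x x t).updateRow y (Pi.single d 1) =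
        (M.updateRow y (Pi.single d 1)).updateRow x
          ((M.updateRow y (Pi.single d 1)) x + t • Pi.single x 1) := by
      ext i j
      by_cases hi : i = x
      · subst hi
        rw [updateRow_self, updateRow_ne (Ne.symm hy), updateRow_ne (Ne.symm hy)]
        simp only [Matrix.add_apply, Pi.add_apply, Pi.smul_apply, smul_eq_mul]
        congr 1
        by_cases hj : j = i
        · subst hj
          simp
        · rw [single_apply_of_ne, Pi.single_eq_of_ne hj, mul_zero]
          rintro ⟨-, h⟩
          exact hj h.symm
      · rw [updateRow_ne hi]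
        by_cases hi2 : i = y
        · subst hi2
          rw [updateRow_self, updateRow_self]
        · rw [updateRow_ne hi2, updateRow_ne hi2, Matrix.add_apply, single_apply_of_ne, add_zero]
          rintro ⟨h, -⟩
          exact hi h.symm
    rw [h1, det_updateRow_add, det_updateRow_smul, updateRow_eq_self]

theorem det_add_single (M : Matrix ι ι R) (t : R) (x : ι) :
    (M + Matrix.single x x t).det = M.det + t * adjugate M x x := by
  have h1 : M + Matrix.single x x t = M.updateRow x (M x + t • Pi.single x 1) := by
    ext i j
    by_cases hi : i = x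
    · subst hi
      rw [updateRow_self]
      simp only [Matrix.add_apply, Pi.add_apply, Pi.smul_apply, smul_eq_mul]
      congr 1
      by_cases hj : j = i
      · subst hj
        simp
      · rw [single_apply_of_ne, Pi.single_eq_of_ne hj, mul_zero]
        rintro ⟨-, h⟩
        exact hj h.symm
    · rw [updateRow_ne hi, Matrix.add_apply, single_apply_of_ne, add_zero]
      rintro ⟨h, -⟩
      exact hi h.symm
  rw [h1, det_updateRow_add, det_updateRow_smul, updateRow_eq_self, adjugate_apply]

/-! ### Jacobi's identity -/

/-- determinant of the identity with two rows replaced -/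
theorem det_one_two_rows {x y : ι} (hxy : x ≠ y) (u v : ι → R) :
    (((1 : Matrix ι ι R).updateRow y u).updateRow x v).det = v x * u y - v y * u x := by
  let A : Matrix ι (Fin 2) R := Matrix.of fun i k => if k = 0 then (if i = x then 1 else 0)
    else (if i = y then 1 else 0)
  let B : Matrix (Fin 2) ι R := Matrix.of fun k j => if k = 0 then (v j - if x = j then 1 else 0)
    else (u j - if y = j then 1 else 0)
  have h1 : ((1 : Matrix ι ι R).updateRow y u).updateRow x v = 1 + A * B := by
    ext i j
    rw [Matrix.add_apply, mul_apply, Fin.sum_univ_two]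
    simp only [A, B, of_apply, if_true, Fin.one_eq_zero_iff, OfNat.ofNat_ne_one, if_false]
    by_cases hi : i = x
    · subst hi
      rw [updateRow_self]
      simp only [one_apply, if_true, hxy, if_false, one_mul, zero_mul, add_zero]
      ring
    · rw [updateRow_ne hi]
      by_cases hi2 : i = y
      · subst hi2
        rw [updateRow_self]
        simp only [one_apply, if_true, hi, if_false, one_mul, zero_mul, zero_add]
        simp
      · rw [updateRow_ne hi2]
        simp [hi, hi2]
  rw [h1, det_one_add_mul_comm, det_fin_two]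
  simp only [Matrix.add_apply, mul_apply, A, B, of_apply, one_apply, Fin.isValue, if_true,
    Fin.one_eq_zero_iff, OfNat.ofNat_ne_one, if_false, mul_ite, mul_one, mul_zero,
    Finset.sum_ite_eq', Finset.mem_univ]
  simp [hxy, Ne.symm hxy]

theorem jac_field {K : Type*} [Field K] (M : Matrix ι ι K) (h : M.det ≠ 0) {x y : ι}
    (hxy : x ≠ y) (d : ι) :
    M.det * ((M.updateRow y (Pi.single d 1)).updateRow x (Pi.single x 1)).det =
      adjugate M x x * adjugate M d y - adjugate M d x * adjugate M x y := by
  have hu : IsUnit M.det := isUnit_iff_ne_zero.2 h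
  set P : Matrix ι ι K := (M.updateRow y (Pi.single d 1)).updateRow x (Pi.single x 1) with hP
  have h1 : P * M⁻¹ = ((1 : Matrix ι ι K).updateRow y (M⁻¹ d)).updateRow x (M⁻¹ x) := by
    rw [hP, updateRow_mul, updateRow_mul, mul_nonsing_inv _ hu, single_one_vecMul,
      single_one_vecMul]
    rfl
  have h2 : P.det = (P * M⁻¹).det * M.det := by
    rw [← det_mul, Matrix.mul_assoc, nonsing_inv_mul _ hu, Matrix.mul_one]
  have h3 : ∀ i j, M⁻¹ i j = M.det⁻¹ * adjugate M i j := by
    intro i j
    rw [inv_def, Matrix.smul_apply, Ring.inverse_eq_inv', smul_eq_mul]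
  rw [h2, h1, det_one_two_rows hxy, h3, h3, h3, h3]
  field_simp

/-- **Jacobi's identity** over any commutative ring -/
theorem jac_row (M : Matrix ι ι R) {x y : ι} (hxy : x ≠ y) (d : ι) :
    M.det * ((M.updateRow y (Pi.single d 1)).updateRow x (Pi.single x 1)).det =
      adjugate M x x * adjugate M d y - adjugate M d x * adjugate M x y := by
  classical
  let X : Matrix ι ι (MvPolynomial (ι × ι) ℤ) := mvPolynomialX ι ι ℤ
  have hX : X.det * ((X.updateRow y (Pi.single d 1)).updateRow x (Pi.single x 1)).det =
      adjugate X x x * adjugate X d y - adjugate X d x * adjugate X x y := by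
    let K := FractionRing (MvPolynomial (ι × ι) ℤ)
    let φ : MvPolynomial (ι × ι) ℤ →+* K := algebraMap _ _
    have hinj : Function.Injective φ := IsFractionRing.injective _ _
    apply hinj
    have h0 : (φ.mapMatrix X).det ≠ 0 := by
      rw [← RingHom.map_det]
      exact fun h => det_mvPolynomialX_ne_zero ι ℤ (hinj (by rw [h, map_zero]))
    have h1 := jac_field (φ.mapMatrix X) h0 hxy d
    have hs : ∀ k : ι, (Pi.single k 1 : ι → K) = φ ∘ (Pi.single k 1 : ι → _) := by
      intro k
      funext j
      by_cases hj : j = k
      · subst hj; simp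
      · simp [hj]
    have h2 : ((φ.mapMatrix X).updateRow y (Pi.single d 1)).updateRow x (Pi.single x 1) =
        φ.mapMatrix ((X.updateRow y (Pi.single d 1)).updateRow x (Pi.single x 1)) := by
      rw [RingHom.mapMatrix_apply, RingHom.mapMatrix_apply, map_updateRow, map_updateRow, hs, hs]
    rw [h2, ← RingHom.map_det, ← RingHom.map_det, ← RingHom.map_adjugate] at h1
    simp only [RingHom.mapMatrix_apply, map_apply] at h1
    rw [map_mul, h1, map_sub, map_mul, map_mul]
  let ψ : MvPolynomial (ι × ι) ℤ →+* R :=
    MvPolynomial.eval₂Hom (Int.castRingHom R) fun p : ι × ι => M p.1 p.2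
  have hM : ψ.mapMatrix X = M := mvPolynomialX_map_eval₂ (Int.castRingHom R) M
  have hs : ∀ k : ι, (Pi.single k 1 : ι → R) = ψ ∘ (Pi.single k 1 : ι → _) := by
    intro k
    funext j
    by_cases hj : j = k
    · subst hj; simp
    · simp [hj]
  have h2 : (M.updateRow y (Pi.single d 1)).updateRow x (Pi.single x 1) =
      ψ.mapMatrix ((X.updateRow y (Pi.single d 1)).updateRow x (Pi.single x 1)) := by
    rw [RingHom.mapMatrix_apply, map_updateRow, map_updateRow, hs, hs]
    congr 2
    exact hM.symm
  have h3 : ∀ i j, adjugate M i j = ψ (adjugate X i j) := by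
    intro i j
    conv_lhs => rw [← hM]
    rw [← RingHom.map_adjugate]
    rfl
  have h4 : M.det = ψ X.det := by
    conv_lhs => rw [← hM]
    rw [RingHom.map_det]
  rw [h2, ← RingHom.map_det, h3, h3, h3, h3, h4, ← map_mul, hX, map_sub, map_mul, map_mul]

/-- **Jacobi, all indices**: `adj_dx adj_xy - adj_dy adj_xx = - det M * (coefficient of M_xx in adj_dy)` -/
theorem jac (M : Matrix ι ι R) (x d y : ι) :
    adjugate M d x * adjugate M x y - adjugate M d y * adjugate M x x =
      -(M.det * cf M x d y) := by
  by_cases hy : y = x
  · subst hy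
    rw [cf, if_pos (Or.inr rfl)]
    ring
  · rw [← det_two_rows M (Ne.symm hy), jac_row M (Ne.symm hy)]
    ring

theorem cf_eq_adj_rem (M : Matrix ι ι R) {x d y : ι} (hd : d ≠ x) (hy : y ≠ x) :
    cf M x d y = adjugate (rem {x} M) d y := by
  rw [cf, if_neg (by push Not; exact ⟨hd, hy⟩)]

theorem cf_left (M : Matrix ι ι R) (x y : ι) : cf M x x y = 0 := if_pos (Or.inl rfl)

theorem cf_right (M : Matrix ι ι R) (x d : ι) : cf M x d x = 0 := if_pos (Or.inr rfl)

end P365T1
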