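import Vale.Agent.P365.T1.MDet

/-!
P365 T1 (helper791): cofactors along an isolated path.
-/

set_option linter.all false

open Finset Matrix

namespace P365T1.MAff

variable {ι : Type*} [Fintype ι] [DecidableEq ι]

theorem del_del (S T : Finset ι) (M : Matrix ι ι ℂ) : del S (del T M) = del (S ∪ T) M := by
  ext i j
  simp only [del, Matrix.of_apply, Finset.mem_union]
  by_cases h1 : i ∈ S <;> by_cases h2 : j ∈ S <;> by_cases h3 : i ∈ T <;> by_cases h4 : j ∈ T <;>
    simp [h1, h2, h3, h4]

/-- a cofactor between a block that is decoupled (its columns vanish off its rows) and the rest -/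
theorem adj_block_zero {N : Matrix ι ι ℂ} (B : Finset ι) (h : ∀ i, i ∉ B → ∀ j ∈ B, N i j = 0)
    {j y : ι} (hy : y ∈ B) (hj : j ∉ B) : N.adjugate j y = 0 := by
  classical
  obtain ⟨q, hq⟩ : ∃ q : ι → Prop, ∀ i, q i ↔ i ∈ B := ⟨_, fun _ => Iff.rfl⟩
  rw [adjugate_apply, twoBlockTriangular_det _ q]
  · rw [det_eq_zero_of_row_eq_zero ⟨y, (hq y).2 hy⟩, zero_mul]
    rintro ⟨k, hk⟩
    have hkj : k ≠ j := by
      intro h'
      rw [h'] at hk
      exact hj ((hq j).1 hk)
    simp [toSquareBlockProp, of_apply, updateRow_self, hkj]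
  · intro i hi k hk
    have hiy : i ≠ y := by
      intro h'
      rw [h'] at hi
      exact hi ((hq y).2 hy)
    rw [updateRow_ne hiy]
    exact h i (fun h' => hi ((hq i).2 h')) k ((hq k).1 hk)

/-- **the cofactor between the two ends of a path** `p 0, …, p k` that is linked to the rest
only at `p 0` -/
theorem adj_path (k : ℕ) : ∀ (N : Matrix ι ι ℂ) (p : ℕ → ι),
    (∀ i, i ≤ k → ∀ j, j ≤ k → p i = p j → i = j) →
    (∀ i, 1 ≤ i → i ≤ k → ∀ j, N (p i) j ≠ 0 → ∃ i', i' ≤ k ∧ j = p i' ∧ i' ≤ i + 1 ∧ i ≤ i' + 1) →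
    (∀ i, 2 ≤ i → i ≤ k → N (p 0) (p i) = 0) →
    (∀ i, 1 ≤ i → i ≤ k → ∀ j, N j (p i) ≠ 0 → ∃ i', i' ≤ k ∧ j = p i') →
    N.adjugate (p 0) (p k) = (-1) ^ k * (∏ i ∈ range k, N (p i) (p (i + 1))) *
      (del ((range (k + 1)).image p) N).det := by
  induction k with
  | zero =>
    intro N p _ _ _ _
    rw [← det_del_singleton]
    simp
  | succ k ih =>
    intro N p hinj hrow hrow0 hcol
    have hne : ∀ i, i ≤ k → p (i + 1) ≠ p 0 := by
      intro i hi h
      have := hinj (i + 1) (by omega) 0 (by omega) h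
      omega
    have hxy : p 0 ≠ p (k + 1) := (hne k le_rfl).symm
    set N' := del {p 0} N with hN'
    have off : ∀ a b, a ≠ p 0 → b ≠ p 0 → N' a b = N a b := fun a b ha hb =>
      del_apply_off (by simpa using ha) (by simpa using hb)
    have zr : ∀ a b, a ≠ b → (a = p 0 ∨ b = p 0) → N' a b = 0 := by
      intro a b hab h
      rw [hN', del]
      simp [hab, h]
    rw [adj_recursion hxy, Finset.sum_eq_single (p 1)]
    · have h := ih N' (fun i => p (i + 1)) ?_ ?_ ?_ ?_
      · simp only [zero_add] at h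
        rw [← hN', h]
        have e1 : ∏ i ∈ range k, N' (p (i + 1)) (p (i + 1 + 1)) =
            ∏ i ∈ range k, N (p (i + 1)) (p (i + 1 + 1)) := by
          refine Finset.prod_congr rfl fun i hi => ?_
          rw [Finset.mem_range] at hi
          exact off _ _ (hne i (by omega)) (hne (i + 1) (by omega))
        have e2 : del ((range (k + 1)).image fun i => p (i + 1)) N' =
            del ((range (k + 1 + 1)).image p) N := by
          rw [hN', del_del]
          congr 1
          ext a
          simp only [Finset.mem_union, Finset.mem_image, Finset.mem_range, Finset.mem_singleton]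
          constructor
          · rintro (⟨i, hi, rfl⟩ | rfl)
            · exact ⟨i + 1, by omega, rfl⟩
            · exact ⟨0, by omega, rfl⟩
          · rintro ⟨i, hi, rfl⟩
            rcases Nat.eq_zero_or_pos i with rfl | hp
            · right; rfl
            · left; exact ⟨i - 1, by omega, by congr 1; omega⟩
        rw [e1, e2, Finset.prod_range_succ' (fun i => N (p i) (p (i + 1))) k]
        simp only [zero_add]
        ring
      · intro i hi j hj h
        have := hinj (i + 1) (by omega) (j + 1) (by omega) h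
        omega
      · intro i hi1 hik j hj
        have hj0 : j ≠ p 0 := by
          rintro rfl
          exact hj (zr _ _ (hne i hik) (Or.inr rfl))
        rw [off _ _ (hne i hik) hj0] at hj
        obtain ⟨i', h1, h2, h3, h4⟩ := hrow (i + 1) (by omega) (by omega) j hj
        exact ⟨i' - 1, by omega, by rw [h2]; congr 1; omega, by omega, by omega⟩
      · intro i hi hik
        by_contra hcon
        change N' (p (0 + 1)) (p (i + 1)) ≠ 0 at hcon
        rw [off _ _ (hne 0 (by omega)) (hne i hik)] at hcon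
        obtain ⟨i', h1, h2, h3, h4⟩ := hrow 1 le_rfl (by omega) _ hcon
        have := hinj (i + 1) (by omega) i' h1 h2
        omega
      · intro i hi1 hik j hj
        have hj0 : j ≠ p 0 := by
          rintro rfl
          exact hj (zr _ _ (hne i hik).symm (Or.inl rfl))
        change N' j (p (i + 1)) ≠ 0 at hj
        rw [off _ _ hj0 (hne i hik)] at hj
        obtain ⟨i', h1, h2⟩ := hcol (i + 1) (by omega) (by omega) j hj
        have hi' : i' ≠ 0 := by rintro rfl; exact hj0 h2
        exact ⟨i' - 1, by omega, by rw [h2]; congr 1; omega⟩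
    · intro j hj hj1
      have hj0 : j ≠ p 0 := Finset.ne_of_mem_erase hj
      by_cases hpath : ∃ i, i ≤ k + 1 ∧ j = p i
      · obtain ⟨i, hi, rfl⟩ := hpath
        rw [hrow0 i (by
          have h1 : i ≠ 0 := by rintro rfl; exact hj0 rfl
          have h2 : i ≠ 1 := by rintro rfl; exact hj1 rfl
          omega) hi, zero_mul]
      · rw [← hN', adj_block_zero (N := N') ((range (k + 1)).image fun i => p (i + 1)) ?_
          (Finset.mem_image.2 ⟨k, by simp, rfl⟩) ?_, mul_zero]
        · intro a ha b hb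
          obtain ⟨i, hi, rfl⟩ := Finset.mem_image.1 hb
          rw [Finset.mem_range] at hi
          by_cases ha0 : a = p 0
          · exact zr _ _ (by rw [ha0]; exact (hne i (by omega)).symm) (Or.inl ha0)
          · rw [off _ _ ha0 (hne i (by omega))]
            by_contra hcon
            obtain ⟨i', h1, h2⟩ := hcol (i + 1) (by omega) (by omega) a hcon
            have hi' : i' ≠ 0 := by rintro rfl; exact ha0 h2
            exact ha (Finset.mem_image.2 ⟨i' - 1, by rw [Finset.mem_range]; omega, by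
              rw [h2]; congr 1; omega⟩)
        · intro hcon
          obtain ⟨i, hi, rfl⟩ := Finset.mem_image.1 hcon
          rw [Finset.mem_range] at hi
          exact hpath ⟨i + 1, by omega, rfl⟩
    · intro h
      exact absurd (Finset.mem_erase.2 ⟨hne 0 (by omega), Finset.mem_univ _⟩) h

/-- the same in norm, when the links have absolute value one -/
theorem norm_adj_path (k : ℕ) (N : Matrix ι ι ℂ) (p : ℕ → ι)
    (hinj : ∀ i, i ≤ k → ∀ j, j ≤ k → p i = p j → i = j)
    (hrow : ∀ i, 1 ≤ i → i ≤ k → ∀ j, N (p i) j ≠ 0 →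
      ∃ i', i' ≤ k ∧ j = p i' ∧ i' ≤ i + 1 ∧ i ≤ i' + 1)
    (hrow0 : ∀ i, 2 ≤ i → i ≤ k → N (p 0) (p i) = 0)
    (hcol : ∀ i, 1 ≤ i → i ≤ k → ∀ j, N j (p i) ≠ 0 → ∃ i', i' ≤ k ∧ j = p i')
    (h1 : ∀ i, i < k → ‖N (p i) (p (i + 1))‖ = 1) :
    ‖N.adjugate (p 0) (p k)‖ = ‖(del ((range (k + 1)).image p) N).det‖ := by
  rw [adj_path k N p hinj hrow hrow0 hcol, norm_mul, norm_mul, norm_pow, norm_neg, norm_one,
    one_pow, one_mul, norm_prod, Finset.prod_congr rfl fun i hi => h1 i (Finset.mem_range.1 hi),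
    Finset.prod_const_one, one_mul]

/-- version with an indexed path `p : Fin (k+1) → ι` -/
theorem adj_path_fin (k : ℕ) (N : Matrix ι ι ℂ) (p : Fin (k + 1) → ι)
    (hinj : Function.Injective p)
    (hrow : ∀ i : Fin (k + 1), i ≠ 0 → ∀ j, N (p i) j ≠ 0 →
      ∃ i' : Fin (k + 1), j = p i' ∧ i'.1 ≤ i.1 + 1 ∧ i.1 ≤ i'.1 + 1)
    (hrow0 : ∀ i : Fin (k + 1), 2 ≤ i.1 → N (p 0) (p i) = 0)
    (hcol : ∀ i : Fin (k + 1), i ≠ 0 → ∀ j, N j (p i) ≠ 0 → ∃ i', j = p i') :
    N.adjugate (p 0) (p (Fin.last k)) =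
      (-1) ^ k * (∏ i : Fin k, N (p i.castSucc) (p i.succ)) * (del (univ.image p) N).det := by
  obtain ⟨q, key⟩ : ∃ q : ℕ → ι, ∀ (i : ℕ) (hi : i ≤ k), q i = p ⟨i, by omega⟩ :=
    ⟨fun i : ℕ => if h : i ≤ k then p ⟨i, by omega⟩ else p 0, fun i hi => by simp [hi]⟩
  have h := adj_path k N q ?_ ?_ ?_ ?_
  · have e0 : q 0 = p 0 := key 0 (by omega)
    have ek : q k = p (Fin.last k) := key k le_rfl
    have e1 : ∏ i ∈ range k, N (q i) (q (i + 1)) =
        ∏ i : Fin k, N (p i.castSucc) (p i.succ) := by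
      rw [← Fin.prod_univ_eq_prod_range (fun i => N (q i) (q (i + 1))) k]
      refine Finset.prod_congr rfl fun i _ => ?_
      rw [key i.1 i.2.le, key (i.1 + 1) i.2]
      rfl
    have e2 : (range (k + 1)).image q = univ.image p := by
      ext a
      simp only [Finset.mem_image, Finset.mem_range, Finset.mem_univ, true_and]
      constructor
      · rintro ⟨i, hi, rfl⟩
        exact ⟨⟨i, hi⟩, (key i (by omega)).symm⟩
      · rintro ⟨i, rfl⟩
        exact ⟨i.1, i.2, key i.1 (by omega)⟩
    rw [e0, ek, e1, e2] at h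
    exact h
  · intro i hi j hj h
    rw [key i hi, key j hj] at h
    have := hinj h
    simpa using this
  · intro i hi1 hik j hj
    rw [key i hik] at hj
    obtain ⟨i', h1, h2, h3⟩ := hrow ⟨i, by omega⟩ (by
      intro h; rw [Fin.ext_iff] at h; simp at h; omega) j hj
    refine ⟨i'.1, by omega, ?_, h2, h3⟩
    rw [key i'.1 (by omega)]
    exact h1
  · intro i hi hik
    rw [key i hik, key 0 (by omega)]
    exact hrow0 ⟨i, by omega⟩ hi
  · intro i hi1 hik j hj
    rw [key i hik] at hj
    obtain ⟨i', h1⟩ := hcol ⟨i, by omega⟩ (by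
      intro h; rw [Fin.ext_iff] at h; simp at h; omega) j hj
    refine ⟨i'.1, by omega, ?_⟩
    rw [key i'.1 (by omega)]
    exact h1

end P365T1.MAff
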