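import Mathlib.Data.Nat.Basic
import Mathlib.Data.Fintype.Basic
import Mathlib.Tactic

/-!
# P365-T1: marks.  Nested grids of blocks, patterns with private labels, switching of labels.

Abstract setting: `bk j x` is the block of level `j` which contains the site `x`, the grids are
nested, `pat j x` is the label which the pattern of family `j` prescribes at `x`, `fam` says to
which family a label belongs (`none` for the ordinary labels `good`, `rest`, …).  Every label of
`pat j` belongs to family `j` (**marks**).

If a region `R` is a union of blocks of level `i` and of matched blocks of the levels `> i`, then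
rewriting the labels of `R` by ordinary labels and by whole patterns of level `i` does not change
the set of matched blocks outside `R`.
-/

set_option linter.all false

namespace P365T1.Marks

variable {ι β L : Type*}

/-- data of the nested grids -/
structure Grid (ι β L : Type*) where
  /-- block of level `j` of the site `x` -/
  bk : ℕ → ι → β
  /-- label prescribed by the pattern of family `j` at `x` -/
  pat : ℕ → ι → L
  /-- family of a label -/
  fam : L → Option ℕ
  /-- blocks are nested -/
  nest : ∀ i j x y, i ≤ j → bk i x = bk i y → bk j x = bk j y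
  /-- marks -/
  mark : ∀ j x, fam (pat j x) = some j

namespace Grid

variable (G : Grid ι β L)

/-- the block of level `j` of `x` is matched -/
def Mat (j : ℕ) (l : ι → L) (x : ι) : Prop := ∀ z, G.bk j z = G.bk j x → l z = G.pat j z

variable {G}

theorem Mat.self {j : ℕ} {l : ι → L} {x : ι} (h : G.Mat j l x) : l x = G.pat j x := h x rfl

theorem Mat.fam_eq {j : ℕ} {l : ι → L} {x : ι} (h : G.Mat j l x) : G.fam (l x) = some j := by
  rw [h.self, G.mark]

theorem Mat.trans {j : ℕ} {l : ι → L} {x z : ι} (h : G.Mat j l x) (hz : G.bk j z = G.bk j x) :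
    G.Mat j l z := fun w hw => h w (hw.trans hz)

/-- a site lies in matched blocks of one family at most -/
theorem Mat.unique {i j : ℕ} {l : ι → L} {x : ι} (h : G.Mat i l x) (h' : G.Mat j l x) : i = j := by
  have h1 := h.fam_eq
  rw [h'.fam_eq] at h1
  exact (Option.some.inj h1).symm

/-- ordinary labels are unmatched -/
theorem not_mat_of_fam {j : ℕ} {l : ι → L} {x : ι} (h : G.fam (l x) = none) : ¬ G.Mat j l x := by
  intro h'
  rw [h'.fam_eq] at h
  cases h

/-- a region which is a union of blocks of level `i` and contains every matched block of a level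
`> i` which it meets -/
structure Closed (G : Grid ι β L) (i : ℕ) (l : ι → L) (R : Set ι) : Prop where
  own : ∀ x ∈ R, ∀ z, G.bk i z = G.bk i x → z ∈ R
  up : ∀ j, i < j → ∀ x ∈ R, G.Mat j l x → ∀ z, G.bk j z = G.bk j x → z ∈ R

theorem Closed.mat_sub {i : ℕ} {l : ι → L} {R : Set ι} (hR : Closed G i l R) {j : ℕ} {x : ι}
    (hx : x ∈ R) (h : G.Mat j l x) : ∀ z, G.bk j z = G.bk j x → z ∈ R := by
  intro z hz
  rcases le_or_gt j i with hji | hij
  · exact hR.own x hx z (G.nest j i z x hji hz)
  · exact hR.up j hij x hx h z hz

/-- `l'` rewrites `l` inside `R` by ordinary labels and whole patterns of level `i` -/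
structure Rew (G : Grid ι β L) (i : ℕ) (R : Set ι) (l l' : ι → L) : Prop where
  off : ∀ x, x ∉ R → l' x = l x
  on : ∀ x ∈ R, G.fam (l' x) = none ∨ G.Mat i l' x

/-- **the matched blocks outside `R` do not change** -/
theorem Rew.mat_iff {i : ℕ} {R : Set ι} {l l' : ι → L} (hR : Closed G i l R)
    (h : Rew G i R l l') (j : ℕ) {x : ι} (hx : x ∉ R) : G.Mat j l' x ↔ G.Mat j l x := by
  constructor
  · intro hm z hz
    have hzR : z ∉ R := by
      intro hzR
      rcases h.on z hzR with h1 | h1
      · exact not_mat_of_fam h1 (hm.trans hz)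
      · have hij : i = j := h1.unique (hm.trans hz)
        subst hij
        exact hx (hR.own z hzR x hz.symm)
    rw [← h.off z hzR]
    exact hm z hz
  · intro hm z hz
    have hzR : z ∉ R := by
      intro hzR
      exact hx (hR.mat_sub hzR (hm.trans hz) x hz.symm)
    rw [h.off z hzR]
    exact hm z hz

/-- inside `R` a site is in a matched block iff it is in one of level `i` -/
theorem Rew.mat_in {i : ℕ} {R : Set ι} {l l' : ι → L} (h : Rew G i R l l') {j : ℕ} {x : ι}
    (hx : x ∈ R) (hm : G.Mat j l' x) : j = i := by
  rcases h.on x hx with h1 | h1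
  · exact absurd hm (not_mat_of_fam h1)
  · exact hm.unique h1

open Classical in
/-- `R` switched to one ordinary label -/
noncomputable def sw (R : Set ι) (g : L) (l : ι → L) : ι → L := fun x => if x ∈ R then g else l x

theorem rew_sw {i : ℕ} {R : Set ι} {g : L} (hg : G.fam g = none) (l : ι → L) :
    Rew G i R l (sw R g l) := by
  refine ⟨fun x hx => if_neg hx, fun x hx => Or.inl ?_⟩
  rw [sw, if_pos hx, hg]

open Classical in
/-- `R` switched to one ordinary label, except the block of level `i` of the site `o`, which gets
its pattern -/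
noncomputable def swp (G : Grid ι β L) (i : ℕ) (R : Set ι) (g : L) (o : ι) (l : ι → L) : ι → L :=
  fun x => if x ∈ R then (if G.bk i x = G.bk i o then G.pat i x else g) else l x

theorem swp_mat {i : ℕ} {R : Set ι} {g : L} {o : ι} (ho : ∀ z, G.bk i z = G.bk i o → z ∈ R)
    (l : ι → L) : G.Mat i (swp G i R g o l) o := by
  intro z hz
  rw [swp, if_pos (ho z hz), if_pos hz]

theorem rew_swp {i : ℕ} {R : Set ι} {g : L} (hg : G.fam g = none) {o : ι}
    (ho : ∀ z, G.bk i z = G.bk i o → z ∈ R) (l : ι → L) : Rew G i R l (swp G i R g o l) := by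
  refine ⟨fun x hx => if_neg hx, fun x hx => ?_⟩
  by_cases hxo : G.bk i x = G.bk i o
  · exact Or.inr ((swp_mat ho l).trans hxo)
  · left
    rw [swp, if_pos hx, if_neg hxo, hg]

end Grid

/-- nesting of the torus grids: `m ∣ m'` and equal blocks of side `m` give equal blocks of side
`m'` -/
theorem div_nest {m m' a b : ℕ} (h : m ∣ m') (hab : a / m = b / m) : a / m' = b / m' := by
  obtain ⟨k, rfl⟩ := h
  rw [← Nat.div_div_eq_div_mul, ← Nat.div_div_eq_div_mul, hab]

end P365T1.Marks
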