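import Vale.Agent.P365.T1.OneVarL

/-!
# P365 T1: the one-variable event lemma, product form.

`∫_{Bad} Y_z ≤ C ε ∫ (M_z + M_j)` for every measurable `Bad` all of whose `V_j`-slices have
Lebesgue measure at most `ε` (`Bad` may depend on every other variable, `V_z` included).
-/

set_option linter.all false

namespace P365T1

open P365L P365O Matrix Complex MeasureTheory P365T1.Bump
open scoped ComplexConjugate ENNReal

namespace OneVar

variable {ι : Type*} [Fintype ι] [DecidableEq ι] {A : Matrix ι ι ℝ}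
variable {F : Type*} [NormedAddCommGroup F] [NormedSpace ℂ F]

theorem WV_im (E : ℝ) (e v : ι → ℝ) (x : ι) : (WV E e v x).im = -e x := by
  simp [WV]

theorem WV_neg {E : ℝ} {e : ι → ℝ} (he : ∀ x, 0 < e x) (v : ι → ℝ) (x : ι) :
    (WV E e v x).im < 0 := by
  rw [WV_im]
  linarith [he x]

theorem rez_WV (E : ℝ) (e v : ι → ℝ) (j : ι) (t : ℝ) :
    rez (WV E e v) j (t - E) = WV E e (Function.update v j t) := by
  funext x
  by_cases hx : x = j
  · subst hx
    rw [rez, Function.update_self, WV_im, WV, Function.update_self]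
    push_cast
    ring
  · rw [rez, Function.update_of_ne hx, WV, WV, Function.update_of_ne hx]

theorem continuous_WV (E : ℝ) (e : ι → ℝ) : Continuous fun v : ι → ℝ => WV E e v := by
  refine continuous_pi fun x => ?_
  have h : Continuous fun v : ι → ℝ => v x - E := (continuous_apply x).sub continuous_const
  exact (Complex.continuous_ofReal.comp h).sub continuous_const

theorem continuous_Gr_WV (hA : A.IsSymm) {E : ℝ} {e : ι → ℝ} (he : ∀ x, 0 < e x) (x y : ι) :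
    Continuous fun v : ι → ℝ => Gr A (WV E e v) x y := by
  rw [continuous_iff_continuousAt]
  intro v
  exact ContinuousAt.comp (g := fun W : ι → ℂ => Gr A W x y) (P365L.FIN.continuousAt_Gr hA (WV_neg he v) x y)
    (continuous_WV E e).continuousAt

theorem continuous_gw_WV (hA : A.IsSymm) {E : ℝ} {e : ι → ℝ} (he : ∀ x, 0 < e x) (z a : ι) :
    Continuous fun v : ι → ℝ => gw A (WV E e v) z a :=
  (continuous_Gr_WV hA he a z).div (continuous_Gr_WV hA he z z)
    fun v => Gr_self_ne_zero hA (WV_neg he v) z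

theorem continuous_sg_WV (hA : A.IsSymm) {E : ℝ} {e : ι → ℝ} (he : ∀ x, 0 < e x) (z : ι) :
    Continuous fun v : ι → ℝ => sg A (WV E e v) z := by
  have h1 : Continuous fun v : ι → ℝ => WV E e v z := (continuous_apply z).comp (continuous_WV E e)
  exact h1.sub ((continuous_Gr_WV hA he z z).inv₀ fun v => Gr_self_ne_zero hA (WV_neg he v) z)

theorem continuous_GV_WV (hA : A.IsSymm) {E : ℝ} {e : ι → ℝ} (he : ∀ x, 0 < e x)
    (T : (ι → ℂ) →ₗ[ℂ] F) (x : ι) : Continuous fun v : ι → ℝ => GV A (WV E e v) T x := by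
  have hT : Continuous T := T.continuous_of_finiteDimensional
  exact hT.comp (continuous_pi fun a => continuous_Gr_WV hA he x a)

theorem continuous_Yv_WV (hA : A.IsSymm) {E : ℝ} {e : ι → ℝ} (he : ∀ x, 0 < e x)
    (T : (ι → ℂ) →ₗ[ℂ] F) (z : ι) : Continuous fun v : ι → ℝ => Yv A (WV E e v) T z := by
  have hT : Continuous T := T.continuous_of_finiteDimensional
  refine Continuous.div ((hT.comp (continuous_pi fun a => continuous_gw_WV hA he z a)).norm.pow 2)
    (continuous_const.add ((continuous_sg_WV hA he z).norm.pow 2)) fun v => ?_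
  positivity

/-- **the one-variable event lemma, one slice** -/
theorem one_var_slice (hA : A.IsSymm) {E : ℝ} {e : ι → ℝ} (he : ∀ x, 0 < e x)
    (T : (ι → ℂ) →ₗ[ℂ] F) {z j : ι} (hzj : z ≠ j) (hez : e z ≤ 1) {νz νj : Measure ℝ}
    {ρz ρj : ℝ → ℝ} {Lz δz mz κz Rz ηz Lj δj mj κj Rj ηj : ℝ}
    (Gz : GLaw νz ρz Lz δz mz κz Rz ηz) (Gj : GLaw νj ρj Lj δj mj κj Rj ηj)
    (c : ι → ℝ) {J : Set ℝ} (hJ : MeasurableSet J) :
    ∫⁻ t in J, ENNReal.ofReal (Yv A (WV E e (Function.update c j t)) T z) ∂νj ≤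
      ENNReal.ofReal (CC (Lz + |E|) δz mz (Lj + |E|) δj mj κj Rj ηj) * volume J *
        ∫⁻ v', ∫⁻ u, ENNReal.ofReal
          (‖GV A (WV E e (Function.update (Function.update c j v') z u)) T z‖ ^ 2 +
          ‖GV A (WV E e (Function.update (Function.update c j v') z u)) T j‖ ^ 2) ∂νz ∂νj := by
  set W := WV E e c with hWdef
  have hW : ∀ x, (W x).im < 0 := WV_neg he c
  have hez' : -1 ≤ (W z).im := by
    rw [hWdef, WV_im]
    linarith
  set Q : ℝ≥0∞ := ∫⁻ v', ∫⁻ u, ENNReal.ofReal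
          (‖GV A (WV E e (Function.update (Function.update c j v') z u)) T z‖ ^ 2 +
          ‖GV A (WV E e (Function.update (Function.update c j v') z u)) T j‖ ^ 2) ∂νz ∂νj with hQ
  have hmap : Measurable fun v : ℝ => v - E := measurable_id.sub_const E
  have hemb : MeasurableEmbedding fun v : ℝ => v - E := (MeasurableEquiv.subRight E).measurableEmbedding
  -- the double integral in the shifted variables
  have hQ' : ∫⁻ v', ∫⁻ u, ENNReal.ofReal (‖GV A (rez (rez W z u) j v') T z‖ ^ 2 +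
      ‖GV A (rez (rez W z u) j v') T j‖ ^ 2) ∂(νz.map fun v => v - E) ∂(νj.map fun v => v - E) =
      Q := by
    rw [hemb.lintegral_map]
    rw [hQ]
    refine lintegral_congr fun v' => ?_
    rw [hemb.lintegral_map]
    refine lintegral_congr fun u => ?_
    rw [rez_WV, rez_WV, Function.update_comm hzj]
  have key : ∀ t : ℝ, ENNReal.ofReal (ρj t) *
      ENNReal.ofReal (Yv A (WV E e (Function.update c j t)) T z) ≤
      ENNReal.ofReal (CC (Lz + |E|) δz mz (Lj + |E|) δj mj κj Rj ηj) * Q := by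
    intro t
    have h := one_var_pt hA hW T hzj hez' (Gz.shift E) (Gj.shift E) (t - E)
    rw [hQ', sub_add_cancel, rez_WV] at h
    rwa [← ENNReal.ofReal_mul (Gj.nonneg t)]
  have hm : Measurable fun t => ENNReal.ofReal (ρj t) := Gj.meas.ennreal_ofReal
  rw [Gj.dens, restrict_withDensity hJ]
  refine (lintegral_withDensity_le_lintegral_mul _ hm _).trans ?_
  refine (lintegral_mono (g := fun _ => ENNReal.ofReal
    (CC (Lz + |E|) δz mz (Lj + |E|) δj mj κj Rj ηj) * Q) fun t => ?_).trans (le_of_eq ?_)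
  · exact key t
  · rw [lintegral_const, Measure.restrict_apply_univ]
    ring

/-- **the one-variable event lemma, product form** -/
theorem one_var_pi (hA : A.IsSymm) (ν : ι → Measure ℝ) [∀ i, IsProbabilityMeasure (ν i)]
    {E : ℝ} {e : ι → ℝ} (he : ∀ x, 0 < e x) (T : (ι → ℂ) →ₗ[ℂ] F) {z j : ι} (hzj : z ≠ j)
    (hez : e z ≤ 1) {ρz ρj : ℝ → ℝ} {Lz δz mz κz Rz ηz Lj δj mj κj Rj ηj : ℝ}
    (Gz : GLaw (ν z) ρz Lz δz mz κz Rz ηz) (Gj : GLaw (ν j) ρj Lj δj mj κj Rj ηj)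
    {Bad : Set (ι → ℝ)} (hB : MeasurableSet Bad) {ε : ℝ≥0∞}
    (hε : ∀ c : ι → ℝ, volume {t | Function.update c j t ∈ Bad} ≤ ε) :
    ∫⁻ v in Bad, ENNReal.ofReal (Yv A (WV E e v) T z) ∂(Measure.pi ν) ≤
      ENNReal.ofReal (CC (Lz + |E|) δz mz (Lj + |E|) δj mj κj Rj ηj) * ε *
        ∫⁻ v, ENNReal.ofReal (‖GV A (WV E e v) T z‖ ^ 2 + ‖GV A (WV E e v) T j‖ ^ 2)
          ∂(Measure.pi ν) := by
  have hY : Measurable fun v : ι → ℝ => ENNReal.ofReal (Yv A (WV E e v) T z) :=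
    (continuous_Yv_WV hA he T z).measurable.ennreal_ofReal
  have hΦ : Measurable fun v : ι → ℝ =>
      ENNReal.ofReal (‖GV A (WV E e v) T z‖ ^ 2 + ‖GV A (WV E e v) T j‖ ^ 2) :=
    (((continuous_GV_WV hA he T z).norm.pow 2).add
      ((continuous_GV_WV hA he T j).norm.pow 2)).measurable.ennreal_ofReal
  set Φ : (ι → ℝ) → ℝ≥0∞ := fun v =>
    ENNReal.ofReal (‖GV A (WV E e v) T z‖ ^ 2 + ‖GV A (WV E e v) T j‖ ^ 2) with hΦdef
  set Ψ : (ι → ℝ) → ℝ≥0∞ := fun c => ∫⁻ u, Φ (Function.update c z u) ∂(ν z) with hΨdef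
  have hupd : Measurable fun p : (ι → ℝ) × ℝ => Function.update p.1 z p.2 :=
    (MAff.measurePreserving_resample ν z).measurable
  have hΨ : Measurable Ψ := (hΦ.comp hupd).lintegral_prod_right'
  rw [← lintegral_indicator hB, MAff.lintegral_resample ν j (hY.indicator hB)]
  calc ∫⁻ c, ∫⁻ t, Bad.indicator (fun v => ENNReal.ofReal (Yv A (WV E e v) T z))
        (Function.update c j t) ∂(ν j) ∂(Measure.pi ν)
      ≤ ∫⁻ c, (ENNReal.ofReal (CC (Lz + |E|) δz mz (Lj + |E|) δj mj κj Rj ηj) * ε) *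
          ∫⁻ v', Ψ (Function.update c j v') ∂(ν j) ∂(Measure.pi ν) := by
        refine lintegral_mono fun c => ?_
        have hm : Measurable fun t : ℝ => Function.update c j t := measurable_update c
        have hJ : MeasurableSet {t : ℝ | Function.update c j t ∈ Bad} := hm hB
        have h1 : (fun t : ℝ => Bad.indicator (fun v => ENNReal.ofReal (Yv A (WV E e v) T z))
            (Function.update c j t)) = {t : ℝ | Function.update c j t ∈ Bad}.indicator
            (fun t => ENNReal.ofReal (Yv A (WV E e (Function.update c j t)) T z)) := by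
          funext t
          simp only [Set.indicator, Set.mem_setOf_eq]
          rfl
        rw [h1, lintegral_indicator hJ]
        refine (one_var_slice hA he T hzj hez Gz Gj c hJ).trans ?_
        gcongr
        exact hε c
    _ = (ENNReal.ofReal (CC (Lz + |E|) δz mz (Lj + |E|) δj mj κj Rj ηj) * ε) *
          ∫⁻ c, ∫⁻ v', Ψ (Function.update c j v') ∂(ν j) ∂(Measure.pi ν) := by
        refine lintegral_const_mul _ ?_
        have hupdj : Measurable fun p : (ι → ℝ) × ℝ => Function.update p.1 j p.2 :=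
          (MAff.measurePreserving_resample ν j).measurable
        exact (hΨ.comp hupdj).lintegral_prod_right'
    _ = _ := by
        rw [← MAff.lintegral_resample ν j hΨ, hΨdef, ← MAff.lintegral_resample ν z hΦ]

/-! ### weights -/

/-- the linear map `v ↦ (√q_a v_a)_a` -/
noncomputable def Tq (q : ι → ℝ) : (ι → ℂ) →ₗ[ℂ] EuclideanSpace ℂ ι where
  toFun v := WithLp.toLp 2 fun a => ((Real.sqrt (q a) : ℝ) : ℂ) * v a
  map_add' u v := by
    ext a
    simp [mul_add]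
  map_smul' r v := by
    ext a
    simp
    ring

theorem norm_Tq_sq {q : ι → ℝ} (hq : ∀ a, 0 ≤ q a) (v : ι → ℂ) :
    ‖Tq q v‖ ^ 2 = ∑ a, q a * ‖v a‖ ^ 2 := by
  rw [EuclideanSpace.norm_sq_eq]
  refine Finset.sum_congr rfl fun a _ => ?_
  have h1 : (Tq q v) a = ((Real.sqrt (q a) : ℝ) : ℂ) * v a := rfl
  rw [h1, norm_mul, mul_pow, Complex.norm_real, Real.norm_eq_abs,
    abs_of_nonneg (Real.sqrt_nonneg _), Real.sq_sqrt (hq a)]

theorem norm_GV_Tq {q : ι → ℝ} (hq : ∀ a, 0 ≤ q a) (W : ι → ℂ) (x : ι) :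
    ‖GV A W (Tq q) x‖ ^ 2 = ∑ a, q a * ‖Gr A W x a‖ ^ 2 := norm_Tq_sq hq _

theorem Yv_Tq {q : ι → ℝ} (hq : ∀ a, 0 ≤ q a) (W : ι → ℂ) (z : ι) :
    Yv A W (Tq q) z = (∑ a, q a * ‖gw A W z a‖ ^ 2) / (1 + ‖sg A W z‖ ^ 2) := by
  rw [Yv, norm_Tq_sq hq]

/-- weights of the form `f`, base point `o` -/
noncomputable def qf (e f : ι → ℝ) (o : ℝ) (a : ι) : ℝ := e a * (f a - o) ^ 2

theorem qf_nonneg {e : ι → ℝ} (he : ∀ x, 0 < e x) (f : ι → ℝ) (o : ℝ) (a : ι) : 0 ≤ qf e f o a :=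
  mul_nonneg (he a).le (sq_nonneg _)

theorem Yv_qf {E : ℝ} {e : ι → ℝ} (he : ∀ x, 0 < e x) (f v : ι → ℝ) (z : ι) :
    Yv A (WV E e v) (Tq (qf e f (f z))) z = Yf A (WV E e v) f z := by
  rw [Yv_Tq (qf_nonneg he f _), Yf, Nf]
  congr 1
  refine Finset.sum_congr rfl fun a _ => ?_
  rw [WV_im, neg_neg, qf]
  ring

theorem GV_qf {E : ℝ} {e : ι → ℝ} (he : ∀ x, 0 < e x) (f v : ι → ℝ) (z : ι) :
    ‖GV A (WV E e v) (Tq (qf e f (f z))) z‖ ^ 2 = Mf A (WV E e v) f z := by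
  rw [norm_GV_Tq (qf_nonneg he f _), Mf]
  refine Finset.sum_congr rfl fun a _ => ?_
  rw [WV_im, neg_neg, qf, KK]
  ring

theorem GV_qf_le (hA : A.IsSymm) {E : ℝ} {e : ι → ℝ} (he : ∀ x, 0 < e x) (f v : ι → ℝ) (o : ℝ)
    (j : ι) :
    ‖GV A (WV E e v) (Tq (qf e f o)) j‖ ^ 2 ≤
      2 * Mf A (WV E e v) f j + 2 * (f j - o) ^ 2 * mm A (WV E e v) j := by
  rw [norm_GV_Tq (qf_nonneg he f _), Mf, mm_eq hA (WV_neg he v), Finset.mul_sum, Finset.mul_sum,
    ← Finset.sum_add_distrib]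
  refine Finset.sum_le_sum fun a _ => ?_
  rw [WV_im, neg_neg, qf, KK]
  have h1 : (f a - o) ^ 2 ≤ 2 * (f a - f j) ^ 2 + 2 * (f j - o) ^ 2 := by
    nlinarith [sq_nonneg ((f a - f j) - (f j - o))]
  have h2 : 0 ≤ e a * ‖Gr A (WV E e v) j a‖ ^ 2 := mul_nonneg (he a).le (sq_nonneg _)
  nlinarith

/-- the lemma in the notation of `Defs` -/
theorem one_var_Yf (hA : A.IsSymm) (ν : ι → Measure ℝ) [∀ i, IsProbabilityMeasure (ν i)]
    {E : ℝ} {e : ι → ℝ} (he : ∀ x, 0 < e x) (f : ι → ℝ) {z j : ι} (hzj : z ≠ j)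
    (hez : e z ≤ 1) {ρz ρj : ℝ → ℝ} {Lz δz mz κz Rz ηz Lj δj mj κj Rj ηj : ℝ}
    (Gz : GLaw (ν z) ρz Lz δz mz κz Rz ηz) (Gj : GLaw (ν j) ρj Lj δj mj κj Rj ηj)
    {Bad : Set (ι → ℝ)} (hB : MeasurableSet Bad) {ε : ℝ≥0∞}
    (hε : ∀ c : ι → ℝ, volume {t | Function.update c j t ∈ Bad} ≤ ε) :
    ∫⁻ v in Bad, ENNReal.ofReal (Yf A (WV E e v) f z) ∂(Measure.pi ν) ≤
      ENNReal.ofReal (CC (Lz + |E|) δz mz (Lj + |E|) δj mj κj Rj ηj) * ε *
        ∫⁻ v, ENNReal.ofReal (Mf A (WV E e v) f z + (2 * Mf A (WV E e v) f j +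
          2 * (f j - f z) ^ 2 * mm A (WV E e v) j)) ∂(Measure.pi ν) := by
  have h := one_var_pi (E := E) hA ν he (Tq (qf e f (f z))) hzj hez Gz Gj hB hε
  simp only [Yv_qf he, GV_qf he] at h
  refine h.trans ?_
  gcongr with v
  exact GV_qf_le hA he f v (f z) j

end OneVar

end P365T1
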