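import Vale.Agent.P365.T1.WCHbr

/-!
# Crude Harnack inequality on an event (P365 T1, helper16)

`wch_event` : the far energy at `x` off the exceptional events is bounded by the far energy at `y`
(with `V_y := -iL`) integrated over any event `G` of probability `≥ 3/4` of the patch variables.
`wch_site_event` : the same in the notation of chapter A.
-/

set_option autoImplicit false
set_option linter.all false

open MeasureTheory Finset Function Matrix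
open scoped ENNReal NNReal BigOperators

namespace P365T1.MAff

variable {ι : Type*} [Fintype ι] [DecidableEq ι]
variable {F : Type*} [NormedAddCommGroup F] [NormedSpace ℂ F]

/-- the determinant on the real cube with one variable at `-iL` -/
theorem det_le_upd {B : Matrix ι ι ℂ} (hB : DissB B) (Q : Finset ι) {z0 : ι → ℂ}
    (h0 : ∀ i ∉ Q, (z0 i).im < 0) {L : ℝ} (hL : 0 < L) {V : Q → ℝ} (hV : ∀ i, |V i| ≤ L) (y : Q) :
    ‖(Mz B (fil Q z0 (update (cx V) y (-(L : ℂ) * Complex.I)))).det‖ ≤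
      2 ^ Q.card * ‖(Mz B (fil Q z0 fun _ => -(L : ℂ) * Complex.I)).det‖ := by
  set Q' : Finset ι := Q.erase y with hQ'
  set z1 : ι → ℂ := update z0 y (-(L : ℂ) * Complex.I) with hz1
  have hsub : Q' ⊆ Q := Finset.erase_subset _ _
  let V' : Q' → ℝ := fun i => V ⟨i, hsub i.2⟩
  have h1 : fil Q z0 (update (cx V) y (-(L : ℂ) * Complex.I)) = fil Q' z1 (cx V') := by
    ext i
    by_cases hi : i = y
    · subst hi
      simp [fil, hQ', hz1]
    · by_cases h : i ∈ Q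
      · have h2 : i ∈ Q' := Finset.mem_erase.mpr ⟨hi, h⟩
        have h3 : (⟨i, h⟩ : Q) ≠ y := fun h' => hi (congrArg Subtype.val h')
        simp [fil, h, h2, h3, cx, V']
      · have h2 : i ∉ Q' := fun h' => h (hsub h')
        simp [fil, h, h2, hz1, hi]
  have h2 : (fil Q z0 fun _ => -(L : ℂ) * Complex.I) = fil Q' z1 fun _ => -(L : ℂ) * Complex.I := by
    ext i
    by_cases hi : i = y
    · subst hi
      simp [fil, hQ', hz1]
    · by_cases h : i ∈ Q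
      · have h2 : i ∈ Q' := Finset.mem_erase.mpr ⟨hi, h⟩
        simp [fil, h, h2]
      · have h2 : i ∉ Q' := fun h' => h (hsub h')
        simp [fil, h, h2, hz1, hi]
  rw [h1, h2]
  have h3 : ∀ i ∉ Q', (z1 i).im < 0 := by
    intro i hi
    by_cases hiy : i = y
    · subst hiy; simp [hz1, hL]
    · have : i ∉ Q := fun h => hi (Finset.mem_erase.mpr ⟨hiy, h⟩)
      rw [hz1, update_of_ne hiy]; exact h0 i this
  have h4 := det_le hB Q' h3 hL (V := V') (fun i => hV _)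
  refine h4.trans ?_
  gcongr
  norm_num

/-- the core of `wch_of_det`: comparison with one value of the numerator at `y` -/
theorem wch_core {B : Matrix ι ι ℂ} (hB : DissB B)
    (Q : Finset ι) {z0 : ι → ℂ} (h0 : ∀ i ∉ Q, (z0 i).im < 0) {L : ℝ} (hL : 0 < L) (x y : Q)
    (hxy : x ≠ y) (T : (ι → ℂ) →ₗ[ℂ] F) {c2 : ℝ} (hc2 : 0 < c2) {y2 : Q → ℂ}
    (hy2 : ∀ i, ‖y2 i‖ ≤ L)
    (hcof : c2 * ‖(Mz B (fil Q z0 fun _ => -(L : ℂ) * Complex.I)).det‖ ≤
      ‖(Mz B (fil Q z0 y2)).adjugate x y‖)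
    {q : ℝ} (hq : 0 < q) {V : Q → ℝ} (hV : ∀ i, |V i| ≤ L)
    (hdetV : q * ‖(Mz B (fil Q z0 fun _ => -(L : ℂ) * Complex.I)).det‖ ≤
      ‖(Mz B (fil Q z0 (update (cx V) x (-(L : ℂ) * Complex.I)))).det‖) :
    ∃ Vs : Q → ℝ, (∀ i, |Vs i| ≤ L) ∧
      ‖GT B T x (fil Q z0 (update (cx V) x (-(L : ℂ) * Complex.I)))‖ ≤
        (2 / (L * c2 * q) * 162 ^ Q.card /
          ‖(Mz B (fil Q z0 fun _ => -(L : ℂ) * Complex.I)).det‖) *
            ‖Pv B T y (fil Q z0 (cx Vs))‖ := by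
  set n := Q.card with hn
  set D0 : ℝ := ‖(Mz B (fil Q z0 fun _ => -(L : ℂ) * Complex.I)).det‖ with hD0
  have hD0pos : 0 < D0 := norm_pos_iff.mpr (stable_det hB _ fun i => by
    by_cases h : i ∈ Q
    · simp [fil, h, hL]
    · simpa [fil, h] using h0 i h)
  have hcomp : IsCompact {V : Q → ℝ | ∀ i, |V i| ≤ L} := by
    have : {V : Q → ℝ | ∀ i, |V i| ≤ L} = Set.univ.pi fun _ => Set.Icc (-L) L := by
      ext V
      simp only [Set.mem_ofPred_eq, Set.mem_univ_pi, Set.mem_Icc]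
      exact forall_congr' fun i => abs_le
    rw [this]
    exact isCompact_univ_pi fun _ => isCompact_Icc
  have hPc : Continuous fun V : Q → ℝ => ‖Pv B T y (fil Q z0 (cx V))‖ :=
    ((continuous_Pv B T y).comp ((continuous_fil Q z0).comp continuous_cx)).norm
  obtain ⟨Vs, hVs, hmax⟩ := hcomp.exists_isMaxOn ⟨fun _ => 0, fun i => by simp [hL.le]⟩
    hPc.continuousOn
  refine ⟨Vs, hVs, ?_⟩
  set Sy : ℝ := ‖Pv B T y (fil Q z0 (cx Vs))‖ with hSy
  have h1 : c2 * ‖Pv B T x (fil Q z0 (cx V))‖ ≤ 2 / L * 162 ^ n * Sy := by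
    refine norm_Pv_le hB Q h0 hL x.2 y.2 (fun h => hxy (Subtype.ext h)) T hc2.le hy2 hcof
      (fun V' hV' => hmax hV') (fun i => ?_)
    simpa [cx] using hV i
  have h12 : ‖GT B T x (fil Q z0 (update (cx V) x (-(L : ℂ) * Complex.I)))‖ ≤
      ‖Pv B T x (fil Q z0 (cx V))‖ / (q * D0) := by
    rw [GT_eq, norm_smul, norm_inv, fil_update, Pv_update_self, ← fil_update, div_eq_inv_mul]
    gcongr
  set X : ℝ := ‖Pv B T x (fil Q z0 (cx V))‖ with hX
  have hSy0 : 0 ≤ Sy := norm_nonneg _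
  refine h12.trans ?_
  have h14 : X ≤ 2 / (L * c2) * 162 ^ n * Sy := by
    have : X * c2 ≤ (2 / (L * c2) * 162 ^ n * Sy) * c2 := by
      calc X * c2 = c2 * X := mul_comm _ _
        _ ≤ 2 / L * 162 ^ n * Sy := h1
        _ = (2 / (L * c2) * 162 ^ n * Sy) * c2 := by field_simp
    exact le_of_mul_le_mul_right this hc2
  calc X / (q * D0) ≤ (2 / (L * c2) * 162 ^ n * Sy) / (q * D0) := by gcongr
    _ = (2 / (L * c2 * q) * 162 ^ n / D0) * Sy := by field_simp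

/-- **Crude Harnack inequality on an event.**  `G` : any measurable event of the patch variables of
probability at least `3/4`. -/
theorem wch_event [MeasurableSpace F] [BorelSpace F] {B : Matrix ι ι ℂ} (hB : DissB B)
    (Q : Finset ι) {z0 : ι → ℂ} (h0 : ∀ i ∉ Q, (z0 i).im < 0) {L : ℝ} (hL : 0 < L) (x y : Q)
    (hxy : x ≠ y) (T : (ι → ℂ) →ₗ[ℂ] F) {c2 : ℝ} (hc2 : 0 < c2) {y2 : Q → ℂ}
    (hy2 : ∀ i, ‖y2 i‖ ≤ L)
    (hcof : c2 * ‖(Mz B (fil Q z0 fun _ => -(L : ℂ) * Complex.I)).det‖ ≤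
      ‖(Mz B (fil Q z0 y2)).adjugate x y‖)
    {q : ℝ} (hq : 0 < q) {V : Q → ℝ} (hV : ∀ i, |V i| ≤ L)
    (hdetV : q * ‖(Mz B (fil Q z0 fun _ => -(L : ℂ) * Complex.I)).det‖ ≤
      ‖(Mz B (fil Q z0 (update (cx V) x (-(L : ℂ) * Complex.I)))).det‖)
    (μ : Q → Measure ℝ) [∀ i, IsProbabilityMeasure (μ i)] {D : ℝ≥0∞}
    (hD : ∀ i (S : Set ℝ), μ i S ≤ D * volume S) (hsupp : ∀ i, μ i {t | |t| ≤ L}ᶜ = 0)
    {δ : ℝ} (hδ0 : 0 < δ) (hδ1 : δ ≤ 1 / 2)
    (hδ : (Q.card : ℝ≥0∞) * (D * ENNReal.ofReal (8 * L * δ)) ≤ 1 / 2)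
    {G : Set (Q → ℝ)} (hG : (Measure.pi μ) Gᶜ ≤ 1 / 4)
    (hdet : ∀ V' : Q → ℝ, (∀ i, |V' i| ≤ L) →
      (Mz B (fil Q z0 (update (cx V') y (-(L : ℂ) * Complex.I)))).det ≠ 0) :
    ‖GT B T x (fil Q z0 (update (cx V) x (-(L : ℂ) * Complex.I)))‖ₑ ^ 2 ≤
      ENNReal.ofReal (4 * ((2 / (L * c2 * q)) ^ 2 * 104976 ^ Q.card / δ ^ (2 * Q.card))) *
        ∫⁻ V' in G, ‖GT B T y (fil Q z0 (update (cx V') y (-(L : ℂ) * Complex.I)))‖ₑ ^ 2
          ∂(Measure.pi μ) := by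
  set n := Q.card with hn
  set D0 : ℝ := ‖(Mz B (fil Q z0 fun _ => -(L : ℂ) * Complex.I)).det‖ with hD0
  have hD0pos : 0 < D0 := norm_pos_iff.mpr (stable_det hB _ fun i => by
    by_cases h : i ∈ Q
    · simp [fil, h, hL]
    · simpa [fil, h] using h0 i h)
  obtain ⟨Vs, hVs, h1⟩ := wch_core hB Q h0 hL x y hxy T hc2 hy2 hcof hq hV hdetV
  set Sy : ℝ := ‖Pv B T y (fil Q z0 (cx Vs))‖ with hSy
  have hSy0 : 0 ≤ Sy := norm_nonneg _
  set P : Measure (Q → ℝ) := Measure.pi μ with hP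
  -- Remez
  set S : Set (Q → ℝ) := {V' | ‖Pv B T y (fil Q z0 (cx V'))‖ < δ ^ n * Sy} with hS
  have hfm : Measurable fun z : Q → ℂ => Pv B T y (fil Q z0 z) :=
    ((continuous_Pv B T y).comp (continuous_fil Q z0)).measurable
  have hSm : MeasurableSet S := by
    refine measurableSet_lt ?_ measurable_const
    exact (hfm.comp continuous_cx.measurable).norm
  have h2 : P S ≤ 1 / 2 := by
    have h := prob_small_le (f := fun z : Q → ℂ => Pv B T y (fil Q z0 z))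
      (maff_fil (maff_Pv B T y) Q z0) hfm μ hL.le hD hsupp (z := cx Vs)
      (fun i => by simpa [cx] using hVs i) hδ0.le hδ1
    rw [Fintype.card_coe] at h
    exact h.trans hδ
  set Cb : Set (Q → ℝ) := {V' | ∀ i, |V' i| ≤ L} with hCb
  have hCbae : ∀ᵐ V' ∂P, V' ∈ Cb := by
    have : ∀ᵐ V' ∂P, ∀ i, |V' i| ≤ L := by
      rw [ae_all_iff]
      intro i
      have h5 : ∀ᵐ t ∂(μ i), |t| ≤ L := by
        rw [ae_iff]; exact hsupp i
      exact (Measure.quasiMeasurePreserving_eval (μ := μ) i).ae h5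
    exact this
  -- the good event has probability at least 1/4
  have h3 : (1 / 4 : ℝ≥0∞) ≤ P (G ∩ (Sᶜ ∩ Cb)) := by
    have h4 : P (G ∩ (Sᶜ ∩ Cb))ᶜ ≤ 1 / 4 + 1 / 2 := by
      have h5 : (G ∩ (Sᶜ ∩ Cb))ᶜ ⊆ (Gᶜ ∪ S) ∪ Cbᶜ := by
        intro v hv
        by_cases ha : v ∈ G
        · by_cases hb : v ∈ S
          · exact Or.inl (Or.inr hb)
          · refine Or.inr fun hc => hv ⟨ha, hb, hc⟩
        · exact Or.inl (Or.inl ha)
      have h6 : P Cbᶜ = 0 := hCbae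
      calc P (G ∩ (Sᶜ ∩ Cb))ᶜ ≤ P ((Gᶜ ∪ S) ∪ Cbᶜ) := measure_mono h5
        _ ≤ P Gᶜ + P S + P Cbᶜ := (measure_union_le _ _).trans (by gcongr; exact measure_union_le _ _)
        _ ≤ 1 / 4 + 1 / 2 := by rw [h6, add_zero]; exact add_le_add hG h2
    have h7 : (1 : ℝ≥0∞) ≤ P (G ∩ (Sᶜ ∩ Cb)) + P (G ∩ (Sᶜ ∩ Cb))ᶜ := by
      have : P Set.univ ≤ P (G ∩ (Sᶜ ∩ Cb)) + P (G ∩ (Sᶜ ∩ Cb))ᶜ := by
        rw [← Set.union_compl_self (G ∩ (Sᶜ ∩ Cb))]
        exact measure_union_le _ _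
      simpa [hP] using this
    have h8 : (1 : ℝ≥0∞) ≤ P (G ∩ (Sᶜ ∩ Cb)) + (1 / 4 + 1 / 2) := h7.trans (by gcongr)
    have h9 : (1 / 4 : ℝ≥0∞) + (1 / 4 + 1 / 2) = 1 := by
      rw [show (1 / 4 : ℝ≥0∞) = ENNReal.ofReal (1 / 4) by
          rw [ENNReal.ofReal_div_of_pos (by norm_num)]; norm_num,
        show (1 / 2 : ℝ≥0∞) = ENNReal.ofReal (1 / 2) by
          rw [ENNReal.ofReal_div_of_pos (by norm_num)]; norm_num,
        ← ENNReal.ofReal_add (by norm_num) (by norm_num),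
        ← ENNReal.ofReal_add (by norm_num) (by norm_num)]
      norm_num
    have h10 : (1 / 4 + 1 / 2 : ℝ≥0∞) ≠ ∞ := by
      rw [ENNReal.add_ne_top]; constructor <;> simp
    exact (ENNReal.add_le_add_iff_right h10).mp (h9.le.trans h8)
  have h15 : (1 / 4 : ℝ≥0∞) * ENNReal.ofReal (δ ^ n * Sy / (2 ^ n * D0)) ^ 2 ≤
      ∫⁻ V' in G, ‖GT B T y (fil Q z0 (update (cx V') y (-(L : ℂ) * Complex.I)))‖ₑ ^ 2 ∂P := by
    calc (1 / 4 : ℝ≥0∞) * ENNReal.ofReal (δ ^ n * Sy / (2 ^ n * D0)) ^ 2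
        ≤ P (G ∩ (Sᶜ ∩ Cb)) * ENNReal.ofReal (δ ^ n * Sy / (2 ^ n * D0)) ^ 2 := by gcongr
      _ = ∫⁻ _V' in G ∩ (Sᶜ ∩ Cb), ENNReal.ofReal (δ ^ n * Sy / (2 ^ n * D0)) ^ 2 ∂P := by
          rw [setLIntegral_const, mul_comm]
      _ ≤ ∫⁻ V' in G ∩ (Sᶜ ∩ Cb),
            ‖GT B T y (fil Q z0 (update (cx V') y (-(L : ℂ) * Complex.I)))‖ₑ ^ 2 ∂P := by
          refine lintegral_mono_ae ?_
          -- membership is not automatic for a non measurable `G`; use the inner set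
          have hm : MeasurableSet (Sᶜ ∩ Cb) := by
            refine hSm.compl.inter ?_
            have : Cb = Set.univ.pi fun _ => Set.Icc (-L) L := by
              ext V
              simp only [hCb, Set.mem_ofPred_eq, Set.mem_univ_pi, Set.mem_Icc]
              exact forall_congr' fun i => abs_le
            rw [this]
            exact MeasurableSet.univ_pi fun _ => measurableSet_Icc
          have h16 : ∀ᵐ V' ∂(P.restrict (G ∩ (Sᶜ ∩ Cb))), V' ∈ Sᶜ ∩ Cb := by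
            have h17 : ∀ᵐ V' ∂(P.restrict (Sᶜ ∩ Cb)), V' ∈ Sᶜ ∩ Cb := ae_restrict_mem hm
            exact ae_restrict_of_ae_restrict_of_subset Set.inter_subset_right h17
          filter_upwards [h16] with V' hV'
          -- the bound does not use membership in `G`
          obtain ⟨hVS, hVC⟩ := hV'
          have h12 : δ ^ n * Sy ≤ ‖Pv B T y (fil Q z0 (cx V'))‖ := by
            simpa [hS] using hVS
          have h13 : ‖Pv B T y (fil Q z0 (cx V'))‖ ≤ (2 ^ n * D0) *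
              ‖GT B T y (fil Q z0 (update (cx V') y (-(L : ℂ) * Complex.I)))‖ := by
            have h14 : Pv B T y (fil Q z0 (cx V')) =
                (Mz B (fil Q z0 (update (cx V') y (-(L : ℂ) * Complex.I)))).det •
                  GT B T y (fil Q z0 (update (cx V') y (-(L : ℂ) * Complex.I))) := by
              rw [GT_eq, smul_smul, mul_inv_cancel₀ (hdet V' hVC), one_smul, fil_update,
                Pv_update_self]
            rw [h14, norm_smul]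
            gcongr
            exact det_le_upd hB Q h0 hL hVC y
          gcongr
          rw [← ofReal_norm]
          refine ENNReal.ofReal_le_ofReal ?_
          rw [div_le_iff₀ (by positivity)]
          linarith
      _ ≤ _ := lintegral_mono_set Set.inter_subset_left
  set Y : ℝ≥0∞ := ∫⁻ V' in G, ‖GT B T y (fil Q z0 (update (cx V') y (-(L : ℂ) * Complex.I)))‖ₑ ^ 2
    ∂P with hY
  have h18 : ENNReal.ofReal ((δ ^ n * Sy / (2 ^ n * D0)) ^ 2) ≤ 4 * Y := by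
    rw [ENNReal.ofReal_pow (by positivity)]
    calc ENNReal.ofReal (δ ^ n * Sy / (2 ^ n * D0)) ^ 2
        = 4 * ((1 / 4 : ℝ≥0∞) * ENNReal.ofReal (δ ^ n * Sy / (2 ^ n * D0)) ^ 2) := by
          rw [← mul_assoc, one_div, ENNReal.mul_inv_cancel (by norm_num) (by norm_num), one_mul]
      _ ≤ 4 * Y := by gcongr
  calc ‖GT B T x (fil Q z0 (update (cx V) x (-(L : ℂ) * Complex.I)))‖ₑ ^ 2
      ≤ ENNReal.ofReal (((2 / (L * c2 * q) * 162 ^ n / D0) * Sy) ^ 2) := by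
        rw [← ofReal_norm, ← ENNReal.ofReal_pow (norm_nonneg _)]
        exact ENNReal.ofReal_le_ofReal (pow_le_pow_left₀ (norm_nonneg _) h1 2)
    _ = ENNReal.ofReal ((2 / (L * c2 * q)) ^ 2 * 104976 ^ n / δ ^ (2 * n)) *
          ENNReal.ofReal ((δ ^ n * Sy / (2 ^ n * D0)) ^ 2) := by
        rw [← ENNReal.ofReal_mul (by positivity)]
        congr 1
        have h15 : (104976 : ℝ) ^ n = (162 ^ n) ^ 2 * (2 ^ n) ^ 2 := by
          rw [← pow_mul, ← pow_mul, mul_comm n 2, pow_mul, pow_mul, ← mul_pow]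
          congr 1
          norm_num
        rw [h15, mul_comm 2 n, pow_mul]
        field_simp
    _ ≤ ENNReal.ofReal ((2 / (L * c2 * q)) ^ 2 * 104976 ^ n / δ ^ (2 * n)) * (4 * Y) := by
        gcongr
    _ = _ := by
        rw [ENNReal.ofReal_mul (by norm_num : (0:ℝ) ≤ 4)]
        rw [show ENNReal.ofReal 4 = 4 by norm_num]
        ring

end P365T1.MAff

namespace P365T1

open P365L P365O P365T1.MAff

variable {ι : Type*} [Fintype ι] [DecidableEq ι] {A : Matrix ι ι ℝ} {W : ι → ℂ}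

/-- lower bound of the far cost: the far energy with `W_x := w` is at most `C` times the far cost -/
theorem Mfar_upd_le (hA : A.IsSymm) (hW : ∀ x, (W x).im < 0) {Q : Finset ι} (f : ι → ℝ) (fo : ℝ)
    {x : ι} (hx : x ∈ Q) {w : ℂ} (hw : w.im < 0) :
    Mfar A (update W x w) f Q fo x ≤
      (2 + (1 + 2 * ‖w‖ ^ 2) / w.im ^ 2) * (Nfar A W f Q fo x / (1 + ‖sg A W x‖ ^ 2)) := by
  have hsg := sg_im_nonneg hA hW x
  have h1 : Mfar A (update W x w) f Q fo x = Nfar A W f Q fo x * (‖w - sg A W x‖ ^ 2)⁻¹ := by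
    unfold Mfar Nfar
    rw [Finset.sum_mul]
    refine Finset.sum_congr rfl fun a ha => ?_
    have hax : a ≠ x := fun h => (Finset.mem_compl.mp ha) (h ▸ hx)
    rw [update_of_ne hax, KK_eq_gw hA (update_neg hW hw), gw_upd hA hW hw, Gr_zz_upd hA hW hw,
      norm_inv, inv_pow]
    ring
  have h2 : -w.im ≤ ‖w - sg A W x‖ := by
    have h3 := Complex.abs_im_le_norm (w - sg A W x)
    rw [Complex.sub_im] at h3
    have := neg_abs_le (w.im - (sg A W x).im)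
    linarith
  have h0 : 0 < -w.im := by linarith
  have h2' : 0 < ‖w - sg A W x‖ := h0.trans_le h2
  have h4 : ‖sg A W x‖ ≤ ‖w - sg A W x‖ + ‖w‖ := by
    have : sg A W x = w - (w - sg A W x) := by ring
    calc ‖sg A W x‖ = ‖w - (w - sg A W x)‖ := by rw [← this]
      _ ≤ ‖w‖ + ‖w - sg A W x‖ := norm_sub_le _ _
      _ = _ := add_comm _ _
  have h5 : 1 + ‖sg A W x‖ ^ 2 ≤ (2 + (1 + 2 * ‖w‖ ^ 2) / w.im ^ 2) * ‖w - sg A W x‖ ^ 2 := by
    have h6 : ‖sg A W x‖ ^ 2 ≤ (‖w - sg A W x‖ + ‖w‖) ^ 2 :=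
      pow_le_pow_left₀ (norm_nonneg _) h4 2
    have h7 : w.im ^ 2 ≤ ‖w - sg A W x‖ ^ 2 := by nlinarith
    have h8 : 0 < w.im ^ 2 := by nlinarith
    have h9 : (1 + 2 * ‖w‖ ^ 2) ≤ (1 + 2 * ‖w‖ ^ 2) / w.im ^ 2 * ‖w - sg A W x‖ ^ 2 := by
      rw [div_mul_eq_mul_div, le_div_iff₀ h8]
      exact mul_le_mul_of_nonneg_left h7 (by positivity)
    nlinarith [sq_nonneg (‖w - sg A W x‖ - ‖w‖)]
  have hN := Nfar_nonneg hW f Q fo x (A := A)
  rw [h1]
  have h10 : (‖w - sg A W x‖ ^ 2)⁻¹ ≤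
      (2 + (1 + 2 * ‖w‖ ^ 2) / w.im ^ 2) / (1 + ‖sg A W x‖ ^ 2) := by
    rw [inv_eq_one_div, div_le_div_iff₀ (by positivity) (by positivity), one_mul]
    exact h5
  calc Nfar A W f Q fo x * (‖w - sg A W x‖ ^ 2)⁻¹
      ≤ Nfar A W f Q fo x * ((2 + (1 + 2 * ‖w‖ ^ 2) / w.im ^ 2) / (1 + ‖sg A W x‖ ^ 2)) :=
        mul_le_mul_of_nonneg_left h10 hN
    _ = _ := by ring

theorem det_Bp_ne_zero (hA : A.IsSymm) {W0 : ι → ℂ} {Q : Finset ι} {E : ℝ} {ee : ι → ℝ}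
    {y : Q → ℂ} (hW : ∀ i, (Wc W0 Q E ee y i).im < 0) :
    (Mz (Bp A Q E ee) (fil Q W0 y)).det ≠ 0 := by
  rw [Mz_Bp]
  have h1 := dissB_real hA (e := fun _ => 0) (fun _ => le_rfl) 0
  have h2 := det_ne_zero_of_im h1 (z := Wc W0 Q E ee y) hW
  have h3 : Mz (A.map (fun t : ℝ => (t : ℂ)) + Matrix.diagonal fun i : ι =>
      -((0 : ℝ) : ℂ) - Complex.I * ((0 : ℝ) : ℂ)) (Wc W0 Q E ee y) =
      Kmat A (Wc W0 Q E ee y) := by
    ext i j
    by_cases hij : i = j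
    · subst hij; simp [Mz, Kmat]; ring
    · simp [Mz, Kmat, hij]
  rwa [h3] at h2

/-- constant of the lower comparison -/
noncomputable def Clo (E L e : ℝ) : ℝ := 2 + (1 + 2 * (E ^ 2 + (L + e) ^ 2)) / (L + e) ^ 2

/-- **Crude Harnack inequality on an event, chapter A notation.** -/
theorem wch_site_event (hA : A.IsSymm) {W0 : ι → ℂ} {Q : Finset ι} (h0 : ∀ i ∉ Q, (W0 i).im < 0)
    {E L : ℝ} (hL : 0 < L) {ee : ι → ℝ} (he : ∀ i ∈ Q, 0 < ee i) (x y : Q) (hxy : x ≠ y)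
    {f : ι → ℝ} {fo m : ℝ} (hx : |fo - f x| ≤ m) (hB : ∀ z ∈ Q, |f z - f x| ≤ m)
    {c2 : ℝ} (hc2 : 0 < c2) {y2 : Q → ℂ} (hy2 : ∀ i, ‖y2 i‖ ≤ L)
    (hcof : c2 * ‖(Mz (Bp A Q E ee) (fil Q W0 fun _ => -(L : ℂ) * Complex.I)).det‖ ≤
      ‖(Mz (Bp A Q E ee) (fil Q W0 y2)).adjugate x y‖)
    {ε : ℕ → ℝ} (hε : ∀ k, 0 < ε k) (e : Q ≃ Fin Q.card) {V : Q → ℝ} (hV : ∀ i, |V i| ≤ L)
    (hJ : ∀ k < Q.card,
      V ∉ Jset e (detx (Bp A Q E ee) Q W0 L x) (fun _ => -(L : ℂ) * Complex.I) (ε k) k)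
    (μ : Q → Measure ℝ) [∀ i, IsProbabilityMeasure (μ i)] {D : ℝ≥0∞}
    (hD : ∀ i (S : Set ℝ), μ i S ≤ D * volume S) (hsupp : ∀ i, μ i {t | |t| ≤ L}ᶜ = 0)
    {δ : ℝ} (hδ0 : 0 < δ) (hδ1 : δ ≤ 1 / 2)
    (hδ : (Q.card : ℝ≥0∞) * (D * ENNReal.ofReal (8 * L * δ)) ≤ 1 / 2)
    {G : Set (Q → ℝ)} (hG : (Measure.pi μ) Gᶜ ≤ 1 / 4) :
    ENNReal.ofReal (Nf A (Wc W0 Q E ee (cx V)) f x /
        (1 + ‖sg A (Wc W0 Q E ee (cx V)) x‖ ^ 2)) ≤
      ENNReal.ofReal (16 * (1 + E ^ 2 + (L + ee x) ^ 2) * Clo E L (ee y) *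
        ((2 / (L * c2 * ∏ k ∈ Finset.range Q.card, ε k)) ^ 2 * 104976 ^ Q.card /
          δ ^ (2 * Q.card))) *
        ∫⁻ V' in G, ENNReal.ofReal (Nfar A (Wc W0 Q E ee (cx V')) f Q fo y /
          (1 + ‖sg A (Wc W0 Q E ee (cx V')) y‖ ^ 2)) ∂(Measure.pi μ) +
      ENNReal.ofReal (2 * m ^ 2 * (1 + ee x)) := by
  have hWn : ∀ (V' : Q → ℝ) (i : ι), (Wc W0 Q E ee (cx V') i).im < 0 := fun V' =>
    Wc_im_neg h0 he (fun i => by simp [cx])
  have hdet : ∀ V' : Q → ℝ, (∀ i, |V' i| ≤ L) →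
      (Mz (Bp A Q E ee) (fil Q W0 (update (cx V') y (-(L : ℂ) * Complex.I)))).det ≠ 0 := by
    intro V' _
    refine det_Bp_ne_zero hA (Wc_im_neg h0 he fun i => ?_)
    by_cases hi : i = y
    · subst hi; simp [hL.le]
    · simp [hi, cx]
  have hB' : DissB (Bp A Q E ee) := dissB_Bp hA Q E fun i hi => (he i hi).le
  have h10 := le_norm_of_notMem' e (fun k => (hε k).le) hJ
  have h11 : detx (Bp A Q E ee) Q W0 L x (fun _ => -(L : ℂ) * Complex.I) =
      (Mz (Bp A Q E ee) (fil Q W0 fun _ => -(L : ℂ) * Complex.I)).det := by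
    unfold detx
    congr 3
    ext i
    by_cases hi : i = x
    · subst hi; simp
    · simp [hi]
  rw [h11] at h10
  have h1 := wch_event hB' Q h0 hL x y hxy (Tfar W0 Q f fo) hc2 hy2 hcof
    (Finset.prod_pos fun k _ => hε k) hV h10 μ hD hsupp hδ0 hδ1 hδ hG hdet
  have h2 := cost_le_GT hA h0 hL he x hx hB V (E := E) (fo := fo)
  set C1 : ℝ := 1 + E ^ 2 + (L + ee x) ^ 2 with hC1
  have hC1p : 0 < C1 := by positivity
  set C2 : ℝ := (2 / (L * c2 * ∏ k ∈ Finset.range Q.card, ε k)) ^ 2 * 104976 ^ Q.card /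
    δ ^ (2 * Q.card) with hC2
  have hC2p : 0 ≤ C2 := by positivity
  have hey : 0 < ee y := he y y.2
  have hexx : 0 < ee x := he x x.2
  have hC3p : 0 ≤ Clo E L (ee y) := by unfold Clo; positivity
  set g : ℝ := ‖MAff.GT (Bp A Q E ee) (Tfar W0 Q f fo) x
        (fil Q W0 (update (cx V) x (-(L : ℂ) * Complex.I)))‖ with hg
  have h3 : ∫⁻ V' in G, ‖MAff.GT (Bp A Q E ee) (Tfar W0 Q f fo) y
      (fil Q W0 (update (cx V') y (-(L : ℂ) * Complex.I)))‖ₑ ^ 2 ∂(Measure.pi μ) ≤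
      ENNReal.ofReal (Clo E L (ee y)) * ∫⁻ V' in G, ENNReal.ofReal
        (Nfar A (Wc W0 Q E ee (cx V')) f Q fo y /
          (1 + ‖sg A (Wc W0 Q E ee (cx V')) y‖ ^ 2)) ∂(Measure.pi μ) := by
    rw [← lintegral_const_mul' _ _ ENNReal.ofReal_ne_top]
    refine lintegral_mono fun V' => ?_
    rw [← ofReal_norm, ← ENNReal.ofReal_pow (norm_nonneg _), norm_GT_sq hA h0,
      ← ENNReal.ofReal_mul hC3p]
    refine ENNReal.ofReal_le_ofReal ?_
    have hw : (-(L : ℂ) * Complex.I - E - Complex.I * ee y).im < 0 := by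
      simp only [Complex.sub_im, Complex.mul_im, Complex.neg_re, Complex.ofReal_re, Complex.I_im,
        Complex.neg_im, Complex.ofReal_im, Complex.I_re]
      linarith
    have h4 := Mfar_upd_le hA (hWn V') f fo y.2 hw
    rw [update_Wc, norm_w_sq] at h4
    have h5 : (-(L : ℂ) * Complex.I - E - Complex.I * ee y).im ^ 2 = (L + ee y) ^ 2 := by
      simp only [Complex.sub_im, Complex.mul_im, Complex.neg_re, Complex.ofReal_re, Complex.I_im,
        Complex.neg_im, Complex.ofReal_im, Complex.I_re]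
      ring
    rw [h5] at h4
    exact h4
  calc ENNReal.ofReal (Nf A (Wc W0 Q E ee (cx V)) f x /
        (1 + ‖sg A (Wc W0 Q E ee (cx V)) x‖ ^ 2))
      ≤ ENNReal.ofReal (4 * C1 * g ^ 2 + 2 * m ^ 2 * (1 + ee x)) :=
        ENNReal.ofReal_le_ofReal h2
    _ = ENNReal.ofReal (4 * C1) * ‖MAff.GT (Bp A Q E ee) (Tfar W0 Q f fo) x
        (fil Q W0 (update (cx V) x (-(L : ℂ) * Complex.I)))‖ₑ ^ 2 +
          ENNReal.ofReal (2 * m ^ 2 * (1 + ee x)) := by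
        rw [ENNReal.ofReal_add (by positivity) (by positivity), ENNReal.ofReal_mul (by positivity),
          ← ofReal_norm, ← ENNReal.ofReal_pow (norm_nonneg _)]
    _ ≤ ENNReal.ofReal (4 * C1) * (ENNReal.ofReal (4 * C2) * (ENNReal.ofReal (Clo E L (ee y)) *
          ∫⁻ V' in G, ENNReal.ofReal (Nfar A (Wc W0 Q E ee (cx V')) f Q fo y /
          (1 + ‖sg A (Wc W0 Q E ee (cx V')) y‖ ^ 2)) ∂(Measure.pi μ))) +
          ENNReal.ofReal (2 * m ^ 2 * (1 + ee x)) := by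
        refine add_le_add (mul_le_mul_of_nonneg_left ?_ zero_le) le_rfl
        exact h1.trans (mul_le_mul_of_nonneg_left h3 zero_le)
    _ = _ := by
        congr 1
        rw [← mul_assoc, ← mul_assoc, ← ENNReal.ofReal_mul (by positivity),
          ← ENNReal.ofReal_mul (by positivity)]
        congr 2
        ring

end P365T1
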