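import Vale.Agent.P365.T1.Bad3
import Vale.Agent.P365.T1.JBook
import Vale.Agent.P365.T1.WCHe
import Vale.Agent.P365.T1.OneVarP

/-!
# P365-T1, chapter C: the quenched assembly (614 (4) with the Markov–Fubini repair)
-/

set_option autoImplicit false
set_option linter.all false

open MeasureTheory Finset Function Matrix Complex P365L P365O
open scoped ENNReal

namespace P365T1.Bad

open P365T1.MAff P365T1.OneVar

variable {ι : Type*} [Fintype ι] [DecidableEq ι] {A : Matrix ι ι ℝ} {W : ι → ℂ}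
variable {F : Type*} [NormedAddCommGroup F] [NormedSpace ℂ F]

theorem w_sg_pos (hA : A.IsSymm) (hW : ∀ x, (W x).im < 0) (x : ι) {w : ℂ} (hw : w.im < 0) :
    -w.im ≤ ‖w - sg A W x‖ := by
  have hsg := sg_im_nonneg hA hW x
  have h3 := Complex.abs_im_le_norm (w - sg A W x)
  rw [Complex.sub_im] at h3
  have := neg_abs_le (w.im - (sg A W x).im)
  linarith

theorem norm_GV_self (hA : A.IsSymm) (hW : ∀ x, (W x).im < 0) (T : (ι → ℂ) →ₗ[ℂ] F) (x : ι)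
    {w : ℂ} (hw : w.im < 0) : ‖GV A (update W x w) T x‖ ^ 2 =
      ‖T fun a => gw A W x a‖ ^ 2 / ‖w - sg A W x‖ ^ 2 := by
  rw [GV_update_self hA hW T hw, norm_smul, norm_inv, mul_pow, inv_pow]
  ring

/-- the off-resonant energy is bounded by the energy with `W_x` replaced by `w` -/
theorem Yv_le_w (hA : A.IsSymm) (hW : ∀ x, (W x).im < 0) (T : (ι → ℂ) →ₗ[ℂ] F) (x : ι)
    {w : ℂ} (hw : w.im < 0) : Yv A W T x ≤ 2 * (1 + ‖w‖ ^ 2) * ‖GV A (update W x w) T x‖ ^ 2 := by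
  rw [norm_GV_self hA hW T x hw, Yv]
  have h0 : 0 < -w.im := by linarith
  have h2 : 0 < ‖w - sg A W x‖ := h0.trans_le (w_sg_pos hA hW x hw)
  have h3 : ‖w - sg A W x‖ ^ 2 ≤ 2 * (1 + ‖w‖ ^ 2) * (1 + ‖sg A W x‖ ^ 2) := by
    have h4 : ‖w - sg A W x‖ ≤ ‖w‖ + ‖sg A W x‖ := norm_sub_le _ _
    have h5 : ‖w - sg A W x‖ ^ 2 ≤ (‖w‖ + ‖sg A W x‖) ^ 2 :=
      pow_le_pow_left₀ (norm_nonneg _) h4 2
    nlinarith [sq_nonneg (‖w‖ - ‖sg A W x‖), mul_nonneg (sq_nonneg ‖w‖) (sq_nonneg ‖sg A W x‖)]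
  set N : ℝ := ‖T fun a => gw A W x a‖ ^ 2 with hN
  have hN0 : 0 ≤ N := sq_nonneg _
  rw [← mul_div_assoc, div_le_div_iff₀ (by positivity) (by positivity)]
  calc N * ‖w - sg A W x‖ ^ 2 ≤ N * (2 * (1 + ‖w‖ ^ 2) * (1 + ‖sg A W x‖ ^ 2)) := by gcongr
    _ = _ := by ring

/-- lower comparison -/
theorem GV_w_le (hA : A.IsSymm) (hW : ∀ x, (W x).im < 0) (T : (ι → ℂ) →ₗ[ℂ] F) (x : ι)
    {w : ℂ} (hw : w.im < 0) : ‖GV A (update W x w) T x‖ ^ 2 ≤
      (2 + (1 + 2 * ‖w‖ ^ 2) / w.im ^ 2) * Yv A W T x := by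
  rw [norm_GV_self hA hW T x hw, Yv]
  have h0 : 0 < -w.im := by linarith
  have h2 := w_sg_pos hA hW x hw
  have h2' : 0 < ‖w - sg A W x‖ := h0.trans_le h2
  have h4 : ‖sg A W x‖ ≤ ‖w - sg A W x‖ + ‖w‖ := by
    have : sg A W x = w - (w - sg A W x) := by ring
    calc ‖sg A W x‖ = ‖w - (w - sg A W x)‖ := by rw [← this]
      _ ≤ ‖w‖ + ‖w - sg A W x‖ := norm_sub_le _ _
      _ = _ := add_comm _ _
  have h5 : 1 + ‖sg A W x‖ ^ 2 ≤ (2 + (1 + 2 * ‖w‖ ^ 2) / w.im ^ 2) * ‖w - sg A W x‖ ^ 2 := by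
    have h6 : ‖sg A W x‖ ^ 2 ≤ (‖w - sg A W x‖ + ‖w‖) ^ 2 :=
      pow_le_pow_left₀ (norm_nonneg _) h4 2
    have h7 : w.im ^ 2 ≤ ‖w - sg A W x‖ ^ 2 := by nlinarith
    have h8 : 0 < w.im ^ 2 := by nlinarith
    have h9 : (1 + 2 * ‖w‖ ^ 2) ≤ (1 + 2 * ‖w‖ ^ 2) / w.im ^ 2 * ‖w - sg A W x‖ ^ 2 := by
      rw [div_mul_eq_mul_div, le_div_iff₀ h8]
      exact mul_le_mul_of_nonneg_left h7 (by positivity)
    nlinarith [sq_nonneg (‖w - sg A W x‖ - ‖w‖)]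
  set N : ℝ := ‖T fun a => gw A W x a‖ ^ 2 with hN
  have hN0 : 0 ≤ N := sq_nonneg _
  rw [← mul_div_assoc, div_le_div_iff₀ (by positivity) (by positivity)]
  calc N * (1 + ‖sg A W x‖ ^ 2) ≤
      N * ((2 + (1 + 2 * ‖w‖ ^ 2) / w.im ^ 2) * ‖w - sg A W x‖ ^ 2) := by gcongr
    _ = _ := by ring

/-! ### bridge to helper16's patches -/

theorem GT_Bp (hA : A.IsSymm) (Q : Finset ι) (E : ℝ) (e : ι → ℝ) (W0 : ι → ℂ)
    (T : (ι → ℂ) →ₗ[ℂ] F) (x : ι) (y : Q → ℂ) :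
    MAff.GT (Bp A Q E e) T x (fil Q W0 y) = GV A (Wc W0 Q E e y) T x := by
  unfold MAff.GT OneVar.GV
  rw [Mz_Bp]
  congr 1
  funext a
  exact Gr_symm hA a x

theorem Wc_cx (Q : Finset ι) (E : ℝ) (e V : ι → ℝ) (V' : Q → ℝ) :
    Wc (WV E e V) Q E e (cx V') = WV E e (updateFinset V Q V') := by
  ext i
  by_cases h : i ∈ Q
  · simp [Wc, WV, updateFinset, h, cx]
    ring
  · simp [Wc, WV, updateFinset, h]

theorem updateFinset_rs (Q : Finset ι) (V : ι → ℝ) : updateFinset V Q (rs Q V) = V := by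
  ext i
  by_cases h : i ∈ Q <;> simp [updateFinset, h, rs]

/-- constant of the crude Harnack inequality -/
noncomputable def KE (E L ex eρ c2 pε δ : ℝ) (n : ℕ) : ℝ :=
  2 * (1 + (E ^ 2 + (L + ex) ^ 2)) * (4 * ((2 / (L * c2 * pε)) ^ 2 * 104976 ^ n / δ ^ (2 * n))) *
    Clo E L eρ

/-- **pointwise crude Harnack inequality on an event, T-form, full configurations** -/
theorem near_pt [MeasurableSpace F] [BorelSpace F] (hA : A.IsSymm) {E : ℝ} {e : ι → ℝ}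
    (he : ∀ x, 0 < e x) {Q : Finset ι} (x ρ : Q) (hxρ : x ≠ ρ) (T : (ι → ℂ) →ₗ[ℂ] F) {L : ℝ}
    (hL : 0 < L) {c2 : ℝ} (hc2 : 0 < c2) {V : ι → ℝ}
    (hcof : ∃ y2 : Q → ℂ, (∀ i, ‖y2 i‖ ≤ L) ∧
      c2 * ‖(Mz (Bp A Q E e) (fil Q (WV E e V) fun _ => -(L : ℂ) * Complex.I)).det‖ ≤
        ‖(Mz (Bp A Q E e) (fil Q (WV E e V) y2)).adjugate x ρ‖)
    {ε : ι → ℝ} (hε0 : ∀ l : Q, 0 < ε l) (hε1 : ∀ l : Q, ε l ≤ 1 / 2) (eq : Q ≃ Fin Q.card)
    (hV : ∀ i ∈ Q, |V i| ≤ L)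
    (hJ : ∀ l : Q, l ≠ x → V ∉ Jfull eq (Bp A Q E e) L x (WV E e) (ε l) l)
    (μ : ι → Measure ℝ) [∀ i, IsProbabilityMeasure (μ i)] {Dn : ℝ≥0∞}
    (hD : ∀ i ∈ Q, ∀ S : Set ℝ, μ i S ≤ Dn * volume S)
    (hsupp : ∀ i ∈ Q, μ i {t | |t| ≤ L}ᶜ = 0)
    {δ : ℝ} (hδ0 : 0 < δ) (hδ1 : δ ≤ 1 / 2)
    (hδ : (Q.card : ℝ≥0∞) * (Dn * ENNReal.ofReal (8 * L * δ)) ≤ 1 / 2)
    {G : Set (ι → ℝ)} (hGm : MeasurableSet G) (hG : cp μ Q Gᶜ V ≤ 1 / 4) :
    ENNReal.ofReal (Yv A (WV E e V) T x) ≤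
      ENNReal.ofReal (KE E L (e x) (e ρ) c2 (∏ l : Q, ε l) δ Q.card) *
        (∫⋯∫⁻_Q, G.indicator (fun V' => ENNReal.ofReal (Yv A (WV E e V') T ρ)) ∂μ) V := by
  obtain ⟨y2, hy2, hcof⟩ := hcof
  have hW : ∀ V : ι → ℝ, ∀ i, (WV E e V i).im < 0 := fun V => OneVar.WV_neg he V
  have hB' : DissB (Bp A Q E e) := dissB_Bp hA Q E fun i _ => (he i).le
  have hWn : ∀ (V' : Q → ℝ) (i : ι), (Wc (WV E e V) Q E e (cx V') i).im < 0 := by
    intro V' i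
    rw [Wc_cx]
    exact hW _ i
  have hdet : ∀ V' : Q → ℝ, (∀ i, |V' i| ≤ L) →
      (Mz (Bp A Q E e) (fil Q (WV E e V) (update (cx V') ρ (-(L : ℂ) * Complex.I)))).det ≠ 0 := by
    intro V' _
    refine det_Bp_ne_zero hA (Wc_im_neg (fun i _ => hW V i) (fun i _ => he i) fun i => ?_)
    by_cases hi : i = ρ
    · subst hi; simp [hL.le]
    · simp [hi, cx]
  have h10 := le_norm_of_notMem' eq (fun k => (threshold_pos (Q := Q) eq hε0 k).le)
    (notMem_Jset_of_forall eq (Bp A Q E e) (WV E e V) L x (ε := fun l : Q => ε l)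
      ((hε1 x).trans (by norm_num)) (V := rs Q V) hJ)
  rw [prod_threshold eq (fun l : Q => ε l)] at h10
  have h11 : detx (Bp A Q E e) Q (WV E e V) L x (fun _ => -(L : ℂ) * Complex.I) =
      (Mz (Bp A Q E e) (fil Q (WV E e V) fun _ => -(L : ℂ) * Complex.I)).det := by
    unfold detx
    congr 3
    ext i
    by_cases hi : i = x
    · subst hi; simp
    · simp [hi]
  rw [h11] at h10
  have hpε : 0 < ∏ l : Q, ε l := Finset.prod_pos fun l _ => hε0 l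
  have hGQ : (Measure.pi fun i : Q => μ i) {V' : Q → ℝ | updateFinset V Q V' ∈ G}ᶜ ≤ 1 / 4 := by
    refine le_trans (le_of_eq ?_) hG
    unfold cp lmarginal
    have hm : MeasurableSet {V' : Q → ℝ | updateFinset V Q V' ∈ G}ᶜ :=
      (measurable_updateFinset hGm).compl
    rw [← lintegral_indicator_one hm]
    refine lintegral_congr fun V' => ?_
    by_cases h : updateFinset V Q V' ∈ G <;> simp [Set.indicator, h]
  have h1 := wch_event hB' Q (fun i _ => hW V i) hL x ρ hxρ T hc2 hy2 hcof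
    hpε (V := rs Q V) (fun i => hV i i.2) h10 (fun i : Q => μ i) (fun i => hD i i.2)
    (fun i => hsupp i i.2) hδ0 hδ1 hδ hGQ hdet
  set C2 : ℝ := (2 / (L * c2 * ∏ l : Q, ε l)) ^ 2 * 104976 ^ Q.card / δ ^ (2 * Q.card) with hC2
  have hC2p : 0 ≤ C2 := by positivity
  have hex : 0 < e x := he x
  have heρ : 0 < e ρ := he ρ
  have hClo : 0 ≤ Clo E L (e ρ) := by unfold Clo; positivity
  have hwim : ∀ i : ι, (-(L : ℂ) * Complex.I - E - Complex.I * e i).im = -(L + e i) := by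
    intro i
    simp only [Complex.sub_im, Complex.mul_im, Complex.neg_re, Complex.ofReal_re, Complex.I_im,
      Complex.neg_im, Complex.ofReal_im, Complex.I_re]
    ring
  have hwneg : ∀ i : ι, (-(L : ℂ) * Complex.I - E - Complex.I * e i).im < 0 := by
    intro i
    rw [hwim]
    linarith [he i]
  -- left side
  have h2 : Yv A (WV E e V) T x ≤ 2 * (1 + (E ^ 2 + (L + e x) ^ 2)) *
      ‖MAff.GT (Bp A Q E e) T x
        (fil Q (WV E e V) (update (cx (rs Q V)) x (-(L : ℂ) * Complex.I)))‖ ^ 2 := by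
    have h3 := Yv_le_w hA (hW V) T x (hwneg x)
    rw [norm_w_sq] at h3
    rw [GT_Bp hA, ← update_Wc, Wc_cx, updateFinset_rs]
    exact h3
  -- right side
  have h4 : ∫⁻ V' in {V' : Q → ℝ | updateFinset V Q V' ∈ G},
      ‖MAff.GT (Bp A Q E e) T ρ
        (fil Q (WV E e V) (update (cx V') ρ (-(L : ℂ) * Complex.I)))‖ₑ ^ 2
          ∂(Measure.pi fun i : Q => μ i) ≤ ENNReal.ofReal (Clo E L (e ρ)) *
      (∫⋯∫⁻_Q, G.indicator (fun V' => ENNReal.ofReal (Yv A (WV E e V') T ρ)) ∂μ) V := by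
    unfold lmarginal
    have hGm' : MeasurableSet {V' : Q → ℝ | updateFinset V Q V' ∈ G} :=
      measurable_updateFinset hGm
    rw [← lintegral_const_mul' _ _ ENNReal.ofReal_ne_top, ← lintegral_indicator hGm']
    refine lintegral_mono fun V' => ?_
    by_cases h : updateFinset V Q V' ∈ G
    · have h5 : V' ∈ {V' : Q → ℝ | updateFinset V Q V' ∈ G} := h
      rw [Set.indicator_of_mem h5, Set.indicator_of_mem h, ← ENNReal.ofReal_mul hClo,
        ← ofReal_norm, ← ENNReal.ofReal_pow (norm_nonneg _)]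
      refine ENNReal.ofReal_le_ofReal ?_
      rw [GT_Bp hA, ← update_Wc, Wc_cx]
      have h6 := GV_w_le hA (hW (updateFinset V Q V')) T ρ (hwneg ρ)
      rw [norm_w_sq, hwim, neg_sq] at h6
      exact h6
    · have h5 : V' ∉ {V' : Q → ℝ | updateFinset V Q V' ∈ G} := h
      rw [Set.indicator_of_notMem h5]
      exact zero_le
  calc ENNReal.ofReal (Yv A (WV E e V) T x)
      ≤ ENNReal.ofReal (2 * (1 + (E ^ 2 + (L + e x) ^ 2))) * ‖MAff.GT (Bp A Q E e) T x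
        (fil Q (WV E e V) (update (cx (rs Q V)) x (-(L : ℂ) * Complex.I)))‖ₑ ^ 2 := by
        rw [← ofReal_norm, ← ENNReal.ofReal_pow (norm_nonneg _),
          ← ENNReal.ofReal_mul (by positivity)]
        exact ENNReal.ofReal_le_ofReal h2
    _ ≤ ENNReal.ofReal (2 * (1 + (E ^ 2 + (L + e x) ^ 2))) * (ENNReal.ofReal (4 * C2) *
          (ENNReal.ofReal (Clo E L (e ρ)) *
      (∫⋯∫⁻_Q, G.indicator (fun V' => ENNReal.ofReal (Yv A (WV E e V') T ρ)) ∂μ) V)) := by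
        refine mul_le_mul_of_nonneg_left (h1.trans ?_) zero_le
        exact mul_le_mul_of_nonneg_left h4 zero_le
    _ = _ := by
        rw [← mul_assoc, ← mul_assoc, ← ENNReal.ofReal_mul (by positivity),
          ← ENNReal.ofReal_mul (by positivity), KE]

end P365T1.Bad
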