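import Vale.Agent.P365.J376.V3Main
import Vale.Agent.P365.C937.SwitchLab

/-!
# P365 T1: the label sum of the NORMAL part of the bulk hub

`Norm125.Geo` : abstract geometric data (region `Q l x`, core component `K l x`, block `C x`), stable
under switching the labels of `Q l x` to the good label.
`norm_abs` : from the estimate for one fixed good configuration to the sum over all labels and sites.
`norm_V3` : the same in the form of `V3.HB`.
-/

set_option linter.all false

namespace P365T1.Norm125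

open Finset P365T1.Switch
open scoped ENNReal

variable {ι : Type*} [Fintype ι] [DecidableEq ι]
variable {Λ : Type*} [Fintype Λ] [DecidableEq Λ]

/-- geometric data of the NORMAL sum: `NR l x` = the pair `(l, x)` is normal, `Q l x` = region,
`K l x` = core component, `C x` = block of `x` -/
structure Geo (ι : Type*) [DecidableEq ι] (Λ : Type*) (g : Λ) where
  NR : (ι → Λ) → ι → Prop
  Q : (ι → Λ) → ι → Finset ι
  K : (ι → Λ) → ι → Finset ι
  C : ι → Finset ι
  /-- the non-good sites of the region lie in the core component -/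
  bad : ∀ l x, NR l x → ∀ z ∈ Q l x, l z ≠ g → z ∈ K l x
  /-- the block of `x` lies in the region -/
  core : ∀ l x, NR l x → C x ⊆ Q l x
  /-- stability under switching to good -/
  sw : ∀ l x, NR l x → NR (swf (Q l x) g l) x ∧ Q (swf (Q l x) g l) x = Q l x ∧
    K (swf (Q l x) g l) x = K l x

variable {g : Λ} (G : Geo ι Λ g)

/-- the region of `l'` is all good -/
def Geo.AG (l' : ι → Λ) (x : ι) : Prop := G.NR l' x ∧ ∀ z ∈ G.Q l' x, l' z = g

/-- the configurations which are switched to `l'` -/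
def Geo.Fib (l' : ι → Λ) (x : ι) (S : Finset (ι → Λ)) : Prop :=
  ∀ l ∈ S, (∀ z ∉ G.Q l' x, l z = l' z) ∧ ∀ z ∈ G.Q l' x, l z ≠ g → z ∈ G.K l' x

open Classical in
/-- **regrouping of the label sum by the switched configuration** -/
theorem Geo.regroup (x : ι) (H B : (ι → Λ) → ℝ≥0∞)
    (h : ∀ l', G.AG l' x → ∀ S : Finset (ι → Λ), G.Fib l' x S → ∑ l ∈ S, H l ≤ B l') :
    ∑ l ∈ univ.filter (fun l => G.NR l x), H l ≤ ∑ l' ∈ univ.filter (fun l' => G.AG l' x), B l' := by
  have hmap : ∀ l ∈ univ.filter (fun l => G.NR l x),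
      swf (G.Q l x) g l ∈ univ.filter (fun l' => G.AG l' x) := by
    intro l hl
    have h1 := (Finset.mem_filter.1 hl).2
    obtain ⟨h2, h3, h4⟩ := G.sw l x h1
    refine Finset.mem_filter.2 ⟨Finset.mem_univ _, h2, fun z hz => ?_⟩
    rw [h3] at hz
    exact swf_in hz
  rw [← Finset.sum_fiberwise_of_maps_to hmap]
  refine Finset.sum_le_sum fun l' hl' => h l' (Finset.mem_filter.1 hl').2 _ ?_
  intro l hl
  obtain ⟨h1, h2⟩ := Finset.mem_filter.1 hl
  have h1' := (Finset.mem_filter.1 h1).2
  obtain ⟨h3, h4, h5⟩ := G.sw l x h1'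
  rw [h2] at h4 h5
  rw [h4, h5]
  refine ⟨fun z hz => ?_, fun z hz hne => G.bad l x h1' z hz hne⟩
  rw [← h2, swf_out hz]

/-- the pattern `pt` inserted in `C` -/
def ins (C : Finset ι) (pt : ι → Λ) (l : ι → Λ) : ι → Λ := fun z => if z ∈ C then pt z else l z

omit [Fintype ι] [Fintype Λ] [DecidableEq Λ] in
theorem ins_in {C : Finset ι} {pt l : ι → Λ} {z : ι} (hz : z ∈ C) : ins C pt l z = pt z := by
  simp [ins, hz]

omit [Fintype ι] [Fintype Λ] [DecidableEq Λ] in
theorem ins_out {C : Finset ι} {pt l : ι → Λ} {z : ι} (hz : z ∉ C) : ins C pt l z = l z := by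
  simp [ins, hz]

/-- weight of a label configuration -/
noncomputable def Pr (p : Λ → ℝ≥0∞) (l : ι → Λ) : ℝ≥0∞ := ∏ z, p (l z)

omit [Fintype Λ] in
/-- **insertion of the pattern**: injective on the configurations which are good on `C` -/
theorem ins_sum {p : Λ → ℝ≥0∞} (hp : p g ≤ 1) {C : Finset ι} {pt : ι → Λ} {c : ℝ≥0∞}
    (hc : 1 ≤ c * ∏ z ∈ C, p (pt z)) {T : Finset (ι → Λ)} (hT : ∀ l ∈ T, ∀ z ∈ C, l z = g)
    (H : (ι → Λ) → ℝ≥0∞) :
    ∑ l ∈ T, Pr p l * H (ins C pt l) ≤ c * ∑ l ∈ T.image (ins C pt), Pr p l * H l := by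
  have hinj : Set.InjOn (ins C pt) (T : Set (ι → Λ)) := by
    intro l hl m hm hlm
    funext z
    by_cases hz : z ∈ C
    · rw [hT l (Finset.mem_coe.1 hl) z hz, hT m (Finset.mem_coe.1 hm) z hz]
    · have := congrFun hlm z
      rwa [ins_out hz, ins_out hz] at this
  rw [Finset.sum_image hinj, Finset.mul_sum]
  refine Finset.sum_le_sum fun l hl => ?_
  rw [← mul_assoc]
  refine mul_le_mul' ?_ le_rfl
  have e1 : Pr p l = (∏ z ∈ C, p (l z)) * ∏ z ∈ Cᶜ, p (l z) := (Finset.prod_mul_prod_compl C _).symm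
  have e2 : Pr p (ins C pt l) = (∏ z ∈ C, p (pt z)) * ∏ z ∈ Cᶜ, p (l z) := by
    rw [Pr, ← Finset.prod_mul_prod_compl C]
    congr 1
    · exact Finset.prod_congr rfl fun z hz => by rw [ins_in hz]
    · exact Finset.prod_congr rfl fun z hz => by rw [ins_out (Finset.mem_compl.1 hz)]
  rw [e1, e2, ← mul_assoc]
  refine mul_le_mul' ?_ le_rfl
  refine le_trans ?_ hc
  exact Finset.prod_le_one' fun z hz => by rw [hT l hl z hz]; exact hp

/-- total mass of the label configurations -/
theorem sum_Pr {p : Λ → ℝ≥0∞} (hsum : ∑ k, p k = 1) : ∑ l : ι → Λ, Pr p l = 1 := by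
  unfold Pr
  rw [← Fintype.piFinset_univ, ← Finset.prod_univ_sum]
  simp [hsum]

open Classical in
/-- **the NORMAL sum**: all labels, all sites -/
theorem Geo.norm_abs {p : Λ → ℝ≥0∞} (hsum : ∑ k, p k = 1) (F M : (ι → Λ) → ι → ℝ≥0∞)
    (A1 ε1 K2 c : ℝ≥0∞) (n9 m2 : ℕ) (yc : ι → ι) (pt : ι → ι → Λ) (Cn : (ι → Λ) → ι → Prop)
    (hcen : ∀ x l, Cn (ins (G.C x) (pt x) l) (yc x))
    (hc : ∀ x, 1 ≤ c * ∏ z ∈ G.C x, p (pt x z))
    (hn9 : ∀ w, (univ.filter fun x => ∃ l, G.NR l x ∧ w ∈ G.Q l x).card ≤ n9)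
    (hm2 : ∀ y, (univ.filter fun x => yc x = y).card ≤ m2)
    (h256 : ∀ x l', G.AG l' x → ∀ S : Finset (ι → Λ), G.Fib l' x S →
      ∑ l ∈ S, Pr p l * F l x ≤ Pr p l' * (A1 + ε1 * ∑ w ∈ G.Q l' x, M l' w +
        K2 * M (ins (G.C x) (pt x) l') (yc x))) :
    ∑ l, Pr p l * ∑ x, (if G.NR l x then F l x else 0) ≤
      A1 * Fintype.card ι +
        ε1 * n9 * (∑ l, Pr p l * ∑ w, (if l w = g then M l w else 0)) +
        K2 * c * m2 * ∑ l, Pr p l * ∑ y, (if Cn l y then M l y else 0) := by
  have hp1 : p g ≤ 1 := by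
    rw [← hsum]
    exact Finset.single_le_sum (f := p) (fun _ _ => bot_le) (Finset.mem_univ g)
  -- swap
  have h1 : ∑ l, Pr p l * ∑ x, (if G.NR l x then F l x else 0) =
      ∑ x, ∑ l ∈ univ.filter (fun l => G.NR l x), Pr p l * F l x := by
    simp_rw [Finset.mul_sum, mul_ite, mul_zero]
    rw [Finset.sum_comm]
    exact Finset.sum_congr rfl fun x _ => (Finset.sum_filter _ _).symm
  rw [h1]
  -- regroup
  have h2 : ∀ x, ∑ l ∈ univ.filter (fun l => G.NR l x), Pr p l * F l x ≤
      A1 + ε1 * (∑ l' ∈ univ.filter (fun l' => G.AG l' x), Pr p l' * ∑ w ∈ G.Q l' x, M l' w) +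
        K2 * (c * ∑ l, Pr p l * (if Cn l (yc x) then M l (yc x) else 0)) := by
    intro x
    refine (G.regroup x (fun l => Pr p l * F l x) _ (h256 x)).trans ?_
    have e1 : ∀ l', Pr p l' * (A1 + ε1 * ∑ w ∈ G.Q l' x, M l' w +
        K2 * M (ins (G.C x) (pt x) l') (yc x)) =
        A1 * Pr p l' + ε1 * (Pr p l' * ∑ w ∈ G.Q l' x, M l' w) +
          K2 * (Pr p l' * M (ins (G.C x) (pt x) l') (yc x)) := fun l' => by ring
    rw [Finset.sum_congr rfl fun l' _ => e1 l', Finset.sum_add_distrib, Finset.sum_add_distrib,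
      ← Finset.mul_sum, ← Finset.mul_sum, ← Finset.mul_sum]
    refine add_le_add (add_le_add ?_ le_rfl) (mul_le_mul' le_rfl ?_)
    · calc A1 * ∑ l' ∈ univ.filter (fun l' => G.AG l' x), Pr p l' ≤ A1 * ∑ l', Pr p l' :=
          mul_le_mul' le_rfl (Finset.sum_le_sum_of_subset (Finset.filter_subset _ _))
        _ = A1 := by
          have h9 : ∑ l' : ι → Λ, Pr p l' = 1 := by convert sum_Pr (ι := ι) hsum
          rw [h9, mul_one]
    · have h3 := ins_sum (g := g) (T := univ.filter (fun l' => G.AG l' x)) hp1 (hc x) (fun l hl z hz => ?_)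
        (fun l => M l (yc x))
      · refine h3.trans (mul_le_mul' le_rfl ?_)
        calc ∑ l ∈ (univ.filter (fun l' => G.AG l' x)).image (ins (G.C x) (pt x)),
              Pr p l * M l (yc x)
            ≤ ∑ l ∈ (univ.filter (fun l' => G.AG l' x)).image (ins (G.C x) (pt x)),
              Pr p l * (if Cn l (yc x) then M l (yc x) else 0) := by
              refine Finset.sum_le_sum fun l hl => ?_
              obtain ⟨l', -, rfl⟩ := Finset.mem_image.1 hl
              rw [if_pos (hcen x l')]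
          _ ≤ _ := Finset.sum_le_sum_of_subset (Finset.subset_univ _)
      · have h4 := (Finset.mem_filter.1 hl).2
        exact h4.2 z (G.core l x h4.1 hz)
  refine (Finset.sum_le_sum fun x _ => h2 x).trans ?_
  rw [Finset.sum_add_distrib, Finset.sum_add_distrib, ← Finset.mul_sum, ← Finset.mul_sum,
    ← Finset.mul_sum]
  refine add_le_add (add_le_add ?_ ?_) ?_
  · rw [Finset.sum_const, Finset.card_univ, nsmul_eq_mul, mul_comm]
  · rw [mul_assoc]
    refine mul_le_mul' le_rfl ?_
    calc ∑ x, ∑ l' ∈ univ.filter (fun l' => G.AG l' x), Pr p l' * ∑ w ∈ G.Q l' x, M l' w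
        = ∑ x, ∑ l, Pr p l * ∑ w, (if G.AG l x ∧ w ∈ G.Q l x then M l w else 0) := by
          refine Finset.sum_congr rfl fun x _ => ?_
          rw [Finset.sum_filter]
          refine Finset.sum_congr rfl fun l _ => ?_
          by_cases h5 : G.AG l x
          · simp only [h5, if_true, true_and]
            rw [← Finset.sum_filter]
            congr 1
            refine Finset.sum_congr ?_ fun _ _ => rfl
            ext w
            simp
          · simp [h5]
      _ = ∑ l, Pr p l * ∑ w, ∑ x, (if G.AG l x ∧ w ∈ G.Q l x then M l w else 0) := by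
          rw [Finset.sum_comm]
          refine Finset.sum_congr rfl fun l _ => ?_
          rw [← Finset.mul_sum, Finset.sum_comm]
      _ ≤ ∑ l, Pr p l * ∑ w, (n9 * (if l w = g then M l w else 0)) := by
          refine Finset.sum_le_sum fun l _ => mul_le_mul' le_rfl (Finset.sum_le_sum fun w _ => ?_)
          rw [← Finset.sum_filter, Finset.sum_const, nsmul_eq_mul]
          by_cases h6 : l w = g
          · rw [if_pos h6]
            refine mul_le_mul' ?_ le_rfl
            exact_mod_cast (Finset.card_le_card fun x hx => by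
              rw [Finset.mem_filter] at hx ⊢
              exact ⟨hx.1, l, hx.2.1.1, hx.2.2⟩).trans (hn9 w)
          · have h7 : univ.filter (fun x => G.AG l x ∧ w ∈ G.Q l x) = ∅ := by
              refine Finset.filter_eq_empty_iff.2 fun x _ hx => h6 (hx.1.2 w hx.2)
            rw [h7]
            simp
      _ = n9 * ∑ l, Pr p l * ∑ w, (if l w = g then M l w else 0) := by
          rw [Finset.mul_sum]
          refine Finset.sum_congr rfl fun l _ => ?_
          rw [← Finset.mul_sum]
          ring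
  · rw [mul_assoc, mul_assoc]
    refine mul_le_mul' le_rfl (mul_le_mul' le_rfl ?_)
    rw [Finset.sum_comm, Finset.mul_sum]
    refine Finset.sum_le_sum fun l _ => ?_
    rw [← Finset.mul_sum, ← mul_assoc, mul_comm (m2 : ℝ≥0∞), mul_assoc]
    refine mul_le_mul' le_rfl ?_
    rw [← Finset.sum_fiberwise_of_maps_to (g := yc) (t := univ) (fun x _ => Finset.mem_univ _),
      Finset.mul_sum]
    refine Finset.sum_le_sum fun y _ => ?_
    rw [Finset.sum_congr rfl (g := fun _ => if Cn l y then M l y else 0) fun x hx => by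
      rw [(Finset.mem_filter.1 hx).2], Finset.sum_const, nsmul_eq_mul]
    refine mul_le_mul' ?_ le_rfl
    exact_mod_cast hm2 y

end P365T1.Norm125
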