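import Vale.Agent.P365.T1.PeelCof963
import Vale.Agent.P365.T1.StartD

/-!
# P365 T1: PEEL on the torus — windows, cores, long chains, matched blocks
-/

set_option autoImplicit false
set_option linter.all false

namespace P365T1

namespace Peel

open Finset P365L

section torus

variable {N : ℕ} [NeZero N]

/-- adjacency relation of the torus -/
abbrev rT (N : ℕ) : Tor N → Tor N → Prop := rA (AT N)

theorem rT_iff {a b : Tor N} : rT N a b ↔ b - a ∈ nbs N := by
  unfold rT rA AT
  split_ifs with h <;> simp [h]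

theorem rT_symm (a b : Tor N) (h : rT N a b) : rT N b a := rA_symm (AT_symm N) a b h

theorem near_nrm {n : ℕ} {a b : Tor N} (h : near (rT N) n a b) : nrm (b - a) ≤ n := by
  induction n generalizing b with
  | zero =>
    have h' : a = b := h
    subst h'
    simp [nrm_zero]
  | succ n ih =>
    obtain ⟨c, hc, h1⟩ := h
    have h2 := ih hc
    have h3 : nrm (b - c) ≤ 1 := by
      rcases h1 with rfl | h1
      · simp [nrm_zero]
      · exact nrm_nbs (rT_iff.1 h1)
    have e : b - a = (c - a) + (b - c) := by abel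
    rw [e]
    exact (nrm_add_le _ _).trans (by omega)

/-- the block of side `m` of `x` -/
def Cor (m : ℕ) (x : Tor N) : Finset (Tor N) := univ.filter fun z => bi m z = bi m x

open Classical in
/-- the window: sites at sup distance at most `m` from the block of side `m` of `x` -/
noncomputable def Win (m : ℕ) (x : Tor N) : Finset (Tor N) :=
  univ.filter fun z => ∃ w, bi m w = bi m x ∧ nrm (z - w) ≤ m

theorem mem_Cor {m : ℕ} {x z : Tor N} : z ∈ Cor m x ↔ bi m z = bi m x := by
  simp [Cor]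

theorem mem_Win {m : ℕ} {x z : Tor N} :
    z ∈ Win m x ↔ ∃ w, bi m w = bi m x ∧ nrm (z - w) ≤ m := by
  simp [Win]

theorem self_mem_Cor (m : ℕ) (x : Tor N) : x ∈ Cor m x := mem_Cor.2 rfl

theorem Cor_congr {m : ℕ} {x z : Tor N} (h : bi m z = bi m x) : Cor m z = Cor m x := by
  unfold Cor
  rw [h]

theorem Win_congr {m : ℕ} {x z : Tor N} (h : bi m z = bi m x) : Win m z = Win m x := by
  unfold Win
  rw [h]

theorem Cor_sub_Win (m : ℕ) (x : Tor N) : Cor m x ⊆ Win m x := by
  intro z hz
  exact mem_Win.2 ⟨z, mem_Cor.1 hz, by simp [nrm_zero]⟩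

/-- the `m`-balls of the core lie in the window -/
theorem near_Win {m j : ℕ} {x a b : Tor N} (ha : a ∈ Cor m x) (hj : j ≤ m)
    (h : near (rT N) j a b) : b ∈ Win m x :=
  mem_Win.2 ⟨a, mem_Cor.1 ha, (near_nrm h).trans hj⟩

theorem natAbs_valMinAbs_natCast_le (k : ℕ) :
    (((k : ℕ) : ZMod N).valMinAbs).natAbs ≤ k := by
  have := natAbs_valMinAbs_intCast_le (N := N) (k : ℤ)
  simpa using this

/-- two sites of one block are at sup distance less than `m` -/
theorem nrm_of_bi {m : ℕ} (hm : 0 < m) {x z : Tor N} (h : bi m z = bi m x) :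
    nrm (z - x) ≤ m := by
  have key : ∀ p q : ZMod N, p.val / m = q.val / m → ((p - q).valMinAbs).natAbs ≤ m := by
    intro p q hpq
    have e1 := Nat.div_add_mod p.val m
    have e2 := Nat.div_add_mod q.val m
    have l1 := Nat.mod_lt p.val hm
    have l2 := Nat.mod_lt q.val hm
    rw [hpq] at e1
    have e3 : p - q = (((p.val : ℤ) - (q.val : ℤ) : ℤ) : ZMod N) := by
      push_cast
      rw [ZMod.natCast_zmod_val, ZMod.natCast_zmod_val]
    rw [e3]
    refine (natAbs_valMinAbs_intCast_le _).trans ?_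
    omega
  have h1 := congrArg Prod.fst h
  have h2 := congrArg Prod.snd h
  exact max_le (key _ _ h1) (key _ _ h2)

theorem nrm_Win {m : ℕ} (hm : 0 < m) {x z : Tor N} (hz : z ∈ Win m x) :
    nrm (z - x) ≤ 2 * m := by
  obtain ⟨w, hw, h1⟩ := mem_Win.1 hz
  have h2 := nrm_of_bi hm hw
  have e : z - x = (z - w) + (w - x) := by abel
  rw [e]
  exact (nrm_add_le _ _).trans (by omega)

theorem card_Cor_le {m : ℕ} (hm : 0 < m) (x : Tor N) : (Cor m x).card ≤ m ^ 2 :=
  card_block_le m hm (bi m x)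

theorem card_Win_le {m : ℕ} (hm : 0 < m) (x : Tor N) : (Win m x).card ≤ 9 * m ^ 2 := by
  classical
  let f : Loc → Tor N := fun a => ((((bi m x).1 * m + a.1 : ℕ) : ZMod N) - (m : ZMod N),
    (((bi m x).2 * m + a.2 : ℕ) : ZMod N) - (m : ZMod N))
  have hsub : Win m x ⊆ (blk (3 * m)).image f := by
    intro z hz
    obtain ⟨w, hw, h1⟩ := mem_Win.1 hz
    have key : ∀ (p q : ZMod N) (c : ℕ), q.val / m = c → ((p - q).valMinAbs).natAbs ≤ m →
        ∃ a : ℕ, a < 3 * m ∧ ((c * m + a : ℕ) : ZMod N) - (m : ZMod N) = p := by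
      intro p q c hc hpq
      set u := (p - q).valMinAbs with hu
      have hu' : ((u : ℤ) : ZMod N) = p - q := ZMod.coe_valMinAbs _
      have e2 := Nat.div_add_mod q.val m
      have l2 := Nat.mod_lt q.val hm
      rw [hc] at e2
      obtain ⟨t, ht⟩ : ∃ t : ℕ, t = q.val % m := ⟨_, rfl⟩
      rw [← ht] at e2 l2
      refine ⟨((t : ℤ) + u + m).toNat, by omega, ?_⟩
      have h3 : ((((t : ℤ) + u + m).toNat : ℕ) : ℤ) = (t : ℤ) + u + m := by
        rw [Int.toNat_of_nonneg]
        omega
      have h4 : ((((t : ℤ) + u + m).toNat : ℕ) : ZMod N) = (((t : ℤ) + u + m : ℤ) : ZMod N) := by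
        rw [← h3]
        push_cast
        rfl
      rw [Nat.cast_add, h4]
      push_cast
      rw [hu']
      have h6 : (c : ZMod N) * (m : ZMod N) + (t : ZMod N) = q := by
        have h7 : ((m * c + t : ℕ) : ZMod N) = q := by rw [e2, ZMod.natCast_zmod_val]
        rw [← h7]
        push_cast
        ring
      linear_combination h6
    obtain ⟨a1, ha1, e1⟩ := key z.1 w.1 (bi m x).1 (congrArg Prod.fst hw)
      ((le_max_left _ _).trans h1)
    obtain ⟨a2, ha2, e2⟩ := key z.2 w.2 (bi m x).2 (congrArg Prod.snd hw)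
      ((le_max_right _ _).trans h1)
    rw [mem_image]
    refine ⟨(a1, a2), ?_, Prod.ext e1 e2⟩
    simp [blk, ha1, ha2]
  refine (card_le_card hsub).trans (card_image_le.trans ?_)
  simp only [blk, card_product, card_range]
  nlinarith

/-! ### blocks are connected -/

/-- steps inside the block `c` -/
def bst (m : ℕ) (c : Loc) (a b : Tor N) : Prop := rT N a b ∧ bi m a = c ∧ bi m b = c

theorem bst_symm {m : ℕ} {c : Loc} {a b : Tor N} (h : bst m c a b) : bst m c b a :=
  ⟨rT_symm _ _ h.1, h.2.2, h.2.1⟩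

theorem rtg_symm {m : ℕ} {c : Loc} {a b : Tor N} (h : Relation.ReflTransGen (bst m c) a b) :
    Relation.ReflTransGen (bst m c) b a := by
  induction h with
  | refl => exact Relation.ReflTransGen.refl
  | tail _ h1 ih => exact Relation.ReflTransGen.head (bst_symm h1) ih

theorem div_between {m p q k : ℕ} (h1 : p ≤ k) (h2 : k ≤ q) (h : p / m = q / m) :
    k / m = p / m :=
  le_antisymm (h ▸ Nat.div_le_div_right h2) (Nat.div_le_div_right h1)

theorem conn_fst {m : ℕ} {c : Loc} (p q : ZMod N) (t : ZMod N) (hpq : p.val ≤ q.val)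
    (hp : bi m ((p, t) : Tor N) = c) (hq : bi m ((q, t) : Tor N) = c) :
    Relation.ReflTransGen (bst m c) ((p, t) : Tor N) (q, t) := by
  have key : ∀ k, p.val ≤ k → k ≤ q.val →
      Relation.ReflTransGen (bst m c) ((p, t) : Tor N) (((k : ℕ) : ZMod N), t) := by
    intro k hk
    induction k, hk using Nat.le_induction with
    | base =>
      intro _
      rw [ZMod.natCast_zmod_val]
    | succ k hk ih =>
      intro hkq
      have hqN : q.val < N := ZMod.val_lt q
      have hb : ∀ j, p.val ≤ j → j ≤ q.val → bi m ((((j : ℕ) : ZMod N), t) : Tor N) = c := by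
        intro j h1 h2
        rw [← hp]
        unfold bi
        have e1 : ((j : ℕ) : ZMod N).val = j := ZMod.val_natCast_of_lt (by omega)
        simp only [e1]
        have e2 : p.val / m = q.val / m := by
          have := hp.trans hq.symm
          exact congrArg Prod.fst this
        rw [div_between h1 h2 e2]
      refine (ih (by omega)).tail ⟨?_, hb k hk (by omega), hb (k + 1) (by omega) hkq⟩
      rw [rT_iff]
      simp [nbs]
  have := key q.val hpq le_rfl
  rwa [ZMod.natCast_zmod_val] at this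

theorem conn_snd {m : ℕ} {c : Loc} (p q : ZMod N) (t : ZMod N) (hpq : p.val ≤ q.val)
    (hp : bi m ((t, p) : Tor N) = c) (hq : bi m ((t, q) : Tor N) = c) :
    Relation.ReflTransGen (bst m c) ((t, p) : Tor N) (t, q) := by
  have key : ∀ k, p.val ≤ k → k ≤ q.val →
      Relation.ReflTransGen (bst m c) ((t, p) : Tor N) (t, ((k : ℕ) : ZMod N)) := by
    intro k hk
    induction k, hk using Nat.le_induction with
    | base =>
      intro _
      rw [ZMod.natCast_zmod_val]
    | succ k hk ih =>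
      intro hkq
      have hqN : q.val < N := ZMod.val_lt q
      have hb : ∀ j, p.val ≤ j → j ≤ q.val → bi m ((t, ((j : ℕ) : ZMod N)) : Tor N) = c := by
        intro j h1 h2
        rw [← hp]
        unfold bi
        have e1 : ((j : ℕ) : ZMod N).val = j := ZMod.val_natCast_of_lt (by omega)
        simp only [e1]
        have e2 : p.val / m = q.val / m := by
          have := hp.trans hq.symm
          exact congrArg Prod.snd this
        rw [div_between h1 h2 e2]
      refine (ih (by omega)).tail ⟨?_, hb k hk (by omega), hb (k + 1) (by omega) hkq⟩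
      rw [rT_iff]
      simp [nbs]
  have := key q.val hpq le_rfl
  rwa [ZMod.natCast_zmod_val] at this

/-- **blocks are connected** -/
theorem blk_conn {m : ℕ} {c : Loc} {a b : Tor N} (ha : bi m a = c) (hb : bi m b = c) :
    Relation.ReflTransGen (bst m c) a b := by
  have hmid : bi m ((b.1, a.2) : Tor N) = c := by
    have h1 := congrArg Prod.fst hb
    have h2 := congrArg Prod.snd ha
    exact Prod.ext h1 h2
  have s1 : Relation.ReflTransGen (bst m c) a ((b.1, a.2) : Tor N) := by
    rcases le_total a.1.val b.1.val with h | h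
    · exact conn_fst a.1 b.1 a.2 h ha hmid
    · exact rtg_symm (conn_fst b.1 a.1 a.2 h hmid ha)
  have s2 : Relation.ReflTransGen (bst m c) ((b.1, a.2) : Tor N) b := by
    rcases le_total a.2.val b.2.val with h | h
    · exact conn_snd a.2 b.2 b.1 h hmid hb
    · exact rtg_symm (conn_snd b.2 a.2 b.1 h hb hmid)
  exact s1.trans s2

/-! ### NORMAL sites and long chains -/

/-- **NORMAL**: no removed site within distance 3 of the core block of `x` -/
def Nrm (m : ℕ) (S : Finset (Tor N)) (x : Tor N) : Prop :=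
  ∀ a ∈ Cor m x, ∀ c, near (rT N) 3 a c → ¬ Rm (rT N) (Win m x) S c

theorem Nrm_congr {m : ℕ} {S : Finset (Tor N)} {x z : Tor N} (h : bi m z = bi m x) :
    Nrm m S z ↔ Nrm m S x := by
  unfold Nrm
  rw [Cor_congr h, Win_congr h]

theorem Nrm.ball {m : ℕ} (hm : 3 ≤ m) {S : Finset (Tor N)} {x : Tor N} (h : Nrm m S x) :
    ∀ a ∈ Cor m x, ∀ c, near (rT N) 3 a c → c ∈ Win m x ∧ ¬ Rm (rT N) (Win m x) S c :=
  fun a ha c hc => ⟨near_Win ha hm hc, h a ha c hc⟩

/-- NORMAL: the core block lies in `Kc`, for every base point `y` of the core block -/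
theorem Nrm.core {m : ℕ} (hm : 3 ≤ m) {S : Finset (Tor N)} {x y : Tor N} (h : Nrm m S x)
    (hy : bi m y = bi m x) : Cor m x ⊆ Kc (rT N) (Win m x) S y := by
  refine core_sub (fun a ha c hc => h.ball hm a ha c (near_mono (by norm_num) hc))
    (mem_Cor.2 hy) fun a ha => ?_
  have h1 := blk_conn (m := m) hy (mem_Cor.1 ha)
  induction h1 with
  | refl => exact Relation.ReflTransGen.refl
  | tail _ h2 ih => exact ih (mem_Cor.2 h2.2.1) |>.tail ⟨h2.1, mem_Cor.2 h2.2.2⟩

/-- **not NORMAL: a long injective range-3 chain of non-good sites in the window** -/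
theorem chain_of_not_Nrm {m n : ℕ} (hmn : 3 * n + 6 ≤ m) {S : Finset (Tor N)} {x : Tor N}
    (h : ¬ Nrm m S x) :
    ∃ p : ℕ → Tor N, (∀ i ≤ n, p i ∈ S ∧ p i ∈ Win m x) ∧
      (∀ i < n, near (rT N) 3 (p i) (p (i + 1))) ∧
      (∀ i ≤ n, ∀ i' ≤ n, p i = p i' → i = i') := by
  unfold Nrm at h
  push Not at h
  obtain ⟨a, ha, c, hc, hR⟩ := h
  exact long_chain rT_symm hR hc fun b hb => near_Win ha (by omega) hb

/-- sup distances along the chain -/
theorem chain_nrm {m n : ℕ} (hmn : 3 * n + 6 ≤ m) {S : Finset (Tor N)} {x : Tor N}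
    (h : ¬ Nrm m S x) :
    ∃ p : ℕ → Tor N, (∀ i ≤ n, p i ∈ S ∧ nrm (p i - x) ≤ 2 * m) ∧
      (∀ i < n, nrm (p (i + 1) - p i) ≤ 3) ∧
      (∀ i ≤ n, ∀ i' ≤ n, p i = p i' → i = i') := by
  obtain ⟨p, h1, h2, h3⟩ := chain_of_not_Nrm hmn h
  exact ⟨p, fun i hi => ⟨(h1 i hi).1, nrm_Win (by omega) (h1 i hi).2⟩,
    fun i hi => near_nrm (h2 i hi), h3⟩

/-! ### matched blocks -/

/-- a block all of whose sites are non-good and which meets `Qc` lies in `Kc` -/
theorem blk_sub_Kc {Q0 S : Finset (Tor N)} {y : Tor N} {m' : ℕ} {a : Tor N}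
    (hS : ∀ w, bi m' w = bi m' a → w ∈ S) (ha : a ∈ Qc (rT N) Q0 S y) (w : Tor N)
    (hw : bi m' w = bi m' a) : w ∈ Kc (rT N) Q0 S y := by
  have h := blk_conn (m := m') (c := bi m' a) rfl hw
  clear hw
  induction h with
  | refl => exact S_Qc rT_symm ha (hS a rfl) a (near_self 1 a)
  | tail _ h1 ih =>
    exact S_Qc rT_symm (Ic_sub_Qc _ (Kc_sub_Ic _ ih)) (hS _ h1.2.1) _
      (near_one.2 (Or.inr h1.1))

variable {Λ : Type*} [DecidableEq Λ]

/-- non-good sites of a labelling -/
def nsg (g : Λ) (l : Tor N → Λ) : Finset (Tor N) := univ.filter fun z => l z ≠ g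

theorem mem_nsg {g : Λ} {l : Tor N → Λ} {z : Tor N} : z ∈ nsg g l ↔ l z ≠ g := by
  simp [nsg]

/-- **matched blocks off `Qc` do not change** when the labels on `Qc` are switched to good outside
a set `P` inside `Kc` (arbitrary labels on `P`; `P = ∅` or the core block) -/
theorem mat_off_iff {Q0 : Finset (Tor N)} {g : Λ} {l l' : Tor N → Λ} {y : Tor N}
    {P : Finset (Tor N)} (hP : P ⊆ Kc (rT N) Q0 (nsg g l) y)
    (hoff : ∀ z, z ∉ Qc (rT N) Q0 (nsg g l) y → l' z = l z)
    (hgood : ∀ z ∈ Qc (rT N) Q0 (nsg g l) y, z ∉ P → l' z = g)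
    {m' : ℕ} {pt : Loc → Λ} (hpt : ∀ a, pt a ≠ g) {z : Tor N}
    (hz : z ∉ Qc (rT N) Q0 (nsg g l) y) :
    (∀ w, bi m' w = bi m' z → l' w = pt (lc m' w)) ↔
      (∀ w, bi m' w = bi m' z → l w = pt (lc m' w)) := by
  have hKQ : ∀ w, w ∈ Kc (rT N) Q0 (nsg g l) y → w ∈ Qc (rT N) Q0 (nsg g l) y :=
    fun w hw => Ic_sub_Qc _ (Kc_sub_Ic _ hw)
  constructor
  · intro h
    -- the block does not meet `Qc`
    have hno : ∀ w, bi m' w = bi m' z → w ∉ Qc (rT N) Q0 (nsg g l) y := by
      intro w hw hwQ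
      have hwP : w ∈ P := by
        by_contra hc
        exact hpt _ ((h w hw).symm.trans (hgood w hwQ hc))
      have h1 := blk_conn (m := m') (c := bi m' z) hw rfl
      have h2 : ∀ b, Relation.ReflTransGen (bst m' (bi m' z)) w b → b ∈ P := by
        intro b hb
        induction hb with
        | refl => exact hwP
        | @tail b c _ hbc ih =>
          have hcQ : c ∈ Qc (rT N) Q0 (nsg g l) y := Ic_sub_Qc _ (nb_Kc (hP ih) hbc.1)
          by_contra hc
          exact hpt _ ((h c hbc.2.2).symm.trans (hgood c hcQ hc))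
      exact hz (hKQ z (hP (h2 z h1)))
    intro w hw
    rw [← hoff w (hno w hw)]
    exact h w hw
  · intro h
    have hno : ∀ w, bi m' w = bi m' z → w ∉ Qc (rT N) Q0 (nsg g l) y := by
      intro w hw hwQ
      have h1 := blk_sub_Kc (m' := m') (a := w) (fun b hb => ?_) hwQ z hw.symm
      · exact hz (hKQ z h1)
      · rw [mem_nsg, h b (hb.trans hw)]
        exact hpt _
    intro w hw
    rw [hoff w (hno w hw)]
    exact h w hw

/-- **the regions do not change** under the same switch when the site is NORMAL and `P` is contained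
in the core block -/
theorem stable_lab {m : ℕ} (hm : 3 ≤ m) {g : Λ} {l l' : Tor N → Λ} {x y : Tor N}
    (hN : Nrm m (nsg g l) x) {P : Finset (Tor N)} (hP : P ⊆ Cor m x)
    (hoff : ∀ z, z ∉ Qc (rT N) (Win m x) (nsg g l) y → l' z = l z)
    (hgood : ∀ z ∈ Qc (rT N) (Win m x) (nsg g l) y, z ∉ P → l' z = g) :
    Nrm m (nsg g l') x ∧
      Kc (rT N) (Win m x) (nsg g l') y = Kc (rT N) (Win m x) (nsg g l) y ∧
      Ic (rT N) (Win m x) (nsg g l') y = Ic (rT N) (Win m x) (nsg g l) y ∧
      Qc (rT N) (Win m x) (nsg g l') y = Qc (rT N) (Win m x) (nsg g l) y := by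
  have h := stable' (r := rT N) (Q0 := Win m x) (S := nsg g l) rT_symm (S' := nsg g l')
    (Q00 := Cor m x) (y := y) (hN.ball hm) (fun a ha => ?_) (fun a ha haS => ?_)
  · refine ⟨fun a ha c hc => ?_, h.2⟩
    rw [h.1 c]
    exact hN a ha c hc
  · rw [mem_nsg, mem_nsg, hoff a ha]
  · right
    by_contra hc
    exact (mem_nsg.1 haS) (hgood a ha fun hP' => hc (hP hP'))

end torus

end Peel

end P365T1
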