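import Vale.Agent.P365.T1.Norm125
import Vale.Agent.P365.T1.PeelTor963
import Vale.Agent.P365.T1c.V3Swap548

/-!
# P365 T1: the NORMAL part of the bulk hub, form of design v3

`V3.NormA` : the inequality for one fixed good configuration (256).
`V3.Ok.norm_sum` : the NORMAL half of `V3.HB`.
-/

set_option linter.all false

namespace Vale.Agent.P365.J376

open P365L P365O P365T1 P365L.TL P365T1.Switch P365T1.Peel Matrix Complex MeasureTheory
open scoped ENNReal

variable {D : V3} {N : ℕ} [NeZero N]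

/-! ### profiles of two configurations with the same matched blocks -/

theorem V3.wf_congr {l l' : Tor N → D.Λ} {z : Tor N} (hz : l' z = l z) {j : ℕ}
    (h : D.Mat j l' z ↔ D.Mat j l z) : D.wf j l' z = D.wf j l z := by
  classical
  have h' : D.cen j l' z ↔ D.cen j l z := and_congr_left fun _ => h
  unfold V3.wf
  by_cases hc : D.cen j l z
  · rw [if_pos hc, if_pos (h'.2 hc)]
  · rw [if_neg hc, if_neg (fun h1 => hc (h'.1 h1)), hz]

theorem V3.Ws_congr {l l' : Tor N → D.Λ} {z : Tor N} (hz : l' z = l z)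
    (h : ∀ j ≤ D.I, (D.Mat j l' z ↔ D.Mat j l z)) {i : ℕ} (hi : i ≤ D.I + 1) :
    D.Ws i l' z = D.Ws i l z := by
  induction i with
  | zero => simp only [V3.Ws]; rw [hz]
  | succ i ih =>
    simp only [V3.Ws]
    rw [ih (by omega), V3.wf_congr hz (h i (by omega))]

/-- same label and same matched blocks at `z`: same profile at `z` -/
theorem V3.prof_congr {l l' : Tor N → D.Λ} {z : Tor N} (hz : l' z = l z)
    (h : ∀ j ≤ D.I, (D.Mat j l' z ↔ D.Mat j l z)) {i : ℕ} (hi : i ≤ D.I + 1) (s : ℝ) :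
    D.prof i s l' z = D.prof i s l z := by
  unfold V3.prof V3.us
  rw [V3.Ws_congr hz h hi]
  congr 2
  refine Finset.sum_congr rfl fun j hj => ?_
  rw [Finset.mem_Ico] at hj
  rw [V3.wf_congr hz (h j (by omega))]

/-! ### regions -/

/-- centre of the block (of family `i`) of `x` -/
def V3.yc (D : V3) (i : ℕ) (x : Tor N) : Tor N := st N (D.m i) (bi (D.m i) x) (D.y i)

/-- the core component of the window of the block of `x` -/
noncomputable def V3.Kn (D : V3) (i : ℕ) (l : Tor N → D.Λ) (x : Tor N) : Finset (Tor N) :=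
  Kc (rT N) (Win (D.m i) x) (nsg D.good l) (D.yc i x)

/-- the region of the block of `x` -/
noncomputable def V3.Qn (D : V3) (i : ℕ) (l : Tor N → D.Λ) (x : Tor N) : Finset (Tor N) :=
  Qc (rT N) (Win (D.m i) x) (nsg D.good l) (D.yc i x)

theorem V3.Kn_sub_Qn (i : ℕ) (l : Tor N → D.Λ) (x : Tor N) : D.Kn i l x ⊆ D.Qn i l x :=
  (Kc_sub_Ic _).trans (Ic_sub_Qc _)

theorem V3.Qn_sub_Win (i : ℕ) (l : Tor N → D.Λ) (x : Tor N) : D.Qn i l x ⊆ Win (D.m i) x :=
  Qc_sub _

theorem V3.bi_yc {i : ℕ} (hmN : D.m i ∣ N) (hy : D.y i ∈ blk (D.m i)) (x : Tor N) :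
    bi (D.m i) (D.yc i x) = bi (D.m i) x := bi_st' (bIn_bi hmN x) hy

theorem V3.Cor_sub_Kn {i : ℕ} (hm : 3 ≤ D.m i) (hmN : D.m i ∣ N) (hy : D.y i ∈ blk (D.m i))
    {l : Tor N → D.Λ} {x : Tor N} (h : Nrm (D.m i) (nsg D.good l) x) :
    Cor (D.m i) x ⊆ D.Kn i l x := h.core hm (V3.bi_yc hmN hy x)

/-- **the profile off the region**: labels changed inside the region only, the non-good labels of
the new configuration inside the core component -/
theorem V3.prof_off (hgood : ∀ j ≤ D.I, ∀ a, D.pat j a ≠ D.good) {i : ℕ} {l l' : Tor N → D.Λ}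
    {x : Tor N} (hoff : ∀ z ∉ D.Qn i l x, l' z = l z)
    (hin : ∀ z ∈ D.Qn i l x, l' z ≠ D.good → z ∈ D.Kn i l x) {i' : ℕ} (hi' : i' ≤ D.I + 1) (s : ℝ)
    {z : Tor N} (hz : z ∉ D.Qn i l x) : D.prof i' s l' z = D.prof i' s l z := by
  classical
  refine V3.prof_congr (hoff z hz) (fun j hj => ?_) hi' s
  exact mat_off_iff (P := D.Kn i l x) (g := D.good) (l := l) (l' := l') (y := D.yc i x)
    (fun w hw => hw) hoff (fun w hw hwP => by
      by_contra hc
      exact hwP (hin w hw hc)) (hgood j hj) hz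

/-- the pattern inserted in the block of `x` -/
noncomputable abbrev V3.insx (D : V3) (i : ℕ) (x : Tor N) (l : Tor N → D.Λ) : Tor N → D.Λ :=
  D.ins i (bi (D.m i) x) l

/-- the profile off the region after insertion of the pattern in the block of `x` -/
theorem V3.prof_insx (hgood : ∀ j ≤ D.I, ∀ a, D.pat j a ≠ D.good) {i : ℕ} (hm : 3 ≤ D.m i)
    (hmN : D.m i ∣ N) (hy : D.y i ∈ blk (D.m i)) {l : Tor N → D.Λ} {x : Tor N}
    (hN : Nrm (D.m i) (nsg D.good l) x) (hl : ∀ z ∈ D.Qn i l x, l z = D.good)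
    {i' : ℕ} (hi' : i' ≤ D.I + 1) (s : ℝ) {z : Tor N} (hz : z ∉ D.Qn i l x) :
    D.prof i' s (D.insx i x l) z = D.prof i' s l z := by
  have hC := V3.Cor_sub_Kn hm hmN hy hN
  refine V3.prof_off hgood (i := i) (x := x) (fun w hw => ?_) (fun w hw hne => ?_) hi' s hz
  · refine V3.ins_out fun h => hw (D.Kn_sub_Qn i l x (hC (mem_Cor.2 h)))
  · by_contra hc
    have h1 : bi (D.m i) w ≠ bi (D.m i) x := fun h => hc (hC (mem_Cor.2 h))
    exact hne ((V3.ins_out h1).trans (hl w hw))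

/-! ### the inequality for a fixed good configuration, and the sum -/

/-- `∑_k E Y_x` at strength `s` of stage `i + 1`, labels `l` -/
noncomputable def V3.YE (D : V3) (N : ℕ) [NeZero N] (E : ℝ) (i : ℕ) (s : ℝ) (l : Tor N → D.Λ)
    (x : Tor N) : ℝ≥0∞ :=
  ∑ k : Fin 4, ∫⁻ v, ENNReal.ofReal (Yf (AT N) (WV E (D.prof (i + 1) s l) v) (phi N k) x)
    ∂(Measure.pi fun x => D.ν (l x))

/-- `∑_k E M_x` at strength `s` of stage `i + 1`, labels `l` -/
noncomputable def V3.ME (D : V3) (N : ℕ) [NeZero N] (E : ℝ) (i : ℕ) (s : ℝ) (l : Tor N → D.Λ)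
    (x : Tor N) : ℝ≥0∞ :=
  ∑ k : Fin 4, ∫⁻ v, ENNReal.ofReal (Mf (AT N) (WV E (D.prof (i + 1) s l) v) (phi N k) x)
    ∂(Measure.pi fun x => D.ν (l x))

/-- probability of the labels -/
noncomputable def V3.PL (D : V3) (l : Tor N → D.Λ) : ℝ≥0∞ := ENNReal.ofReal (∏ x, D.p (l x))

/-- **(A)**: the region of `l'` is all good; `S` = any set of configurations which are equal to `l'`
off the region and whose non-good sites in the region lie in the core component -/
def V3.NormA (D : V3) (N : ℕ) [NeZero N] (E : ℝ) (i : ℕ) (s : ℝ) (A1 ε1 K2 : ℝ≥0∞) : Prop :=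
  ∀ (x : Tor N) (l' : Tor N → D.Λ), Nrm (D.m i) (nsg D.good l') x →
    (∀ z ∈ D.Qn i l' x, l' z = D.good) → ∀ S : Finset (Tor N → D.Λ),
    (∀ l ∈ S, (∀ z ∉ D.Qn i l' x, l z = l' z) ∧
      ∀ z ∈ D.Qn i l' x, l z ≠ D.good → z ∈ D.Kn i l' x) →
    ∑ l ∈ S, D.PL l * D.YE N E i s l x ≤
      D.PL l' * (A1 + ε1 * ∑ w ∈ D.Qn i l' x, D.ME N E i s l' w +
        K2 * D.ME N E i s (D.insx i x l') (D.yc i x))

/-- the geometric data -/
noncomputable def V3.geo (D : V3) (i : ℕ) (hm : 3 ≤ D.m i) (hmN : D.m i ∣ N)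
    (hy : D.y i ∈ blk (D.m i)) : Norm125.Geo (Tor N) D.Λ D.good where
  NR l x := Nrm (D.m i) (nsg D.good l) x
  Q l x := D.Qn i l x
  K l x := D.Kn i l x
  C x := Cor (D.m i) x
  bad l x _ z hz hne := S_Qc rT_symm hz (mem_nsg.2 hne) z (near_self 1 z)
  core l x h := (V3.Cor_sub_Kn hm hmN hy h).trans (D.Kn_sub_Qn i l x)
  sw l x h := by
    have h1 := stable_lab hm (g := D.good) (l := l) (l' := swf (D.Qn i l x) D.good l) (x := x)
      (y := D.yc i x) h (P := ∅) (Finset.empty_subset _) (fun z hz => swf_out hz)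
      (fun z hz _ => swf_in hz)
    exact ⟨h1.1, h1.2.2.2, h1.2.1⟩

theorem V3.PL_eq (hp : ∀ k, 0 ≤ D.p k) (l : Tor N → D.Λ) :
    D.PL l = Norm125.Pr (fun k => ENNReal.ofReal (D.p k)) l := by
  unfold V3.PL Norm125.Pr
  exact ENNReal.ofReal_prod_of_nonneg fun x _ => hp _

theorem V3.insx_eq (i : ℕ) (x : Tor N) (l : Tor N → D.Λ) :
    D.insx i x l = Norm125.ins (Cor (D.m i) x) (fun z => D.pat i (lc (D.m i) z)) l := by
  funext z
  unfold V3.insx V3.ins Norm125.ins
  by_cases h : bi (D.m i) z = bi (D.m i) x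
  · rw [if_pos h, if_pos (mem_Cor.2 h)]
  · rw [if_neg h, if_neg fun h' => h (mem_Cor.1 h')]

/-- number of the windows which contain a site -/
theorem card_Win_inv {m : ℕ} (hm : 0 < m) (w : Tor N) :
    (Finset.univ.filter fun x : Tor N => w ∈ Win m x).card ≤ 25 * m ^ 2 := by
  classical
  have h1 : (Finset.univ.filter fun x : Tor N => w ∈ Win m x).card ≤ (ball N (2 * m)).card := by
    refine Finset.card_le_card_of_injOn (fun x => w - x) (fun x hx => ?_) (fun a _ b _ hab => ?_)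
    · have hx' := (Finset.mem_filter.1 hx).2
      exact mem_ball.2 (nrm_Win hm hx')
    · simpa using hab
  refine h1.trans ((card_ball_le _).trans ?_)
  nlinarith

end Vale.Agent.P365.J376
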