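import Vale.Agent.P365.T1.NormV125
import Vale.Agent.P365.T1c.HB376

/-!
# P365 T1: the NORMAL half of the bulk hub `V3.HB`
-/

set_option linter.all false

namespace Vale.Agent.P365.J376

open P365L P365O P365T1 P365L.TL P365T1.Switch P365T1.Peel Matrix Complex MeasureTheory
open scoped ENNReal

variable {D : V3} {N : ℕ} [NeZero N] {ρ : Measure ℝ}

open Classical in
/-- sum over the good sites -/
noncomputable def V3.Sg (D : V3) (N : ℕ) [NeZero N] (E : ℝ) (i : ℕ) (s : ℝ) : ℝ≥0∞ :=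
  ∑ l : Tor N → D.Λ, D.PL l * ∑ w, (if l w = D.good then D.ME N E i s l w else 0)

open Classical in
/-- sum over the centres -/
noncomputable def V3.Sc (D : V3) (N : ℕ) [NeZero N] (E : ℝ) (i : ℕ) (s : ℝ) : ℝ≥0∞ :=
  ∑ l : Tor N → D.Λ, D.PL l * ∑ w, (if D.cen i l w then D.ME N E i s l w else 0)

/-- the functional `∑_l P(l) ∑_x prof(l, x) M(l, x)` -/
noncomputable def V3.PhiM (D : V3) (N : ℕ) [NeZero N] (E : ℝ) (i : ℕ) (s : ℝ) : ℝ≥0∞ :=
  ∑ l : Tor N → D.Λ, D.PL l * ∑ x, ENNReal.ofReal (D.prof (i + 1) s l x) * D.ME N E i s l x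

open Classical in
theorem V3.Ok.weight_sum_le (h : D.Ok ρ) (E : ℝ) {i : ℕ} (hi : i ≤ D.I) {s w0 : ℝ} (hs : 0 < s)
    (R : (Tor N → D.Λ) → Tor N → Prop) (hR : ∀ l x, R l x → w0 ≤ D.Ws (i + 1) l x) :
    ENNReal.ofReal w0 * ∑ l : Tor N → D.Λ, D.PL l * ∑ w, (if R l w then D.ME N E i s l w else 0) ≤
      ENNReal.ofReal (1 / s) * D.PhiM N E i s := by
  unfold V3.PhiM
  rw [Finset.mul_sum, Finset.mul_sum]
  refine Finset.sum_le_sum fun l _ => ?_
  rw [mul_left_comm, mul_left_comm (ENNReal.ofReal (1 / s))]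
  refine mul_le_mul' le_rfl ?_
  rw [Finset.mul_sum, Finset.mul_sum]
  refine Finset.sum_le_sum fun x _ => ?_
  split_ifs with hx
  · rw [← mul_assoc, ← ENNReal.ofReal_mul (by positivity)]
    refine mul_le_mul' (ENNReal.ofReal_le_ofReal ?_) le_rfl
    have h1 := h.s_mul_Ws_le (i + 1) s l x
    have h2 := hR l x hx
    have h3 : s * w0 ≤ D.prof (i + 1) s l x := (mul_le_mul_of_nonneg_left h2 hs.le).trans h1
    rw [one_div, ← div_eq_inv_mul, le_div_iff₀ hs]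
    linarith
  · simp

open Classical in
/-- **the NORMAL half of the bulk hub**, without the weights of the sites -/
theorem V3.Ok.norm_hN (h : D.Ok ρ) (E : ℝ) {i : ℕ} (hi : i ≤ D.I) {s : ℝ} (hs : 0 < s)
    (hm : 3 ≤ D.m i) (hmN : D.m i ∣ N) (hy : D.y i ∈ blk (D.m i))
    (hgood : ∀ j ≤ D.I, ∀ a, D.pat j a ≠ D.good) {q : ℝ} (hq : 0 < q)
    (hqp : ∀ a ∈ blk (D.m i), q ≤ D.p (D.pat i a)) {A1 ε1 K2 : ℝ} (hA1 : 0 ≤ A1) (hε1 : 0 ≤ ε1)
    (hK2 : 0 ≤ K2)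
    (HA : D.NormA N E i s (ENNReal.ofReal A1) (ENNReal.ofReal ε1) (ENNReal.ofReal K2))
    {ηN c : ℝ}
    (h1 : 2 * (ε1 * (25 * (D.m i : ℝ) ^ 2) +
      K2 * (q⁻¹) ^ (D.m i ^ 2) * (D.m i : ℝ) ^ 2 * Real.exp (-(D.a i))) ≤ ηN)
    (h2 : 2 * s * (D.e0 i * Real.exp (-(D.a i))) * A1 * (N : ℝ) ^ 2 ≤ ηN * c) :
    ENNReal.ofReal (2 * (D.e0 i * Real.exp (-(D.a i)))) *
      ∑ l : Tor N → D.Λ, D.PL l *
        ∑ x, (if Nrm (D.m i) (nsg D.good l) x then D.YE N E i s l x else 0) ≤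
    ENNReal.ofReal (ηN / s) * (D.PhiM N E i s + ENNReal.ofReal c) := by
  have hm0 : 0 < D.m i := by omega
  have he0 := h.e0_pos i hi
  have hex : 0 < Real.exp (-(D.a i)) := Real.exp_pos _
  have hw0 : 0 < D.e0 i * Real.exp (-(D.a i)) := mul_pos he0 hex
  set G := D.geo i hm hmN hy with hG
  set w0 : ℝ := D.e0 i * Real.exp (-(D.a i)) with hw0d
  -- step 2: the label sum
  have s2 := G.norm_abs (p := fun k => ENNReal.ofReal (D.p k)) (by
      rw [← ENNReal.ofReal_sum_of_nonneg fun k _ => h.p_nonneg k, h.p_sum, ENNReal.ofReal_one])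
    (fun l x => D.YE N E i s l x) (fun l x => D.ME N E i s l x) (ENNReal.ofReal A1)
    (ENNReal.ofReal ε1) (ENNReal.ofReal K2) (ENNReal.ofReal ((q⁻¹) ^ (D.m i ^ 2)))
    (25 * D.m i ^ 2) (D.m i ^ 2) (fun x => D.yc i x) (fun _ z => D.pat i (lc (D.m i) z))
    (fun l y => D.cen i l y)
    (fun x l => by
      have := V3.cen_ins (D := D) (l := l) (bIn_bi hmN x) hy
      rw [show Norm125.ins (G.C x) (fun z => D.pat i (lc (D.m i) z)) l = D.insx i x l from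
        (V3.insx_eq i x l).symm]
      exact this)
    (fun x => by
      have e1 : ∏ z ∈ G.C x, ENNReal.ofReal (D.p (D.pat i (lc (D.m i) z))) =
          ∏ a ∈ blk (D.m i), ENNReal.ofReal (D.p (D.pat i a)) :=
        prod_bset hm0 (bIn_bi hmN x) (fun a => ENNReal.ofReal (D.p (D.pat i a)))
      rw [e1]
      have hcard : (blk (D.m i)).card = D.m i ^ 2 := by
        rw [blk, Finset.card_product, Finset.card_range, sq]
      rw [ENNReal.ofReal_pow (by positivity), ← hcard, ← Finset.prod_const,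
        ← Finset.prod_mul_distrib]
      refine Finset.one_le_prod' fun a ha => ?_
      rw [← ENNReal.ofReal_mul (by positivity), ← ENNReal.ofReal_one]
      refine ENNReal.ofReal_le_ofReal ?_
      have := hqp a ha
      calc (1 : ℝ) = q⁻¹ * q := (inv_mul_cancel₀ hq.ne').symm
        _ ≤ q⁻¹ * D.p (D.pat i a) := mul_le_mul_of_nonneg_left this (by positivity))
    (fun w => by
      refine (Finset.card_le_card fun x hx => ?_).trans (card_Win_inv hm0 w)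
      rw [Finset.mem_filter] at hx ⊢
      obtain ⟨hx1, l, _, hx2⟩ := hx
      exact ⟨hx1, D.Qn_sub_Win i l x hx2⟩)
    (fun y => by
      refine (Finset.card_le_card fun x hx => ?_).trans (card_block_le (D.m i) hm0 (bi (D.m i) y))
      rw [Finset.mem_filter] at hx ⊢
      refine ⟨hx.1, ?_⟩
      rw [← hx.2, V3.bi_yc hmN hy])
    (fun x l' hl' S hS => by
      have h3 := HA x l' hl'.1 hl'.2 S hS
      simp only [V3.PL_eq h.p_nonneg] at h3
      rw [V3.insx_eq] at h3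
      exact h3)
  simp only [← V3.PL_eq h.p_nonneg] at s2
  -- step 3: comparison of the weights
  have hgd := h.weight_sum_le (N := N) E hi (w0 := w0) hs (fun l x => l x = D.good) (fun l x hx =>
    (h.Ws_bulk hi (hx ▸ h.mov_good) fun hc => hgood i hi _ (by
      have := hc.1 x rfl
      rw [← this, hx])).1)
  have hcd := h.weight_sum_le (N := N) E hi (w0 := D.e0 i) hs (fun l x => D.cen i l x)
    (fun l x hx => (h.Ws_cen hi hx).1)
  -- step 4: constants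
  refine (mul_le_mul' le_rfl s2).trans ?_
  rw [mul_add, mul_add]
  set S1 := ∑ l : Tor N → D.Λ, D.PL l * ∑ w, (if l w = D.good then D.ME N E i s l w else 0) with hS1
  set S2 := ∑ l : Tor N → D.Λ, D.PL l * ∑ w, (if D.cen i l w then D.ME N E i s l w else 0) with hS2
  have hgd' : ENNReal.ofReal w0 * S1 ≤ ENNReal.ofReal (1 / s) * D.PhiM N E i s := by
    rw [hS1]
    convert hgd
  have hη0 : 0 ≤ 2 * (ε1 * (25 * (D.m i : ℝ) ^ 2) +
      K2 * (q⁻¹) ^ (D.m i ^ 2) * (D.m i : ℝ) ^ 2 * Real.exp (-(D.a i))) := by positivity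
  have hηN : 0 ≤ ηN := hη0.trans h1
  have t1 : ENNReal.ofReal (2 * w0) * (ENNReal.ofReal A1 * (Fintype.card (Tor N) : ℝ≥0∞)) ≤
      ENNReal.ofReal (ηN / s) * ENNReal.ofReal c := by
    rw [card_Tor_nat]
    have e1 : ((N ^ 2 : ℕ) : ℝ≥0∞) = ENNReal.ofReal ((N : ℝ) ^ 2) := by
      rw [ENNReal.ofReal_pow (by positivity), ENNReal.ofReal_natCast]
      push_cast
      rfl
    rw [e1, ← ENNReal.ofReal_mul hA1, ← ENNReal.ofReal_mul (by positivity),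
      ← ENNReal.ofReal_mul (by positivity)]
    refine ENNReal.ofReal_le_ofReal ?_
    rw [div_mul_eq_mul_div, le_div_iff₀ hs]
    calc 2 * w0 * (A1 * (N : ℝ) ^ 2) * s = 2 * s * w0 * A1 * (N : ℝ) ^ 2 := by ring
      _ ≤ ηN * c := h2
  have t2 : ENNReal.ofReal (2 * w0) * (ENNReal.ofReal ε1 * ((25 * D.m i ^ 2 : ℕ) : ℝ≥0∞) * S1) ≤
      ENNReal.ofReal (2 * (ε1 * (25 * (D.m i : ℝ) ^ 2)) / s) * D.PhiM N E i s := by
    have e1 : ((25 * D.m i ^ 2 : ℕ) : ℝ≥0∞) = ENNReal.ofReal (25 * (D.m i : ℝ) ^ 2) := by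
      rw [← ENNReal.ofReal_natCast]
      push_cast
      rfl
    rw [e1]
    calc ENNReal.ofReal (2 * w0) * (ENNReal.ofReal ε1 * ENNReal.ofReal (25 * (D.m i : ℝ) ^ 2) * S1)
        = ENNReal.ofReal (2 * (ε1 * (25 * (D.m i : ℝ) ^ 2))) * (ENNReal.ofReal w0 * S1) := by
          rw [ENNReal.ofReal_mul (p := 2) (by norm_num), ENNReal.ofReal_mul (p := 2) (by norm_num),
            ENNReal.ofReal_mul hε1]
          ring
      _ ≤ ENNReal.ofReal (2 * (ε1 * (25 * (D.m i : ℝ) ^ 2))) *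
          (ENNReal.ofReal (1 / s) * D.PhiM N E i s) := mul_le_mul' le_rfl hgd'
      _ = _ := by
          rw [← mul_assoc, ← ENNReal.ofReal_mul (by positivity), mul_one_div]
  have t3 : ENNReal.ofReal (2 * w0) * (ENNReal.ofReal K2 * ENNReal.ofReal ((q⁻¹) ^ (D.m i ^ 2)) *
      ((D.m i ^ 2 : ℕ) : ℝ≥0∞) * S2) ≤
      ENNReal.ofReal (2 * (K2 * (q⁻¹) ^ (D.m i ^ 2) * (D.m i : ℝ) ^ 2 * Real.exp (-(D.a i))) / s) *
        D.PhiM N E i s := by
    have e1 : ((D.m i ^ 2 : ℕ) : ℝ≥0∞) = ENNReal.ofReal ((D.m i : ℝ) ^ 2) := by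
      rw [← ENNReal.ofReal_natCast]
      push_cast
      rfl
    rw [e1]
    calc ENNReal.ofReal (2 * w0) * (ENNReal.ofReal K2 * ENNReal.ofReal ((q⁻¹) ^ (D.m i ^ 2)) *
          ENNReal.ofReal ((D.m i : ℝ) ^ 2) * S2)
        = ENNReal.ofReal (2 * (K2 * (q⁻¹) ^ (D.m i ^ 2) * (D.m i : ℝ) ^ 2 *
          Real.exp (-(D.a i)))) * (ENNReal.ofReal (D.e0 i) * S2) := by
          rw [hw0d, ENNReal.ofReal_mul (p := 2) (by norm_num),
            ENNReal.ofReal_mul (p := 2) (by norm_num), ENNReal.ofReal_mul he0.le,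
            ENNReal.ofReal_mul (p := K2 * (q⁻¹) ^ (D.m i ^ 2) * (D.m i : ℝ) ^ 2) (by positivity),
            ENNReal.ofReal_mul (p := K2 * (q⁻¹) ^ (D.m i ^ 2)) (by positivity),
            ENNReal.ofReal_mul hK2]
          ring
      _ ≤ ENNReal.ofReal (2 * (K2 * (q⁻¹) ^ (D.m i ^ 2) * (D.m i : ℝ) ^ 2 *
          Real.exp (-(D.a i)))) * (ENNReal.ofReal (1 / s) * D.PhiM N E i s) :=
          mul_le_mul' le_rfl hcd
      _ = _ := by
          rw [← mul_assoc, ← ENNReal.ofReal_mul (by positivity), mul_one_div]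
  calc _ ≤ ENNReal.ofReal (ηN / s) * ENNReal.ofReal c +
        ENNReal.ofReal (2 * (ε1 * (25 * (D.m i : ℝ) ^ 2)) / s) * D.PhiM N E i s +
        ENNReal.ofReal (2 * (K2 * (q⁻¹) ^ (D.m i ^ 2) * (D.m i : ℝ) ^ 2 * Real.exp (-(D.a i))) /
          s) * D.PhiM N E i s := add_le_add (add_le_add t1 t2) t3
    _ = ENNReal.ofReal (ηN / s) * ENNReal.ofReal c +
        ENNReal.ofReal (2 * (ε1 * (25 * (D.m i : ℝ) ^ 2) +
          K2 * (q⁻¹) ^ (D.m i ^ 2) * (D.m i : ℝ) ^ 2 * Real.exp (-(D.a i))) / s) *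
          D.PhiM N E i s := by
        rw [add_assoc, ← add_mul, ← ENNReal.ofReal_add (by positivity) (by positivity)]
        congr 3
        ring
    _ ≤ ENNReal.ofReal (ηN / s) * ENNReal.ofReal c + ENNReal.ofReal (ηN / s) * D.PhiM N E i s := by
        refine add_le_add le_rfl (mul_le_mul' (ENNReal.ofReal_le_ofReal ?_) le_rfl)
        exact div_le_div_of_nonneg_right h1 hs.le
    _ = _ := by ring

open Classical in
/-- **the NORMAL half of `V3.HB`** -/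
theorem V3.Ok.norm_sum (h : D.Ok ρ) (E : ℝ) {i : ℕ} (hi : i ≤ D.I) {s : ℝ} (hs : 0 < s)
    (hm : 3 ≤ D.m i) (hmN : D.m i ∣ N) (hy : D.y i ∈ blk (D.m i))
    (hgood : ∀ j ≤ D.I, ∀ a, D.pat j a ≠ D.good) {q : ℝ} (hq : 0 < q)
    (hqp : ∀ a ∈ blk (D.m i), q ≤ D.p (D.pat i a)) {A1 ε1 K2 : ℝ} (hA1 : 0 ≤ A1) (hε1 : 0 ≤ ε1)
    (hK2 : 0 ≤ K2)
    (HA : D.NormA N E i s (ENNReal.ofReal A1) (ENNReal.ofReal ε1) (ENNReal.ofReal K2))
    {ηN c : ℝ}
    (h1 : 2 * (ε1 * (25 * (D.m i : ℝ) ^ 2) +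
      K2 * (q⁻¹) ^ (D.m i ^ 2) * (D.m i : ℝ) ^ 2 * Real.exp (-(D.a i))) ≤ ηN)
    (h2 : 2 * s * (D.e0 i * Real.exp (-(D.a i))) * A1 * (N : ℝ) ^ 2 ≤ ηN * c) :
    ∑ l : Tor N → D.Λ, D.PL l *
      ∑ x, ENNReal.ofReal (if D.mov (l x) ∧ ¬ D.cen i l x then D.Ws (i + 1) l x else 0) *
        (if Nrm (D.m i) (nsg D.good l) x then D.YE N E i s l x else 0) ≤
    ENNReal.ofReal (ηN / s) * (D.PhiM N E i s + ENNReal.ofReal c) := by
  refine le_trans ?_ (h.norm_hN E hi hs hm hmN hy hgood hq hqp hA1 hε1 hK2 HA h1 h2)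
  rw [Finset.mul_sum]
  refine Finset.sum_le_sum fun l _ => ?_
  rw [mul_left_comm]
  refine mul_le_mul' le_rfl ?_
  rw [Finset.mul_sum]
  refine Finset.sum_le_sum fun x _ => mul_le_mul' (ENNReal.ofReal_le_ofReal ?_) le_rfl
  split_ifs with hx
  · exact (h.Ws_bulk hi hx.1 hx.2).2
  · have := h.e0_pos i hi
    positivity

/-- NORMAL sites (bad set in the form of `V3.badS`) -/
theorem nsg_eq_badS (l : Tor N → D.Λ) : nsg D.good l = D.badS l := by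
  ext z
  rw [mem_nsg]
  simp [V3.badS]

open Classical in
/-- **376's hypothesis `hN` of `HB_of_parts`** -/
theorem V3.Ok.hN376 (h : D.Ok ρ) (E : ℝ) {i : ℕ} (hi : i ≤ D.I) {s : ℝ} (hs : 0 < s)
    (hm : 3 ≤ D.m i) (hmN : D.m i ∣ N) (hy : D.y i ∈ blk (D.m i))
    (hgood : ∀ j ≤ D.I, ∀ a, D.pat j a ≠ D.good) {q : ℝ} (hq : 0 < q)
    (hqp : ∀ a ∈ blk (D.m i), q ≤ D.p (D.pat i a)) {A1 ε1 K2 : ℝ} (hA1 : 0 ≤ A1) (hε1 : 0 ≤ ε1)
    (hK2 : 0 ≤ K2)
    (HA : D.NormA N E i s (ENNReal.ofReal A1) (ENNReal.ofReal ε1) (ENNReal.ofReal K2))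
    {ηN c : ℝ}
    (h1 : 2 * (ε1 * (25 * (D.m i : ℝ) ^ 2) +
      K2 * (q⁻¹) ^ (D.m i ^ 2) * (D.m i : ℝ) ^ 2 * Real.exp (-(D.a i))) ≤ ηN)
    (h2 : 2 * s * (D.e0 i * Real.exp (-(D.a i))) * A1 * (N : ℝ) ^ 2 ≤ ηN * c) :
    ENNReal.ofReal (2 * (D.e0 i * Real.exp (-(D.a i)))) *
      ∑ l : Tor N → D.Λ, ENNReal.ofReal (∏ x, D.p (l x)) *
        ∑ x, (if Nrm (D.m i) (D.badS l) x then P365T1.HBasm.FY D N E i s l x else 0) ≤
      ENNReal.ofReal (ηN / s) * (P365T1.HBasm.FR D N E i s + ENNReal.ofReal c) := by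
  have h3 := h.norm_hN E hi hs hm hmN hy hgood hq hqp hA1 hε1 hK2 HA h1 h2
  simp only [nsg_eq_badS] at h3
  exact h3

end Vale.Agent.P365.J376
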