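import Vale.Agent.P365.T1.Patch
import Vale.Agent.P365.T1.OneVarP

/-!
# The crude Harnack inequality, T-form (P365 T1, helper16)

`T : (ι → ℂ) →ₗ[ℂ] F` arbitrary, `GV A W T x = T (G_x·)`, `Yv A W T x = ‖T (gw x)‖² / (1 + |sg_x|²)`.

* `wch_T_pt`, `wch_T` : `Yv_x ≤ (J events) + K ‖GV_y‖²`, under `Measure.pi ν`.
* `wch_T_event_pt`, `wch_T_event` : `Yv_x ≤ (J events) + (bad exterior) + K (Yv_y ; G)`.
* `wch_T_full` : the `J` events estimated with the one-variable lemma.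
-/

set_option autoImplicit false
set_option linter.all false

open MeasureTheory Finset Function Matrix
open scoped ENNReal NNReal BigOperators

namespace P365T1

open P365L P365O P365T1.MAff P365T1.OneVar

variable {ι : Type*} [Fintype ι] [DecidableEq ι]
variable {F : Type*} [NormedAddCommGroup F] [NormedSpace ℂ F]
variable {A : Matrix ι ι ℝ} {W : ι → ℂ}

theorem GT_eq_GV (hA : A.IsSymm) (W0 : ι → ℂ) (Q : Finset ι) (E : ℝ) (ee : ι → ℝ)
    (T : (ι → ℂ) →ₗ[ℂ] F) (x : ι) (y : Q → ℂ) :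
    MAff.GT (Bp A Q E ee) T x (fil Q W0 y) = GV A (Wc W0 Q E ee y) T x := by
  unfold MAff.GT OneVar.GV
  rw [Mz_Bp]
  congr 1
  ext a
  rw [Gr_symm hA x a]
  rfl

/-- the cost is at most the far energy with `W_x := w` -/
theorem Yv_le_GV (hA : A.IsSymm) (hW : ∀ x, (W x).im < 0) (T : (ι → ℂ) →ₗ[ℂ] F) (x : ι) {w : ℂ}
    (hw : w.im < 0) :
    Yv A W T x ≤ 2 * (1 + ‖w‖ ^ 2) * ‖GV A (update W x w) T x‖ ^ 2 := by
  have hsg := sg_im_nonneg hA hW x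
  rw [GV_update_self hA hW T hw, norm_smul, norm_inv, mul_pow, inv_pow, Yv]
  have h2 : 0 < ‖w - sg A W x‖ := by
    rw [norm_pos_iff]
    intro h
    have := congrArg Complex.im h
    simp only [Complex.sub_im, Complex.zero_im] at this
    linarith
  have h3 : ‖w - sg A W x‖ ^ 2 ≤ 2 * (1 + ‖w‖ ^ 2) * (1 + ‖sg A W x‖ ^ 2) := by
    have h4 : ‖w - sg A W x‖ ≤ ‖w‖ + ‖sg A W x‖ := norm_sub_le _ _
    have h5 : ‖w - sg A W x‖ ^ 2 ≤ (‖w‖ + ‖sg A W x‖) ^ 2 :=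
      pow_le_pow_left₀ (norm_nonneg _) h4 2
    nlinarith [sq_nonneg (‖w‖ - ‖sg A W x‖), mul_nonneg (sq_nonneg ‖w‖) (sq_nonneg ‖sg A W x‖)]
  rw [div_le_iff₀ (by positivity)]
  set N : ℝ := ‖T fun a => gw A W x a‖ ^ 2 with hN
  have hN0 : 0 ≤ N := sq_nonneg _
  calc N = N * ((‖w - sg A W x‖ ^ 2)⁻¹ * ‖w - sg A W x‖ ^ 2) := by
        rw [inv_mul_cancel₀ (by positivity), mul_one]
    _ ≤ N * ((‖w - sg A W x‖ ^ 2)⁻¹ * (2 * (1 + ‖w‖ ^ 2) * (1 + ‖sg A W x‖ ^ 2))) := by gcongr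
    _ = _ := by ring

/-- the far energy with `W_x := w` is at most a constant times the cost -/
theorem GV_le_Yv (hA : A.IsSymm) (hW : ∀ x, (W x).im < 0) (T : (ι → ℂ) →ₗ[ℂ] F) (x : ι) {w : ℂ}
    (hw : w.im < 0) :
    ‖GV A (update W x w) T x‖ ^ 2 ≤ (2 + (1 + 2 * ‖w‖ ^ 2) / w.im ^ 2) * Yv A W T x := by
  have hsg := sg_im_nonneg hA hW x
  rw [GV_update_self hA hW T hw, norm_smul, norm_inv, mul_pow, inv_pow, Yv]
  have h2 : -w.im ≤ ‖w - sg A W x‖ := by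
    have h3 := Complex.abs_im_le_norm (w - sg A W x)
    rw [Complex.sub_im] at h3
    have := neg_abs_le (w.im - (sg A W x).im)
    linarith
  have h0 : 0 < -w.im := by linarith
  have h2' : 0 < ‖w - sg A W x‖ := h0.trans_le h2
  have h4 : ‖sg A W x‖ ≤ ‖w - sg A W x‖ + ‖w‖ := by
    have : sg A W x = w - (w - sg A W x) := by ring
    calc ‖sg A W x‖ = ‖w - (w - sg A W x)‖ := by rw [← this]
      _ ≤ ‖w‖ + ‖w - sg A W x‖ := norm_sub_le _ _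
      _ = _ := add_comm _ _
  have h5 : 1 + ‖sg A W x‖ ^ 2 ≤ (2 + (1 + 2 * ‖w‖ ^ 2) / w.im ^ 2) * ‖w - sg A W x‖ ^ 2 := by
    have h6 : ‖sg A W x‖ ^ 2 ≤ (‖w - sg A W x‖ + ‖w‖) ^ 2 :=
      pow_le_pow_left₀ (norm_nonneg _) h4 2
    have h7 : w.im ^ 2 ≤ ‖w - sg A W x‖ ^ 2 := by nlinarith
    have h8 : 0 < w.im ^ 2 := by nlinarith
    have h9 : (1 + 2 * ‖w‖ ^ 2) ≤ (1 + 2 * ‖w‖ ^ 2) / w.im ^ 2 * ‖w - sg A W x‖ ^ 2 := by
      rw [div_mul_eq_mul_div, le_div_iff₀ h8]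
      exact mul_le_mul_of_nonneg_left h7 (by positivity)
    nlinarith [sq_nonneg (‖w - sg A W x‖ - ‖w‖)]
  have h10 : (‖w - sg A W x‖ ^ 2)⁻¹ ≤
      (2 + (1 + 2 * ‖w‖ ^ 2) / w.im ^ 2) / (1 + ‖sg A W x‖ ^ 2) := by
    rw [inv_eq_one_div, div_le_div_iff₀ (by positivity) (by positivity), one_mul]
    exact h5
  calc (‖w - sg A W x‖ ^ 2)⁻¹ * ‖T fun a => gw A W x a‖ ^ 2
      ≤ (2 + (1 + 2 * ‖w‖ ^ 2) / w.im ^ 2) / (1 + ‖sg A W x‖ ^ 2) *
          ‖T fun a => gw A W x a‖ ^ 2 := mul_le_mul_of_nonneg_right h10 (sq_nonneg _)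
    _ = _ := by ring

/-- the cost at `x` and `GT` with `V_x := -iL` -/
theorem Yv_le_GT (hA : A.IsSymm) {W0 : ι → ℂ} {Q : Finset ι} (h0 : ∀ i ∉ Q, (W0 i).im < 0)
    {E L : ℝ} (hL : 0 < L) {ee : ι → ℝ} (he : ∀ i ∈ Q, 0 < ee i) (x : Q) (T : (ι → ℂ) →ₗ[ℂ] F)
    (V : Q → ℝ) :
    Yv A (Wc W0 Q E ee (cx V)) T x ≤
      2 * (1 + (E ^ 2 + (L + ee x) ^ 2)) * ‖MAff.GT (Bp A Q E ee) T x
        (fil Q W0 (update (cx V) x (-(L : ℂ) * Complex.I)))‖ ^ 2 := by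
  have hW : ∀ i, (Wc W0 Q E ee (cx V) i).im < 0 :=
    Wc_im_neg h0 he (fun i => by simp [cx])
  have hw : (-(L : ℂ) * Complex.I - E - Complex.I * ee x).im < 0 := by
    have := he x x.2
    simp only [Complex.sub_im, Complex.mul_im, Complex.neg_re, Complex.ofReal_re, Complex.I_im,
      Complex.neg_im, Complex.ofReal_im, Complex.I_re]
    linarith
  have h2 := Yv_le_GV hA hW T (x : ι) hw
  rwa [update_Wc, ← GT_eq_GV hA, norm_w_sq] at h2

theorem GT_le_Yv (hA : A.IsSymm) {W0 : ι → ℂ} {Q : Finset ι} (h0 : ∀ i ∉ Q, (W0 i).im < 0)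
    {E L : ℝ} (hL : 0 < L) {ee : ι → ℝ} (he : ∀ i ∈ Q, 0 < ee i) (x : Q) (T : (ι → ℂ) →ₗ[ℂ] F)
    (V : Q → ℝ) :
    ‖MAff.GT (Bp A Q E ee) T x (fil Q W0 (update (cx V) x (-(L : ℂ) * Complex.I)))‖ ^ 2 ≤
      Clo E L (ee x) * Yv A (Wc W0 Q E ee (cx V)) T x := by
  have hW : ∀ i, (Wc W0 Q E ee (cx V) i).im < 0 :=
    Wc_im_neg h0 he (fun i => by simp [cx])
  have hw : (-(L : ℂ) * Complex.I - E - Complex.I * ee x).im < 0 := by
    have := he x x.2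
    simp only [Complex.sub_im, Complex.mul_im, Complex.neg_re, Complex.ofReal_re, Complex.I_im,
      Complex.neg_im, Complex.ofReal_im, Complex.I_re]
    linarith
  have h2 := GV_le_Yv hA hW T (x : ι) hw
  rw [update_Wc, ← GT_eq_GV hA, norm_w_sq] at h2
  have h5 : (-(L : ℂ) * Complex.I - E - Complex.I * ee x).im ^ 2 = (L + ee x) ^ 2 := by
    simp only [Complex.sub_im, Complex.mul_im, Complex.neg_re, Complex.ofReal_re, Complex.I_im,
      Complex.neg_im, Complex.ofReal_im, Complex.I_re]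
    ring
  rw [h5] at h2
  exact h2

/-- constant of the crude Harnack inequality, T-form -/
noncomputable def KT (E L e c2 p : ℝ) (n : ℕ) : ℝ :=
  2 * (1 + (E ^ 2 + (L + e) ^ 2)) * ((2 / (L * c2 * p)) ^ 2 * 104976 ^ n)

/-- constant of the event version, T-form -/
noncomputable def KE (E L ex ey c2 p δ : ℝ) (n : ℕ) : ℝ :=
  8 * (1 + (E ^ 2 + (L + ex) ^ 2)) * Clo E L ey *
    ((2 / (L * c2 * p)) ^ 2 * 104976 ^ n / δ ^ (2 * n))

section
variable [MeasurableSpace F] [BorelSpace F]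

/-- **Crude Harnack inequality, T-form, pointwise in the exterior.** -/
theorem wch_T_pt (hA : A.IsSymm) {Q : Finset ι} {E L : ℝ} (hL : 0 < L) {e : ι → ℝ}
    (he : ∀ i, 0 < e i) (x y : Q) (hxy : x ≠ y) (T : (ι → ℂ) →ₗ[ℂ] F)
    {c2 : ℝ} (hc2 : 0 < c2) (hcof : CofLe A Q E e L c2 x y) {ε : Q → ℝ} (hε : ∀ l, 0 < ε l)
    (hεx : ε x ≤ 1) {v : ι → ℝ} (hv : ∀ i ∈ Q, |v i| ≤ L)
    (hJ : ∀ l, l ≠ x → v ∉ JP A Q E e L x (ε l) l)
    (ν : ι → Measure ℝ) [∀ i, IsProbabilityMeasure (ν i)] {κ : ℝ≥0∞}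
    (hν : ∀ i ∈ Q, WinLaw F κ L (ν i))
    (hsupp : ∀ i ∈ Q, ν i {t | |t| ≤ L}ᶜ = 0) :
    κ ^ Q.card * ENNReal.ofReal (Yv A (WV E e v) T x) ≤
      ENNReal.ofReal (KT E L (e x) c2 (∏ l, ε l) Q.card) *
        (∫⋯∫⁻_Q, (fun v => ENNReal.ofReal (‖GV A (WV E e v) T y‖ ^ 2)) ∂ν) v := by
  have h0 : ∀ i ∉ Q, (WV E e v i).im < 0 := fun i _ => WV_im_neg he v i
  obtain ⟨y2, hy2, hc⟩ := hcof (WV E e v) h0
  have hB' : DissB (Bp A Q E e) := dissB_Bp hA Q E fun i _ => (he i).le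
  have hWn : ∀ (V' : Q → ℝ) (i : ι), (Wc (WV E e v) Q E e (cx V') i).im < 0 := fun V' =>
    Wc_im_neg h0 (fun i _ => he i) (fun i => by simp [cx])
  have h := wch_graded hB' Q h0 hL x y hxy T hc2 hy2 hc
    (threshold_pos Q.equivFin hε) Q.equivFin (V := rs Q v) (fun i => hv i i.2)
    (notMem_Jset_of_forall Q.equivFin _ _ L x hεx fun l hl => hJ l hl)
    (fun i : Q => ν i) (fun i => hν i i.2) (fun i => hsupp i i.2)
    (fun V' _ => det_Bp_ne_zero hA (hWn V'))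
  rw [prod_threshold] at h
  have h2 := Yv_le_GT (E := E) hA h0 hL (fun i _ => he i) x T (rs Q v)
  rw [WV_eq_Wc] at h2
  set C1 : ℝ := 2 * (1 + (E ^ 2 + (L + e x) ^ 2)) with hC1
  have hC1p : 0 < C1 := by positivity
  set g : ℝ := ‖MAff.GT (Bp A Q E e) T x
    (fil Q (WV E e v) (update (cx (rs Q v)) x (-(L : ℂ) * Complex.I)))‖ with hg
  have h3 : ∫⁻ V', ‖MAff.GT (Bp A Q E e) T y (fil Q (WV E e v) (cx V'))‖ₑ ^ 2
        ∂(Measure.pi fun i : Q => ν i) =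
      (∫⋯∫⁻_Q, (fun v => ENNReal.ofReal (‖GV A (WV E e v) T y‖ ^ 2)) ∂ν) v := by
    unfold lmarginal
    refine lintegral_congr fun u => ?_
    simp only [WV_updateFinset]
    rw [← GT_eq_GV hA, ENNReal.ofReal_pow (norm_nonneg _), ofReal_norm]
  rw [h3] at h
  have h4 : ‖MAff.GT (Bp A Q E e) T x
    (fil Q (WV E e v) (update (cx (rs Q v)) x (-(L : ℂ) * Complex.I)))‖ₑ ^ 2 =
      ENNReal.ofReal (g ^ 2) := by
    rw [hg, ENNReal.ofReal_pow (norm_nonneg _), ofReal_norm]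
  rw [h4] at h
  calc κ ^ Q.card * ENNReal.ofReal (Yv A (WV E e v) T x)
      ≤ κ ^ Q.card * ENNReal.ofReal (C1 * g ^ 2) := by gcongr
    _ = ENNReal.ofReal C1 * (κ ^ Q.card * ENNReal.ofReal (g ^ 2)) := by
        rw [ENNReal.ofReal_mul hC1p.le]; ring
    _ ≤ ENNReal.ofReal C1 * (ENNReal.ofReal ((2 / (L * c2 * ∏ l, ε l)) ^ 2 * 104976 ^ Q.card) *
          (∫⋯∫⁻_Q, (fun v => ENNReal.ofReal (‖GV A (WV E e v) T y‖ ^ 2)) ∂ν) v) := by
        gcongr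
    _ = _ := by
        rw [← mul_assoc, ← ENNReal.ofReal_mul hC1p.le]
        rfl

/-- **Crude Harnack inequality, T-form, under the product law** (exceptional events kept). -/
theorem wch_T (hA : A.IsSymm) {Q : Finset ι} {E L : ℝ} (hL : 0 < L) {e : ι → ℝ}
    (he : ∀ i, 0 < e i) (x y : Q) (hxy : x ≠ y) (T : (ι → ℂ) →ₗ[ℂ] F)
    {c2 : ℝ} (hc2 : 0 < c2) (hcof : CofLe A Q E e L c2 x y) {ε : Q → ℝ} (hε : ∀ l, 0 < ε l)
    (hεx : ε x ≤ 1) (ν : ι → Measure ℝ) [∀ i, IsProbabilityMeasure (ν i)] {κ : ℝ} (hκ : 0 < κ)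
    (hν : ∀ i ∈ Q, WinLaw F (ENNReal.ofReal κ) L (ν i))
    (hsupp : ∀ i ∈ Q, ν i {t | |t| ≤ L}ᶜ = 0) :
    ∫⁻ v, ENNReal.ofReal (Yv A (WV E e v) T x) ∂(Measure.pi ν) ≤
      ∑ l ∈ (Finset.univ : Finset Q).erase x,
        ∫⁻ v in JP A Q E e L x (ε l) l, ENNReal.ofReal (Yv A (WV E e v) T x) ∂(Measure.pi ν)
      + ENNReal.ofReal (KT E L (e x) c2 (∏ l, ε l) Q.card / κ ^ Q.card) *
        ∫⁻ v, ENNReal.ofReal (‖GV A (WV E e v) T y‖ ^ 2) ∂(Measure.pi ν) := by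
  have h := frame ν Q (Y := fun v => ENNReal.ofReal (Yv A (WV E e v) T x))
    (R := fun v => ENNReal.ofReal (‖GV A (WV E e v) T y‖ ^ 2))
    ((continuous_GV_WV hA he T (y : ι)).norm.pow 2).measurable.ennreal_ofReal
    ((Finset.univ : Finset Q).erase x) (fun l => JP A Q E e L x (ε l) l)
    (fun l _ => measurableSet_JP Q E e L x (ε l) l)
    (c := ENNReal.ofReal (KT E L (e x) c2 (∏ l, ε l) Q.card / κ ^ Q.card)) (a := 0)
    ENNReal.ofReal_ne_top (by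
      filter_upwards [ae_cube ν Q hsupp] with v hv hJ
      refine div_pow_aux hκ _ ?_
      rw [mul_zero, add_zero]
      exact wch_T_pt hA hL he x y hxy T hc2 hcof hε hεx hv
        (fun l hl => hJ l (Finset.mem_erase.mpr ⟨hl, Finset.mem_univ l⟩)) ν hν hsupp)
  rwa [add_zero] at h

/-- **Crude Harnack inequality with a good event, T-form**, pointwise in the exterior. -/
theorem wch_T_event_pt (hA : A.IsSymm) {Q : Finset ι} {E L : ℝ} (hL : 0 < L) {e : ι → ℝ}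
    (he : ∀ i, 0 < e i) (x y : Q) (hxy : x ≠ y) (T : (ι → ℂ) →ₗ[ℂ] F)
    {c2 : ℝ} (hc2 : 0 < c2) (hcof : CofLe A Q E e L c2 x y) {ε : Q → ℝ} (hε : ∀ l, 0 < ε l)
    (hεx : ε x ≤ 1) {v : ι → ℝ} (hv : ∀ i ∈ Q, |v i| ≤ L)
    (hJ : ∀ l, l ≠ x → v ∉ JP A Q E e L x (ε l) l)
    (ν : ι → Measure ℝ) [∀ i, IsProbabilityMeasure (ν i)] {D : ℝ≥0∞}
    (hD : ∀ i ∈ Q, ∀ S : Set ℝ, ν i S ≤ D * volume S)
    (hsupp : ∀ i ∈ Q, ν i {t | |t| ≤ L}ᶜ = 0)
    {δ : ℝ} (hδ0 : 0 < δ) (hδ1 : δ ≤ 1 / 2)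
    (hδ : (Q.card : ℝ≥0∞) * (D * ENNReal.ofReal (8 * L * δ)) ≤ 1 / 2)
    {G : Set (ι → ℝ)} (hGm : MeasurableSet G) (hG : Bad.cp ν Q Gᶜ v ≤ 1 / 4) :
    ENNReal.ofReal (Yv A (WV E e v) T x) ≤
      ENNReal.ofReal (KE E L (e x) (e y) c2 (∏ l, ε l) δ Q.card) *
        (∫⋯∫⁻_Q, G.indicator (fun v => ENNReal.ofReal (Yv A (WV E e v) T y)) ∂ν) v := by
  have h0 : ∀ i ∉ Q, (WV E e v i).im < 0 := fun i _ => WV_im_neg he v i
  obtain ⟨y2, hy2, hc⟩ := hcof (WV E e v) h0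
  have hB' : DissB (Bp A Q E e) := dissB_Bp hA Q E fun i _ => (he i).le
  set G' : Set (Q → ℝ) := {u | updateFinset v Q u ∈ G} with hG'
  have hG'm : MeasurableSet G' := measurable_updateFinset hGm
  have hG2 : (Measure.pi fun i : Q => ν i) G'ᶜ ≤ 1 / 4 := by
    refine le_trans (le_of_eq ?_) hG
    unfold Bad.cp lmarginal
    rw [← lintegral_indicator_one hG'm.compl]
    refine lintegral_congr fun u => ?_
    by_cases hu : updateFinset v Q u ∈ G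
    · have h1 : u ∉ G'ᶜ := fun h => h hu
      have h2 : updateFinset v Q u ∉ Gᶜ := fun h => h hu
      simp [Set.indicator, h1, h2]
    · have h1 : u ∈ G'ᶜ := hu
      have h2 : updateFinset v Q u ∈ Gᶜ := hu
      simp [Set.indicator, h1, h2]
  have hdet : ∀ V' : Q → ℝ, (∀ i, |V' i| ≤ L) →
      (Mz (Bp A Q E e) (fil Q (WV E e v) (update (cx V') y (-(L : ℂ) * Complex.I)))).det ≠ 0 := by
    intro V' _
    refine det_Bp_ne_zero hA (Wc_im_neg h0 (fun i _ => he i) fun i => ?_)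
    by_cases hi : i = y
    · subst hi; simp [hL.le]
    · simp [hi, cx]
  have h10 := le_norm_of_notMem' Q.equivFin (fun k => (threshold_pos Q.equivFin hε k).le)
    (notMem_Jset_of_forall Q.equivFin (Bp A Q E e) (WV E e v) L x hεx fun l hl => hJ l hl)
  have h11 : detx (Bp A Q E e) Q (WV E e v) L x (fun _ => -(L : ℂ) * Complex.I) =
      (Mz (Bp A Q E e) (fil Q (WV E e v) fun _ => -(L : ℂ) * Complex.I)).det := by
    unfold detx
    congr 3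
    ext i
    by_cases hi : i = x
    · subst hi; simp
    · simp [hi]
  rw [h11, prod_threshold] at h10
  have h1 := wch_event hB' Q h0 hL x y hxy T hc2 hy2 hc
    (Finset.prod_pos fun l _ => hε l) (V := rs Q v) (fun i => hv i i.2) h10
    (fun i : Q => ν i) (fun i => hD i i.2) (fun i => hsupp i i.2) hδ0 hδ1 hδ hG2 hdet
  have h2 := Yv_le_GT (E := E) hA h0 hL (fun i _ => he i) x T (rs Q v)
  rw [WV_eq_Wc] at h2
  set C1 : ℝ := 2 * (1 + (E ^ 2 + (L + e x) ^ 2)) with hC1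
  have hC1p : 0 < C1 := by positivity
  set C2 : ℝ := (2 / (L * c2 * ∏ l, ε l)) ^ 2 * 104976 ^ Q.card / δ ^ (2 * Q.card) with hC2
  have hC2p : 0 ≤ C2 := by positivity
  have hey : 0 < e y := he y
  have hC3p : 0 ≤ Clo E L (e y) := by unfold Clo; positivity
  set g : ℝ := ‖MAff.GT (Bp A Q E e) T x
    (fil Q (WV E e v) (update (cx (rs Q v)) x (-(L : ℂ) * Complex.I)))‖ with hg
  have h3 : ∫⁻ V' in G', ‖MAff.GT (Bp A Q E e) T y
      (fil Q (WV E e v) (update (cx V') y (-(L : ℂ) * Complex.I)))‖ₑ ^ 2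
        ∂(Measure.pi fun i : Q => ν i) ≤
      ENNReal.ofReal (Clo E L (e y)) *
        (∫⋯∫⁻_Q, G.indicator (fun v => ENNReal.ofReal (Yv A (WV E e v) T y)) ∂ν) v := by
    unfold lmarginal
    rw [← lintegral_indicator hG'm, ← lintegral_const_mul' _ _ ENNReal.ofReal_ne_top]
    refine lintegral_mono fun u => ?_
    by_cases hu : updateFinset v Q u ∈ G
    · have h1 : u ∈ G' := hu
      simp only [Set.indicator, hu, h1, if_true]
      rw [WV_updateFinset, ← ENNReal.ofReal_mul hC3p, ← ofReal_norm,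
        ← ENNReal.ofReal_pow (norm_nonneg _)]
      exact ENNReal.ofReal_le_ofReal (GT_le_Yv hA h0 hL (fun i _ => he i) y T u)
    · have h1 : u ∉ G' := hu
      simp only [Set.indicator, h1, if_false]
      exact zero_le
  have h4 : ‖MAff.GT (Bp A Q E e) T x
    (fil Q (WV E e v) (update (cx (rs Q v)) x (-(L : ℂ) * Complex.I)))‖ₑ ^ 2 =
      ENNReal.ofReal (g ^ 2) := by
    rw [hg, ENNReal.ofReal_pow (norm_nonneg _), ofReal_norm]
  rw [h4] at h1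
  calc ENNReal.ofReal (Yv A (WV E e v) T x)
      ≤ ENNReal.ofReal (C1 * g ^ 2) := ENNReal.ofReal_le_ofReal h2
    _ = ENNReal.ofReal C1 * ENNReal.ofReal (g ^ 2) := by rw [ENNReal.ofReal_mul hC1p.le]
    _ ≤ ENNReal.ofReal C1 * (ENNReal.ofReal (4 * C2) * (ENNReal.ofReal (Clo E L (e y)) *
          (∫⋯∫⁻_Q, G.indicator (fun v => ENNReal.ofReal (Yv A (WV E e v) T y)) ∂ν) v)) := by
        refine mul_le_mul_of_nonneg_left ?_ zero_le
        exact h1.trans (mul_le_mul_of_nonneg_left h3 zero_le)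
    _ = _ := by
        rw [← mul_assoc, ← mul_assoc, ← ENNReal.ofReal_mul (by positivity),
          ← ENNReal.ofReal_mul (by positivity)]
        congr 2
        unfold KE
        ring

/-- **Crude Harnack inequality with a good event, T-form, under the product law.**
`Bd` : bad exterior events. -/
theorem wch_T_event (hA : A.IsSymm) {Q : Finset ι} {E L : ℝ} (hL : 0 < L) {e : ι → ℝ}
    (he : ∀ i, 0 < e i) (x y : Q) (hxy : x ≠ y) (T : (ι → ℂ) →ₗ[ℂ] F)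
    {c2 : ℝ} (hc2 : 0 < c2) (hcof : CofLe A Q E e L c2 x y) {ε : Q → ℝ} (hε : ∀ l, 0 < ε l)
    (hεx : ε x ≤ 1) (ν : ι → Measure ℝ) [∀ i, IsProbabilityMeasure (ν i)] {D : ℝ≥0∞}
    (hD : ∀ i ∈ Q, ∀ S : Set ℝ, ν i S ≤ D * volume S)
    (hsupp : ∀ i ∈ Q, ν i {t | |t| ≤ L}ᶜ = 0)
    {δ : ℝ} (hδ0 : 0 < δ) (hδ1 : δ ≤ 1 / 2)
    (hδ : (Q.card : ℝ≥0∞) * (D * ENNReal.ofReal (8 * L * δ)) ≤ 1 / 2)
    {G : Set (ι → ℝ)} (hGm : MeasurableSet G) {α : Type*} [DecidableEq α] (s : Finset α)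
    (Bd : α → Set (ι → ℝ)) (hBm : ∀ k ∈ s, MeasurableSet (Bd k))
    (hG : ∀ v : ι → ℝ, (∀ k ∈ s, v ∉ Bd k) → Bad.cp ν Q Gᶜ v ≤ 1 / 4) :
    ∫⁻ v, ENNReal.ofReal (Yv A (WV E e v) T x) ∂(Measure.pi ν) ≤
      ∑ l ∈ (Finset.univ : Finset Q).erase x,
        ∫⁻ v in JP A Q E e L x (ε l) l, ENNReal.ofReal (Yv A (WV E e v) T x) ∂(Measure.pi ν)
      + ∑ k ∈ s, ∫⁻ v in Bd k, ENNReal.ofReal (Yv A (WV E e v) T x) ∂(Measure.pi ν)
      + ENNReal.ofReal (KE E L (e x) (e y) c2 (∏ l, ε l) δ Q.card) *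
        ∫⁻ v in G, ENNReal.ofReal (Yv A (WV E e v) T y) ∂(Measure.pi ν) := by
  have h := frame ν Q (Y := fun v => ENNReal.ofReal (Yv A (WV E e v) T x))
    (R := G.indicator fun v => ENNReal.ofReal (Yv A (WV E e v) T y))
    ((continuous_Yv_WV hA he T (y : ι)).measurable.ennreal_ofReal.indicator hGm)
    (((Finset.univ : Finset Q).erase x).disjSum s)
    (Sum.elim (fun l => JP A Q E e L x (ε l) l) Bd) (fun l hl => by
      rcases l with l | k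
      · exact measurableSet_JP Q E e L x (ε l) l
      · exact hBm k (by simpa using hl))
    (c := ENNReal.ofReal (KE E L (e x) (e y) c2 (∏ l, ε l) δ Q.card))
    (a := 0) ENNReal.ofReal_ne_top (by
      filter_upwards [ae_cube ν Q hsupp] with v hv hJ
      rw [add_zero]
      refine wch_T_event_pt hA hL he x y hxy T hc2 hcof hε hεx hv (fun l hl => ?_) ν hD
        hsupp hδ0 hδ1 hδ hGm (hG v fun k hk => ?_)
      · exact hJ (Sum.inl l) (by simp [hl])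
      · exact hJ (Sum.inr k) (by simpa using hk))
  rw [Finset.sum_disjSum, lintegral_indicator hGm, add_zero] at h
  exact h

end

end P365T1
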