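import Mathlib

/-!
# P365 T1: PEEL — removal of the non-good clusters which touch the collar of a window

`r` = symmetric adjacency relation on the sites, `near r n a b` = `b` is at graph distance `≤ n`
from `a`.  `Q0` = window, `S` = non-good sites.  `Rm` = sites of the range-3 clusters of `S ∩ Q0`
which come within distance 3 of the complement of `Q0`.  `G2` = sites whose 2-ball lies in
`Q0 \ Rm`, `Kc` = connected component of `y` in `G2`, `Ic` = 1-neighbourhood of `Kc`,
`Qc` = 2-neighbourhood of `Kc`.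
-/

set_option autoImplicit false
set_option linter.all false

namespace P365T1

namespace Peel

open Finset

variable {ι : Type*}

/-- `b` is reached from `a` in at most `n` steps -/
def near (r : ι → ι → Prop) : ℕ → ι → ι → Prop
  | 0, a, b => a = b
  | n + 1, a, b => ∃ c, near r n a c ∧ (c = b ∨ r c b)

variable {r : ι → ι → Prop}

theorem near_self (n : ℕ) (a : ι) : near r n a a := by
  induction n with
  | zero => rfl
  | succ n ih => exact ⟨a, ih, Or.inl rfl⟩

theorem near_succ_of {n : ℕ} {a b : ι} (h : near r n a b) : near r (n + 1) a b :=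
  ⟨b, h, Or.inl rfl⟩

theorem near_mono {n m : ℕ} (hnm : n ≤ m) {a b : ι} (h : near r n a b) : near r m a b := by
  induction m, hnm using Nat.le_induction with
  | base => exact h
  | succ m _ ih => exact near_succ_of ih

theorem near_one {a b : ι} : near r 1 a b ↔ a = b ∨ r a b := by
  constructor
  · rintro ⟨c, hc, h⟩
    have hc' : a = c := hc
    subst hc'
    exact h
  · intro h
    exact ⟨a, rfl, h⟩

theorem near_add {n m : ℕ} {a b c : ι} (h1 : near r n a b) (h2 : near r m b c) :
    near r (n + m) a c := by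
  induction m generalizing c with
  | zero =>
    have h2' : b = c := h2
    subst h2'
    exact h1
  | succ m ih =>
    obtain ⟨d, hd, hdc⟩ := h2
    exact ⟨d, ih hd, hdc⟩

theorem near_symm (hs : ∀ a b, r a b → r b a) {n : ℕ} {a b : ι} (h : near r n a b) :
    near r n b a := by
  induction n generalizing b with
  | zero => exact Eq.symm h
  | succ n ih =>
    obtain ⟨c, hc, h1⟩ := h
    have h2 : near r 1 b c := by
      rw [near_one]
      rcases h1 with rfl | h1
      · exact Or.inl rfl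
      · exact Or.inr (hs _ _ h1)
    have h3 := near_add h2 (ih hc)
    rwa [add_comm] at h3

section Window

variable (r) (Q0 S : Finset ι)

/-- level sets of the removed clusters -/
def Rl : ℕ → ι → Prop
  | 0, s => s ∈ S ∧ s ∈ Q0 ∧ ∃ c, near r 3 s c ∧ c ∉ Q0
  | n + 1, t => t ∈ S ∧ t ∈ Q0 ∧ ∃ s, Rl n s ∧ near r 3 s t

/-- removed sites -/
def Rm (t : ι) : Prop := ∃ n, Rl r Q0 S n t

/-- sites whose 2-ball lies in the window minus the removed sites -/
def G2 (a : ι) : Prop := ∀ c, near r 2 a c → c ∈ Q0 ∧ ¬ Rm r Q0 S c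

/-- component of `y` in `G2` -/
def Kp (y a : ι) : Prop :=
  G2 r Q0 S y ∧ Relation.ReflTransGen (fun a b => r a b ∧ G2 r Q0 S b) y a

open Classical in
/-- component of `y`, as a finset -/
noncomputable def Kc (y : ι) : Finset ι := Q0.filter fun a => Kp r Q0 S y a

open Classical in
/-- 1-neighbourhood of the component -/
noncomputable def Ic (y : ι) : Finset ι := Q0.filter fun a => ∃ b, Kp r Q0 S y b ∧ near r 1 b a

open Classical in
/-- 2-neighbourhood of the component -/
noncomputable def Qc (y : ι) : Finset ι := Q0.filter fun a => ∃ b, Kp r Q0 S y b ∧ near r 2 b a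

variable {r Q0 S}

theorem Rl_mem {n : ℕ} {t : ι} (h : Rl r Q0 S n t) : t ∈ S ∧ t ∈ Q0 := by
  cases n with
  | zero => exact ⟨h.1, h.2.1⟩
  | succ n => exact ⟨h.1, h.2.1⟩

theorem Rm_mem {t : ι} (h : Rm r Q0 S t) : t ∈ S ∧ t ∈ Q0 := by
  obtain ⟨n, hn⟩ := h
  exact Rl_mem hn

theorem Rm_step {s t : ι} (h : Rm r Q0 S s) (ht : t ∈ S) (htQ : t ∈ Q0) (hst : near r 3 s t) :
    Rm r Q0 S t := by
  obtain ⟨n, hn⟩ := h
  exact ⟨n + 1, ht, htQ, s, hn, hst⟩

theorem Rm_base {s c : ι} (hs : s ∈ S) (hQ : s ∈ Q0) (h : near r 3 s c) (hc : c ∉ Q0) :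
    Rm r Q0 S s := ⟨0, hs, hQ, c, h, hc⟩

theorem Kp_G2 {y a : ι} (h : Kp r Q0 S y a) : G2 r Q0 S a := by
  obtain ⟨hy, h⟩ := h
  induction h with
  | refl => exact hy
  | tail _ h1 _ => exact h1.2

theorem Kp_step {y a b : ι} (h : Kp r Q0 S y a) (hab : r a b) (hb : G2 r Q0 S b) :
    Kp r Q0 S y b := ⟨h.1, h.2.tail ⟨hab, hb⟩⟩

theorem G2_mem {a : ι} (h : G2 r Q0 S a) : a ∈ Q0 := (h a (near_self 2 a)).1

theorem mem_Kc {y a : ι} : a ∈ Kc r Q0 S y ↔ Kp r Q0 S y a := by
  classical
  unfold Kc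
  rw [mem_filter]
  exact ⟨fun h => h.2, fun h => ⟨G2_mem (Kp_G2 h), h⟩⟩

theorem mem_Ic {y a : ι} : a ∈ Ic r Q0 S y ↔ ∃ b, Kp r Q0 S y b ∧ near r 1 b a := by
  classical
  unfold Ic
  rw [mem_filter]
  refine ⟨fun h => h.2, fun h => ⟨?_, h⟩⟩
  obtain ⟨b, hb, h1⟩ := h
  exact (Kp_G2 hb a (near_mono (by norm_num) h1)).1

theorem mem_Qc {y a : ι} : a ∈ Qc r Q0 S y ↔ ∃ b, Kp r Q0 S y b ∧ near r 2 b a := by
  classical
  unfold Qc
  rw [mem_filter]
  refine ⟨fun h => h.2, fun h => ⟨?_, h⟩⟩
  obtain ⟨b, hb, h1⟩ := h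
  exact (Kp_G2 hb a h1).1

theorem Kc_sub_Ic (y : ι) : Kc r Q0 S y ⊆ Ic r Q0 S y := by
  intro a ha
  rw [mem_Kc] at ha
  exact mem_Ic.2 ⟨a, ha, near_self 1 a⟩

theorem Ic_sub_Qc (y : ι) : Ic r Q0 S y ⊆ Qc r Q0 S y := by
  intro a ha
  obtain ⟨b, hb, h⟩ := mem_Ic.1 ha
  exact mem_Qc.2 ⟨b, hb, near_mono (by norm_num) h⟩

theorem Qc_sub (y : ι) : Qc r Q0 S y ⊆ Q0 := by
  intro a ha
  obtain ⟨b, hb, h⟩ := mem_Qc.1 ha
  exact (Kp_G2 hb a h).1

theorem Qc_not_Rm {y a : ι} (ha : a ∈ Qc r Q0 S y) : ¬ Rm r Q0 S a := by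
  obtain ⟨b, hb, h⟩ := mem_Qc.1 ha
  exact (Kp_G2 hb a h).2

/-- neighbours of `Ic` lie in `Qc` -/
theorem nb_Ic {y a b : ι} (ha : a ∈ Ic r Q0 S y) (hab : r a b) : b ∈ Qc r Q0 S y := by
  obtain ⟨c, hc, h⟩ := mem_Ic.1 ha
  exact mem_Qc.2 ⟨c, hc, near_add h (near_one.2 (Or.inr hab))⟩

/-- neighbours of `Kc` lie in `Ic` -/
theorem nb_Kc {y a b : ι} (ha : a ∈ Kc r Q0 S y) (hab : r a b) : b ∈ Ic r Q0 S y := by
  rw [mem_Kc] at ha
  exact mem_Ic.2 ⟨a, ha, near_one.2 (Or.inr hab)⟩

/-- a non-good site of the window which is not removed has its 3-ball in the window minus the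
removed sites -/
theorem ball3 (hs : ∀ a b, r a b → r b a) {a : ι} (haS : a ∈ S) (haQ : a ∈ Q0)
    (haR : ¬ Rm r Q0 S a) {c : ι} (hc : near r 3 a c) : c ∈ Q0 ∧ ¬ Rm r Q0 S c := by
  constructor
  · by_contra h
    exact haR (Rm_base haS haQ hc h)
  · intro h
    exact haR (Rm_step h haS haQ (near_symm hs hc))

/-- **every non-good site of `Qc` lies in the core `Kc`, together with its neighbours** -/
theorem S_Qc (hs : ∀ a b, r a b → r b a) {y a : ι} (haQ : a ∈ Qc r Q0 S y) (haS : a ∈ S) :
    ∀ c, near r 1 a c → c ∈ Kc r Q0 S y := by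
  have haR := Qc_not_Rm haQ
  have haQ0 := Qc_sub y haQ
  have hG : ∀ c, near r 1 a c → G2 r Q0 S c := by
    intro c hc d hd
    exact ball3 hs haS haQ0 haR (near_add hc hd)
  have hGa : G2 r Q0 S a := hG a (near_self 1 a)
  obtain ⟨b, hb, hba⟩ := mem_Qc.1 haQ
  have haK : Kp r Q0 S y a := by
    obtain ⟨c, hbc, hca⟩ := hba
    have hbc' := near_one.1 hbc
    have hGc : G2 r Q0 S c := by
      refine hG c (near_one.2 ?_)
      rcases hca with h | h
      · exact Or.inl h.symm
      · exact Or.inr (hs _ _ h)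
    have hcK : Kp r Q0 S y c := by
      rcases hbc' with h | h
      · rwa [← h]
      · exact Kp_step hb h hGc
    rcases hca with h | h
    · rwa [← h]
    · exact Kp_step hcK h hGa
  intro c hc
  rw [mem_Kc]
  rcases near_one.1 hc with h | h
  · rwa [← h]
  · exact Kp_step haK h (hG c hc)

/-- the sites of `Qc` outside the core are good -/
theorem good_of_not_Kc (hs : ∀ a b, r a b → r b a) {y a : ι} (haQ : a ∈ Qc r Q0 S y)
    (haK : a ∉ Kc r Q0 S y) : a ∉ S := fun h => haK (S_Qc hs haQ h a (near_self 1 a))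

/-- a connected core region none of whose 2-balls meets the removed sites lies in `Kc` -/
theorem core_sub {Q00 : Finset ι} {y : ι}
    (h0 : ∀ a ∈ Q00, ∀ c, near r 2 a c → c ∈ Q0 ∧ ¬ Rm r Q0 S c) (hy : y ∈ Q00)
    (hconn : ∀ a ∈ Q00, Relation.ReflTransGen (fun a b => r a b ∧ b ∈ Q00) y a) :
    Q00 ⊆ Kc r Q0 S y := by
  intro a ha
  rw [mem_Kc]
  refine ⟨h0 y hy, ?_⟩
  have h := hconn a ha
  clear ha
  induction h with
  | refl => exact Relation.ReflTransGen.refl
  | tail _ h1 ih => exact ih.tail ⟨h1.1, h0 _ h1.2⟩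

/-! ### long chains -/

theorem near_of_Rl {n : ℕ} {t : ι} (hs : ∀ a b, r a b → r b a) (h : Rl r Q0 S n t) :
    ∃ c, near r (3 * n + 3) t c ∧ c ∉ Q0 := by
  induction n generalizing t with
  | zero => exact h.2.2
  | succ n ih =>
    obtain ⟨_, _, s, hs1, hst⟩ := h
    obtain ⟨c, hc, hcQ⟩ := ih hs1
    refine ⟨c, ?_, hcQ⟩
    have h3 := near_add (near_symm hs hst) hc
    exact near_mono (by omega) h3

/-- descending chain through the level sets -/
theorem exists_chain {n : ℕ} {t : ι} (h : Rl r Q0 S n t) :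
    ∃ p : ℕ → ι, p n = t ∧ (∀ i ≤ n, Rl r Q0 S i (p i)) ∧
      ∀ i < n, near r 3 (p i) (p (i + 1)) := by
  induction n generalizing t with
  | zero =>
    refine ⟨fun _ => t, rfl, fun i hi => ?_, fun i hi => absurd hi (by omega)⟩
    have : i = 0 := by omega
    subst this
    exact h
  | succ n ih =>
    obtain ⟨h1, h2, s, hs1, hst⟩ := h
    obtain ⟨p, hp, hR, hn⟩ := ih hs1
    refine ⟨fun i => if i ≤ n then p i else t, by simp, fun i hi => ?_, fun i hi => ?_⟩
    · by_cases hin : i ≤ n
      · simp only [hin, if_true]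
        exact hR i hin
      · have : i = n + 1 := by omega
        subst this
        simp only [hin, if_false]
        exact ⟨h1, h2, s, hs1, hst⟩
    · by_cases hin : i + 1 ≤ n
      · have h' : i ≤ n := by omega
        simp only [hin, h', if_true]
        exact hn i (by omega)
      · have : i = n := by omega
        subst this
        simp only [le_refl, if_true, hin, if_false, hp]
        exact hst

/-- **a removed site near the core produces a long injective range-3 chain of non-good sites** -/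
theorem long_chain (hs : ∀ a b, r a b → r b a) {m j : ℕ} {a t : ι} (ht : Rm r Q0 S t)
    (hat : near r j a t) (hfar : ∀ c, near r (3 * m + 3 + j) a c → c ∈ Q0) :
    ∃ p : ℕ → ι, (∀ i ≤ m, p i ∈ S ∧ p i ∈ Q0) ∧ (∀ i < m, near r 3 (p i) (p (i + 1))) ∧
      (∀ i ≤ m, ∀ i' ≤ m, p i = p i' → i = i') := by
  classical
  have hex : ∃ n, Rl r Q0 S n t := ht
  set n := Nat.find hex with hn
  have hRn : Rl r Q0 S n t := Nat.find_spec hex
  have hmin : ∀ k < n, ¬ Rl r Q0 S k t := fun k hk => Nat.find_min hex hk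
  have hmn : m < n := by
    by_contra hcon
    push Not at hcon
    obtain ⟨c, hc, hcQ⟩ := near_of_Rl hs hRn
    exact hcQ (hfar c (near_mono (by omega) (near_add hat hc)))
  obtain ⟨p, hp, hR, hst⟩ := exists_chain hRn
  refine ⟨p, fun i hi => Rl_mem (hR i (by omega)), fun i hi => hst i (by omega), ?_⟩
  -- a site of level `i` on the minimal chain has no smaller level
  have key : ∀ d, ∀ i k, i + d = n → Rl r Q0 S k (p i) → Rl r Q0 S (k + d) t := by
    intro d
    induction d with
    | zero =>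
      intro i k hik hk
      have : i = n := by omega
      subst this
      rw [hp] at hk
      simpa using hk
    | succ d ih =>
      intro i k hik hk
      have h1 : Rl r Q0 S (k + 1) (p (i + 1)) := by
        have h2 := Rl_mem (hR (i + 1) (by omega))
        exact ⟨h2.1, h2.2, p i, hk, hst i (by omega)⟩
      have h3 := ih (i + 1) (k + 1) (by omega) h1
      have e : k + 1 + d = k + (d + 1) := by ring
      rwa [e] at h3
  have wlog_lt : ∀ i i', i < i' → i' ≤ m → p i = p i' → False := by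
    intro i i' hlt hi' heq
    have h1 : Rl r Q0 S i (p i') := by
      rw [← heq]
      exact hR i (by omega)
    have h2 := key (n - i') i' i (by omega) h1
    exact hmin (i + (n - i')) (by omega) h2
  intro i hi i' hi' heq
  rcases lt_trichotomy i i' with h | h | h
  · exact (wlog_lt i i' h hi' heq).elim
  · exact h
  · exact (wlog_lt i' i h hi heq.symm).elim

/-! ### stability under switching inside `Qc` -/

/-- the removed sites do not change if the non-good set is changed inside `Qc` only, away from the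
removed sites and from the complement of the window -/
theorem Rm_congr (hs : ∀ a b, r a b → r b a) {S' : Finset ι} {y : ι}
    (hoff : ∀ a, a ∉ Qc r Q0 S y → (a ∈ S' ↔ a ∈ S))
    (hin : ∀ a ∈ Qc r Q0 S y, a ∈ S' → ∀ c, near r 3 a c → c ∈ Q0 ∧ ¬ Rm r Q0 S c) (t : ι) :
    Rm r Q0 S' t ↔ Rm r Q0 S t := by
  constructor
  · rintro ⟨n, hn⟩
    induction n generalizing t with
    | zero =>
      obtain ⟨h1, h2, c, hc, hcQ⟩ := hn
      have htQ : t ∉ Qc r Q0 S y := fun h => hcQ (hin t h h1 c hc).1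
      exact Rm_base ((hoff t htQ).1 h1) h2 hc hcQ
    | succ n ih =>
      obtain ⟨h1, h2, s, hs1, hst⟩ := hn
      have h3 := ih s hs1
      have htQ : t ∉ Qc r Q0 S y := fun h => (hin t h h1 s (near_symm hs hst)).2 h3
      exact Rm_step h3 ((hoff t htQ).1 h1) h2 hst
  · rintro ⟨n, hn⟩
    induction n generalizing t with
    | zero =>
      have hR : Rm r Q0 S t := ⟨0, hn⟩
      obtain ⟨h1, h2, c, hc, hcQ⟩ := hn
      have htQ : t ∉ Qc r Q0 S y := fun h => Qc_not_Rm h hR
      exact Rm_base ((hoff t htQ).2 h1) h2 hc hcQ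
    | succ n ih =>
      have hR : Rm r Q0 S t := ⟨n + 1, hn⟩
      obtain ⟨h1, h2, s, hs1, hst⟩ := hn
      have htQ : t ∉ Qc r Q0 S y := fun h => Qc_not_Rm h hR
      exact Rm_step (ih s hs1) ((hoff t htQ).2 h1) h2 hst

theorem G2_congr {S' : Finset ι} (h : ∀ t, Rm r Q0 S' t ↔ Rm r Q0 S t) (a : ι) :
    G2 r Q0 S' a ↔ G2 r Q0 S a := by
  unfold G2
  simp only [h]

theorem Kp_congr {S' : Finset ι} (h : ∀ t, Rm r Q0 S' t ↔ Rm r Q0 S t) (y a : ι) :
    Kp r Q0 S' y a ↔ Kp r Q0 S y a := by
  unfold Kp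
  simp only [G2_congr h]

/-- **stability**: `Kc`, `Ic`, `Qc` do not change -/
theorem stable (hs : ∀ a b, r a b → r b a) {S' : Finset ι} {y : ι}
    (hoff : ∀ a, a ∉ Qc r Q0 S y → (a ∈ S' ↔ a ∈ S))
    (hin : ∀ a ∈ Qc r Q0 S y, a ∈ S' → ∀ c, near r 3 a c → c ∈ Q0 ∧ ¬ Rm r Q0 S c) :
    (∀ t, Rm r Q0 S' t ↔ Rm r Q0 S t) ∧ Kc r Q0 S' y = Kc r Q0 S y ∧
      Ic r Q0 S' y = Ic r Q0 S y ∧ Qc r Q0 S' y = Qc r Q0 S y := by
  have h := Rm_congr hs hoff hin
  refine ⟨h, ?_, ?_, ?_⟩
  · ext a
    rw [mem_Kc, mem_Kc, Kp_congr h]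
  · ext a
    simp only [mem_Ic, Kp_congr h]
  · ext a
    simp only [mem_Qc, Kp_congr h]

/-- special case: some non-good sites of `Qc` are switched to good, and new non-good sites are put
into a core region none of whose 3-balls meets the removed sites or leaves the window -/
theorem stable' (hs : ∀ a b, r a b → r b a) {S' Q00 : Finset ι} {y : ι}
    (hcore : ∀ a ∈ Q00, ∀ c, near r 3 a c → c ∈ Q0 ∧ ¬ Rm r Q0 S c)
    (hoff : ∀ a, a ∉ Qc r Q0 S y → (a ∈ S' ↔ a ∈ S))
    (hin : ∀ a ∈ Qc r Q0 S y, a ∈ S' → a ∈ S ∨ a ∈ Q00) :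
    (∀ t, Rm r Q0 S' t ↔ Rm r Q0 S t) ∧ Kc r Q0 S' y = Kc r Q0 S y ∧
      Ic r Q0 S' y = Ic r Q0 S y ∧ Qc r Q0 S' y = Qc r Q0 S y := by
  refine stable hs hoff fun a ha haS' c hc => ?_
  rcases hin a ha haS' with h | h
  · exact ball3 hs h (Qc_sub y ha) (Qc_not_Rm ha) hc
  · exact hcore a h c hc

/-! ### induced paths -/

/-- **induced path** from any site of `Ic` to `y`, all sites but the first in `Kc` -/
theorem exists_path (hs : ∀ a b, r a b → r b a) {y z : ι} (hz : z ∈ Ic r Q0 S y) :
    ∃ (k : ℕ) (p : ℕ → ι), p 0 = z ∧ p k = y ∧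
      (∀ i, i ≤ k → ∀ j, j ≤ k → p i = p j → i = j) ∧
      (∀ i, i < k → r (p i) (p (i + 1))) ∧
      (∀ i, i ≤ k → ∀ j, j ≤ k → i + 2 ≤ j ∨ j + 2 ≤ i → ¬ r (p i) (p j)) ∧
      (∀ i, i ≤ k → p i ∈ Ic r Q0 S y) ∧ (∀ i, 1 ≤ i → i ≤ k → p i ∈ Kc r Q0 S y) := by
  classical
  -- walks
  let W : ℕ → Prop := fun k => ∃ p : ℕ → ι, p 0 = z ∧ p k = y ∧
    (∀ i, i < k → r (p i) (p (i + 1))) ∧ ∀ i, 1 ≤ i → i ≤ k → Kp r Q0 S y (p i)
  have hKwalk : ∀ b, Kp r Q0 S y b → ∃ (k : ℕ) (p : ℕ → ι), p 0 = b ∧ p k = y ∧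
      (∀ i, i < k → r (p i) (p (i + 1))) ∧ ∀ i, i ≤ k → Kp r Q0 S y (p i) := by
    rintro b ⟨hy, hb⟩
    induction hb with
    | refl => exact ⟨0, fun _ => y, rfl, rfl, fun i hi => absurd hi (by omega),
        fun i _ => ⟨hy, Relation.ReflTransGen.refl⟩⟩
    | @tail b c hb1 h1 ih =>
      obtain ⟨k, p, h0, hk, hr, hK⟩ := ih
      refine ⟨k + 1, fun i => if i = 0 then c else p (i - 1), by simp, by simp [hk], ?_, ?_⟩
      · intro i hi
        rcases Nat.eq_zero_or_pos i with rfl | hi0
        · simp [h0]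
          exact hs _ _ h1.1
        · have e1 : i ≠ 0 := by omega
          simp only [e1, if_false, Nat.add_eq_zero_iff, one_ne_zero, and_false]
          have := hr (i - 1) (by omega)
          have e2 : i - 1 + 1 = i + 1 - 1 := by omega
          rwa [e2] at this
      · intro i hi
        rcases Nat.eq_zero_or_pos i with rfl | hi0
        · simp only [if_true]
          exact ⟨hy, hb1.tail h1⟩
        · have e1 : i ≠ 0 := by omega
          simp only [e1, if_false]
          exact hK (i - 1) (by omega)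
  have hW : ∃ k, W k := by
    obtain ⟨b, hb, hbz⟩ := mem_Ic.1 hz
    obtain ⟨k, p, h0, hk, hr, hK⟩ := hKwalk b hb
    rcases near_one.1 hbz with h | h
    · refine ⟨k, p, by rw [h0, h], hk, hr, fun i _ hi => hK i hi⟩
    · refine ⟨k + 1, fun i => if i = 0 then z else p (i - 1), by simp, by simp [hk], ?_, ?_⟩
      · intro i hi
        rcases Nat.eq_zero_or_pos i with rfl | hi0
        · simp [h0]
          exact hs _ _ h
        · have e1 : i ≠ 0 := by omega
          simp only [e1, if_false, Nat.add_eq_zero_iff, one_ne_zero, and_false]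
          have := hr (i - 1) (by omega)
          have e2 : i - 1 + 1 = i + 1 - 1 := by omega
          rwa [e2] at this
      · intro i hi1 hi
        have e1 : i ≠ 0 := by omega
        simp only [e1, if_false]
        exact hK (i - 1) (by omega)
  set k := Nat.find hW with hkdef
  obtain ⟨p, h0, hk, hr, hK⟩ := (Nat.find_spec hW : W k)
  have hmin : ∀ k' < k, ¬ W k' := fun k' hk' => Nat.find_min hW hk'
  -- shortcuts
  have cut : ∀ i j, i < j → j ≤ k → (p i = p j) → False := by
    intro i j hij hjk heq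
    refine hmin (k - (j - i)) (by omega) ⟨fun t => if t ≤ i then p t else p (t + (j - i)), ?_, ?_,
      ?_, ?_⟩
    · simp [h0]
    · by_cases h : k - (j - i) ≤ i
      · simp only [h, if_true]
        have e1 : j = k := by omega
        have e2 : k - (j - i) = i := by omega
        rw [e2, heq, e1, hk]
      · simp only [h, if_false]
        have e : k - (j - i) + (j - i) = k := by omega
        rw [e, hk]
    · intro t ht
      by_cases h1 : t + 1 ≤ i
      · have h2 : t ≤ i := by omega
        simp only [h1, h2, if_true]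
        exact hr t (by omega)
      · by_cases h2 : t ≤ i
        · have h3 : t = i := by omega
          subst h3
          simp only [le_refl, if_true, h1, if_false]
          rw [heq]
          have e : t + 1 + (j - t) = j + 1 := by omega
          rw [e]
          exact hr j (by omega)
        · simp only [h1, h2, if_false]
          have e : t + 1 + (j - i) = t + (j - i) + 1 := by omega
          rw [e]
          exact hr _ (by omega)
    · intro t ht1 ht
      by_cases h2 : t ≤ i
      · simp only [h2, if_true]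
        exact hK t ht1 (by omega)
      · simp only [h2, if_false]
        exact hK _ (by omega) (by omega)
  have chord : ∀ i j, i + 2 ≤ j → j ≤ k → ¬ r (p i) (p j) := by
    intro i j hij hjk hrij
    refine hmin (k - (j - i - 1)) (by omega) ⟨fun t => if t ≤ i then p t else
      p (t + (j - i - 1)), ?_, ?_, ?_, ?_⟩
    · simp [h0]
    · have h : ¬ k - (j - i - 1) ≤ i := by omega
      simp only [h, if_false]
      have e : k - (j - i - 1) + (j - i - 1) = k := by omega
      rw [e, hk]
    · intro t ht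
      by_cases h1 : t + 1 ≤ i
      · have h2 : t ≤ i := by omega
        simp only [h1, h2, if_true]
        exact hr t (by omega)
      · by_cases h2 : t ≤ i
        · have h3 : t = i := by omega
          subst h3
          simp only [le_refl, if_true, h1, if_false]
          have e : t + 1 + (j - t - 1) = j := by omega
          rw [e]
          exact hrij
        · simp only [h1, h2, if_false]
          have e : t + 1 + (j - i - 1) = t + (j - i - 1) + 1 := by omega
          rw [e]
          exact hr _ (by omega)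
    · intro t ht1 ht
      by_cases h2 : t ≤ i
      · simp only [h2, if_true]
        exact hK t ht1 (by omega)
      · simp only [h2, if_false]
        exact hK _ (by omega) (by omega)
  refine ⟨k, p, h0, hk, ?_, hr, ?_, ?_, fun i hi1 hi => mem_Kc.2 (hK i hi1 hi)⟩
  · intro i hi j hj heq
    rcases lt_trichotomy i j with h | h | h
    · exact (cut i j h hj heq).elim
    · exact h
    · exact (cut j i h hi heq.symm).elim
  · intro i hi j hj hij
    rcases hij with h | h
    · exact chord i j h hj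
    · exact fun hr' => chord j i h hi (hs _ _ hr')
  · intro i hi
    rcases Nat.eq_zero_or_pos i with rfl | hi0
    · rw [h0]
      exact hz
    · exact Kc_sub_Ic y (mem_Kc.2 (hK i hi0 hi))

end Window

end Peel

end P365T1
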