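import Vale.Agent.P365.T1.PeelTor963
import Vale.Agent.P365.J376.V3

/-!
# P365 T1: PEEL for the labels of the chain (design v3)

Regions of a labelling `l` at a NORMAL site `x` of family `i`; they do not change when the labels
inside the region are changed to good, outside the block of `x`; neither do the matched blocks, the
centres and the profile off the region.
-/

set_option autoImplicit false
set_option linter.all false

namespace P365T1

namespace Peel

open Finset P365L Vale.Agent.P365.J376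

/-! ### change of the base point -/

section base

variable {ι : Type*} {r : ι → ι → Prop} {Q0 S : Finset ι}

theorem Kp_trans {y a b : ι} (h1 : Kp r Q0 S y a) (h2 : Kp r Q0 S a b) : Kp r Q0 S y b :=
  ⟨h1.1, h1.2.trans h2.2⟩

theorem Kp_symm (hs : ∀ a b, r a b → r b a) {y a : ι} (h : Kp r Q0 S y a) : Kp r Q0 S a y := by
  obtain ⟨hy, h⟩ := h
  induction h with
  | refl => exact ⟨hy, Relation.ReflTransGen.refl⟩
  | @tail b c h1 h2 ih =>
    have hb : G2 r Q0 S b := Kp_G2 ⟨hy, h1⟩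
    exact ⟨h2.2, Relation.ReflTransGen.head ⟨hs _ _ h2.1, hb⟩ ih.2⟩

theorem Kp_base (hs : ∀ a b, r a b → r b a) {y y' : ι} (h : y' ∈ Kc r Q0 S y) (a : ι) :
    Kp r Q0 S y' a ↔ Kp r Q0 S y a := by
  rw [mem_Kc] at h
  exact ⟨fun h1 => Kp_trans h h1, fun h1 => Kp_trans (Kp_symm hs h) h1⟩

theorem Kc_base (hs : ∀ a b, r a b → r b a) {y y' : ι} (h : y' ∈ Kc r Q0 S y) :
    Kc r Q0 S y' = Kc r Q0 S y := by
  ext a
  rw [mem_Kc, mem_Kc, Kp_base hs h]

theorem Ic_base (hs : ∀ a b, r a b → r b a) {y y' : ι} (h : y' ∈ Kc r Q0 S y) :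
    Ic r Q0 S y' = Ic r Q0 S y := by
  ext a
  simp only [mem_Ic, Kp_base hs h]

theorem Qc_base (hs : ∀ a b, r a b → r b a) {y y' : ι} (h : y' ∈ Kc r Q0 S y) :
    Qc r Q0 S y' = Qc r Q0 S y := by
  ext a
  simp only [mem_Qc, Kp_base hs h]

end base

variable {N : ℕ} [NeZero N]

/-! ### counting -/

theorem card_ball_at (b : Tor N) (r : ℕ) :
    (univ.filter fun x : Tor N => nrm (b - x) ≤ r).card ≤ (2 * r + 1) ^ 2 := by
  classical
  refine le_trans (le_of_eq ?_) (card_ball_le (N := N) r)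
  refine card_bij (fun x _ => b - x) (fun x hx => ?_) (fun x _ x' _ h => ?_) (fun c hc => ?_)
  · rw [mem_ball]
    exact (mem_filter.1 hx).2
  · exact sub_right_injective h
  · refine ⟨b - c, mem_filter.2 ⟨mem_univ _, ?_⟩, by abel⟩
    rw [mem_ball] at hc
    have e : b - (b - c) = c := by abel
    rw [e]
    exact hc

open Classical in
/-- every site lies in at most `25 m²` windows -/
theorem card_dual_Win {m : ℕ} (hm : 0 < m) (b : Tor N) :
    (univ.filter fun x : Tor N => b ∈ Win m x).card ≤ 25 * m ^ 2 := by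
  refine (card_le_card fun x hx => ?_).trans ((card_ball_at b (2 * m)).trans ?_)
  · rw [mem_filter] at hx ⊢
    exact ⟨hx.1, nrm_Win hm hx.2⟩
  · nlinarith

/-! ### the profile depends on the own label and on the centres only -/

variable {D : V3}

theorem wf_congr {l l1 : Tor N → D.Λ} {z : Tor N} (hl : l1 z = l z) {j : ℕ}
    (hc : D.cen j l1 z ↔ D.cen j l z) : D.wf j l1 z = D.wf j l z := by
  classical
  unfold V3.wf
  by_cases h : D.cen j l z
  · rw [if_pos h, if_pos (hc.2 h)]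
  · rw [if_neg h, if_neg (fun h' => h (hc.1 h')), hl]

theorem Ws_congr {l l1 : Tor N → D.Λ} {z : Tor N} (hl : l1 z = l z)
    (hc : ∀ j ≤ D.I, (D.cen j l1 z ↔ D.cen j l z)) {i : ℕ} (hi : i ≤ D.I + 1) :
    D.Ws i l1 z = D.Ws i l z := by
  induction i with
  | zero =>
    simp only [V3.Ws]
    rw [hl]
  | succ i ih =>
    simp only [V3.Ws]
    rw [ih (by omega), wf_congr hl (hc i (by omega))]

/-- **the profile depends on the own label and on the centres only** -/
theorem prof_congr {l l1 : Tor N → D.Λ} {z : Tor N} (hl : l1 z = l z)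
    (hc : ∀ j ≤ D.I, (D.cen j l1 z ↔ D.cen j l z)) {i : ℕ} (hi : i ≤ D.I + 1) (s : ℝ) :
    D.prof i s l1 z = D.prof i s l z := by
  unfold V3.prof V3.us
  rw [Ws_congr hl hc hi]
  congr 2
  refine sum_congr rfl fun j hj => ?_
  rw [mem_Ico] at hj
  rw [wf_congr hl (hc j (by omega))]

/-! ### the regions of a labelling -/

section region

variable (D) (i : ℕ) (l : Tor N → D.Λ) (x : Tor N)

/-- the core component -/
noncomputable def KL : Finset (Tor N) := Kc (rT N) (Win (D.m i) x) (D.badS l) x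

/-- its 1-neighbourhood -/
noncomputable def IL : Finset (Tor N) := Ic (rT N) (Win (D.m i) x) (D.badS l) x

/-- its 2-neighbourhood -/
noncomputable def QL : Finset (Tor N) := Qc (rT N) (Win (D.m i) x) (D.badS l) x

/-- NORMAL -/
def NL : Prop := Nrm (D.m i) (D.badS l) x

end region

variable {i : ℕ} {l l1 : Tor N → D.Λ} {x : Tor N}

theorem mem_badS {z : Tor N} : z ∈ D.badS l ↔ l z ≠ D.good := by simp [V3.badS]

theorem badS_eq : D.badS l = nsg D.good l := rfl

theorem KL_sub_IL : KL D i l x ⊆ IL D i l x := Kc_sub_Ic _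

theorem IL_sub_QL : IL D i l x ⊆ QL D i l x := Ic_sub_Qc _

theorem KL_sub_QL : KL D i l x ⊆ QL D i l x := KL_sub_IL.trans IL_sub_QL

theorem QL_sub_Win : QL D i l x ⊆ Win (D.m i) x := Qc_sub _

theorem card_QL_le (hm : 0 < D.m i) : (QL D i l x).card ≤ 9 * D.m i ^ 2 :=
  (card_le_card QL_sub_Win).trans (card_Win_le hm x)

theorem card_IL_le (hm : 0 < D.m i) : (IL D i l x).card ≤ 9 * D.m i ^ 2 :=
  (card_le_card IL_sub_QL).trans (card_QL_le hm)

theorem nrm_QL (hm : 0 < D.m i) {z : Tor N} (hz : z ∈ QL D i l x) :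
    nrm (z - x) ≤ 2 * D.m i := nrm_Win hm (QL_sub_Win hz)

/-- the block of `x` lies in the core component -/
theorem NL.core (hm : 3 ≤ D.m i) (h : NL D i l x) : Cor (D.m i) x ⊆ KL D i l x :=
  Nrm.core hm h rfl

theorem NL.blk_mem (hm : 3 ≤ D.m i) (h : NL D i l x) {z : Tor N}
    (hz : bi (D.m i) z = bi (D.m i) x) : z ∈ KL D i l x := h.core hm (mem_Cor.2 hz)

theorem NL.self_mem (hm : 3 ≤ D.m i) (h : NL D i l x) : x ∈ KL D i l x := h.blk_mem hm rfl

/-- non-good sites of the region lie in the core component -/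
theorem bad_mem_KL {z : Tor N} (hz : z ∈ QL D i l x) (hb : l z ≠ D.good) : z ∈ KL D i l x :=
  S_Qc rT_symm hz (mem_badS.2 hb) z (near_self 1 z)

/-- neighbours of the core component lie in its 1-neighbourhood, neighbours of the latter in the
region -/
theorem nb_KL {a b : Tor N} (ha : a ∈ KL D i l x) (hab : AT N a b ≠ 0) : b ∈ IL D i l x :=
  nb_Kc ha hab

theorem nb_IL {a b : Tor N} (ha : a ∈ IL D i l x) (hab : AT N a b ≠ 0) : b ∈ QL D i l x :=
  nb_Ic ha hab

/-- matched blocks are not cut: a matched block of any family which meets the region lies in the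
core component -/
theorem mat_mem_KL (hgood : ∀ j ≤ D.I, ∀ a, D.pat j a ≠ D.good) {j : ℕ} (hj : j ≤ D.I)
    {w : Tor N} (hw : w ∈ QL D i l x) (hM : D.Mat j l w) {z : Tor N}
    (hz : bi (D.m j) z = bi (D.m j) w) : z ∈ KL D i l x := by
  refine blk_sub_Kc (m' := D.m j) (a := w) (fun b hb => ?_) hw z hz
  rw [mem_badS, hM b hb]
  exact hgood j hj _

/-- **nothing changes off the region** when the labels inside the region are changed, good outside
the core component -/
theorem mat_off (hgood : ∀ j ≤ D.I, ∀ a, D.pat j a ≠ D.good)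
    (hoff : ∀ z, z ∉ QL D i l x → l1 z = l z)
    (hin : ∀ z ∈ QL D i l x, z ∉ KL D i l x → l1 z = D.good) {j : ℕ} (hj : j ≤ D.I) {z : Tor N}
    (hz : z ∉ QL D i l x) : D.Mat j l1 z ↔ D.Mat j l z := by
  unfold V3.Mat
  exact mat_off_iff (g := D.good) (l := l) (l' := l1) (P := KL D i l x) (Q0 := Win (D.m i) x)
    (y := x) (fun _ h => h) hoff hin (hgood j hj) hz

theorem cen_off (hgood : ∀ j ≤ D.I, ∀ a, D.pat j a ≠ D.good)
    (hoff : ∀ z, z ∉ QL D i l x → l1 z = l z)
    (hin : ∀ z ∈ QL D i l x, z ∉ KL D i l x → l1 z = D.good) {j : ℕ} (hj : j ≤ D.I) {z : Tor N}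
    (hz : z ∉ QL D i l x) : D.cen j l1 z ↔ D.cen j l z :=
  and_congr_left fun _ => mat_off hgood hoff hin hj hz

/-- **the profile off the region does not change** -/
theorem prof_off (hgood : ∀ j ≤ D.I, ∀ a, D.pat j a ≠ D.good)
    (hoff : ∀ z, z ∉ QL D i l x → l1 z = l z)
    (hin : ∀ z ∈ QL D i l x, z ∉ KL D i l x → l1 z = D.good) {i' : ℕ} (hi' : i' ≤ D.I + 1)
    (s : ℝ) {z : Tor N} (hz : z ∉ QL D i l x) : D.prof i' s l1 z = D.prof i' s l z :=
  prof_congr (hoff z hz) (fun j hj => cen_off hgood hoff hin hj hz) hi' s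

/-- the condition of `125`: inside the region `l1` is good except at non-good sites of `l` and in
the block of `x` -/
def Chg (D : V3) (i : ℕ) (l l1 : Tor N → D.Λ) (x : Tor N) : Prop :=
  (∀ z, z ∉ QL D i l x → l1 z = l z) ∧
    ∀ z ∈ QL D i l x, l1 z ≠ D.good → l z ≠ D.good ∨ bi (D.m i) z = bi (D.m i) x

theorem Chg.off (h : Chg D i l l1 x) {z : Tor N} (hz : z ∉ QL D i l x) : l1 z = l z := h.1 z hz

theorem Chg.good (h : Chg D i l l1 x) (hm : 3 ≤ D.m i) (hN : NL D i l x) :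
    ∀ z ∈ QL D i l x, z ∉ KL D i l x → l1 z = D.good := by
  intro z hz hzK
  by_contra hc
  rcases h.2 z hz hc with h1 | h1
  · exact hzK (bad_mem_KL hz h1)
  · exact hzK (hN.blk_mem hm h1)

/-- **stability of the regions** -/
theorem Chg.stable (h : Chg D i l l1 x) (hm : 3 ≤ D.m i) (hN : NL D i l x) :
    NL D i l1 x ∧ KL D i l1 x = KL D i l x ∧ IL D i l1 x = IL D i l x ∧
      QL D i l1 x = QL D i l x := by
  have h1 := stable' (r := rT N) (Q0 := Win (D.m i) x) (S := D.badS l) rT_symm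
    (S' := D.badS l1) (Q00 := Cor (D.m i) x) (y := x) (Nrm.ball hm hN) (fun a ha => ?_)
    (fun a ha haS => ?_)
  · refine ⟨fun a ha c hc => ?_, h1.2⟩
    rw [h1.1 c]
    exact hN a ha c hc
  · rw [mem_badS, mem_badS, h.1 a ha]
  · rcases h.2 a ha (mem_badS.1 haS) with h2 | h2
    · exact Or.inl (mem_badS.2 h2)
    · exact Or.inr (mem_Cor.2 h2)

theorem Chg.nl_iff (h : Chg D i l l1 x) (hm : 3 ≤ D.m i) (hN : NL D i l x) : NL D i l1 x :=
  (h.stable hm hN).1

theorem Chg.cen (h : Chg D i l l1 x) (hm : 3 ≤ D.m i) (hN : NL D i l x)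
    (hgood : ∀ j ≤ D.I, ∀ a, D.pat j a ≠ D.good) {j : ℕ} (hj : j ≤ D.I) {z : Tor N}
    (hz : z ∉ QL D i l x) : D.cen j l1 z ↔ D.cen j l z :=
  cen_off hgood h.1 (h.good hm hN) hj hz

theorem Chg.prof (h : Chg D i l l1 x) (hm : 3 ≤ D.m i) (hN : NL D i l x)
    (hgood : ∀ j ≤ D.I, ∀ a, D.pat j a ≠ D.good) {i' : ℕ} (hi' : i' ≤ D.I + 1) (s : ℝ)
    {z : Tor N} (hz : z ∉ QL D i l x) : D.prof i' s l1 z = D.prof i' s l z :=
  prof_off hgood h.1 (h.good hm hN) hi' s hz

theorem AT_diag (hN : 2 ≤ N) (z : Tor N) : AT N z z = 0 := by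
  haveI : Fact (1 < N) := ⟨by omega⟩
  unfold AT
  rw [if_neg]
  simp [nbs, Prod.ext_iff]

theorem gph_AT (hN : 2 ≤ N) : Gph (AT N) :=
  ⟨AT_symm N, AT_eq_zero_or_one, AT_diag hN, row_sum_le⟩

/-- **cofactor bound on the region** for every exterior, from any site of the 1-neighbourhood to any
site of the core component -/
theorem cofLe_IL (hN : 2 ≤ N) {E L : ℝ} (hL : 0 < L) {e : Tor N → ℝ} (he0 : ∀ z ∈ QL D i l x, 0 ≤ e z)
    (he1 : ∀ z ∈ QL D i l x, e z ≤ 1) (z y' : QL D i l x) (hz : (z : Tor N) ∈ IL D i l x)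
    (hy' : (y' : Tor N) ∈ KL D i l x) :
    CofLe (AT N) (QL D i l x) E e L (c2c E L (IL D i l x).card) z y' := by
  have hQ : Qc (rT N) (Win (D.m i) x) (D.badS l) (y' : Tor N) = QL D i l x :=
    Qc_base rT_symm hy'
  have hI : Ic (rT N) (Win (D.m i) x) (D.badS l) (y' : Tor N) = IL D i l x :=
    Ic_base rT_symm hy'
  have key : ∀ (Q I : Finset (Tor N)), Qc (rT N) (Win (D.m i) x) (D.badS l) (y' : Tor N) = Q →
      Ic (rT N) (Win (D.m i) x) (D.badS l) (y' : Tor N) = I → (∀ z ∈ Q, 0 ≤ e z) →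
      (∀ z ∈ Q, e z ≤ 1) → ∀ (a b : Q), (a : Tor N) ∈ I → (b : Tor N) = y' →
      CofLe (AT N) Q E e L (c2c E L I.card) a b := by
    rintro Q I rfl rfl h0 h1 a b ha hb
    exact cofLe_Ic (AT_symm N) AT_eq_zero_or_one (AT_diag hN) row_sum_le hL h0 h1 a b ha hb
  exact key _ _ hQ hI he0 he1 z y' hz rfl

end Peel

end P365T1
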