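import Vale.Agent.P365.T1.Defs
import Vale.Agent.P365.T1.Bad
import Vale.Agent.P365.C937.TwoSite

/-!
# P365-T1, chapter C (b), (d): resonance facts and the good exterior

`dl A y` = `A` with `y` disconnected; `Gi A W y = Gr (dl A y) W` off `y`.  Everything below is for a
general real symmetric matrix `B` and the Green function `Gr B (WV E e V)`; the corollaries for the
system with `y` removed follow with `B = dl A y`.
-/

set_option autoImplicit false
set_option linter.all false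

namespace P365T1.Res

open P365L P365O MeasureTheory Matrix Complex Function
open scoped ENNReal ComplexConjugate

/-! ### the disconnected site -/

section alg

variable {ι : Type*} [Fintype ι] [DecidableEq ι] {A : Matrix ι ι ℝ} {W : ι → ℂ}

/-- `A` with the row and the column of `y` erased -/
def dl (A : Matrix ι ι ℝ) (y : ι) : Matrix ι ι ℝ := fun a b => if a = y ∨ b = y then 0 else A a b

theorem dl_symm (hA : A.IsSymm) (y : ι) : (dl A y).IsSymm := by
  ext a b
  simp only [Matrix.transpose_apply, dl, hA.apply, or_comm]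

theorem Kmat_mulVec_Gi (hA : A.IsSymm) (hW : ∀ x, (W x).im < 0) {y a b : ι} (ha : a ≠ y)
    (hb : b ≠ y) : ∑ c, (A a c : ℂ) * Gi A W y c b + W a * Gi A W y a b = if a = b then 1 else 0 := by
  have h1 := Kmat_mulVec_Gr hA hW b a
  have h2 := Kmat_mulVec_Gr hA hW y a
  rw [Kmat_mulVec] at h1 h2
  rw [if_neg ha] at h2
  rw [← h1]
  have h0 := Gr_self_ne_zero hA hW y
  have h3 : ∀ c, Gi A W y c b = Gr A W c b - Gr A W c y * (Gr A W y b / Gr A W y y) := by
    intro c
    rw [Gi, gw]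
    ring
  simp only [h3]
  have h4 : ∑ c, (A a c : ℂ) * (Gr A W c b - Gr A W c y * (Gr A W y b / Gr A W y y)) =
      ∑ c, (A a c : ℂ) * Gr A W c b -
        (∑ c, (A a c : ℂ) * Gr A W c y) * (Gr A W y b / Gr A W y y) := by
    rw [Finset.sum_mul, ← Finset.sum_sub_distrib]
    exact Finset.sum_congr rfl fun c _ => by ring
  rw [h4]
  linear_combination (-(Gr A W y b / Gr A W y y)) * h2

/-- **the Green function with `y` removed is the one of the graph with `y` disconnected** -/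
theorem Gr_dl (hA : A.IsSymm) (hW : ∀ x, (W x).im < 0) {y b : ι} (hb : b ≠ y) (a : ι) :
    Gr (dl A y) W a b = Gi A W y a b := by
  have hA' := dl_symm hA y
  -- the candidate column
  have hcol : (Kmat (dl A y) W).mulVec (fun c => Gi A W y c b) = Pi.single b 1 := by
    funext a
    rw [Kmat_mulVec]
    by_cases ha : a = y
    · subst ha
      rw [Gi_left hA hW, mul_zero, add_zero, Pi.single_eq_of_ne (Ne.symm hb)]
      refine Finset.sum_eq_zero fun c _ => ?_
      simp [dl]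
    · have h1 : ∑ c, ((dl A y a c : ℝ) : ℂ) * Gi A W y c b = ∑ c, (A a c : ℂ) * Gi A W y c b := by
        refine Finset.sum_congr rfl fun c _ => ?_
        by_cases hc : c = y
        · subst hc
          rw [Gi_left hA hW, mul_zero, mul_zero]
        · simp [dl, ha, hc]
      rw [h1, Kmat_mulVec_Gi hA hW ha hb]
      by_cases hab : a = b
      · subst hab
        simp
      · rw [if_neg hab, Pi.single_eq_of_ne hab]
  have hK : Gr (dl A y) W * Kmat (dl A y) W = 1 :=
    Matrix.nonsing_inv_mul _ (isUnit_iff_ne_zero.2 (det_ne_zero hA' hW))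
  have h2 : (Gr (dl A y) W).mulVec ((Kmat (dl A y) W).mulVec (fun c => Gi A W y c b)) =
      fun c => Gi A W y c b := by
    rw [Matrix.mulVec_mulVec, hK, Matrix.one_mulVec]
  rw [hcol] at h2
  have h3 := congrFun h2 a
  rw [Matrix.mulVec_single_one] at h3
  exact h3

/-- `|G_kl|² ≤ |G_kk| (|G_ll| + |G_ll^{(k)}|)` -/
theorem norm_Gr_sq_le (hA : A.IsSymm) (hW : ∀ x, (W x).im < 0) (k l : ι) :
    ‖Gr A W k l‖ ^ 2 ≤ ‖Gr A W k k‖ * (‖Gr A W l l‖ + ‖Gi A W k l l‖) := by
  have h0 := Gr_self_ne_zero hA hW k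
  have h1 : Gr A W k l ^ 2 = Gr A W k k * (Gr A W l l - Gi A W k l l) := by
    rw [Gi, gw, Gr_symm hA l k]
    field_simp
    ring
  rw [← norm_pow, h1, norm_mul]
  exact mul_le_mul_of_nonneg_left (norm_sub_le _ _) (norm_nonneg _)

theorem norm_Gr_le {L : ℝ} (hA : A.IsSymm) (hW : ∀ x, (W x).im < 0) (k l : ι)
    (hL : 0 ≤ L) (h1 : ‖Gr A W k k‖ ≤ L) (h2 : ‖Gr A W l l‖ ≤ L) (h3 : k ≠ l → ‖Gi A W k l l‖ ≤ L) :
    ‖Gr A W k l‖ ≤ 2 * L := by
  by_cases hkl : k = l
  · subst hkl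
    linarith
  · have h4 := norm_Gr_sq_le hA hW k l
    have h5 := h3 hkl
    have h6 : ‖Gr A W k l‖ ^ 2 ≤ (2 * L) ^ 2 := by
      calc ‖Gr A W k l‖ ^ 2 ≤ ‖Gr A W k k‖ * (‖Gr A W l l‖ + ‖Gi A W k l l‖) := h4
        _ ≤ L * (L + L) := by gcongr
        _ ≤ (2 * L) ^ 2 := by nlinarith [sq_nonneg L]
    exact le_of_sq_le_sq h6 (by linarith)

end alg

/-! ### slices -/

section slices

variable {ι : Type*} [Fintype ι] [DecidableEq ι] {B : Matrix ι ι ℝ} {E : ℝ} {e : ι → ℝ}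

theorem WV_neg (he : ∀ x, 0 < e x) (V : ι → ℝ) (x : ι) : (WV E e V x).im < 0 := by
  simp only [WV, Complex.sub_im, Complex.ofReal_im, Complex.mul_im, Complex.ofReal_re, Complex.I_im,
    mul_one, Complex.I_re, mul_zero, add_zero, zero_sub, Left.neg_neg_iff]
  exact he x

theorem WV_update (V : ι → ℝ) (k : ι) (t : ℝ) :
    WV E e (update V k t) = update (WV E e V) k (((t - E : ℝ) : ℂ) - (e k : ℂ) * I) := by
  funext x
  by_cases hx : x = k
  · subst hx
    simp [WV]
  · simp [WV, hx]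

theorem measurable_WV (x : ι) : Measurable fun V : ι → ℝ => WV E e V x := by
  unfold WV
  refine Measurable.sub (Complex.measurable_ofReal.comp ?_) measurable_const
  exact (measurable_pi_apply x).sub measurable_const

theorem measurable_GrWV (a b : ι) : Measurable fun V : ι → ℝ => Gr B (WV E e V) a b :=
  measurable_Gr _ (fun x => measurable_WV x) a b

theorem measurable_GiWV (y a b : ι) : Measurable fun V : ι → ℝ => Gi B (WV E e V) y a b := by
  unfold Gi gw
  exact (measurable_GrWV a b).sub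
    (((measurable_GrWV a y).div (measurable_GrWV y y)).mul (measurable_GrWV y b))

theorem volume_near {s : ℂ} {c L : ℝ} (hL : 0 < L) :
    volume {t : ℝ | L < ‖((((t - E : ℝ) : ℂ) - (c : ℂ) * I) - s)⁻¹‖} ≤ ENNReal.ofReal (2 / L) := by
  have h1 : {t : ℝ | L < ‖((((t - E : ℝ) : ℂ) - (c : ℂ) * I) - s)⁻¹‖} ⊆
      Set.Ioo (E + s.re - 1 / L) (E + s.re + 1 / L) := by
    intro t ht
    simp only [Set.mem_setOf_eq, norm_inv] at ht
    have h2 : 0 < ‖(((t - E : ℝ) : ℂ) - (c : ℂ) * I) - s‖ := by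
      rcases (norm_nonneg ((((t - E : ℝ) : ℂ) - (c : ℂ) * I) - s)).eq_or_lt with h | h
      · rw [← h, _root_.inv_zero] at ht
        linarith
      · exact h
    have h3 : ‖(((t - E : ℝ) : ℂ) - (c : ℂ) * I) - s‖ < 1 / L := by
      rw [lt_div_iff₀ hL]
      rw [lt_inv_comm₀ hL h2] at ht
      calc _ < L⁻¹ * L := mul_lt_mul_of_pos_right ht hL
        _ = 1 := inv_mul_cancel₀ hL.ne'
    have h4 := (Complex.abs_re_le_norm ((((t - E : ℝ) : ℂ) - (c : ℂ) * I) - s)).trans_lt h3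
    have h5 : ((((t - E : ℝ) : ℂ) - (c : ℂ) * I) - s).re = t - E - s.re := by simp
    rw [h5, abs_lt] at h4
    constructor <;> linarith [h4.1, h4.2]
  refine (measure_mono h1).trans ?_
  rw [Real.volume_Ioo]
  refine ENNReal.ofReal_le_ofReal (le_of_eq ?_)
  ring

/-- `{V | L < |G_kk|}` -/
def res (B : Matrix ι ι ℝ) (E : ℝ) (e : ι → ℝ) (L : ℝ) (k : ι) : Set (ι → ℝ) :=
  {V | L < ‖Gr B (WV E e V) k k‖}

/-- `{V | L < |G_ll^{(k)}|}` -/
def res2 (B : Matrix ι ι ℝ) (E : ℝ) (e : ι → ℝ) (L : ℝ) (k l : ι) : Set (ι → ℝ) :=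
  {V | L < ‖Gi B (WV E e V) k l l‖}

theorem measurableSet_res (L : ℝ) (k : ι) : MeasurableSet (res B E e L k) :=
  measurableSet_lt measurable_const (measurable_GrWV k k).norm

theorem measurableSet_res2 (L : ℝ) (k l : ι) : MeasurableSet (res2 B E e L k l) :=
  measurableSet_lt measurable_const (measurable_GiWV k l l).norm

theorem Gr_update_k (hB : B.IsSymm) (he : ∀ x, 0 < e x) (V : ι → ℝ) (k : ι) (t : ℝ) :
    Gr B (WV E e (update V k t)) k k =
      ((((t - E : ℝ) : ℂ) - (e k : ℂ) * I) - sg B (WV E e V) k)⁻¹ := by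
  rw [WV_update, Gr_zz_upd hB (WV_neg he V)]
  simpa using he k

theorem Gi_update_l (hB : B.IsSymm) (he : ∀ x, 0 < e x) (V : ι → ℝ) {k l : ι} (hkl : k ≠ l)
    (t : ℝ) : Gi B (WV E e (update V l t)) k l l =
      ((((t - E : ℝ) : ℂ) - (e l : ℂ) * I) - sgy B (WV E e V) k l)⁻¹ := by
  have hv : (((t - E : ℝ) : ℂ) - (e l : ℂ) * I).im < 0 := by simpa using he l
  rw [Gi_self_eq hB (WV_neg he _) hkl, WV_update, sgy_upd hB (WV_neg he V) hv, update_self]

/-- **slice of `{L < |G_kk|}` in direction `k`** -/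
theorem volume_res_le (hB : B.IsSymm) (he : ∀ x, 0 < e x) {L : ℝ} (hL : 0 < L) (k : ι)
    (V : ι → ℝ) : volume {t : ℝ | update V k t ∈ res B E e L k} ≤ ENNReal.ofReal (2 / L) := by
  have h1 : {t : ℝ | update V k t ∈ res B E e L k} =
      {t : ℝ | L < ‖((((t - E : ℝ) : ℂ) - (e k : ℂ) * I) - sg B (WV E e V) k)⁻¹‖} := by
    ext t
    simp only [res, Set.mem_setOf_eq, Gr_update_k hB he]
  rw [h1]
  exact volume_near hL

/-- **slice of `{L < |G_ll^{(k)}|}` in direction `l`** -/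
theorem volume_res2_le (hB : B.IsSymm) (he : ∀ x, 0 < e x) {L : ℝ} (hL : 0 < L) {k l : ι}
    (hkl : k ≠ l) (V : ι → ℝ) :
    volume {t : ℝ | update V l t ∈ res2 B E e L k l} ≤ ENNReal.ofReal (2 / L) := by
  have h1 : {t : ℝ | update V l t ∈ res2 B E e L k l} =
      {t : ℝ | L < ‖((((t - E : ℝ) : ℂ) - (e l : ℂ) * I) - sgy B (WV E e V) k l)⁻¹‖} := by
    ext t
    simp only [res2, Set.mem_setOf_eq, Gi_update_l hB he V hkl]
  rw [h1]
  exact volume_near hL

/-- the Green function with `k` removed does not see `V k` -/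
theorem mem_res2_update_k (hB : B.IsSymm) (he : ∀ x, 0 < e x) (L : ℝ) (k l : ι) (V : ι → ℝ)
    (t : ℝ) : update V k t ∈ res2 B E e L k l ↔ V ∈ res2 B E e L k l := by
  have hv : (((t - E : ℝ) : ℂ) - (e k : ℂ) * I).im < 0 := by simpa using he k
  simp only [res2, Set.mem_setOf_eq, WV_update, Gi_upd hB (WV_neg he V) hv]

/-- some port entry exceeds `2 L` -/
def resAll (B : Matrix ι ι ℝ) (E : ℝ) (e : ι → ℝ) (L : ℝ) (d : Finset ι) : Set (ι → ℝ) :=
  {V | ∃ k ∈ d, ∃ l ∈ d, 2 * L < ‖Gr B (WV E e V) k l‖}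

theorem measurableSet_resAll (L : ℝ) (d : Finset ι) : MeasurableSet (resAll B E e L d) := by
  have h : resAll B E e L d = ⋃ k ∈ d, ⋃ l ∈ d, {V | 2 * L < ‖Gr B (WV E e V) k l‖} := by
    ext V
    simp [resAll]
  rw [h]
  refine Finset.measurableSet_biUnion _ fun k _ => Finset.measurableSet_biUnion _ fun l _ => ?_
  exact measurableSet_lt measurable_const (measurable_GrWV k l).norm

/-- one-variable events which cover `resAll`: the event of `l` is `res l ∪ ⋃_{k ≠ l} res2 k l` -/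
def resL (B : Matrix ι ι ℝ) (E : ℝ) (e : ι → ℝ) (L : ℝ) (d : Finset ι) (l : ι) :
    Set (ι → ℝ) := res B E e L l ∪ ⋃ k ∈ d.erase l, res2 B E e L k l

theorem measurableSet_resL (L : ℝ) (d : Finset ι) (l : ι) : MeasurableSet (resL B E e L d l) :=
  (measurableSet_res L l).union
    (Finset.measurableSet_biUnion _ fun k _ => measurableSet_res2 L k l)

theorem resAll_subset (hB : B.IsSymm) (he : ∀ x, 0 < e x) {L : ℝ} (hL : 0 ≤ L) (d : Finset ι) :
    resAll B E e L d ⊆ ⋃ l ∈ d, resL B E e L d l := by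
  intro V hV
  by_contra hcon
  simp only [Set.mem_iUnion, not_exists] at hcon
  obtain ⟨k, hk, l, hl, hkl⟩ := hV
  have h1 : ‖Gr B (WV E e V) k k‖ ≤ L := by
    by_contra h
    exact hcon k hk (Or.inl (not_le.1 h))
  have h2 : ‖Gr B (WV E e V) l l‖ ≤ L := by
    by_contra h
    exact hcon l hl (Or.inl (not_le.1 h))
  have h3 : k ≠ l → ‖Gi B (WV E e V) k l l‖ ≤ L := by
    intro hne
    by_contra h
    refine hcon l hl (Or.inr ?_)
    simp only [Set.mem_iUnion]
    exact ⟨k, Finset.mem_erase.2 ⟨hne, hk⟩, not_le.1 h⟩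
  exact absurd hkl (not_lt.2 (norm_Gr_le hB (WV_neg he V) k l hL h1 h2 h3))

theorem volume_resL_le (hB : B.IsSymm) (he : ∀ x, 0 < e x) {L : ℝ} (hL : 0 < L) {d : Finset ι}
    {l : ι} (hl : l ∈ d) (V : ι → ℝ) :
    volume {t : ℝ | update V l t ∈ resL B E e L d l} ≤
      ENNReal.ofReal ((d.card : ℝ) * (2 / L)) := by
  have h1 : {t : ℝ | update V l t ∈ resL B E e L d l} =
      {t : ℝ | update V l t ∈ res B E e L l} ∪
        ⋃ k ∈ d.erase l, {t : ℝ | update V l t ∈ res2 B E e L k l} := by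
    ext t
    simp [resL]
  rw [h1]
  refine (measure_union_le _ _).trans ?_
  have h2 : volume (⋃ k ∈ d.erase l, {t : ℝ | update V l t ∈ res2 B E e L k l}) ≤
      ∑ k ∈ d.erase l, ENNReal.ofReal (2 / L) :=
    (measure_biUnion_finset_le _ _).trans (Finset.sum_le_sum fun k hk =>
      volume_res2_le hB he hL (Finset.ne_of_mem_erase hk) V)
  refine (add_le_add (volume_res_le hB he hL l V) h2).trans (le_of_eq ?_)
  rw [Finset.sum_const, Finset.card_erase_of_mem hl, nsmul_eq_mul]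
  have h3 : 1 ≤ d.card := Finset.card_pos.2 ⟨l, hl⟩
  have h4 : (((d.card - 1 : ℕ) : ℝ≥0∞)) = ENNReal.ofReal ((d.card : ℝ) - 1) := by
    rw [← ENNReal.ofReal_natCast]
    congr 1
    push_cast [Nat.cast_sub h3]
    ring
  have h5 : (1 : ℝ) ≤ d.card := by exact_mod_cast h3
  rw [h4, ← ENNReal.ofReal_mul (by linarith), ← ENNReal.ofReal_add (by positivity)
    (mul_nonneg (by linarith) (by positivity))]
  congr 1
  ring

end slices

/-! ### the good exterior -/

section ext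

variable {ι : Type*} [Fintype ι] [DecidableEq ι] {B : Matrix ι ι ℝ} {E : ℝ} {e : ι → ℝ}
  (μ : ι → Measure ℝ) [∀ i, IsProbabilityMeasure (μ i)]

open P365T1.Bad

/-- the exceptional event of the port `l ∉ Q` : the resonance of `l` has conditional probability
`≥ θ` when the coordinates of `Q` are resampled -/
noncomputable def badL (Q : Finset ι) (B : Matrix ι ι ℝ) (E : ℝ) (e : ι → ℝ) (L : ℝ)
    (d : Finset ι) (θ : ℝ≥0∞) (l : ι) : Set (ι → ℝ) := badSet μ Q (resL B E e L d l) θ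

theorem measurableSet_badL (Q : Finset ι) (L : ℝ) (d : Finset ι) (θ : ℝ≥0∞) (l : ι) :
    MeasurableSet (badL μ Q B E e L d θ l) :=
  measurableSet_badSet μ Q (measurableSet_resL L d l) θ

theorem mem_badL_congr {Q : Finset ι} {L : ℝ} {d : Finset ι} {θ : ℝ≥0∞} {l : ι} {V V' : ι → ℝ}
    (h : ∀ i ∉ Q, V i = V' i) : V ∈ badL μ Q B E e L d θ l ↔ V' ∈ badL μ Q B E e L d θ l :=
  mem_badSet_congr μ h

/-- slices of the exceptional events -/
theorem volume_badL_le (hB : B.IsSymm) (he : ∀ x, 0 < e x) {L : ℝ} (hL : 0 < L) {Q d : Finset ι}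
    {l : ι} (hl : l ∈ d) (hlQ : l ∉ Q) {θ : ℝ≥0∞} (h0 : θ ≠ 0) (h1 : θ ≠ ⊤) (V : ι → ℝ) :
    volume {t : ℝ | update V l t ∈ badL μ Q B E e L d θ l} ≤
      ENNReal.ofReal ((d.card : ℝ) * (2 / L)) / θ :=
  volume_badSet_le μ (measurableSet_resL L d l) hlQ (fun V => volume_resL_le hB he hL hl V) h0 h1 V

/-- **good exterior**: off the exceptional events of the ports outside `Q`, all port entries are at
most `2 L` with conditional probability close to one.  `K` bounds the densities of the ports in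
`Q`. -/
theorem cp_resAll_le (hB : B.IsSymm) (he : ∀ x, 0 < e x) {L : ℝ} (hL : 0 < L) (Q d : Finset ι)
    {θ : ℝ≥0∞} {K : ℝ} (hK0 : 0 ≤ K) (hK : ∀ l ∈ d, l ∈ Q → DensLe K (μ l)) {V : ι → ℝ}
    (hV : ∀ l ∈ d, l ∉ Q → V ∉ badL μ Q B E e L d θ l) :
    cp μ Q (resAll B E e L d) V ≤
      (d.card : ℝ≥0∞) * (θ + ENNReal.ofReal (K * ((d.card : ℝ) * (2 / L)))) := by
  refine (cp_mono μ (resAll_subset hB he hL.le d) V).trans ?_
  refine (cp_biUnion_le μ d _ (fun l _ => measurableSet_resL L d l) V).trans ?_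
  rw [← nsmul_eq_mul, ← Finset.sum_const]
  refine Finset.sum_le_sum fun l hl => ?_
  by_cases hlQ : l ∈ Q
  · refine (cp_le_of_slice μ (measurableSet_resL L d l) hlQ (r := ENNReal.ofReal
      (K * ((d.card : ℝ) * (2 / L)))) (fun V => ?_) V).trans le_add_self
    have h1 := hK l hl hlQ {t : ℝ | update V l t ∈ resL B E e L d l}
    refine h1.trans ?_
    rw [Measure.smul_apply, smul_eq_mul, ENNReal.ofReal_mul hK0]
    gcongr
    exact volume_resL_le hB he hL hl V
  · have h2 := hV l hl hlQ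
    simp only [badL, badSet, Set.mem_setOf_eq, not_le] at h2
    exact h2.le.trans le_self_add

/-- the same with a numerical conclusion -/
theorem cp_resAll_le_of (hB : B.IsSymm) (he : ∀ x, 0 < e x) {L : ℝ} (hL : 0 < L) (Q d : Finset ι)
    {θ δ K n : ℝ} (hθ : 0 ≤ θ) (hn : (d.card : ℝ) ≤ n) (hK0 : 0 ≤ K)
    (hK : ∀ l ∈ d, l ∈ Q → DensLe K (μ l)) (hδ : n * (θ + K * (n * (2 / L))) ≤ δ) {V : ι → ℝ}
    (hV : ∀ l ∈ d, l ∉ Q → V ∉ badL μ Q B E e L d (ENNReal.ofReal θ) l) :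
    cp μ Q (resAll B E e L d) V ≤ ENNReal.ofReal δ := by
  refine (cp_resAll_le μ hB he hL Q d hK0 hK hV).trans ?_
  rw [← ENNReal.ofReal_add hθ (by positivity), ← ENNReal.ofReal_natCast,
    ← ENNReal.ofReal_mul (by positivity)]
  refine ENNReal.ofReal_le_ofReal (le_trans ?_ hδ)
  have hn0 : (0 : ℝ) ≤ n := le_trans (Nat.cast_nonneg _) hn
  gcongr

end ext

/-! ### the system with `y` removed -/

section removed

variable {ι : Type*} [Fintype ι] [DecidableEq ι] {A : Matrix ι ι ℝ} {E : ℝ} {e : ι → ℝ}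
  (μ : ι → Measure ℝ) [∀ i, IsProbabilityMeasure (μ i)]

open P365T1.Bad

/-- the Green function with `y` removed does not see `V y` -/
theorem Gr_dl_update_y (hA : A.IsSymm) (he : ∀ x, 0 < e x) {y b : ι} (hb : b ≠ y) (V : ι → ℝ)
    (t : ℝ) (a : ι) :
    Gr (dl A y) (WV E e (update V y t)) a b = Gr (dl A y) (WV E e V) a b := by
  have hv : (((t - E : ℝ) : ℂ) - (e y : ℂ) * I).im < 0 := by simpa using he y
  rw [Gr_dl hA (WV_neg he _) hb, Gr_dl hA (WV_neg he _) hb, WV_update, Gi_upd hA (WV_neg he V) hv]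

theorem mem_resL_update_y (hA : A.IsSymm) (he : ∀ x, 0 < e x) {y : ι} {L : ℝ} {d : Finset ι}
    (hy : y ∉ d) {l : ι} (hl : l ∈ d) (V : ι → ℝ) (t : ℝ) :
    update V y t ∈ resL (dl A y) E e L d l ↔ V ∈ resL (dl A y) E e L d l := by
  have hly : l ≠ y := fun h => hy (h ▸ hl)
  have h2 : ∀ k ∈ d.erase l, (update V y t ∈ res2 (dl A y) E e L k l ↔
      V ∈ res2 (dl A y) E e L k l) := by
    intro k hk
    have hky : k ≠ y := fun h => hy (h ▸ (Finset.mem_of_mem_erase hk))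
    simp only [res2, Set.mem_setOf_eq, Gi, gw, Gr_dl_update_y hA he hly, Gr_dl_update_y hA he hky]
  simp only [resL, Set.mem_union, Set.mem_iUnion, res, Set.mem_setOf_eq,
    Gr_dl_update_y hA he hly]
  constructor
  · rintro (h | ⟨k, hk, h⟩)
    · exact Or.inl h
    · exact Or.inr ⟨k, hk, (h2 k hk).1 h⟩
  · rintro (h | ⟨k, hk, h⟩)
    · exact Or.inl h
    · exact Or.inr ⟨k, hk, (h2 k hk).2 h⟩

theorem cp_update_of_inv {Q : Finset ι} {R : Set (ι → ℝ)} {y : ι}
    (h : ∀ (V : ι → ℝ) (t : ℝ), update V y t ∈ R ↔ V ∈ R) (V : ι → ℝ) (t : ℝ) :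
    cp μ Q R (update V y t) = cp μ Q R V := by
  by_cases hy : y ∈ Q
  · exact cp_update_of_mem μ hy V t
  · unfold cp lmarginal
    refine lintegral_congr fun z => ?_
    rw [updateFinset_update_comm hy]
    by_cases h1 : updateFinset V Q z ∈ R
    · rw [Set.indicator_of_mem h1, Set.indicator_of_mem ((h _ t).2 h1)]
      rfl
    · rw [Set.indicator_of_notMem h1, Set.indicator_of_notMem (fun h2 => h1 ((h _ t).1 h2))]

/-- the exceptional events of the system with `y` removed do not see `V y` -/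
theorem mem_badL_update_y (hA : A.IsSymm) (he : ∀ x, 0 < e x) {Q : Finset ι} {y : ι} {L : ℝ}
    {d : Finset ι} (hy : y ∉ d) {θ : ℝ≥0∞} {l : ι} (hl : l ∈ d) (V : ι → ℝ) (t : ℝ) :
    update V y t ∈ badL μ Q (dl A y) E e L d θ l ↔ V ∈ badL μ Q (dl A y) E e L d θ l := by
  simp only [badL, badSet, Set.mem_setOf_eq,
    cp_update_of_inv μ (fun V t => mem_resL_update_y hA he hy hl V t)]

/-- the port event of the system with `y` removed, in terms of `Gi` -/
theorem mem_resAll_dl (hA : A.IsSymm) (he : ∀ x, 0 < e x) {y : ι} {L : ℝ} {d : Finset ι}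
    (hy : y ∉ d) {V : ι → ℝ} :
    V ∈ resAll (dl A y) E e L d ↔ ∃ k ∈ d, ∃ l ∈ d, 2 * L < ‖Gi A (WV E e V) y k l‖ := by
  constructor
  · rintro ⟨k, hk, l, hl, h⟩
    have hly : l ≠ y := fun h => hy (h ▸ hl)
    exact ⟨k, hk, l, hl, by rwa [Gr_dl hA (WV_neg he _) hly] at h⟩
  · rintro ⟨k, hk, l, hl, h⟩
    have hly : l ≠ y := fun h => hy (h ▸ hl)
    exact ⟨k, hk, l, hl, by rwa [Gr_dl hA (WV_neg he _) hly]⟩

/-- **good exterior, `y` removed**: off the exceptional events of the ports `l ∈ d`, `l ∉ Q`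
(functions of the potential off `Q ∪ {y}`, with slices of length `≤ 2 |d| / (L θ)` in direction
`l`), all port entries of `G^{(y)}` are at most `2 L` with conditional probability `≥ 1 - δ` when
`Q` is resampled. -/
theorem cp_removed_le (hA : A.IsSymm) (he : ∀ x, 0 < e x) {y : ι} {L : ℝ} (hL : 0 < L)
    (Q : Finset ι) {d : Finset ι} (hy : y ∉ d) {θ δ K n : ℝ} (hθ : 0 ≤ θ)
    (hn : (d.card : ℝ) ≤ n) (hK0 : 0 ≤ K) (hK : ∀ l ∈ d, l ∈ Q → DensLe K (μ l))
    (hδ : n * (θ + K * (n * (2 / L))) ≤ δ) {V : ι → ℝ}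
    (hV : ∀ l ∈ d, l ∉ Q → V ∉ badL μ Q (dl A y) E e L d (ENNReal.ofReal θ) l) :
    cp μ Q {V | ∃ k ∈ d, ∃ l ∈ d, 2 * L < ‖Gi A (WV E e V) y k l‖} V ≤ ENNReal.ofReal δ := by
  have h := cp_resAll_le_of μ (dl_symm hA y) he hL Q d hθ hn hK0 hK hδ hV
  have h1 : {V : ι → ℝ | ∃ k ∈ d, ∃ l ∈ d, 2 * L < ‖Gi A (WV E e V) y k l‖} =
      resAll (dl A y) E e L d := by
    ext V
    exact (mem_resAll_dl hA he hy).symm
  rw [h1]
  exact h

end removed

end P365T1.Res
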