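import Vale.Agent.P365.J376.V3Main
import Vale.Agent.P365.T1.Seq795

/-!
# P365-T1, block E5: the sum of the logarithmic times for the closed formulas.
-/

set_option linter.all false

namespace P365T1.Seq

open Real Filter Topology

/-- **the sum of the logarithmic times**, uniformly in the number of families -/
theorem exists_hsum (K : ℝ) {c : ℝ} (hc : 0 < c) :
    ∃ R, 2 ≤ R ∧ ∀ rs, R ≤ rs → ∀ (I : ℕ) (Ca : ℝ) (ηc ηb : ℕ → ℝ), 0 ≤ Ca →
      (∀ i, 0 ≤ ηc i) → (∀ i, 0 ≤ ηb i) →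
      (∀ i, ηc i + ηb i ≤ K * Real.exp (-(c * rr rs i))) →
      10 * Real.log (1 / tS rs I 0) + ∑ i ∈ Finset.range (I + 1),
        Ca * (ηc i + ηb i) * Real.log (1 / tS rs I (i + 1)) ≤
          10 * (4 + (rs : ℝ) + (rs : ℝ) ^ 5) + 2 * Ca := by
  have h1 : ∀ᶠ r : ℕ in atTop, K * (r : ℝ) ^ 22 * Real.exp (-(c * r)) ≤ 1 :=
    ev_pow_exp_le K 22 hc one_pos
  have h2 : ∀ᶠ r : ℕ in atTop, K * 3 * (r : ℝ) ^ 20 * Real.exp (-(c * r)) ≤ 1 :=
    ev_pow_exp_le (K * 3) 20 hc one_pos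
  obtain ⟨R, hR2, hR⟩ := exists_rs (h1.and (h2.and (eventually_ge_atTop 4)))
  refine ⟨R, hR2, fun rs hrs I Ca ηc ηb hCa hηc hηb hη => ?_⟩
  have hrs2 : 2 ≤ rs := hR2.trans hrs
  have h4 : (4 : ℝ) ≤ (rr rs 0 : ℝ) := by exact_mod_cast (hR rs hrs 0).2.2
  have hpos : ∀ i, (0 : ℝ) < rr rs i := fun i => by
    have := two_le_cast_rr hrs2 i
    linarith
  refine Vale.Agent.P365.J376.hsum_of (A := 3) (B := 4 + (rs : ℝ) + (rs : ℝ) ^ 5) (c := 5) (I := I)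
    (r := fun i => (rr rs i : ℝ)) (ηc := ηc) (ηb := ηb) (t := tS rs I) hCa (by norm_num)
    (by linarith) (by rw [abs_of_pos (by norm_num : (0 : ℝ) < 3)]; linarith)
    (fun i => rr_succ_cast rs i) hηc hηb ?_ (log_inv_t_zero rs I) ?_ ?_
  · intro i
    refine (hη i).trans ?_
    have h5 := (hR rs hrs i).1
    rw [le_div_iff₀ (pow_pos (hpos i) _)]
    calc K * Real.exp (-(c * (rr rs i : ℝ))) * (rr rs i : ℝ) ^ (4 * 5 + 2)
        = K * (rr rs i : ℝ) ^ 22 * Real.exp (-(c * (rr rs i : ℝ))) := by ring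
      _ ≤ 1 := h5
  · intro i hi
    have h5 := log_inv_t hrs2 (show i ≤ I by omega)
    rw [pow20]
    exact h5
  · have h5 := log_inv_t hrs2 (le_refl I)
    have h6 := (hR rs hrs I).2.1
    have h7 : 0 ≤ ηc I + ηb I := add_nonneg (hηc I) (hηb I)
    calc (ηc I + ηb I) * Real.log (1 / tS rs I (I + 1))
        ≤ (ηc I + ηb I) * (3 * (rr rs I : ℝ) ^ 20) := mul_le_mul_of_nonneg_left h5 h7
      _ ≤ (K * Real.exp (-(c * rr rs I))) * (3 * (rr rs I : ℝ) ^ 20) :=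
          mul_le_mul_of_nonneg_right (hη I) (by positivity)
      _ = K * 3 * (rr rs I : ℝ) ^ 20 * Real.exp (-(c * rr rs I)) := by ring
      _ ≤ 1 := h6

end P365T1.Seq
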