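import Vale.Agent.P365.T1.ConcDD755
import Vale.Agent.P365.T1.LabAdm37
import Vale.Agent.P365.ISL.RowT77

/-!
# P365-T1: the shield data for all radii, window laws
-/

set_option linter.all false

namespace P365T1.Conc

open P365L P365L.TL P365SH Vale.Agent.P365.C937 Vale.Agent.P365.J376 MeasureTheory P365T1.Seq Set
open P365T1.Link P365T1.Bump P365T1.Lab37
open scoped ENNReal

/-- **shield data for all radii** -/
theorem shield_data {lam E : ℝ} (hlam : 0 < lam) (hE : |E| < 4 + lam) :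
    ∃ (κ lam' : ℝ) (ms R0 r0 : ℕ) (Vsf : ℕ → ℤ × ℤ → ℝ) (yf : ℕ → ℤ × ℤ),
      0 < κ ∧ κ < 1 ∧ 0 < lam' ∧ lam' < lam ∧ 2 ≤ r0 ∧ (∀ r z, |Vsf r z| ≤ lam') ∧
      ∀ r, r0 ≤ r → ∃ hy : yf r ∈ Xr r, |(yf r).1| < r ∧ |(yf r).2| < r ∧
        CellGood E lam' κ ms R0 r (Vsf r) ⟨yf r, hy⟩ := by
  obtain ⟨κ, lam', ms, R0, r0, h1, h2, h3, h4, h⟩ := exists_cellGood hlam hE
  have key : ∀ r : ℕ, ∃ (Vs : ℤ × ℤ → ℝ) (y : ℤ × ℤ), (∀ z, |Vs z| ≤ lam') ∧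
      (max (max r0 R0) 2 ≤ r → ∃ hy : y ∈ Xr r, |y.1| < r ∧ |y.2| < r ∧
        CellGood E lam' κ ms R0 r Vs ⟨y, hy⟩) := by
    intro r
    by_cases hr : max (max r0 R0) 2 ≤ r
    · have hr0 : r0 ≤ r := (le_max_left _ _).trans ((le_max_left _ _).trans hr)
      have hR0 : R0 ≤ r := (le_max_right _ _).trans ((le_max_left _ _).trans hr)
      obtain ⟨Vs, y, hG⟩ := h r hr0
      refine ⟨Vs, y, hG.Vs_le, fun _ => ⟨y.2, ?_, ?_, hG⟩⟩
      · exact hG.y1.trans_le (by exact_mod_cast hR0)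
      · exact hG.y2.trans_le (by exact_mod_cast hR0)
    · refine ⟨fun _ => 0, 0, fun z => by simpa using h3.le, fun h' => absurd h' hr⟩
  choose Vsf yf hV hy using key
  exact ⟨κ, lam', ms, R0, max (max r0 R0) 2, Vsf, yf, h1, h2, h3, h4, le_max_right _ _, hV,
    fun r hr => hy r hr⟩

/-- the law of a window label -/
theorem nuT_win {P : Par} (lam τ : ℝ) (q : Fin (P.I + 1) ⊕ P.Wn → ℝ) (c w : P.Wn → ℝ)
    (a : P.Wn) : nuT lam τ q c w (P.win a) = nuB (c a) (w a) := rfl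

/-- **the cells of the chain with 37's laws** -/
theorem cellIn_nuT {yf : ℕ → ℤ × ℤ} {rs I : ℕ} (hrs : 2 ≤ rs)
    (hy : ∀ r, rs ≤ r → |(yf r).1| < r ∧ |(yf r).2| < r)
    {p : (PP yf rs I).Lb → ℝ} {Vsf : ℕ → ℤ × ℤ → ℝ} {lam τ : ℝ} {i : ℕ} (hi : i ≤ I) :
    CellIn (DD p (nuT lam τ (qC (PP yf rs I)) (fun a => Vsf (rr rs a.1) a.2)
      (wC (PP yf rs I)))) i (rr rs i) (4 * rr rs i, 4 * rr rs i) (yf (rr rs i))
      (Vsf (rr rs i)) (Real.exp (-(rr rs i : ℝ))) :=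
  cellIn_DD (w := fun i => Real.exp (-(rr rs i : ℝ))) hrs hy hi (Real.exp_pos _)
    fun z => nuT_win lam τ _ _ _ _

end P365T1.Conc
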