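import Vale.Agent.P365.T1.Defs

/-!
# P365 T1 (helper556): geodesics and tubes in local coordinates

`d1` = graph distance of `ℤ²` in local coordinates, `dS S0 a` = distance to the finite set `S0`,
`geo s x j` = the `j`-th point of a geodesic from `x` to `s`.
`tubeT`, `tubeQ` : neighbourhoods of the geodesic from `x` to the nearest point of `S0`; at most `30`
sites of the tube are further from `S0` than `x`, and they are at distance at most `dS S0 x + 1`.
-/

set_option autoImplicit false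
set_option linter.all false

open Finset

namespace P365T1.Tube

/-- graph distance -/
def d1 (a b : Loc) : ℕ := (a.1 - b.1) + (b.1 - a.1) + ((a.2 - b.2) + (b.2 - a.2))

theorem d1_self (a : Loc) : d1 a a = 0 := by simp [d1]

theorem d1_comm (a b : Loc) : d1 a b = d1 b a := by simp only [d1]; omega

theorem d1_tri (a b c : Loc) : d1 a c ≤ d1 a b + d1 b c := by simp only [d1]; omega

theorem d1_eq_zero {a b : Loc} (h : d1 a b = 0) : a = b := by
  obtain ⟨a1, a2⟩ := a
  obtain ⟨b1, b2⟩ := b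
  simp only [d1] at h
  simp only [Prod.mk.injEq]
  omega

theorem adj2_eq_one_iff (a b : Loc) : adj2 a b = 1 ↔ d1 a b = 1 := by
  obtain ⟨a1, a2⟩ := a
  obtain ⟨b1, b2⟩ := b
  simp only [adj2, d1]
  split_ifs with h
  · simp only [true_iff]; omega
  · simp only [zero_ne_one, false_iff]; omega

theorem adj2_eq_zero_of_ne {a b : Loc} (h : d1 a b ≠ 1) : adj2 a b = 0 := by
  by_contra h0
  have h1 : adj2 a b = 1 := by
    simp only [adj2] at h0 ⊢
    split_ifs at h0 ⊢ with h2
    · rfl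
    · exact absurd rfl h0
  exact h ((adj2_eq_one_iff a b).1 h1)

/-- distance to a finite set -/
noncomputable def dS (S0 : Finset Loc) (a : Loc) : ℕ := sInf {n | ∃ s ∈ S0, d1 a s = n}

variable {S0 : Finset Loc}

theorem dS_le {a s : Loc} (hs : s ∈ S0) : dS S0 a ≤ d1 a s :=
  Nat.sInf_le ⟨s, hs, rfl⟩

theorem exists_dS (h0 : S0.Nonempty) (a : Loc) : ∃ s ∈ S0, d1 a s = dS S0 a := by
  have hne : {n | ∃ s ∈ S0, d1 a s = n}.Nonempty := by
    obtain ⟨s, hs⟩ := h0
    exact ⟨_, s, hs, rfl⟩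
  exact Nat.sInf_mem hne

theorem dS_lip (h0 : S0.Nonempty) (a b : Loc) : dS S0 a ≤ dS S0 b + d1 a b := by
  obtain ⟨s, hs, h⟩ := exists_dS h0 b
  have h1 := dS_le (a := a) hs
  have h2 := d1_tri a b s
  omega

theorem dS_eq_zero_iff (h0 : S0.Nonempty) (a : Loc) : dS S0 a = 0 ↔ a ∈ S0 := by
  constructor
  · intro h
    obtain ⟨s, hs, h1⟩ := exists_dS h0 a
    rw [h] at h1
    rwa [d1_eq_zero h1]
  · intro h
    have := dS_le (a := a) h
    rw [d1_self] at this
    omega

/-- one step towards `s` -/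
def stp (s a : Loc) : Loc :=
  if a.1 < s.1 then (a.1 + 1, a.2) else if s.1 < a.1 then (a.1 - 1, a.2)
  else if a.2 < s.2 then (a.1, a.2 + 1) else if s.2 < a.2 then (a.1, a.2 - 1) else a

theorem d1_stp (s a : Loc) : d1 (stp s a) s = d1 a s - 1 := by
  simp only [stp]
  split_ifs <;> simp only [d1] <;> omega

theorem d1_self_stp (s a : Loc) : d1 a (stp s a) = min 1 (d1 a s) := by
  simp only [stp]
  split_ifs <;> simp only [d1] <;> omega

/-- a geodesic from `x` to `s` -/
def geo (s x : Loc) (j : ℕ) : Loc := (stp s)^[j] x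

theorem geo_zero (s x : Loc) : geo s x 0 = x := rfl

theorem geo_succ (s x : Loc) (j : ℕ) : geo s x (j + 1) = stp s (geo s x j) :=
  Function.iterate_succ_apply' _ _ _

theorem d1_geo (s x : Loc) (j : ℕ) : d1 (geo s x j) s = d1 x s - j := by
  induction j with
  | zero => simp [geo_zero]
  | succ j ih => rw [geo_succ, d1_stp, ih]; omega

theorem geo_end (s x : Loc) : geo s x (d1 x s) = s :=
  d1_eq_zero (by rw [d1_geo]; omega)

theorem d1_geo_succ (s x : Loc) {j : ℕ} (hj : j < d1 x s) :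
    d1 (geo s x j) (geo s x (j + 1)) = 1 := by
  rw [geo_succ, d1_self_stp, d1_geo]; omega

theorem d1_geo_le (s x : Loc) (i j : ℕ) (hij : i ≤ j) :
    d1 (geo s x i) (geo s x j) ≤ j - i := by
  induction j with
  | zero =>
    have : i = 0 := by omega
    subst this; simp [d1_self]
  | succ j ih =>
    rcases Nat.lt_or_ge i (j + 1) with h | h
    · have h1 := ih (by omega)
      have h2 := d1_tri (geo s x i) (geo s x j) (geo s x (j + 1))
      have h3 : d1 (geo s x j) (geo s x (j + 1)) ≤ 1 := by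
        rw [geo_succ, d1_self_stp]; omega
      omega
    · have : i = j + 1 := by omega
      subst this; simp [d1_self]

theorem d1_geo_geo (s x : Loc) {i j : ℕ} (hij : i ≤ j) (hj : j ≤ d1 x s) :
    d1 (geo s x i) (geo s x j) = j - i := by
  refine le_antisymm (d1_geo_le s x i j hij) ?_
  have h1 := d1_tri (geo s x i) (geo s x j) s
  rw [d1_geo, d1_geo] at h1
  omega

/-- the distance to `S0` along the geodesic to a nearest point -/
theorem dS_geo (h0 : S0.Nonempty) {s x : Loc} (hs : s ∈ S0) (hx : d1 x s = dS S0 x) {j : ℕ}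
    (hj : j ≤ d1 x s) : dS S0 (geo s x j) = dS S0 x - j := by
  refine le_antisymm ?_ ?_
  · have := dS_le (a := geo s x j) hs
    rw [d1_geo] at this
    omega
  · have h1 := dS_lip h0 x (geo s x j)
    have h2 := d1_geo_geo s x (Nat.zero_le j) hj
    rw [geo_zero] at h2
    omega

/-- boxes are convex for the geodesics -/
theorem geo_mem_box {l1 u1 l2 u2 : ℕ} {s x : Loc}
    (hs : l1 ≤ s.1 ∧ s.1 ≤ u1 ∧ l2 ≤ s.2 ∧ s.2 ≤ u2)
    (hx : l1 ≤ x.1 ∧ x.1 ≤ u1 ∧ l2 ≤ x.2 ∧ x.2 ≤ u2) (j : ℕ) :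
    l1 ≤ (geo s x j).1 ∧ (geo s x j).1 ≤ u1 ∧ l2 ≤ (geo s x j).2 ∧ (geo s x j).2 ≤ u2 := by
  induction j with
  | zero => simpa [geo_zero] using hx
  | succ j ih =>
    rw [geo_succ]
    simp only [stp]
    split_ifs <;> (try simp only) <;> omega

theorem mem_dep {m k : ℕ} {a : Loc} :
    a ∈ dep m k ↔ k ≤ a.1 ∧ a.1 + k < m ∧ k ≤ a.2 ∧ a.2 + k < m := by
  simp only [dep, blk, mem_filter, mem_product, mem_range]
  omega

theorem geo_mem_dep {m k : ℕ} {s x : Loc} (hs : s ∈ dep m k) (hx : x ∈ dep m k) (j : ℕ) :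
    geo s x j ∈ dep m k := by
  rw [mem_dep] at *
  have := geo_mem_box (l1 := k) (u1 := m - 1 - k) (l2 := k) (u2 := m - 1 - k)
    (s := s) (x := x) (by omega) (by omega) j
  omega

theorem mem_dep_of_d1 {m k r : ℕ} {a b : Loc} (ha : a ∈ dep m (k + r)) (h : d1 a b ≤ r) :
    b ∈ dep m k := by
  rw [mem_dep] at *
  simp only [d1] at h
  omega

/-- balls -/
def ball (m r : ℕ) (a : Loc) : Finset Loc := (blk m).filter fun b => d1 a b ≤ r

theorem mem_ball {m r : ℕ} {a b : Loc} (ha : a ∈ dep m r) : b ∈ ball m r a ↔ d1 a b ≤ r := by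
  simp only [ball, mem_filter, and_iff_right_iff_imp]
  intro h
  have h1 := mem_dep_of_d1 (k := 0) (by simpa using ha) h
  rw [mem_dep] at h1
  simp only [blk, mem_product, mem_range]
  omega

theorem card_ball_one (m : ℕ) (a : Loc) : (ball m 1 a).card ≤ 5 := by
  obtain ⟨a1, a2⟩ := a
  have hsub : ball m 1 (a1, a2) ⊆
      {(a1, a2), (a1 + 1, a2), (a1 - 1, a2), (a1, a2 + 1), (a1, a2 - 1)} := by
    rintro ⟨b1, b2⟩ hb
    have hb2 : (a1 - b1) + (b1 - a1) + ((a2 - b2) + (b2 - a2)) ≤ 1 := (mem_filter.1 hb).2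
    clear hb
    simp only [mem_insert, mem_singleton, Prod.mk.injEq]
    omega
  exact (card_le_card hsub).trans card_le_five

theorem card_ball_two (m : ℕ) (a : Loc) : (ball m 2 a).card ≤ 25 := by
  obtain ⟨a1, a2⟩ := a
  have hsub : ball m 2 (a1, a2) ⊆ Icc (a1 - 2) (a1 + 2) ×ˢ Icc (a2 - 2) (a2 + 2) := by
    rintro ⟨b1, b2⟩ hb
    have hb2 : (a1 - b1) + (b1 - a1) + ((a2 - b2) + (b2 - a2)) ≤ 2 := (mem_filter.1 hb).2
    simp only [mem_product, mem_Icc]
    omega
  refine (card_le_card hsub).trans ?_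
  rw [card_product, Nat.card_Icc, Nat.card_Icc]
  have h1 : a1 + 2 + 1 - (a1 - 2) ≤ 5 := by omega
  have h2 : a2 + 2 + 1 - (a2 - 2) ≤ 5 := by omega
  calc _ ≤ 5 * 5 := Nat.mul_le_mul h1 h2
    _ = 25 := by norm_num

/-- the inner tube: `x` and the neighbours of the later points of the geodesic -/
def tubeT (m : ℕ) (s x : Loc) : Finset Loc :=
  insert x ((range (d1 x s)).biUnion fun j => ball m 1 (geo s x (j + 1)))

/-- the outer tube -/
def tubeQ (m : ℕ) (s x : Loc) : Finset Loc :=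
  ball m 1 x ∪ (range (d1 x s)).biUnion fun j => ball m 2 (geo s x (j + 1))

theorem card_tubeQ (m : ℕ) (s x : Loc) : (tubeQ m s x).card ≤ 25 * (d1 x s + 1) := by
  refine (card_union_le _ _).trans ?_
  have h1 := card_ball_one m x
  have h2 : ((range (d1 x s)).biUnion fun j => ball m 2 (geo s x (j + 1))).card ≤
      ∑ j ∈ range (d1 x s), 25 :=
    card_biUnion_le.trans (sum_le_sum fun j _ => card_ball_two m _)
  rw [sum_const, card_range, smul_eq_mul] at h2
  omega

section

variable {m : ℕ} {s x : Loc}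

theorem mem_tubeT (hx : x ∈ dep m 2) (hs : s ∈ dep m 2) {a : Loc} :
    a ∈ tubeT m s x ↔ a = x ∨ ∃ j, j < d1 x s ∧ d1 (geo s x (j + 1)) a ≤ 1 := by
  have hg : ∀ j, geo s x j ∈ dep m 1 := fun j => by
    have := geo_mem_dep hs hx j
    rw [mem_dep] at *
    omega
  simp only [tubeT, mem_insert, mem_biUnion, mem_range]
  constructor
  · rintro (h | ⟨j, hj, h⟩)
    · exact Or.inl h
    · exact Or.inr ⟨j, hj, (mem_ball (hg _)).1 h⟩
  · rintro (h | ⟨j, hj, h⟩)
    · exact Or.inl h
    · exact Or.inr ⟨j, hj, (mem_ball (hg _)).2 h⟩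

theorem mem_tubeQ (hx : x ∈ dep m 2) (hs : s ∈ dep m 2) {a : Loc} :
    a ∈ tubeQ m s x ↔ d1 x a ≤ 1 ∨ ∃ j, j < d1 x s ∧ d1 (geo s x (j + 1)) a ≤ 2 := by
  have hg : ∀ j, geo s x j ∈ dep m 2 := fun j => geo_mem_dep hs hx j
  have hx1 : x ∈ dep m 1 := by rw [mem_dep] at *; omega
  simp only [tubeQ, mem_union, mem_biUnion, mem_range]
  constructor
  · rintro (h | ⟨j, hj, h⟩)
    · exact Or.inl ((mem_ball hx1).1 h)
    · exact Or.inr ⟨j, hj, (mem_ball (hg _)).1 h⟩
  · rintro (h | ⟨j, hj, h⟩)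
    · exact Or.inl ((mem_ball hx1).2 h)
    · exact Or.inr ⟨j, hj, (mem_ball (hg _)).2 h⟩

theorem tubeQ_sub_blk (hx : x ∈ dep m 2) (hs : s ∈ dep m 2) : tubeQ m s x ⊆ dep m 0 := by
  intro a ha
  rcases (mem_tubeQ hx hs).1 ha with h | ⟨j, _, h⟩
  · exact mem_dep_of_d1 (r := 2) (by simpa using hx) (by omega)
  · exact mem_dep_of_d1 (r := 2) (by simpa using geo_mem_dep hs hx (j + 1)) h

theorem tubeT_sub_tubeQ (hx : x ∈ dep m 2) (hs : s ∈ dep m 2) : tubeT m s x ⊆ tubeQ m s x := by
  intro a ha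
  rw [mem_tubeQ hx hs]
  rcases (mem_tubeT hx hs).1 ha with h | ⟨j, hj, h⟩
  · subst h; left; rw [d1_self]; omega
  · right; exact ⟨j, hj, by omega⟩

/-- the neighbours of the inner tube are in the outer tube -/
theorem nb_tubeT (hx : x ∈ dep m 2) (hs : s ∈ dep m 2) {a b : Loc} (ha : a ∈ tubeT m s x)
    (hab : d1 a b ≤ 1) : b ∈ tubeQ m s x := by
  rw [mem_tubeQ hx hs]
  rcases (mem_tubeT hx hs).1 ha with h | ⟨j, hj, h⟩
  · subst h; exact Or.inl hab
  · right
    refine ⟨j, hj, ?_⟩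
    have := d1_tri (geo s x (j + 1)) a b
    omega

/-- the neighbours of the later points of the geodesic are in the inner tube -/
theorem nb_geo (hx : x ∈ dep m 2) (hs : s ∈ dep m 2) {j : ℕ} (h1 : 1 ≤ j) (hj : j ≤ d1 x s)
    {b : Loc} (hb : d1 (geo s x j) b ≤ 1) : b ∈ tubeT m s x := by
  rw [mem_tubeT hx hs]
  right
  refine ⟨j - 1, by omega, ?_⟩
  rwa [Nat.sub_add_cancel h1]

theorem geo_mem_tubeT (hx : x ∈ dep m 2) (hs : s ∈ dep m 2) {j : ℕ} (hj : j ≤ d1 x s) :
    geo s x j ∈ tubeT m s x := by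
  rcases Nat.eq_zero_or_pos j with h | h
  · subst h
    rw [geo_zero, mem_tubeT hx hs]
    exact Or.inl rfl
  · exact nb_geo hx hs h hj (by rw [d1_self]; omega)

/-- **Geometry of the tube**: apart from at most `30` sites, no site of the tube is further from
`S0` than `x`; the exceptional ones are at distance at most `dS x + 1`. -/
theorem tube_far (h0 : S0.Nonempty) (hx : x ∈ dep m 2) (hs : s ∈ dep m 2) (hsS : s ∈ S0)
    (hd : d1 x s = dS S0 x) :
    (∀ a ∈ tubeQ m s x, dS S0 a ≤ dS S0 x + 1) ∧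
      ((tubeQ m s x).filter fun a => dS S0 x < dS S0 a).card ≤ 30 := by
  constructor
  · intro a ha
    rcases (mem_tubeQ hx hs).1 ha with h | ⟨j, hj, h⟩
    · have := dS_lip h0 a x
      rw [d1_comm] at this
      omega
    · have h1 := dS_lip h0 a (geo s x (j + 1))
      have h2 := dS_geo h0 hsS hd (j := j + 1) (by omega)
      rw [d1_comm] at h1
      omega
  · have hsub : ((tubeQ m s x).filter fun a => dS S0 x < dS S0 a) ⊆
        ball m 1 x ∪ ball m 2 (geo s x 1) := by
      intro a ha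
      rw [mem_filter] at ha
      obtain ⟨ha, hlt⟩ := ha
      have hblk : a ∈ blk m := by
        have := tubeQ_sub_blk hx hs ha
        rw [mem_dep] at this
        simp only [blk, mem_product, mem_range]
        omega
      rw [mem_union]
      rcases (mem_tubeQ hx hs).1 ha with h | ⟨j, hj, h⟩
      · left; simp only [ball, mem_filter]; exact ⟨hblk, h⟩
      · rcases Nat.eq_zero_or_pos j with h3 | h3
        · subst h3
          right
          simp only [ball, mem_filter]
          exact ⟨hblk, h⟩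
        · exfalso
          have h1 := dS_lip h0 a (geo s x (j + 1))
          have h2 := dS_geo h0 hsS hd (j := j + 1) (by omega)
          rw [d1_comm] at h1
          omega
    refine (card_le_card hsub).trans ((card_union_le _ _).trans ?_)
    have h1 := card_ball_one m x
    have h2 := card_ball_two m (geo s x 1)
    omega

end

end P365T1.Tube
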