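import Vale.Agent.P365.T1.WCHbr
import Vale.Agent.P365.T1.OneVar

/-!
# Crude Harnack inequality with two absorption profiles (P365 T1, helper556)

Left side: world with absorption `ee` on the patch `Q`.  Right side: world with absorption `ee'` on
`Q` (any two profiles with values in `(0, H]`), same exterior `W0`, any laws on `Q`.
-/

set_option autoImplicit false
set_option linter.all false

open MeasureTheory Finset Function Matrix
open scoped ENNReal NNReal BigOperators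

namespace P365T1.MAff

section Gen

/-- one variable: a point of the upper half plane seen from a bounded point and from `-il` -/
theorem norm_sub_le_far {s z : ℂ} {l L L' : ℝ} (hs : 0 ≤ s.im) (hL : 0 < L) (hl : L ≤ l)
    (hz : ‖z‖ ≤ L') : ‖z - s‖ ≤ (1 + L' / L) * ‖-(l : ℂ) * Complex.I - s‖ := by
  have h0 : ‖-(l : ℂ) * Complex.I - s‖ ^ 2 = s.re ^ 2 + (l + s.im) ^ 2 := by
    rw [Complex.sq_norm, Complex.normSq_apply]
    simp only [Complex.sub_re, Complex.mul_re, Complex.neg_re, Complex.ofReal_re, Complex.I_re,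
      Complex.neg_im, Complex.ofReal_im, Complex.I_im, Complex.sub_im, Complex.mul_im]
    ring
  have h1 : ‖s‖ ^ 2 = s.re ^ 2 + s.im ^ 2 := by
    rw [Complex.sq_norm, Complex.normSq_apply]; ring
  have h2 : ‖s‖ ≤ ‖-(l : ℂ) * Complex.I - s‖ := by
    refine (pow_le_pow_iff_left₀ (norm_nonneg _) (norm_nonneg _) two_ne_zero).mp ?_
    rw [h0, h1]; nlinarith
  have h3 : L ≤ ‖-(l : ℂ) * Complex.I - s‖ := by
    refine (pow_le_pow_iff_left₀ hL.le (norm_nonneg _) two_ne_zero).mp ?_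
    rw [h0]; nlinarith [sq_nonneg s.re]
  have hL' : 0 ≤ L' := (norm_nonneg _).trans hz
  have h4 : ‖z - s‖ ≤ L' + ‖s‖ := (norm_sub_le _ _).trans (by linarith)
  have h5 : L' ≤ L' / L * ‖-(l : ℂ) * Complex.I - s‖ := by
    calc L' = L' / L * L := by field_simp
      _ ≤ _ := by gcongr
  calc ‖z - s‖ ≤ L' + ‖s‖ := h4
    _ ≤ L' / L * ‖-(l : ℂ) * Complex.I - s‖ + ‖-(l : ℂ) * Complex.I - s‖ := add_le_add h5 h2
    _ = _ := by ring

variable {κ : Type*} [Fintype κ] [DecidableEq κ]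

/-- one coordinate of a stable multi-affine function -/
theorem stable_one_far {f : (κ → ℂ) → ℂ} (hf : MAff f) (hs : Stable f) {L L' l : ℝ} (hL : 0 < L)
    (hl : L ≤ l) {x : κ → ℂ} {i : κ} (hx : ∀ j, j ≠ i → (x j).im < 0) {z : ℂ} (hz : ‖z‖ ≤ L') :
    ‖f (update x i z)‖ ≤ (1 + L' / L) * ‖f (update x i (-(l : ℂ) * Complex.I))‖ := by
  have hL' : 0 ≤ L' := (norm_nonneg _).trans hz
  obtain ⟨a, b, hab⟩ := hf x i
  rw [hab, hab, smul_eq_mul, smul_eq_mul]
  by_cases hb : b = 0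
  · subst hb
    simp only [mul_zero, add_zero]
    have : 0 ≤ L' / L := by positivity
    nlinarith [norm_nonneg a]
  · set s : ℂ := -(a / b) with hsdef
    have hfac : ∀ w : ℂ, a + w * b = (w - s) * b := fun w => by
      rw [hsdef]; field_simp; ring
    have hsim : 0 ≤ s.im := by
      by_contra hneg
      push Not at hneg
      have h2 := hs (update x i s) (fun j => by
        by_cases hj : j = i
        · subst hj; simpa using hneg
        · rw [update_of_ne hj]; exact hx j hj)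
      rw [hab, smul_eq_mul, hfac, sub_self, zero_mul] at h2
      exact h2 rfl
    rw [hfac, hfac, norm_mul, norm_mul, ← mul_assoc]
    gcongr
    exact norm_sub_le_far hsim hL hl hz

/-- **Stable functions**: value at any bounded point of the lower half space against the value at
`-i l`. -/
theorem stable_far {f : (κ → ℂ) → ℂ} (hf : MAff f) (hs : Stable f) {L L' : ℝ} (hL : 0 < L)
    {l : κ → ℝ} (hl : ∀ i, L ≤ l i) {z : κ → ℂ} (hz : ∀ i, (z i).im < 0) (hzL : ∀ i, ‖z i‖ ≤ L')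
    (hL' : 0 ≤ L') :
    ‖f z‖ ≤ (1 + L' / L) ^ Fintype.card κ * ‖f (fun i => -(l i : ℂ) * Complex.I)‖ := by
  have hC : 0 ≤ 1 + L' / L := by positivity
  have key : ∀ S : Finset κ, ‖f z‖ ≤
      (1 + L' / L) ^ S.card * ‖f (mix S z fun i => -(l i : ℂ) * Complex.I)‖ := by
    intro S
    induction S using Finset.induction_on with
    | empty =>
      have : mix ∅ z (fun i => -(l i : ℂ) * Complex.I) = z := by ext i; simp [mix]
      rw [this]; simp
    | insert i S hi ih =>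
      refine ih.trans ?_
      rw [Finset.card_insert_of_notMem hi, pow_succ, mul_assoc]
      refine mul_le_mul_of_nonneg_left ?_ (pow_nonneg hC _)
      set x := mix S z (fun i => -(l i : ℂ) * Complex.I) with hx
      have h1 : x = update x i (z i) := by
        ext j
        by_cases hj : j = i
        · subst hj; simp [hx, mix, hi]
        · simp [hj]
      have h2 : mix (insert i S) z (fun i => -(l i : ℂ) * Complex.I) =
          update x i (-(l i : ℂ) * Complex.I) := by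
        ext j
        by_cases hj : j = i
        · subst hj; simp [mix]
        · simp [hx, mix, hj]
      rw [h2]
      conv_lhs => rw [h1]
      refine stable_one_far hf hs hL (hl i) (fun j hj => ?_) (hzL i)
      by_cases hjS : j ∈ S
      · have := hl j
        simp only [hx, mix, hjS, if_true]
        simp only [Complex.mul_im, Complex.neg_re, Complex.ofReal_re, Complex.I_im, mul_one,
          Complex.neg_im, Complex.ofReal_im, Complex.I_re]
        linarith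
      · simpa [hx, mix, hjS] using hz j
  have h := key Finset.univ
  have h3 : mix Finset.univ z (fun i => -(l i : ℂ) * Complex.I) =
      fun i => -(l i : ℂ) * Complex.I := by
    ext i; simp [mix]
  rwa [h3, Finset.card_univ] at h

end Gen

end P365T1.MAff

namespace P365T1

open P365L P365O P365T1.MAff P365T1.OneVar

variable {ι : Type*} [Fintype ι] [DecidableEq ι]
variable {F : Type*} [NormedAddCommGroup F] [NormedSpace ℂ F]

/-- changing the absorption is a shift of the variable -/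
theorem Mz_Bp_shift (A : Matrix ι ι ℝ) (W0 : ι → ℂ) (Q : Finset ι) (E : ℝ) (ee ee' : ι → ℝ)
    (y : Q → ℂ) :
    Mz (Bp A Q E ee') (fil Q W0 y) =
      Mz (Bp A Q E ee) (fil Q W0 fun i => y i + Complex.I * (ee i - ee' i)) := by
  rw [Mz_Bp, Mz_Bp]
  congr 1
  ext i
  by_cases h : i ∈ Q
  · simp only [Wc, h, dif_pos]; ring
  · simp [Wc, h]

theorem GT_shift (A : Matrix ι ι ℝ) (W0 : ι → ℂ) (Q : Finset ι) (E : ℝ) (ee ee' : ι → ℝ)
    (T : (ι → ℂ) →ₗ[ℂ] F) (x : ι) (y : Q → ℂ) :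
    MAff.GT (Bp A Q E ee') T x (fil Q W0 y) =
      MAff.GT (Bp A Q E ee) T x (fil Q W0 fun i => y i + Complex.I * (ee i - ee' i)) := by
  simp only [MAff.GT, Mz_Bp_shift A W0 Q E ee ee' y]

theorem Pv_shift (A : Matrix ι ι ℝ) (W0 : ι → ℂ) (Q : Finset ι) (E : ℝ) (ee ee' : ι → ℝ)
    (T : (ι → ℂ) →ₗ[ℂ] F) (x : ι) (y : Q → ℂ) :
    Pv (Bp A Q E ee') T x (fil Q W0 y) =
      Pv (Bp A Q E ee) T x (fil Q W0 fun i => y i + Complex.I * (ee i - ee' i)) := by
  simp only [Pv, Mz_Bp_shift A W0 Q E ee ee' y]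

/-- the far vector of chapter A -/
theorem GT_eq_GV {A : Matrix ι ι ℝ} (hA : A.IsSymm) (W0 : ι → ℂ) (Q : Finset ι) (E : ℝ)
    (ee : ι → ℝ) (T : (ι → ℂ) →ₗ[ℂ] F) (x : ι) (y : Q → ℂ) :
    MAff.GT (Bp A Q E ee) T x (fil Q W0 y) = OneVar.GV A (Wc W0 Q E ee y) T x := by
  unfold MAff.GT OneVar.GV
  rw [Mz_Bp]
  congr 1
  funext a
  rw [← Gr_symm hA a x]
  rfl

/-- the determinant in the second world against the reference determinant of the first world -/
theorem det_two_le {A : Matrix ι ι ℝ} (hA : A.IsSymm) {W0 : ι → ℂ} {Q : Finset ι}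
    (h0 : ∀ i ∉ Q, (W0 i).im < 0) {E L H : ℝ} (hL : 0 < L) {ee ee' : ι → ℝ}
    (he : ∀ i ∈ Q, 0 < ee i) (he' : ∀ i ∈ Q, 0 < ee' i) (heH' : ∀ i ∈ Q, ee' i ≤ H)
    {V : Q → ℝ} (hV : ∀ i, |V i| ≤ L) :
    ‖(Mz (Bp A Q E ee') (fil Q W0 (cx V))).det‖ ≤ (2 + H / L) ^ Q.card *
      ‖(Mz (Bp A Q E ee) (fil Q W0 fun _ => -(L : ℂ) * Complex.I)).det‖ := by
  rcases Q.eq_empty_or_nonempty with hQ | hQ
  · subst hQ
    have : (Mz (Bp A ∅ E ee') (fil ∅ W0 (cx V))) =
        (Mz (Bp A ∅ E ee) (fil ∅ W0 fun _ => -(L : ℂ) * Complex.I)) := by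
      rw [Mz_Bp, Mz_Bp]
      congr 1
    rw [this]; simp
  have hH : 0 ≤ H := by
    obtain ⟨i, hi⟩ := hQ
    exact (he' i hi).le.trans (heH' i hi)
  have hB : DissB (Bp A Q E fun _ => 0) := dissB_Bp hA Q E fun _ _ => le_rfl
  have hm : MAff fun y : Q → ℂ => (Mz (Bp A Q E fun _ => 0) (fil Q W0 y)).det :=
    maff_fil (maff_det _) Q W0
  have hst : Stable fun y : Q → ℂ => (Mz (Bp A Q E fun _ => 0) (fil Q W0 y)).det :=
    stable_fil (stable_det hB) Q h0
  have hl : ∀ i : Q, L ≤ L + ee i := fun i => by have := he i i.2; linarith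
  have h := stable_far hm hst (L := L) (L' := L + H) hL (l := fun i : Q => L + ee i) hl
    (z := fun i : Q => cx V i - Complex.I * ee' i) (fun i => by
      have := he' i i.2
      simp [cx]
      linarith) (fun i => by
      have h1 := he' i i.2
      have h2 := heH' i i.2
      calc ‖cx V i - Complex.I * ee' i‖ ≤ ‖cx V i‖ + ‖Complex.I * ee' i‖ := norm_sub_le _ _
        _ = |V i| + ee' i := by
          rw [norm_mul, Complex.norm_I, one_mul, Complex.norm_real, Real.norm_eq_abs,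
            abs_of_pos h1]
          simp [cx]
        _ ≤ L + H := add_le_add (hV i) h2) (by positivity)
  have e1 : Mz (Bp A Q E ee') (fil Q W0 (cx V)) =
      Mz (Bp A Q E fun _ => 0) (fil Q W0 fun i => cx V i - Complex.I * ee' i) := by
    rw [Mz_Bp_shift A W0 Q E (fun _ => 0) ee' (cx V)]
    congr 2
    funext i
    push_cast
    ring
  have e2 : Mz (Bp A Q E ee) (fil Q W0 fun _ => -(L : ℂ) * Complex.I) =
      Mz (Bp A Q E fun _ => 0) (fil Q W0 fun i : Q => -((L + ee i : ℝ) : ℂ) * Complex.I) := by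
    rw [Mz_Bp_shift A W0 Q E (fun _ => 0) ee _]
    congr 2
    funext i
    push_cast
    ring
  rw [e1, e2]
  rw [Fintype.card_coe] at h
  have h3 : 1 + (L + H) / L = 2 + H / L := by field_simp; ring
  rw [h3] at h
  exact h

/-- **Crude Harnack inequality with two profiles, one-sided form.** -/
theorem wch_two_of_det [MeasurableSpace F] [BorelSpace F] {A : Matrix ι ι ℝ} (hA : A.IsSymm)
    {W0 : ι → ℂ} {Q : Finset ι} (h0 : ∀ i ∉ Q, (W0 i).im < 0) {E L H : ℝ} (hL : 0 < L)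
    {ee ee' : ι → ℝ} (he : ∀ i ∈ Q, 0 < ee i) (heH : ∀ i ∈ Q, ee i ≤ H)
    (he' : ∀ i ∈ Q, 0 < ee' i) (heH' : ∀ i ∈ Q, ee' i ≤ H) (x y : Q) (hxy : x ≠ y)
    (T : (ι → ℂ) →ₗ[ℂ] F) {c2 : ℝ} (hc2 : 0 < c2) {y2 : Q → ℂ} (hy2 : ∀ i, ‖y2 i‖ ≤ L)
    (hcof : c2 * ‖(Mz (Bp A Q E ee) (fil Q W0 fun _ => -(L : ℂ) * Complex.I)).det‖ ≤
      ‖(Mz (Bp A Q E ee) (fil Q W0 y2)).adjugate x y‖)
    {q : ℝ} (hq : 0 < q) {V : Q → ℝ} (hV : ∀ i, |V i| ≤ L)
    (hdetV : q * ‖(Mz (Bp A Q E ee) (fil Q W0 fun _ => -(L : ℂ) * Complex.I)).det‖ ≤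
      ‖(Mz (Bp A Q E ee) (fil Q W0 (update (cx V) x (-(L : ℂ) * Complex.I)))).det‖)
    (μ : Q → Measure ℝ) [∀ i, IsProbabilityMeasure (μ i)] {κ : ℝ≥0∞}
    (hμ : ∀ i, WinLaw F κ (L + H) (μ i)) (hsupp : ∀ i, μ i {t | |t| ≤ L}ᶜ = 0) :
    κ ^ Q.card * ‖MAff.GT (Bp A Q E ee) T x
        (fil Q W0 (update (cx V) x (-(L : ℂ) * Complex.I)))‖ₑ ^ 2 ≤
      ENNReal.ofReal ((2 / (L * c2 * q) * (162 * (2 + H / L)) ^ Q.card) ^ 2) *
        ∫⁻ V', ‖MAff.GT (Bp A Q E ee') T y (fil Q W0 (cx V'))‖ₑ ^ 2 ∂(Measure.pi μ) := by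
  have hB : DissB (Bp A Q E ee) := dissB_Bp hA Q E fun i hi => (he i hi).le
  have hB' : DissB (Bp A Q E ee') := dissB_Bp hA Q E fun i hi => (he' i hi).le
  have hH : 0 < H := (he x x.2).trans_le (heH x x.2)
  set n := Q.card with hn
  set D0 : ℝ := ‖(Mz (Bp A Q E ee) (fil Q W0 fun _ => -(L : ℂ) * Complex.I)).det‖ with hD0
  have hD0pos : 0 < D0 := norm_pos_iff.mpr (stable_det hB _ fun i => by
    by_cases h : i ∈ Q
    · simp [fil, h, hL]
    · simpa [fil, h] using h0 i h)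
  have hcomp : IsCompact {V : Q → ℝ | ∀ i, |V i| ≤ L} := by
    have : {V : Q → ℝ | ∀ i, |V i| ≤ L} = Set.univ.pi fun _ => Set.Icc (-L) L := by
      ext V
      simp only [Set.mem_ofPred_eq, Set.mem_univ_pi, Set.mem_Icc]
      exact forall_congr' fun i => abs_le
    rw [this]
    exact isCompact_univ_pi fun _ => isCompact_Icc
  have hPc : Continuous fun V : Q → ℝ => ‖Pv (Bp A Q E ee) T y (fil Q W0 (cx V))‖ :=
    ((continuous_Pv _ T y).comp ((continuous_fil Q W0).comp continuous_cx)).norm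
  obtain ⟨Vs, hVs, hmax⟩ := hcomp.exists_isMaxOn ⟨fun _ => 0, fun i => by simp [hL.le]⟩
    hPc.continuousOn
  set Sy : ℝ := ‖Pv (Bp A Q E ee) T y (fil Q W0 (cx Vs))‖ with hSy
  have h1 : c2 * ‖Pv (Bp A Q E ee) T x (fil Q W0 (cx V))‖ ≤ 2 / L * 162 ^ n * Sy := by
    refine norm_Pv_le hB Q h0 hL x.2 y.2 (fun h => hxy (Subtype.ext h)) T hc2.le hy2 hcof
      (fun V' hV' => hmax hV') (fun i => ?_)
    simpa [cx] using hV i
  -- second moment, in the second world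
  have h2 : κ ^ n * ENNReal.ofReal Sy ^ 2 ≤ ∫⁻ V', ‖Pv (Bp A Q E ee') T y (fil Q W0 (cx V'))‖ₑ ^ 2
      ∂(Measure.pi μ) := by
    have h3 := lintegral_sq_ge_univ (f := fun z : Q → ℂ => Pv (Bp A Q E ee') T y (fil Q W0 z))
      (maff_fil (maff_Pv _ T y) Q W0)
      ((continuous_Pv _ T y).comp (continuous_fil Q W0)).measurable μ (L := L + H)
      (z := fun i : Q => cx Vs i + Complex.I * (ee' i - ee i))
      (fun i => by
        have a1 := he i i.2
        have a2 := heH i i.2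
        have a3 := he' i i.2
        have a4 := heH' i i.2
        have hcast : (Complex.I * ((ee' i : ℂ) - (ee i : ℂ))) =
            Complex.I * ((ee' i - ee i : ℝ) : ℂ) := by push_cast; ring
        calc ‖cx Vs i + Complex.I * (ee' i - ee i)‖
            ≤ ‖cx Vs i‖ + ‖Complex.I * ((ee' i : ℂ) - (ee i : ℂ))‖ := norm_add_le _ _
          _ = |Vs i| + |ee' i - ee i| := by
            rw [hcast, norm_mul, Complex.norm_I, one_mul, Complex.norm_real, Real.norm_eq_abs]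
            simp [cx]
          _ ≤ L + H := by
            refine add_le_add (hVs i) ?_
            rw [abs_le]; constructor <;> linarith) hμ
    rw [Fintype.card_coe] at h3
    have h4 : Pv (Bp A Q E ee') T y
        (fil Q W0 fun i : Q => cx Vs i + Complex.I * (ee' i - ee i)) =
        Pv (Bp A Q E ee) T y (fil Q W0 (cx Vs)) := by
      rw [Pv_shift A W0 Q E ee ee']
      congr 2
      funext i
      ring
    rw [h4] at h3
    rwa [hSy, ofReal_norm]
  -- the determinant of the second world on the cube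
  set U : ℝ := (2 + H / L) ^ n with hU
  have hU0 : 0 ≤ U := by positivity
  have h4 : ∫⁻ V', ‖Pv (Bp A Q E ee') T y (fil Q W0 (cx V'))‖ₑ ^ 2 ∂(Measure.pi μ) ≤
      ENNReal.ofReal ((U * D0) ^ 2) *
        ∫⁻ V', ‖MAff.GT (Bp A Q E ee') T y (fil Q W0 (cx V'))‖ₑ ^ 2 ∂(Measure.pi μ) := by
    rw [← lintegral_const_mul' _ _ ENNReal.ofReal_ne_top]
    refine lintegral_mono_ae ?_
    have hae : ∀ᵐ V' ∂(Measure.pi μ), ∀ i, |V' i| ≤ L := by
      rw [ae_all_iff]
      intro i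
      have h5 : ∀ᵐ t ∂(μ i), |t| ≤ L := by
        rw [ae_iff]; exact hsupp i
      exact (Measure.quasiMeasurePreserving_eval (μ := μ) i).ae h5
    filter_upwards [hae] with V' hV'
    have h6 := det_two_le hA h0 hL he he' heH' hV' (E := E)
    have hdet : (Mz (Bp A Q E ee') (fil Q W0 (cx V'))).det ≠ 0 := by
      rw [Mz_Bp_shift A W0 Q E (fun _ => 0) ee' (cx V')]
      refine stable_det (dissB_Bp hA Q E fun _ _ => le_rfl) _ fun i => ?_
      by_cases h : i ∈ Q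
      · have := he' i h
        simp [fil, h, cx]
        linarith
      · simpa [fil, h] using h0 i h
    have h7 : ‖Pv (Bp A Q E ee') T y (fil Q W0 (cx V'))‖ ≤
        (U * D0) * ‖MAff.GT (Bp A Q E ee') T y (fil Q W0 (cx V'))‖ := by
      have h8 : Pv (Bp A Q E ee') T y (fil Q W0 (cx V')) =
          (Mz (Bp A Q E ee') (fil Q W0 (cx V'))).det •
            MAff.GT (Bp A Q E ee') T y (fil Q W0 (cx V')) := by
        rw [GT_eq, smul_smul, mul_inv_cancel₀ hdet, one_smul]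
      rw [h8, norm_smul]
      gcongr
    rw [← ofReal_norm, ← ofReal_norm, ← ENNReal.ofReal_pow (norm_nonneg _),
      ← ENNReal.ofReal_pow (norm_nonneg _), ← ENNReal.ofReal_mul (by positivity), ← mul_pow]
    exact ENNReal.ofReal_le_ofReal (pow_le_pow_left₀ (norm_nonneg _) h7 2)
  have h12 : ‖MAff.GT (Bp A Q E ee) T x (fil Q W0 (update (cx V) x (-(L : ℂ) * Complex.I)))‖ ≤
      ‖Pv (Bp A Q E ee) T x (fil Q W0 (cx V))‖ / (q * D0) := by
    rw [GT_eq, norm_smul, norm_inv, fil_update, Pv_update_self, ← fil_update, div_eq_inv_mul]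
    gcongr
  set X : ℝ := ‖Pv (Bp A Q E ee) T x (fil Q W0 (cx V))‖ with hX
  have hSy0 : 0 ≤ Sy := norm_nonneg _
  have h13 : ‖MAff.GT (Bp A Q E ee) T x (fil Q W0 (update (cx V) x (-(L : ℂ) * Complex.I)))‖ ≤
      (2 / (L * c2 * q) * 162 ^ n / D0) * Sy := by
    refine h12.trans ?_
    have h14 : X ≤ 2 / (L * c2) * 162 ^ n * Sy := by
      have : X * c2 ≤ (2 / (L * c2) * 162 ^ n * Sy) * c2 := by
        calc X * c2 = c2 * X := mul_comm _ _
          _ ≤ 2 / L * 162 ^ n * Sy := h1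
          _ = (2 / (L * c2) * 162 ^ n * Sy) * c2 := by field_simp
      exact le_of_mul_le_mul_right this hc2
    calc X / (q * D0) ≤ (2 / (L * c2) * 162 ^ n * Sy) / (q * D0) := by gcongr
      _ = (2 / (L * c2 * q) * 162 ^ n / D0) * Sy := by field_simp
  set Y : ℝ≥0∞ := ∫⁻ V', ‖MAff.GT (Bp A Q E ee') T y (fil Q W0 (cx V'))‖ₑ ^ 2 ∂(Measure.pi μ)
    with hY
  calc κ ^ n * ‖MAff.GT (Bp A Q E ee) T x
        (fil Q W0 (update (cx V) x (-(L : ℂ) * Complex.I)))‖ₑ ^ 2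
      ≤ κ ^ n * ENNReal.ofReal ((2 / (L * c2 * q) * 162 ^ n / D0) * Sy) ^ 2 := by
        gcongr
        rw [← ofReal_norm]
        exact ENNReal.ofReal_le_ofReal h13
    _ = ENNReal.ofReal (2 / (L * c2 * q) * 162 ^ n / D0) ^ 2 * (κ ^ n * ENNReal.ofReal Sy ^ 2) := by
        rw [ENNReal.ofReal_mul (by positivity), mul_pow]; ring
    _ ≤ ENNReal.ofReal (2 / (L * c2 * q) * 162 ^ n / D0) ^ 2 *
          (ENNReal.ofReal ((U * D0) ^ 2) * Y) :=
        mul_le_mul_of_nonneg_left (h2.trans h4) zero_le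
    _ = ENNReal.ofReal ((2 / (L * c2 * q) * (162 * (2 + H / L)) ^ n) ^ 2) * Y := by
        rw [← mul_assoc, ← ENNReal.ofReal_pow (by positivity), ← ENNReal.ofReal_mul (by positivity)]
        congr 2
        rw [hU, mul_pow 162 (2 + H / L) n]
        field_simp

/-- off-resonant energy against the far vector with `V_x := -iL` -/
private theorem Yv_le_GT {A : Matrix ι ι ℝ} (hA : A.IsSymm) {W0 : ι → ℂ} {Q : Finset ι}
    (h0 : ∀ i ∉ Q, (W0 i).im < 0) {E L : ℝ} (hL : 0 < L) {ee : ι → ℝ} (he : ∀ i ∈ Q, 0 < ee i)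
    (x : Q) (T : (ι → ℂ) →ₗ[ℂ] F) (V : Q → ℝ) :
    Yv A (Wc W0 Q E ee (cx V)) T x ≤ 2 * (1 + E ^ 2 + (L + ee x) ^ 2) *
      ‖MAff.GT (Bp A Q E ee) T x (fil Q W0 (update (cx V) x (-(L : ℂ) * Complex.I)))‖ ^ 2 := by
  have hW : ∀ i, (Wc W0 Q E ee (cx V) i).im < 0 :=
    Wc_im_neg h0 he (fun i => by simp [cx])
  set W := Wc W0 Q E ee (cx V) with hWdef
  set w : ℂ := -(L : ℂ) * Complex.I - E - Complex.I * ee x with hwdef
  have hw : w.im < 0 := by
    have := he x x.2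
    rw [hwdef]
    simp only [Complex.sub_im, Complex.mul_im, Complex.neg_re, Complex.ofReal_re, Complex.I_im,
      Complex.neg_im, Complex.ofReal_im, Complex.I_re]
    linarith
  have h1 := GV_update_self hA hW T (z := (x : ι)) hw
  have h2 : OneVar.GV A (Function.update W x w) T x = MAff.GT (Bp A Q E ee) T x
      (fil Q W0 (update (cx V) x (-(L : ℂ) * Complex.I))) := by
    rw [GT_eq_GV hA, ← update_Wc]
  rw [h2] at h1
  have hs := sg_im_nonneg hA hW (x : ι)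
  have h3 : w - sg A W x ≠ 0 := by
    intro h
    have := congrArg Complex.im h
    simp only [Complex.sub_im, Complex.zero_im] at this
    linarith
  have h4 : T (fun a => gw A W x a) = (w - sg A W x) • MAff.GT (Bp A Q E ee) T x
      (fil Q W0 (update (cx V) x (-(L : ℂ) * Complex.I))) := by
    rw [h1, smul_smul, mul_inv_cancel₀ h3, one_smul]
  rw [Yv, h4, norm_smul, mul_pow]
  have h5 : ‖w - sg A W x‖ ^ 2 ≤ 2 * (1 + ‖w‖ ^ 2) * (1 + ‖sg A W x‖ ^ 2) := by
    have h6 : ‖w - sg A W x‖ ≤ ‖w‖ + ‖sg A W x‖ := norm_sub_le _ _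
    have h7 : ‖w - sg A W x‖ ^ 2 ≤ (‖w‖ + ‖sg A W x‖) ^ 2 :=
      pow_le_pow_left₀ (norm_nonneg _) h6 2
    nlinarith [sq_nonneg (‖w‖ - ‖sg A W x‖), sq_nonneg (‖w‖ * ‖sg A W x‖), norm_nonneg w,
      norm_nonneg (sg A W x)]
  have hwn : ‖w‖ ^ 2 = E ^ 2 + (L + ee x) ^ 2 := norm_w_sq L E (ee x)
  rw [hwn] at h5
  rw [div_le_iff₀ (by positivity)]
  set g : ℝ := ‖MAff.GT (Bp A Q E ee) T x
    (fil Q W0 (update (cx V) x (-(L : ℂ) * Complex.I)))‖ ^ 2 with hg
  have hg0 : 0 ≤ g := sq_nonneg _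
  nlinarith [mul_le_mul_of_nonneg_right h5 hg0]

/-- **Crude Harnack inequality at a site, two profiles, T-form.**  Off the graded exceptional events
of the first world (absorption `ee` on `Q`), the off-resonant energy at `x` is bounded by the mean
far energy at `y` in the second world (absorption `ee'` on `Q`, laws `μ`). -/
theorem wch_two [MeasurableSpace F] [BorelSpace F] {A : Matrix ι ι ℝ} (hA : A.IsSymm)
    {W0 : ι → ℂ} {Q : Finset ι} (h0 : ∀ i ∉ Q, (W0 i).im < 0) {E L H : ℝ} (hL : 0 < L)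
    {ee ee' : ι → ℝ} (he : ∀ i ∈ Q, 0 < ee i) (heH : ∀ i ∈ Q, ee i ≤ H)
    (he' : ∀ i ∈ Q, 0 < ee' i) (heH' : ∀ i ∈ Q, ee' i ≤ H) (x y : Q) (hxy : x ≠ y)
    (T : (ι → ℂ) →ₗ[ℂ] F) {c2 : ℝ} (hc2 : 0 < c2) {y2 : Q → ℂ} (hy2 : ∀ i, ‖y2 i‖ ≤ L)
    (hcof : c2 * ‖(Mz (Bp A Q E ee) (fil Q W0 fun _ => -(L : ℂ) * Complex.I)).det‖ ≤
      ‖(Mz (Bp A Q E ee) (fil Q W0 y2)).adjugate x y‖)
    {ε : ℕ → ℝ} (hε : ∀ k, 0 < ε k) (e : Q ≃ Fin Q.card) {V : Q → ℝ} (hV : ∀ i, |V i| ≤ L)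
    (hJ : ∀ k < Q.card,
      V ∉ Jset e (detx (Bp A Q E ee) Q W0 L x) (fun _ => -(L : ℂ) * Complex.I) (ε k) k)
    (μ : Q → Measure ℝ) [∀ i, IsProbabilityMeasure (μ i)] {κ : ℝ≥0∞}
    (hμ : ∀ i, WinLaw F κ (L + H) (μ i)) (hsupp : ∀ i, μ i {t | |t| ≤ L}ᶜ = 0) :
    κ ^ Q.card * ENNReal.ofReal (Yv A (Wc W0 Q E ee (cx V)) T x) ≤
      ENNReal.ofReal (2 * (1 + E ^ 2 + (L + H) ^ 2) *
        (2 / (L * c2 * ∏ k ∈ Finset.range Q.card, ε k) * (162 * (2 + H / L)) ^ Q.card) ^ 2) *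
        ∫⁻ V', ENNReal.ofReal (‖OneVar.GV A (Wc W0 Q E ee' (cx V')) T y‖ ^ 2) ∂(Measure.pi μ) := by
  have hprod : 0 < ∏ k ∈ Finset.range Q.card, ε k := Finset.prod_pos fun k _ => hε k
  have h10 := le_norm_of_notMem' e (fun k => (hε k).le) hJ
  have h11 : detx (Bp A Q E ee) Q W0 L x (fun _ => -(L : ℂ) * Complex.I) =
      (Mz (Bp A Q E ee) (fil Q W0 fun _ => -(L : ℂ) * Complex.I)).det := by
    unfold detx
    congr 3
    ext i
    by_cases hi : i = x
    · subst hi; simp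
    · simp [hi]
  rw [h11] at h10
  have h1 := wch_two_of_det hA h0 hL he heH he' heH' x y hxy T hc2 hy2 hcof hprod hV h10 μ hμ hsupp
  have h2 := Yv_le_GT hA h0 hL he x T V (E := E)
  set g : ℝ := ‖MAff.GT (Bp A Q E ee) T x
        (fil Q W0 (update (cx V) x (-(L : ℂ) * Complex.I)))‖ with hg
  set C2 : ℝ := (2 / (L * c2 * ∏ k ∈ Finset.range Q.card, ε k) *
    (162 * (2 + H / L)) ^ Q.card) ^ 2 with hC2
  have hex := he x x.2
  have heHx := heH x x.2
  have hC1 : 2 * (1 + E ^ 2 + (L + ee x) ^ 2) ≤ 2 * (1 + E ^ 2 + (L + H) ^ 2) := by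
    nlinarith [mul_pos hL hex]
  have h3 : ∀ V' : Q → ℝ, ENNReal.ofReal (‖OneVar.GV A (Wc W0 Q E ee' (cx V')) T y‖ ^ 2) =
      ‖MAff.GT (Bp A Q E ee') T y (fil Q W0 (cx V'))‖ₑ ^ 2 := fun V' => by
    rw [GT_eq_GV hA, ← ofReal_norm, ← ENNReal.ofReal_pow (norm_nonneg _)]
  simp only [h3]
  calc κ ^ Q.card * ENNReal.ofReal (Yv A (Wc W0 Q E ee (cx V)) T x)
      ≤ κ ^ Q.card * ENNReal.ofReal (2 * (1 + E ^ 2 + (L + H) ^ 2) * g ^ 2) := by
        gcongr
        exact h2.trans (mul_le_mul_of_nonneg_right hC1 (sq_nonneg _))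
    _ = ENNReal.ofReal (2 * (1 + E ^ 2 + (L + H) ^ 2)) * (κ ^ Q.card * ‖MAff.GT (Bp A Q E ee) T x
        (fil Q W0 (update (cx V) x (-(L : ℂ) * Complex.I)))‖ₑ ^ 2) := by
        rw [ENNReal.ofReal_mul (by positivity), ← ofReal_norm, ← ENNReal.ofReal_pow (norm_nonneg _)]
        ring
    _ ≤ ENNReal.ofReal (2 * (1 + E ^ 2 + (L + H) ^ 2)) * (ENNReal.ofReal C2 *
          ∫⁻ V', ‖MAff.GT (Bp A Q E ee') T y (fil Q W0 (cx V'))‖ₑ ^ 2 ∂(Measure.pi μ)) := by
        gcongr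
    _ = _ := by
        rw [← mul_assoc, ← ENNReal.ofReal_mul (by positivity)]

end P365T1
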