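import Vale.Agent.P365.T1.PatchF
import Vale.Agent.P365.C937.SwitchAll

/-!
# Crude Harnack inequality, form (G3), cross-label (P365 T1)

`Q = I ∪ R` (disjoint), `x, y ∈ I`.  Source world `(ν₁, e₁)`, target world `(ν₀, e₀)`, equal off `Q`.
The sites of `I` may carry any laws of bounded density (no weights, no exceptional events); the
exceptional events `JG` concern the sites of `R` only and do not see the variables of `I`.

* `det_step`, `det_le_pow` : comparison of determinants in the lower half planes.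
* `JG`, `mem_JG_congr`, `volume_section_JG_le`, `measurableSet_JG`.
* `core_pt` : pointwise bound of the far energies at `V_I = -i` by the mean of the target world.
* `wch_G`   : the integrated inequality.
* `wch_G_full` : the exceptional events estimated.
-/

set_option autoImplicit false
set_option linter.all false

open MeasureTheory Finset Function Matrix
open scoped ENNReal NNReal BigOperators

namespace P365T1.G3

open P365L P365O P365T1 P365T1.MAff P365T1.OneVar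

variable {ι : Type*} [Fintype ι] [DecidableEq ι]
variable {F : Type*} [NormedAddCommGroup F] [NormedSpace ℂ F]
variable {A : Matrix ι ι ℝ}

/-! ### determinants in the lower half planes -/

theorem Kmat_eq_Mz (A : Matrix ι ι ℝ) (W : ι → ℂ) :
    Kmat A W = Mz (A.map fun r : ℝ => (r : ℂ)) W := by
  ext i j
  by_cases hij : i = j
  · subst hij; simp [Mz, Kmat]; ring
  · simp [Mz, Kmat, hij]

/-- one site moved in the lower half plane -/
theorem det_step (hA : A.IsSymm) {W : ι → ℂ} (hW : ∀ i, (W i).im < 0) (k : ι) {ζ ζ' : ℂ}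
    {K : ℝ} (hK1 : 1 ≤ K) (hK : ∀ s : ℂ, 0 ≤ s.im → ‖ζ - s‖ ≤ K * ‖ζ' - s‖) :
    ‖(Kmat A (update W k ζ)).det‖ ≤ K * ‖(Kmat A (update W k ζ')).det‖ := by
  obtain ⟨a, b, hab⟩ := maff_det (A.map fun r : ℝ => (r : ℂ)) W k
  have h1 : ∀ w : ℂ, (Kmat A (update W k w)).det = a + w * b := by
    intro w
    rw [Kmat_eq_Mz]
    have := hab w
    simpa using this
  rw [h1, h1]
  by_cases hb : b = 0
  · subst hb
    simp only [mul_zero, add_zero]
    nlinarith [norm_nonneg a]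
  · set s : ℂ := -(a / b) with hs
    have hfac : ∀ w : ℂ, a + w * b = (w - s) * b := fun w => by
      rw [hs]; field_simp; ring
    have hsim : 0 ≤ s.im := by
      by_contra hneg
      push Not at hneg
      have h2 : (Kmat A (update W k s)).det ≠ 0 := by
        refine P365L.det_ne_zero hA fun i => ?_
        by_cases hi : i = k
        · subst hi; simpa using hneg
        · rw [update_of_ne hi]; exact hW i
      rw [h1, hfac, sub_self, zero_mul] at h2
      exact h2 rfl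
    rw [hfac, hfac, norm_mul, norm_mul, ← mul_assoc]
    exact mul_le_mul_of_nonneg_right (hK s hsim) (norm_nonneg _)

/-- moving the sites of `S` one after the other -/
theorem det_le_pow (hA : A.IsSymm) {W W' : ι → ℂ} (hW : ∀ i, (W i).im < 0)
    (hW' : ∀ i, (W' i).im < 0) (S : Finset ι) (hoff : ∀ i ∉ S, W i = W' i) {K : ℝ}
    (hK1 : 1 ≤ K) (hK : ∀ k ∈ S, ∀ s : ℂ, 0 ≤ s.im → ‖W k - s‖ ≤ K * ‖W' k - s‖) :
    ‖(Kmat A W).det‖ ≤ K ^ S.card * ‖(Kmat A W').det‖ := by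
  have key : ∀ U : Finset ι, U ⊆ S →
      ‖(Kmat A W).det‖ ≤ K ^ U.card * ‖(Kmat A fun i => if i ∈ U then W' i else W i).det‖ := by
    intro U
    induction U using Finset.induction_on with
    | empty => intro _; simp
    | insert k U hk ih =>
      intro hU
      have hU' : U ⊆ S := fun z hz => hU (Finset.mem_insert_of_mem hz)
      refine (ih hU').trans ?_
      rw [Finset.card_insert_of_notMem hk, pow_succ, mul_assoc]
      refine mul_le_mul_of_nonneg_left ?_ (by positivity)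
      set X : ι → ℂ := fun i => if i ∈ U then W' i else W i with hX
      have hXn : ∀ i, (X i).im < 0 := fun i => by
        simp only [hX]
        split_ifs
        · exact hW' i
        · exact hW i
      have h1 : X = update X k (W k) := by
        ext l
        by_cases hl : l = k
        · subst hl; simp [hX, hk]
        · rw [update_of_ne hl]
      have h2 : (fun i => if i ∈ insert k U then W' i else W i) = update X k (W' k) := by
        ext l
        by_cases hl : l = k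
        · subst hl; simp
        · rw [update_of_ne hl]
          simp [hX, hl]
      rw [h2]
      conv_lhs => rw [h1]
      exact det_step hA hXn k hK1 (hK k (hU (Finset.mem_insert_self k U)))
  have h := key S Finset.Subset.rfl
  have h3 : (fun i => if i ∈ S then W' i else W i) = W' := by
    ext i
    by_cases hi : i ∈ S
    · simp [hi]
    · simp [hi, hoff i hi]
  rwa [h3] at h

theorem shift_le {ζ ζ' s : ℂ} {β r : ℝ} (hβ : 0 < β) (h : ζ'.im ≤ -β) (hs : 0 ≤ s.im)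
    (hd : ‖ζ - ζ'‖ ≤ r) : ‖ζ - s‖ ≤ (1 + r / β) * ‖ζ' - s‖ := by
  have h1 : β ≤ ‖ζ' - s‖ := by
    have h2 := Complex.abs_im_le_norm (ζ' - s)
    rw [Complex.sub_im] at h2
    have h3 := neg_abs_le (ζ'.im - s.im)
    linarith
  have h2 : ‖ζ - s‖ ≤ ‖ζ - ζ'‖ + ‖ζ' - s‖ := by
    have : ζ - s = (ζ - ζ') + (ζ' - s) := by ring
    rw [this]
    exact norm_add_le _ _
  have hr : 0 ≤ r := (norm_nonneg _).trans hd
  have h3 : r ≤ r / β * ‖ζ' - s‖ := by
    rw [div_mul_eq_mul_div, le_div_iff₀ hβ]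
    exact mul_le_mul_of_nonneg_left h1 hr
  linarith

/-! ### the exceptional events -/

/-- determinant as a function of the variables of `R`, the sites of `I` at `-i` -/
noncomputable def detG (A : Matrix ι ι ℝ) (I R : Finset ι) (E : ℝ) (e v : ι → ℝ) :
    (R → ℂ) → ℂ := fun y => (Mz (Bp A R E e) (fil R (Switch.cf I (WV E e v)) y)).det

theorem maff_detG (I R : Finset ι) (E : ℝ) (e v : ι → ℝ) : MAff (detG A I R E e v) :=
  maff_fil (maff_det _) R _

theorem detG_congr {I R : Finset ι} (E : ℝ) (e : ι → ℝ) {v v' : ι → ℝ}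
    (h : ∀ i, i ∉ I → i ∉ R → v i = v' i) : detG A I R E e v = detG A I R E e v' := by
  funext y
  have h1 : fil R (Switch.cf I (WV E e v)) y = fil R (Switch.cf I (WV E e v')) y := by
    funext i
    by_cases hi : i ∈ R
    · simp [fil, hi]
    · by_cases hI : i ∈ I
      · simp [fil, hi, Switch.cf, hI]
      · simp [fil, hi, Switch.cf, hI, WV, h i hI hi]
  unfold detG
  rw [h1]

/-- exceptional event of the site `b ∈ R` -/
noncomputable def JG (A : Matrix ι ι ℝ) (I R : Finset ι) (E : ℝ) (e : ι → ℝ) (L ε : ℝ) (b : R) :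
    Set (ι → ℝ) :=
  {v | rs R v ∈ Jset R.equivFin (detG A I R E e v) (fun _ => -(L : ℂ) * Complex.I) ε
    (R.equivFin b : ℕ)}

/-- the event does not see the variables of `I` -/
theorem mem_JG_congr {I R : Finset ι} (hIR : Disjoint I R) (E : ℝ) (e : ι → ℝ) (L ε : ℝ) (b : R)
    {v v' : ι → ℝ} (h : ∀ i ∉ I, v i = v' i) :
    v ∈ JG A I R E e L ε b ↔ v' ∈ JG A I R E e L ε b := by
  have h1 : rs R v = rs R v' := by
    ext i
    exact h i (Finset.disjoint_right.1 hIR i.2)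
  simp only [JG, Set.mem_ofPred_eq]
  rw [h1, detG_congr E e (fun i hi _ => h i hi)]

theorem volume_section_JG_le (I R : Finset ι) (E : ℝ) (e : ι → ℝ) {L : ℝ} (hL : 0 ≤ L) {ε : ℝ}
    (h0 : 0 ≤ ε) (h1 : ε ≤ 1 / 2) (b : R) (v : ι → ℝ) :
    volume {t : ℝ | |t| ≤ L ∧ update v b t ∈ JG A I R E e L ε b} ≤ ENNReal.ofReal (8 * L * ε) := by
  have h := volume_section_Jset_le R.equivFin (maff_detG (A := A) I R E e v)
    (z := fun _ => -(L : ℂ) * Complex.I) hL (fun i => norm_zI hL i) h0 h1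
    (R.equivFin b).isLt (rs R v)
  have h2 : R.equivFin.symm ⟨(R.equivFin b : ℕ), (R.equivFin b).isLt⟩ = b := by simp
  rw [h2] at h
  refine le_trans (le_of_eq ?_) h
  congr 1
  ext t
  have h3 : detG A I R E e (update v b t) = detG A I R E e v :=
    detG_congr E e fun i _ hi => by
      have : i ≠ (b : ι) := fun hh => hi (hh ▸ b.2)
      rw [update_of_ne this]
  simp only [JG, Set.mem_ofPred_eq]
  rw [rs_update_mem, h3]

theorem measurable_cfWV' (I : Finset ι) (E : ℝ) (e : ι → ℝ) :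
    Measurable fun v : ι → ℝ => Switch.cf I (WV E e v) :=
  measurable_pi_lambda _ fun i => Switch.measurable_cfWV I E e i

theorem measurable_detG (I R : Finset ι) (E : ℝ) (e : ι → ℝ) {u : (ι → ℝ) → R → ℂ}
    (hu : Measurable u) : Measurable fun v : ι → ℝ => detG A I R E e v (u v) := by
  have h1 : Measurable fun p : (ι → ℂ) × (R → ℂ) => (Mz (Bp A R E e) (fil R p.1 p.2)).det :=
    ((continuous_det (Bp A R E e)).comp (continuous_fil2 R)).measurable
  exact measurable_comp2 h1 (measurable_cfWV' I E e) hu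

theorem measurableSet_JG (I R : Finset ι) (E : ℝ) (e : ι → ℝ) (L ε : ℝ) (b : R) :
    MeasurableSet (JG A I R E e L ε b) := by
  have h3 : ∀ k : ℕ, Measurable fun v : ι → ℝ =>
      hyb R.equivFin k (cx (rs R v)) fun _ => -(L : ℂ) * Complex.I := fun k =>
    (measurable_hyb_cx R.equivFin k _).comp (continuous_rs (Q := R)).measurable
  exact measurableSet_lt (measurable_detG I R E e (h3 (R.equivFin b : ℕ))).norm
    ((measurable_detG I R E e (h3 ((R.equivFin b : ℕ) + 1))).norm.const_mul ε)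

/-! ### worlds -/

theorem cf_neg' (I : Finset ι) {W : ι → ℂ} (hW : ∀ x, (W x).im < 0) (x : ι) :
    (Switch.cf I W x).im < 0 := Switch.cf_neg I hW x

/-- the world with the sites of `I` at `-i`, seen from the patch `R` -/
theorem Wc_cf (I R : Finset ι) (hIR : Disjoint I R) (E : ℝ) (e v : ι → ℝ) :
    Wc (Switch.cf I (WV E e v)) R E e (cx (rs R v)) = Switch.cf I (WV E e v) := by
  ext i
  by_cases hi : i ∈ R
  · have hI : i ∉ I := Finset.disjoint_right.1 hIR hi
    simp only [Wc, hi, dif_pos, Switch.cf, hI, if_false, cx, rs, WV]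
    push_cast
    ring
  · simp [Wc, hi]

/-- the same world, seen from the patch `Q ⊇ I` -/
noncomputable def yI (I Q : Finset ι) (E : ℝ) (e v : ι → ℝ) : Q → ℂ := fun i =>
  if (i : ι) ∈ I then -Complex.I + E + Complex.I * e i else (v i : ℂ)

theorem Wc_yI (I Q : Finset ι) (hIQ : I ⊆ Q) (E : ℝ) (e v : ι → ℝ) :
    Wc (WV E e v) Q E e (yI I Q E e v) = Switch.cf I (WV E e v) := by
  ext i
  by_cases hi : i ∈ Q
  · by_cases hI : i ∈ I
    · simp only [Wc, hi, dif_pos, Switch.cf, hI, if_true, yI]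
      ring
    · simp only [Wc, hi, dif_pos, Switch.cf, hI, if_false, yI, WV]
      push_cast
      ring
  · have hI : i ∉ I := fun h => hi (hIQ h)
    simp [Wc, hi, Switch.cf, hI]

theorem norm_yI_le {I Q : Finset ι} {E L : ℝ} {e v : ι → ℝ} (he : ∀ i, 0 < e i)
    (hLE : ∀ k ∈ I, 1 + |E| + e k ≤ L) (hv : ∀ i ∈ Q, i ∉ I → |v i| ≤ L) (i : Q) :
    ‖yI I Q E e v i‖ ≤ L := by
  by_cases hI : (i : ι) ∈ I
  · simp only [yI, hI, if_true]
    refine (norm_add_le _ _).trans ?_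
    have h1 : ‖-Complex.I + (E : ℂ)‖ ≤ 1 + |E| := by
      refine (norm_add_le _ _).trans ?_
      rw [norm_neg, Complex.norm_I, Complex.norm_real, Real.norm_eq_abs]
    have h2 : ‖Complex.I * (e i : ℂ)‖ = e i := by
      rw [norm_mul, Complex.norm_I, one_mul, Complex.norm_real, Real.norm_of_nonneg (he i).le]
    have h3 := hLE i hI
    linarith
  · simp only [yI, hI, if_false]
    rw [Complex.norm_real, Real.norm_eq_abs]
    exact hv i i.2 hI

/-- numerator and denominator of the Green vector -/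
theorem GV_eq_Pv (hA : A.IsSymm) (W0 : ι → ℂ) (Q : Finset ι) (E : ℝ) (ee : ι → ℝ)
    (T : (ι → ℂ) →ₗ[ℂ] F) (x : ι) (y : Q → ℂ) :
    GV A (Wc W0 Q E ee y) T x = ((Kmat A (Wc W0 Q E ee y)).det)⁻¹ •
      Pv (Bp A Q E ee) T x (fil Q W0 y) := by
  rw [← GT_eq_GV hA, GT_eq, Mz_Bp]

theorem MV_eq_Pv (hA : A.IsSymm) (W0 : ι → ℂ) (Q : Finset ι) (E : ℝ) (ee : ι → ℝ)
    (T : (ι → ℂ) →ₗ[ℂ] F) (x : ι) (y : Q → ℂ) :
    Switch.MV A (Wc W0 Q E ee y) T x = ENNReal.ofReal
      ((‖Pv (Bp A Q E ee) T x (fil Q W0 y)‖ / ‖(Kmat A (Wc W0 Q E ee y)).det‖) ^ 2) := by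
  rw [Switch.MV, GV_eq_Pv hA, norm_smul, norm_inv, div_eq_inv_mul]

/-! ### determinants of the three worlds -/

/-- reference world: `y = -iL` on `Q` -/
noncomputable def Wst (A : Matrix ι ι ℝ) (Q : Finset ι) (E L : ℝ) (e v : ι → ℝ) : ι → ℂ :=
  Wc (WV E e v) Q E e fun _ => -(L : ℂ) * Complex.I

theorem Wst_neg (Q : Finset ι) {E L : ℝ} (hL : 0 < L) {e : ι → ℝ} (he : ∀ i, 0 < e i)
    (v : ι → ℝ) (i : ι) : (Wst A Q E L e v i).im < 0 :=
  Wc_im_neg (fun i _ => WV_im_neg he v i) (fun i _ => he i) (fun i => by simp [hL.le]) i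

/-- chain over `R` -/
theorem det_chain (hA : A.IsSymm) {I R : Finset ι} (hIR : Disjoint I R) {E L : ℝ} (hL : 0 < L)
    {e : ι → ℝ} (he : ∀ i, 0 < e i) (hLE : ∀ k ∈ I, 1 + |E| + e k ≤ L) {ε : R → ℝ}
    (hε : ∀ b, 0 < ε b) {v : ι → ℝ} (hJ : ∀ b, v ∉ JG A I R E e L (ε b) b) :
    (∏ b, ε b) * ‖(Kmat A (Wst A (I ∪ R) E L e v)).det‖ ≤
      (1 + 2 * L) ^ I.card * ‖(Kmat A (Switch.cf I (WV E e v))).det‖ := by
  -- off the exceptional events
  have h1 := le_norm_of_notMem' R.equivFin (f := detG A I R E e v)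
    (z := fun _ => -(L : ℂ) * Complex.I)
    (ε := fun k => if hk : k < R.card then ε (R.equivFin.symm ⟨k, hk⟩) else 1)
    (fun k => (threshold_pos R.equivFin hε k).le) (V := rs R v) (fun k hk => by
      have h2 := hJ (R.equivFin.symm ⟨k, hk⟩)
      simp only [JG, Set.mem_ofPred_eq, Equiv.apply_symm_apply] at h2
      simp only [hk, dif_pos]
      exact h2)
  rw [prod_threshold] at h1
  have h2 : detG A I R E e v (cx (rs R v)) = (Kmat A (Switch.cf I (WV E e v))).det := by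
    unfold detG
    rw [Mz_Bp, Wc_cf I R hIR]
  have h3 : detG A I R E e v (fun _ => -(L : ℂ) * Complex.I) =
      (Kmat A (Wc (Switch.cf I (WV E e v)) R E e fun _ => -(L : ℂ) * Complex.I)).det := by
    unfold detG
    rw [Mz_Bp]
  rw [h2, h3] at h1
  -- the sites of `I`
  set W' : ι → ℂ := Wc (Switch.cf I (WV E e v)) R E e fun _ => -(L : ℂ) * Complex.I with hW'
  have hW'n : ∀ i, (W' i).im < 0 :=
    Wc_im_neg (fun i _ => Switch.cf_neg I (WV_im_neg he v) i) (fun i _ => he i)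
      (fun i => by simp [hL.le])
  have h4 : ‖(Kmat A (Wst A (I ∪ R) E L e v)).det‖ ≤
      (1 + 2 * L) ^ I.card * ‖(Kmat A W').det‖ := by
    refine det_le_pow hA (Wst_neg (I ∪ R) hL he v) hW'n I (fun i hi => ?_) (by linarith)
      fun k hk s hs => ?_
    · by_cases hR : i ∈ R
      · have hQ : i ∈ I ∪ R := Finset.mem_union_right _ hR
        simp only [Wst, Wc, hQ, dif_pos, hW', hR]
      · have hQ : i ∉ I ∪ R := by
          rw [Finset.mem_union, not_or]; exact ⟨hi, hR⟩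
        simp only [Wst, Wc, hQ, dif_neg, not_false_eq_true, hW', hR, Switch.cf, hi, if_false]
    · have hR : k ∉ R := Finset.disjoint_left.1 hIR hk
      have hQ : k ∈ I ∪ R := Finset.mem_union_left _ hk
      have e1 : W' k = -Complex.I := by simp [hW', Wc, hR, Switch.cf, hk]
      have e2 : Wst A (I ∪ R) E L e v k = -(L : ℂ) * Complex.I - E - Complex.I * e k := by
        simp [Wst, Wc, hQ]
      rw [e1, e2]
      have h5 := shift_le (ζ := -(L : ℂ) * Complex.I - E - Complex.I * e k) (ζ' := -Complex.I)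
        (s := s) (β := 1) (r := 2 * L) one_pos (by simp) hs (by
          have h6 : -(L : ℂ) * Complex.I - E - Complex.I * e k - -Complex.I =
              (1 - (L : ℂ) - e k) * Complex.I - E := by ring
          rw [h6]
          refine (norm_sub_le _ _).trans ?_
          have h7 : ((1 : ℂ) - (L : ℂ) - e k) = ((1 - L - e k : ℝ) : ℂ) := by push_cast; ring
          rw [norm_mul, Complex.norm_I, mul_one, h7, Complex.norm_real, Complex.norm_real,
            Real.norm_eq_abs, Real.norm_eq_abs]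
          have h8 := hLE k hk
          have h9 := (he k).le
          have h10 : |1 - L - e k| ≤ L + e k := by
            rw [abs_le]; constructor <;> linarith [abs_nonneg E]
          linarith)
      rwa [div_one] at h5
  have hp : 0 ≤ ∏ b, ε b := Finset.prod_nonneg fun b _ => (hε b).le
  calc (∏ b, ε b) * ‖(Kmat A (Wst A (I ∪ R) E L e v)).det‖
      ≤ (∏ b, ε b) * ((1 + 2 * L) ^ I.card * ‖(Kmat A W').det‖) :=
        mul_le_mul_of_nonneg_left h4 hp
    _ = (1 + 2 * L) ^ I.card * ((∏ b, ε b) * ‖(Kmat A W').det‖) := by ring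
    _ ≤ _ := mul_le_mul_of_nonneg_left h1 (by positivity)

/-- the target world -/
theorem det_target_le (hA : A.IsSymm) (Q : Finset ι) {E L : ℝ} (hL : 0 < L) {e1 e0 : ι → ℝ}
    (he1 : ∀ i, 0 < e1 i) (he0 : ∀ i, 0 < e0 i) (hoff : ∀ i ∉ Q, e1 i = e0 i)
    (hd : ∀ i ∈ Q, |e1 i - e0 i| ≤ L) {v u : ι → ℝ} (hu : ∀ i ∉ Q, v i = u i)
    (huL : ∀ i ∈ Q, |u i| ≤ L) :
    ‖(Kmat A (WV E e0 u)).det‖ ≤ 4 ^ Q.card * ‖(Kmat A (Wst A Q E L e1 v)).det‖ := by
  refine det_le_pow hA (WV_im_neg he0 u) (Wst_neg Q hL he1 v) Q (fun i hi => ?_) (by norm_num)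
    fun k hk s hs => ?_
  · simp only [Wst, Wc, hi, dif_neg, not_false_eq_true, WV, hoff i hi, hu i hi]
  · have e2 : Wst A Q E L e1 v k = -(L : ℂ) * Complex.I - E - Complex.I * e1 k := by
      simp [Wst, Wc, hk]
    have h5 := shift_le (ζ := WV E e0 u k) (ζ' := Wst A Q E L e1 v k) (s := s) (β := L)
      (r := 3 * L) hL (by
        rw [e2]
        simp only [Complex.sub_im, Complex.mul_im, Complex.neg_re, Complex.ofReal_re,
          Complex.I_im, Complex.neg_im, Complex.ofReal_im, Complex.I_re]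
        have := (he1 k).le
        linarith) hs (by
        rw [e2]
        have h6 : WV E e0 u k - (-(L : ℂ) * Complex.I - E - Complex.I * e1 k) =
            (u k : ℂ) + ((L : ℂ) + (e1 k - e0 k)) * Complex.I := by
          simp only [WV]; push_cast; ring
        rw [h6]
        refine (norm_add_le _ _).trans ?_
        have h7 : ((L : ℂ) + (e1 k - e0 k)) = ((L + (e1 k - e0 k) : ℝ) : ℂ) := by push_cast; ring
        rw [norm_mul, Complex.norm_I, mul_one, h7, Complex.norm_real, Complex.norm_real,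
          Real.norm_eq_abs, Real.norm_eq_abs]
        have h8 := huL k hk
        have h9 := hd k hk
        have h10 : |L + (e1 k - e0 k)| ≤ |L| + |e1 k - e0 k| := abs_add_le _ _
        rw [abs_of_pos hL] at h10
        linarith)
    have h6 : (1 + 3 * L / L : ℝ) = 4 := by field_simp; norm_num
    rwa [h6] at h5

/-! ### numerators -/

/-- a multi-affine function on the polydisc is bounded by its values on the real cube -/
theorem norm_le_cube {κ : Type*} [Fintype κ] [DecidableEq κ] {f : (κ → ℂ) → F} (hf : MAff f)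
    {L M : ℝ} (hL : 0 < L) (hM : ∀ V : κ → ℝ, (∀ i, |V i| ≤ L) → ‖f (cx V)‖ ≤ M) {z : κ → ℂ}
    (hz : ∀ i, ‖z i‖ ≤ L) : ‖f z‖ ≤ 9 ^ Fintype.card κ * M := by
  obtain ⟨V, hVW, hV⟩ := exists_large (κ := Unit) (fun _ => f) (fun _ => hf) (L := L)
    (ε := 1 / 9) hL.le (by norm_num) (by norm_num) (fun _ => z) (fun _ i => hz i)
    (fun _ => {t : ℝ | |t| ≤ L}) (fun _ => le_rfl) (fun i => by
      have h1 : {t : ℝ | |t| ≤ L} = Set.Icc (-L) L := by
        ext t
        simp only [Set.mem_ofPred_eq, Set.mem_Icc]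
        exact abs_le
      rw [h1, Real.volume_Icc, Fintype.card_unit, Nat.cast_one, one_mul,
        ENNReal.ofReal_lt_ofReal_iff (by linarith : (0 : ℝ) < L - -L)]
      linarith)
  have h1 := (hV ()).trans (hM V hVW)
  have h2 : (9 : ℝ) ^ Fintype.card κ * (1 / 9) ^ Fintype.card κ = 1 := by
    rw [← mul_pow]; norm_num
  calc ‖f z‖ = (9 : ℝ) ^ Fintype.card κ * ((1 / 9) ^ Fintype.card κ * ‖f z‖) := by
        rw [← mul_assoc, h2, one_mul]
    _ ≤ _ := mul_le_mul_of_nonneg_left h1 (by positivity)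

/-- constant of (G3) -/
noncomputable def KG (L c2 q : ℝ) (i n : ℕ) : ℝ :=
  ((2 / (L * c2) + 1) * 648 ^ n * (1 + 2 * L) ^ i / q) ^ 2

theorem fil_shift (A : Matrix ι ι ℝ) (Q : Finset ι) (E : ℝ) (e1 e0 : ι → ℝ) {z0 : ι → ℂ}
    (V : Q → ℝ) (T : (ι → ℂ) →ₗ[ℂ] F) (x : ι) :
    Pv (Bp A Q E e0) T x (fil Q z0 fun i => (V i : ℂ) + Complex.I * (e0 i - e1 i)) =
      Pv (Bp A Q E e1) T x (fil Q z0 (cx V)) := by
  have h : Mz (Bp A Q E e0) (fil Q z0 fun i => (V i : ℂ) + Complex.I * (e0 i - e1 i)) =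
      Mz (Bp A Q E e1) (fil Q z0 (cx V)) := by
    rw [Mz_Bp, Mz_Bp]
    congr 1
    ext i
    by_cases hi : i ∈ Q
    · simp only [Wc, hi, dif_pos, cx]
      ring
    · simp [Wc, hi]
  unfold Pv
  rw [h]

section
variable [MeasurableSpace F] [BorelSpace F]

/-- **core**: off the exceptional events of `R` the far energies at `V_I = -i` are bounded by the
mean of the target world -/
theorem core_pt (hA : A.IsSymm) {I R : Finset ι} (hIR : Disjoint I R) {E L : ℝ} (hL : 0 < L)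
    {e1 e0 : ι → ℝ} (he1 : ∀ i, 0 < e1 i) (he0 : ∀ i, 0 < e0 i)
    (hoff : ∀ i ∉ I ∪ R, e1 i = e0 i) (hd : ∀ i ∈ I ∪ R, |e1 i - e0 i| ≤ L)
    (hLE : ∀ k ∈ I, 1 + |E| + e1 k ≤ L) {y : ι} (hy : y ∈ I) (T : (ι → ℂ) →ₗ[ℂ] F)
    {c2 : ℝ} (hc2 : 0 < c2)
    (hcof : ∀ z (hz : z ∈ I), z ≠ y → CofLe A (I ∪ R) E e1 L c2
      ⟨z, Finset.mem_union_left _ hz⟩ ⟨y, Finset.mem_union_left _ hy⟩)
    {ε : R → ℝ} (hε : ∀ b, 0 < ε b) {v : ι → ℝ} (hv : ∀ i ∈ R, |v i| ≤ L)
    (hJ : ∀ b, v ∉ JG A I R E e1 L (ε b) b)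
    (ν0 : ι → Measure ℝ) [∀ i, IsProbabilityMeasure (ν0 i)] {κ : ℝ≥0∞}
    (hν : ∀ i ∈ I ∪ R, WinLaw F κ (2 * L) (ν0 i))
    (hsupp : ∀ i ∈ I ∪ R, ν0 i {t | |t| ≤ L}ᶜ = 0) {w : ι} (hw : w ∈ I) :
    κ ^ (I ∪ R).card * Switch.MV A (Switch.cf I (WV E e1 v)) T w ≤
      ENNReal.ofReal (KG L c2 (∏ b, ε b) I.card (I ∪ R).card) *
        (∫⋯∫⁻_(I ∪ R), (fun v => Switch.MV A (WV E e0 v) T y) ∂ν0) v := by
  set Q := I ∪ R with hQ
  have hIQ : I ⊆ Q := Finset.subset_union_left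
  set n := Q.card with hn
  have h0 : ∀ i ∉ Q, (WV E e1 v i).im < 0 := fun i _ => WV_im_neg he1 v i
  have hB : DissB (Bp A Q E e1) := dissB_Bp hA Q E fun i _ => (he1 i).le
  set D0 : ℝ := ‖(Kmat A (Wst A Q E L e1 v)).det‖ with hD0
  have hD0pos : 0 < D0 :=
    norm_pos_iff.2 (P365L.det_ne_zero hA (Wst_neg Q hL he1 v))
  set q : ℝ := ∏ b, ε b with hq
  have hqpos : 0 < q := Finset.prod_pos fun b _ => hε b
  -- a maximum point of `P_y` on the real cube
  have hcomp : IsCompact {V : Q → ℝ | ∀ i, |V i| ≤ L} := by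
    have : {V : Q → ℝ | ∀ i, |V i| ≤ L} = Set.univ.pi fun _ => Set.Icc (-L) L := by
      ext V
      simp only [Set.mem_ofPred_eq, Set.mem_univ_pi, Set.mem_Icc]
      exact forall_congr' fun i => abs_le
    rw [this]
    exact isCompact_univ_pi fun _ => isCompact_Icc
  have hPc : Continuous fun V : Q → ℝ => ‖Pv (Bp A Q E e1) T y (fil Q (WV E e1 v) (cx V))‖ :=
    ((continuous_Pv (Bp A Q E e1) T y).comp
      ((continuous_fil Q (WV E e1 v)).comp continuous_cx)).norm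
  obtain ⟨Vs, hVs, hmax⟩ := hcomp.exists_isMaxOn ⟨fun _ => 0, fun i => by simp [hL.le]⟩
    hPc.continuousOn
  set Sy : ℝ := ‖Pv (Bp A Q E e1) T y (fil Q (WV E e1 v) (cx Vs))‖ with hSy
  have hSy0 : 0 ≤ Sy := norm_nonneg _
  have hmax' : ∀ V : Q → ℝ, (∀ i, |V i| ≤ L) →
      ‖Pv (Bp A Q E e1) T y (fil Q (WV E e1 v) (cx V))‖ ≤ Sy := fun V hV => hmax hV
  -- numerators
  have hyI : ∀ i, ‖yI I Q E e1 v i‖ ≤ L := norm_yI_le he1 hLE fun i hi hI => by
    rcases Finset.mem_union.1 hi with h | h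
    · exact absurd h hI
    · exact hv i h
  set X : ℝ := ‖Pv (Bp A Q E e1) T w (fil Q (WV E e1 v) (yI I Q E e1 v))‖ with hX
  have hXle : X ≤ (2 / (L * c2) + 1) * 162 ^ n * Sy := by
    by_cases hwy : w = y
    · have h1 := norm_le_cube (f := fun z : Q → ℂ => Pv (Bp A Q E e1) T y (fil Q (WV E e1 v) z))
        (maff_fil (maff_Pv _ T y) Q _) hL hmax' hyI
      rw [Fintype.card_coe] at h1
      have h2 : X ≤ 9 ^ n * Sy := by
        rw [hX, hwy]; exact h1
      refine h2.trans (mul_le_mul_of_nonneg_right ?_ hSy0)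
      have h3 : (9 : ℝ) ^ n ≤ 162 ^ n := pow_le_pow_left₀ (by norm_num) (by norm_num) n
      have h4 : (0 : ℝ) ≤ 2 / (L * c2) * 162 ^ n := by positivity
      nlinarith
    · obtain ⟨y2, hy2, hc⟩ := hcof w hw hwy (WV E e1 v) h0
      have h1 := norm_Pv_le (B := Bp A Q E e1) hB Q h0 hL (x := w) (y := y) (hIQ hw) (hIQ hy) hwy T
        hc2.le hy2 hc hmax' hyI
      have h2 : X * c2 ≤ (2 / (L * c2) * 162 ^ n * Sy) * c2 := by
        calc X * c2 = c2 * X := mul_comm _ _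
          _ ≤ 2 / L * 162 ^ n * Sy := h1
          _ = (2 / (L * c2) * 162 ^ n * Sy) * c2 := by field_simp
      have h3 := le_of_mul_le_mul_right h2 hc2
      have h4 : (0 : ℝ) ≤ 162 ^ n * Sy := by positivity
      nlinarith
  -- determinant of the source world
  have hdet1 : q * D0 ≤ (1 + 2 * L) ^ I.card * ‖(Kmat A (Switch.cf I (WV E e1 v))).det‖ :=
    det_chain hA hIR hL he1 hLE hε hJ
  set D1 : ℝ := ‖(Kmat A (Switch.cf I (WV E e1 v))).det‖ with hD1
  have hD1pos : 0 < D1 :=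
    norm_pos_iff.2 (P365L.det_ne_zero hA (Switch.cf_neg I (WV_im_neg he1 v)))
  have hMV : Switch.MV A (Switch.cf I (WV E e1 v)) T w = ENNReal.ofReal ((X / D1) ^ 2) := by
    rw [← Wc_yI I Q hIQ, MV_eq_Pv hA, Wc_yI I Q hIQ]
  -- second moment in the target world
  have h2 : κ ^ n * ENNReal.ofReal Sy ^ 2 ≤
      ∫⁻ V', ‖Pv (Bp A Q E e0) T y (fil Q (WV E e1 v) (cx V'))‖ₑ ^ 2
        ∂(Measure.pi fun i : Q => ν0 i) := by
    have h3 := lintegral_sq_ge_univ (f := fun z : Q → ℂ => Pv (Bp A Q E e0) T y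
        (fil Q (WV E e1 v) z)) (maff_fil (maff_Pv _ T y) Q _)
      ((continuous_Pv _ T y).comp (continuous_fil Q _)).measurable (fun i : Q => ν0 i)
      (L := 2 * L) (z := fun i => (Vs i : ℂ) + Complex.I * (e0 i - e1 i)) (fun i => by
        refine (norm_add_le _ _).trans ?_
        have h4 : ((e0 i : ℂ) - e1 i) = ((e0 i - e1 i : ℝ) : ℂ) := by push_cast; ring
        rw [norm_mul, Complex.norm_I, one_mul, h4, Complex.norm_real, Complex.norm_real,
          Real.norm_eq_abs, Real.norm_eq_abs]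
        have h5 := hVs i
        have h6 := hd i i.2
        rw [abs_sub_comm] at h6
        linarith) (fun i => hν i i.2)
    rw [Fintype.card_coe] at h3
    rw [fil_shift] at h3
    rwa [hSy, ofReal_norm]
  -- determinant of the target world
  have h4 : ∫⁻ V', ‖Pv (Bp A Q E e0) T y (fil Q (WV E e1 v) (cx V'))‖ₑ ^ 2
        ∂(Measure.pi fun i : Q => ν0 i) ≤
      ENNReal.ofReal ((4 ^ n * D0) ^ 2) *
        (∫⋯∫⁻_Q, (fun v => Switch.MV A (WV E e0 v) T y) ∂ν0) v := by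
    unfold lmarginal
    rw [← lintegral_const_mul' _ _ ENNReal.ofReal_ne_top]
    refine lintegral_mono_ae ?_
    have hae : ∀ᵐ V' ∂(Measure.pi fun i : Q => ν0 i), ∀ i, |V' i| ≤ L := by
      rw [ae_all_iff]
      intro i
      have h5 : ∀ᵐ t ∂(ν0 i), |t| ≤ L := by
        rw [ae_iff]; exact hsupp i i.2
      exact (Measure.quasiMeasurePreserving_eval (μ := fun i : Q => ν0 i) i).ae h5
    filter_upwards [hae] with V' hV'
    set u : ι → ℝ := updateFinset v Q V' with hu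
    have hu1 : ∀ i ∉ Q, v i = u i := fun i hi => by simp [hu, updateFinset, hi]
    have hu2 : ∀ i ∈ Q, |u i| ≤ L := fun i hi => by
      simpa [hu, updateFinset, hi] using hV' ⟨i, hi⟩
    have h6 := det_target_le (E := E) hA Q hL he1 he0 hoff hd hu1 hu2
    have h7 : WV E e0 u = Wc (WV E e1 v) Q E e0 (cx V') := by
      rw [hu, WV_updateFinset]
      ext i
      by_cases hi : i ∈ Q
      · simp [Wc, hi]
      · simp [Wc, hi, WV, hoff i hi]
    have hD2pos : 0 < ‖(Kmat A (WV E e0 u)).det‖ :=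
      norm_pos_iff.2 (P365L.det_ne_zero hA (WV_im_neg he0 u))
    have h8 : Switch.MV A (WV E e0 u) T y = ENNReal.ofReal
        ((‖Pv (Bp A Q E e0) T y (fil Q (WV E e1 v) (cx V'))‖ / ‖(Kmat A (WV E e0 u)).det‖) ^ 2) := by
      rw [h7, MV_eq_Pv hA]
    rw [h8, ← ofReal_norm, ← ENNReal.ofReal_pow (norm_nonneg _), ← ENNReal.ofReal_mul (by positivity),
      ← mul_pow]
    refine ENNReal.ofReal_le_ofReal (pow_le_pow_left₀ (norm_nonneg _) ?_ 2)
    rw [← mul_div_assoc, le_div_iff₀ hD2pos, mul_comm]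
    exact mul_le_mul_of_nonneg_right h6 (norm_nonneg _)
  set Y : ℝ≥0∞ := (∫⋯∫⁻_Q, (fun v => Switch.MV A (WV E e0 v) T y) ∂ν0) v with hY
  -- put together
  set C : ℝ := (2 / (L * c2) + 1) * 162 ^ n * (1 + 2 * L) ^ I.card / (q * D0) with hC
  have hC0 : 0 ≤ C := by positivity
  have h9 : X / D1 ≤ C * Sy := by
    rw [div_le_iff₀ hD1pos]
    have h10 : (2 / (L * c2) + 1) * 162 ^ n * Sy * (q * D0) ≤
        (2 / (L * c2) + 1) * 162 ^ n * Sy * ((1 + 2 * L) ^ I.card * D1) :=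
      mul_le_mul_of_nonneg_left hdet1 (by positivity)
    have h11 : X * (q * D0) ≤ (2 / (L * c2) + 1) * 162 ^ n * Sy * (q * D0) :=
      mul_le_mul_of_nonneg_right hXle (by positivity)
    have h12 : C * Sy * D1 = (2 / (L * c2) + 1) * 162 ^ n * Sy * ((1 + 2 * L) ^ I.card * D1) /
        (q * D0) := by
      rw [hC]; ring
    rw [h12, le_div_iff₀ (by positivity)]
    exact h11.trans h10
  rw [hMV]
  calc κ ^ n * ENNReal.ofReal ((X / D1) ^ 2)
      ≤ κ ^ n * ENNReal.ofReal ((C * Sy) ^ 2) := by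
        gcongr
    _ = ENNReal.ofReal (C ^ 2) * (κ ^ n * ENNReal.ofReal Sy ^ 2) := by
        rw [mul_pow, ENNReal.ofReal_mul (by positivity), ENNReal.ofReal_pow hSy0]
        ring
    _ ≤ ENNReal.ofReal (C ^ 2) * (ENNReal.ofReal ((4 ^ n * D0) ^ 2) * Y) :=
        mul_le_mul' le_rfl (h2.trans h4)
    _ = ENNReal.ofReal (KG L c2 q I.card n) * Y := by
        rw [← mul_assoc, ← ENNReal.ofReal_mul (by positivity), ← mul_pow]
        congr 2
        unfold KG
        congr 1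
        have h15 : (648 : ℝ) ^ n = 162 ^ n * 4 ^ n := by rw [← mul_pow]; norm_num
        rw [hC, h15]
        field_simp


/-- **Crude Harnack inequality, form (G3), cross-label**: exceptional events on `R` only. -/
theorem wch_G (hA : A.IsSymm) {I R : Finset ι} (hIR : Disjoint I R) {E L : ℝ} (hL : 0 < L)
    {e1 e0 : ι → ℝ} (he1 : ∀ i, 0 < e1 i) (he0 : ∀ i, 0 < e0 i)
    (hoff : ∀ i ∉ I ∪ R, e1 i = e0 i) (hd : ∀ i ∈ I ∪ R, |e1 i - e0 i| ≤ L)
    (hLE : ∀ k ∈ I, 1 + |E| + e1 k ≤ L) {x y : ι} (hx : x ∈ I) (hy : y ∈ I)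
    (T : (ι → ℂ) →ₗ[ℂ] F) {c2 : ℝ} (hc2 : 0 < c2)
    (hcof : ∀ z (hz : z ∈ I), z ≠ y → CofLe A (I ∪ R) E e1 L c2
      ⟨z, Finset.mem_union_left _ hz⟩ ⟨y, Finset.mem_union_left _ hy⟩)
    {ε : R → ℝ} (hε : ∀ b, 0 < ε b)
    (ν1 ν0 : ι → Measure ℝ) [∀ i, IsProbabilityMeasure (ν1 i)]
    [∀ i, IsProbabilityMeasure (ν0 i)] (hνoff : ∀ i ∉ I ∪ R, ν1 i = ν0 i)
    {D : ι → ℝ} (hD : ∀ k ∈ I.erase x, DensLe (D k) (ν1 k)) {L1 : ℝ}
    (hL1 : ∀ k ∈ I.erase x, ∀ᵐ u ∂ν1 k, |u - E| + e1 k ≤ L1)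
    (hR1 : ∀ i ∈ R, ν1 i {t | |t| ≤ L}ᶜ = 0) {κ : ℝ} (hκ : 0 < κ)
    (hν : ∀ i ∈ I ∪ R, WinLaw F (ENNReal.ofReal κ) (2 * L) (ν0 i))
    (hsupp : ∀ i ∈ I ∪ R, ν0 i {t | |t| ≤ L}ᶜ = 0) :
    ∫⁻ v, ENNReal.ofReal (Yv A (WV E e1 v) T x) ∂(Measure.pi ν1) ≤
      ∑ b : R, ∫⁻ v in JG A I R E e1 L (ε b) b, ENNReal.ofReal (Yv A (WV E e1 v) T x)
        ∂(Measure.pi ν1)
      + 2 * ((∏ k ∈ I.erase x, Switch.CuE L1 (D k)) * (I.card *
        (ENNReal.ofReal (KG L c2 (∏ b, ε b) I.card (I ∪ R).card / κ ^ (I ∪ R).card) *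
          ∫⁻ v, Switch.MV A (WV E e0 v) T y ∂(Measure.pi ν0)))) := by
  classical
  set J : Set (ι → ℝ) := ⋃ b ∈ (Finset.univ : Finset R), JG A I R E e1 L (ε b) b with hJdef
  have hJm : MeasurableSet J := Finset.measurableSet_biUnion _ fun b _ =>
    measurableSet_JG I R E e1 L (ε b) b
  have hJI : ∀ v v' : ι → ℝ, (∀ i ∉ I, v i = v' i) → (v ∈ Jᶜ ↔ v' ∈ Jᶜ) := by
    intro v v' h
    simp only [hJdef, Set.mem_compl_iff, Set.mem_iUnion, not_exists]
    exact forall_congr' fun b => forall_congr' fun _ =>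
      not_congr (mem_JG_congr hIR E e1 L (ε b) b h)
  have hmY : Measurable fun v : ι → ℝ => ENNReal.ofReal (Yv A (WV E e1 v) T x) :=
    (continuous_Yv_WV hA he1 T x).measurable.ennreal_ofReal
  -- split
  rw [← lintegral_add_compl (fun v => ENNReal.ofReal (Yv A (WV E e1 v) T x)) hJm]
  refine add_le_add (lintegral_biUnion_le _ _ _) ?_
  -- to the reference value at `x`
  have h1 : ∫⁻ v in Jᶜ, ENNReal.ofReal (Yv A (WV E e1 v) T x) ∂(Measure.pi ν1) ≤
      2 * ∫⁻ v, Jᶜ.indicator (fun v => Switch.MV A (Switch.cf {x} (WV E e1 v)) T x) v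
        ∂(Measure.pi ν1) := by
    rw [← lintegral_indicator hJm.compl, ← lintegral_const_mul' _ _ (by simp)]
    refine lintegral_mono fun v => ?_
    by_cases hv : v ∈ Jᶜ
    · simp only [Set.indicator_of_mem hv]
      rw [Switch.cf_singleton]
      exact Switch.Yv_le_MV hA (WV_im_neg he1 v) T x
    · simp only [Set.indicator_of_notMem hv]
      exact zero_le
  refine h1.trans (mul_le_mul' le_rfl ?_)
  -- up
  have hm1 : Measurable fun v : ι → ℝ => Switch.MV A (Switch.cf {x} (WV E e1 v)) T x :=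
    Switch.measurable_MV_cf T _ E e1 x
  have hsd : I \ I.erase x = {x} := by
    ext z
    simp only [Finset.mem_sdiff, Finset.mem_erase, Finset.mem_singleton]
    constructor
    · intro h
      by_contra h2
      exact h.2 ⟨h2, h.1⟩
    · rintro rfl
      exact ⟨hx, fun h => h.1 rfl⟩
  have h2 : ∫⁻ v, Jᶜ.indicator (fun v => Switch.MV A (Switch.cf {x} (WV E e1 v)) T x) v
        ∂(Measure.pi ν1) ≤
      (∏ k ∈ I.erase x, Switch.CuE L1 (D k)) * ∫⁻ v, Jᶜ.indicator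
        (fun v => ∑ w ∈ I, Switch.MV A (Switch.cf I (WV E e1 v)) T w) v ∂(Measure.pi ν1) := by
    rw [← Switch.lint_lmarginal (I.erase x) (hm1.indicator hJm.compl),
      ← lintegral_const_mul _ ((Finset.measurable_sum _ fun w _ =>
        Switch.measurable_MV_cf T I E e1 w).indicator hJm.compl)]
    refine lintegral_mono fun v => ?_
    have h3 := Switch.up_all hA T he1 (Finset.erase_subset x I) hD hL1 hx
      (Finset.notMem_erase x I) v
    rw [hsd] at h3
    by_cases hv : v ∈ Jᶜ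
    · simp only [Set.indicator_of_mem hv]
      refine le_trans (lmarginal_mono (fun v' => ?_) v) h3
      by_cases hv' : v' ∈ Jᶜ
      · simp only [Set.indicator_of_mem hv']; exact le_rfl
      · simp only [Set.indicator_of_notMem hv']; exact zero_le
    · simp only [Set.indicator_of_notMem hv, mul_zero]
      refine le_of_eq ?_
      unfold lmarginal
      have h4 : ∀ u : (i : I.erase x) → ℝ, updateFinset v (I.erase x) u ∉ Jᶜ := fun u hu => hv
        ((hJI _ _ fun i hi => by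
          have : i ∉ I.erase x := fun h => hi (Finset.mem_of_mem_erase h)
          simp [updateFinset, this]).1 hu)
      simp only [Set.indicator_of_notMem (h4 _), lintegral_zero]
  refine h2.trans (mul_le_mul' le_rfl ?_)
  -- pointwise comparison with the target world
  set R0 : (ι → ℝ) → ℝ≥0∞ := fun v => Switch.MV A (WV E e0 v) T y with hR0
  have hR0m : Measurable R0 := by
    have h5 : (fun v : ι → ℝ => Switch.MV A (WV E e0 v) T y) =
        fun v => ENNReal.ofReal (‖OneVar.GV A (WV E e0 v) T y‖ ^ 2) := rfl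
    rw [hR0, h5]
    exact ((continuous_GV_WV hA he0 T y).norm.pow 2).measurable.ennreal_ofReal
  set C : ℝ≥0∞ := ENNReal.ofReal (KG L c2 (∏ b, ε b) I.card (I ∪ R).card / κ ^ (I ∪ R).card)
    with hC
  have h6 : ∀ᵐ v ∂(Measure.pi ν1), v ∈ Jᶜ → ∀ w ∈ I,
      Switch.MV A (Switch.cf I (WV E e1 v)) T w ≤ C * (∫⋯∫⁻_(I ∪ R), R0 ∂ν0) v := by
    filter_upwards [ae_cube ν1 R hR1] with v hv hvJ w hw
    have hvJ' : ∀ b, v ∉ JG A I R E e1 L (ε b) b := by
      intro b hb
      refine hvJ ?_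
      rw [hJdef]
      exact Set.mem_biUnion (Finset.mem_coe.2 (Finset.mem_univ b)) hb
    have h7 := core_pt hA hIR hL he1 he0 hoff hd hLE hy T hc2 hcof hε hv hvJ' ν0 hν hsupp hw
    have h8 := div_pow_aux (Y := Switch.MV A (Switch.cf I (WV E e1 v)) T w)
      (R := (∫⋯∫⁻_(I ∪ R), R0 ∂ν0) v) (a := 0) hκ (I ∪ R).card (by
        rw [mul_zero, add_zero]; exact h7)
    rwa [add_zero] at h8
  have h9 : ∫⁻ v, Jᶜ.indicator
      (fun v => ∑ w ∈ I, Switch.MV A (Switch.cf I (WV E e1 v)) T w) v ∂(Measure.pi ν1) ≤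
      ∫⁻ v, I.card * (C * (∫⋯∫⁻_(I ∪ R), R0 ∂ν0) v) ∂(Measure.pi ν1) := by
    refine lintegral_mono_ae ?_
    filter_upwards [h6] with v hv
    by_cases hvJ : v ∈ Jᶜ
    · simp only [Set.indicator_of_mem hvJ]
      refine (Finset.sum_le_card_nsmul _ _ _ (hv hvJ)).trans (le_of_eq ?_)
      rw [nsmul_eq_mul]
    · simp only [Set.indicator_of_notMem hvJ]
      exact zero_le
  refine h9.trans (le_of_eq ?_)
  have hCt : C ≠ ∞ := ENNReal.ofReal_ne_top
  rw [lintegral_const_mul' _ _ (by simp), lintegral_const_mul' _ _ hCt,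
    Switch.lint_congr_off hνoff (hR0m.lmarginal ν0) (fun v v' h => lmarginal_congr ν0 R0 h),
    Switch.lint_lmarginal _ hR0m]

/-- **(G3), cross-label, the exceptional events estimated.** -/
theorem wch_G_full (hA : A.IsSymm) {I R : Finset ι} (hIR : Disjoint I R) {E L : ℝ} (hL : 0 < L)
    {e1 e0 : ι → ℝ} (he1 : ∀ i, 0 < e1 i) (he0 : ∀ i, 0 < e0 i)
    (hoff : ∀ i ∉ I ∪ R, e1 i = e0 i) (hd : ∀ i ∈ I ∪ R, |e1 i - e0 i| ≤ L)
    (hLE : ∀ k ∈ I, 1 + |E| + e1 k ≤ L) {x y : ι} (hx : x ∈ I) (hy : y ∈ I) (hex : e1 x ≤ 1)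
    (T : (ι → ℂ) →ₗ[ℂ] F) {c2 : ℝ} (hc2 : 0 < c2)
    (hcof : ∀ z (hz : z ∈ I), z ≠ y → CofLe A (I ∪ R) E e1 L c2
      ⟨z, Finset.mem_union_left _ hz⟩ ⟨y, Finset.mem_union_left _ hy⟩)
    {ε : R → ℝ} (hε : ∀ b, 0 < ε b) (hε1 : ∀ b, ε b ≤ 1 / 2)
    (ν1 ν0 : ι → Measure ℝ) [∀ i, IsProbabilityMeasure (ν1 i)]
    [∀ i, IsProbabilityMeasure (ν0 i)] (hνoff : ∀ i ∉ I ∪ R, ν1 i = ν0 i)
    {D : ι → ℝ} (hD : ∀ k ∈ I.erase x, DensLe (D k) (ν1 k)) {L1 : ℝ}
    (hL1 : ∀ k ∈ I.erase x, ∀ᵐ u ∂ν1 k, |u - E| + e1 k ≤ L1)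
    {ρ : ι → ℝ → ℝ} {g : ι → GP} (hG : ∀ i ∈ insert x R, GLw (ν1 i) (ρ i) (g i))
    (hgL : ∀ i ∈ R, (g i).L ≤ L) {κ : ℝ} (hκ : 0 < κ)
    (hν : ∀ i ∈ I ∪ R, WinLaw F (ENNReal.ofReal κ) (2 * L) (ν0 i))
    (hsupp : ∀ i ∈ I ∪ R, ν0 i {t | |t| ≤ L}ᶜ = 0) :
    ∫⁻ v, ENNReal.ofReal (Yv A (WV E e1 v) T x) ∂(Measure.pi ν1) ≤
      ∑ b : R, ENNReal.ofReal (Cev E (g x) (g b) * (8 * L * ε b)) *
        ∫⁻ v, ENNReal.ofReal (‖OneVar.GV A (WV E e1 v) T x‖ ^ 2 +
          ‖OneVar.GV A (WV E e1 v) T b‖ ^ 2) ∂(Measure.pi ν1)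
      + 2 * ((∏ k ∈ I.erase x, Switch.CuE L1 (D k)) * (I.card *
        (ENNReal.ofReal (KG L c2 (∏ b, ε b) I.card (I ∪ R).card / κ ^ (I ∪ R).card) *
          ∫⁻ v, Switch.MV A (WV E e0 v) T y ∂(Measure.pi ν0)))) := by
  refine (wch_G hA hIR hL he1 he0 hoff hd hLE hx hy T hc2 hcof hε ν1 ν0 hνoff hD hL1
    (fun i hi => GLaw_supp (hG i (Finset.mem_insert_of_mem hi)) (hgL i hi)) hκ hν hsupp).trans ?_
  refine add_le_add (Finset.sum_le_sum fun b _ => ?_) le_rfl
  have hxb : x ≠ (b : ι) := fun h => Finset.disjoint_left.1 hIR hx (h ▸ b.2)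
  have h := event_cost (E := E) (L := L) (J := JG A I R E e1 L (ε b) b) hA he1 T
    (x := x) (l := (b : ι)) hxb hex ν1 (hG x (Finset.mem_insert_self x R))
    (hG b (Finset.mem_insert_of_mem b.2)) (hgL b b.2) (measurableSet_JG I R E e1 L (ε b) b)
    (volume_section_JG_le I R E e1 hL.le (hε b).le (hε1 b) b)
  rwa [mul_comm (Cev E (g x) (g b)), ENNReal.ofReal_mul (by have := (hε b).le; positivity),
    mul_comm (ENNReal.ofReal (8 * L * ε b))]

end

end P365T1.G3
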