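import Vale.Agent.P365.T1.WCHg
import Vale.Agent.P365.C937.BasePt

/-!
# Bridge: the crude Harnack inequality in the notation of chapter A (P365 T1)

`Wc W0 Q E ee y` : potential with complex values `y` on the patch `Q` (energy `E`, absorption
`ee`), `W0` outside; `Kmat A (Wc ..) = Mz (Bp A Q E ee) (fil Q W0 y)`.
`wch_site` : off the graded exceptional events, the off-resonant cost at `x` is bounded by the mean
energy density at `y`, up to an additive term.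
-/

set_option autoImplicit false
set_option linter.all false

open MeasureTheory Finset Function Matrix
open scoped ENNReal NNReal BigOperators

namespace P365T1

open P365L P365O P365T1.MAff

variable {ι : Type*} [Fintype ι] [DecidableEq ι]

/-- potential of the full system: complex values `y` on the patch `Q` (energy `E`, absorption
`ee`), `W0` outside -/
noncomputable def Wc (W0 : ι → ℂ) (Q : Finset ι) (E : ℝ) (ee : ι → ℝ) (y : Q → ℂ) : ι → ℂ :=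
  fun i => if h : i ∈ Q then y ⟨i, h⟩ - E - Complex.I * ee i else W0 i

/-- the matrix `A - E - i ee` on the patch, `A` outside -/
noncomputable def Bp (A : Matrix ι ι ℝ) (Q : Finset ι) (E : ℝ) (ee : ι → ℝ) : Matrix ι ι ℂ :=
  A.map (fun r : ℝ => (r : ℂ)) +
    Matrix.diagonal fun i => if i ∈ Q then -(E : ℂ) - Complex.I * ee i else 0

theorem Mz_Bp (A : Matrix ι ι ℝ) (W0 : ι → ℂ) (Q : Finset ι) (E : ℝ) (ee : ι → ℝ) (y : Q → ℂ) :
    Mz (Bp A Q E ee) (fil Q W0 y) = Kmat A (Wc W0 Q E ee y) := by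
  ext i j
  by_cases hij : i = j
  · subst hij
    by_cases h : i ∈ Q
    · simp [Mz, Bp, Kmat, Wc, fil, h]; ring
    · simp [Mz, Bp, Kmat, Wc, fil, h]; ring
  · simp [Mz, Bp, Kmat, hij]

theorem dissB_Bp {A : Matrix ι ι ℝ} (hA : A.IsSymm) (Q : Finset ι) (E : ℝ) {ee : ι → ℝ}
    (he : ∀ i ∈ Q, 0 ≤ ee i) : DissB (Bp A Q E ee) := by
  intro v
  have h0 := dissB_real hA (e := fun _ => 0) (fun _ => le_rfl) 0 v
  have h1 : (Bp A Q E ee) = (A.map (fun t : ℝ => (t : ℂ)) +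
      Matrix.diagonal fun i => -((0 : ℝ) : ℂ) - Complex.I * ((0 : ℝ) : ℂ)) +
        Matrix.diagonal fun i => if i ∈ Q then -(E : ℂ) - Complex.I * ee i else 0 := by
    have : (Matrix.diagonal fun _ : ι => -((0 : ℝ) : ℂ) - Complex.I * ((0 : ℝ) : ℂ)) =
        (0 : Matrix ι ι ℂ) := by
      ext i j; by_cases h : i = j <;> simp [h]
    rw [this, add_zero]
    rfl
  rw [h1, add_mulVec, dotProduct_add, Complex.add_im]
  have h2 : (star v ⬝ᵥ ((Matrix.diagonal fun i => if i ∈ Q then -(E : ℂ) - Complex.I * ee i else 0)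
      *ᵥ v)).im ≤ 0 := by
    simp only [dotProduct, mulVec_diagonal, Pi.star_apply, Complex.im_sum]
    refine Finset.sum_nonpos fun i _ => ?_
    by_cases h : i ∈ Q
    · simp only [h, if_true]
      have : star (v i) * ((-(E : ℂ) - Complex.I * ee i) * v i) =
          (-(E : ℂ) - Complex.I * ee i) * ((Complex.normSq (v i) : ℝ) : ℂ) := by
        rw [Complex.star_def, ← Complex.mul_conj]; ring
      rw [this]
      simp only [Complex.mul_im, Complex.sub_re, Complex.neg_re, Complex.ofReal_re,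
        Complex.ofReal_im, Complex.sub_im, Complex.neg_im, Complex.mul_re, Complex.I_re,
        Complex.I_im]
      nlinarith [mul_nonneg (he i h) (Complex.normSq_nonneg (v i))]
    · simp [h]
  linarith

/-- the linear map whose squared norm is the far energy -/
noncomputable def Tfar (W0 : ι → ℂ) (Q : Finset ι) (f : ι → ℝ) (fo : ℝ) :
    (ι → ℂ) →ₗ[ℂ] EuclideanSpace ℂ ι where
  toFun v := WithLp.toLp 2 fun a => if a ∈ Q then 0 else
    ((Real.sqrt (-(W0 a).im) * |f a - fo| : ℝ) : ℂ) * v a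
  map_add' u v := by
    ext a
    by_cases h : a ∈ Q <;> simp [h, mul_add]
  map_smul' c v := by
    ext a
    by_cases h : a ∈ Q
    · simp [h]
    · simp [h]; ring

theorem norm_Tfar_sq {W0 : ι → ℂ} {Q : Finset ι} (h0 : ∀ i ∉ Q, (W0 i).im < 0) (f : ι → ℝ)
    (fo : ℝ) (v : ι → ℂ) : ‖Tfar W0 Q f fo v‖ ^ 2 =
      ∑ a ∈ Qᶜ, (-(W0 a).im) * ‖v a‖ ^ 2 * (f a - fo) ^ 2 := by
  rw [EuclideanSpace.norm_sq_eq]
  rw [← Finset.sum_subset (Finset.subset_univ Qᶜ)]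
  · refine Finset.sum_congr rfl fun a ha => ?_
    have haQ : a ∉ Q := Finset.mem_compl.mp ha
    have h1 : (Tfar W0 Q f fo v) a = ((Real.sqrt (-(W0 a).im) * |f a - fo| : ℝ) : ℂ) * v a := by
      simp [Tfar, haQ]
    rw [h1, norm_mul, mul_pow, Complex.norm_real, Real.norm_eq_abs, sq_abs, mul_pow,
      Real.sq_sqrt (by linarith [h0 a haQ]), sq_abs]
    ring
  · intro a _ ha
    have haQ : a ∈ Q := by
      by_contra h
      exact ha (Finset.mem_compl.mpr h)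
    simp [Tfar, haQ]

theorem Wc_im_neg {W0 : ι → ℂ} {Q : Finset ι} (h0 : ∀ i ∉ Q, (W0 i).im < 0) {E : ℝ} {ee : ι → ℝ}
    (he : ∀ i ∈ Q, 0 < ee i) {y : Q → ℂ} (hy : ∀ i, (y i).im ≤ 0) (i : ι) :
    (Wc W0 Q E ee y i).im < 0 := by
  by_cases h : i ∈ Q
  · have h1 := hy ⟨i, h⟩
    have h2 := he i h
    have h3 : (Wc W0 Q E ee y i).im = (y ⟨i, h⟩).im - ee i := by
      simp [Wc, h]
    rw [h3]; linarith
  · simpa [Wc, h] using h0 i h

theorem norm_GT_sq {A : Matrix ι ι ℝ} (hA : A.IsSymm) {W0 : ι → ℂ} {Q : Finset ι}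
    (h0 : ∀ i ∉ Q, (W0 i).im < 0) (E : ℝ) (ee : ι → ℝ) (f : ι → ℝ) (fo : ℝ) (x : ι) (y : Q → ℂ) :
    ‖MAff.GT (Bp A Q E ee) (Tfar W0 Q f fo) x (fil Q W0 y)‖ ^ 2 =
      Mfar A (Wc W0 Q E ee y) f Q fo x := by
  unfold MAff.GT
  rw [norm_Tfar_sq h0, Mfar]
  refine Finset.sum_congr rfl fun a ha => ?_
  have haQ : a ∉ Q := Finset.mem_compl.mp ha
  rw [Mz_Bp]
  have h1 : Wc W0 Q E ee y a = W0 a := by simp [Wc, haQ]
  rw [h1, KK, ← Gr_symm hA a x]
  rfl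

/-! ### comparison with the quantities of chapter A -/

variable {A : Matrix ι ι ℝ} {W : ι → ℂ}

/-- the far cost at `x` is the far energy with `W_x` replaced by any `w` in the lower half plane -/
theorem Nfar_div_le (hA : A.IsSymm) (hW : ∀ x, (W x).im < 0) {Q : Finset ι} (f : ι → ℝ) (fo : ℝ)
    {x : ι} (hx : x ∈ Q) {w : ℂ} (hw : w.im < 0) :
    Nfar A W f Q fo x / (1 + ‖sg A W x‖ ^ 2) ≤
      2 * (1 + ‖w‖ ^ 2) * Mfar A (update W x w) f Q fo x := by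
  have hsg := sg_im_nonneg hA hW x
  have h1 : Mfar A (update W x w) f Q fo x = Nfar A W f Q fo x * (‖w - sg A W x‖ ^ 2)⁻¹ := by
    unfold Mfar Nfar
    rw [Finset.sum_mul]
    refine Finset.sum_congr rfl fun a ha => ?_
    have hax : a ≠ x := fun h => (Finset.mem_compl.mp ha) (h ▸ hx)
    rw [update_of_ne hax, KK_eq_gw hA (update_neg hW hw), gw_upd hA hW hw, Gr_zz_upd hA hW hw,
      norm_inv, inv_pow]
    ring
  have h2 : 0 < ‖w - sg A W x‖ := by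
    rw [norm_pos_iff]
    intro h
    have := congrArg Complex.im h
    simp only [Complex.sub_im, Complex.zero_im] at this
    linarith
  have h3 : ‖w - sg A W x‖ ^ 2 ≤ 2 * (1 + ‖w‖ ^ 2) * (1 + ‖sg A W x‖ ^ 2) := by
    have h4 : ‖w - sg A W x‖ ≤ ‖w‖ + ‖sg A W x‖ := norm_sub_le _ _
    have h5 : ‖w - sg A W x‖ ^ 2 ≤ (‖w‖ + ‖sg A W x‖) ^ 2 :=
      pow_le_pow_left₀ (norm_nonneg _) h4 2
    nlinarith [sq_nonneg (‖w‖ - ‖sg A W x‖), mul_nonneg (sq_nonneg ‖w‖) (sq_nonneg ‖sg A W x‖)]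
  rw [h1, div_le_iff₀ (by positivity)]
  have hN := Nfar_nonneg hW f Q fo x (A := A)
  calc Nfar A W f Q fo x = Nfar A W f Q fo x * ((‖w - sg A W x‖ ^ 2)⁻¹ * ‖w - sg A W x‖ ^ 2) := by
        rw [inv_mul_cancel₀ (by positivity), mul_one]
    _ ≤ Nfar A W f Q fo x * ((‖w - sg A W x‖ ^ 2)⁻¹ *
          (2 * (1 + ‖w‖ ^ 2) * (1 + ‖sg A W x‖ ^ 2))) := by gcongr
    _ = _ := by ring

theorem update_Wc (W0 : ι → ℂ) (Q : Finset ι) (E : ℝ) (ee : ι → ℝ) (y : Q → ℂ) (x : Q) (w : ℂ) :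
    update (Wc W0 Q E ee y) x (w - E - Complex.I * ee x) = Wc W0 Q E ee (update y x w) := by
  ext i
  by_cases hi : i = x
  · subst hi; simp [Wc]
  · rw [update_of_ne hi]
    by_cases h : i ∈ Q
    · have : (⟨i, h⟩ : Q) ≠ x := fun h' => hi (congrArg Subtype.val h')
      simp [Wc, h, this]
    · simp [Wc, h]

theorem norm_w_sq (L E e : ℝ) :
    ‖-(L : ℂ) * Complex.I - E - Complex.I * e‖ ^ 2 = E ^ 2 + (L + e) ^ 2 := by
  rw [Complex.sq_norm, Complex.normSq_apply]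
  simp only [Complex.sub_re, Complex.mul_re, Complex.neg_re, Complex.ofReal_re, Complex.I_re,
    Complex.neg_im, Complex.ofReal_im, Complex.I_im, Complex.sub_im, Complex.mul_im]
  ring

/-- the off-resonant cost at `x` is bounded by the squared norm of `GT` with `V_x := -iL` -/
theorem cost_le_GT (hA : A.IsSymm) {W0 : ι → ℂ} {Q : Finset ι} (h0 : ∀ i ∉ Q, (W0 i).im < 0)
    {E L : ℝ} (hL : 0 < L) {ee : ι → ℝ} (he : ∀ i ∈ Q, 0 < ee i) (x : Q) {f : ι → ℝ} {fo m : ℝ}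
    (hx : |fo - f x| ≤ m) (hB : ∀ z ∈ Q, |f z - f x| ≤ m) (V : Q → ℝ) :
    Nf A (Wc W0 Q E ee (cx V)) f x / (1 + ‖sg A (Wc W0 Q E ee (cx V)) x‖ ^ 2) ≤
      4 * (1 + E ^ 2 + (L + ee x) ^ 2) * ‖MAff.GT (Bp A Q E ee) (Tfar W0 Q f fo) x
        (fil Q W0 (update (cx V) x (-(L : ℂ) * Complex.I)))‖ ^ 2 + 2 * m ^ 2 * (1 + ee x) := by
  have hW : ∀ i, (Wc W0 Q E ee (cx V) i).im < 0 :=
    Wc_im_neg h0 he (fun i => by simp [cx])
  have hw : (-(L : ℂ) * Complex.I - E - Complex.I * ee x).im < 0 := by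
    have := he x x.2
    simp only [Complex.sub_im, Complex.mul_im, Complex.neg_re, Complex.ofReal_re, Complex.I_im,
      Complex.neg_im, Complex.ofReal_im, Complex.I_re]
    linarith
  have h1 := Y_le_far hA hW hx hB
  have h2 := Nfar_div_le hA hW f fo x.2 hw (Q := Q)
  have hexx : -(Wc W0 Q E ee (cx V) x).im = ee x := by
    simp [Wc, cx]
  rw [hexx] at h1
  rw [update_Wc, ← norm_GT_sq hA h0, norm_w_sq] at h2
  nlinarith [h1, h2]

/-- **Crude Harnack inequality at a site, chapter A notation.** -/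
theorem wch_site (hA : A.IsSymm) {W0 : ι → ℂ} {Q : Finset ι} (h0 : ∀ i ∉ Q, (W0 i).im < 0)
    {E L : ℝ} (hL : 0 < L) {ee : ι → ℝ} (he : ∀ i ∈ Q, 0 < ee i) (x y : Q) (hxy : x ≠ y)
    {f : ι → ℝ} {fo m : ℝ} (hx : |fo - f x| ≤ m) (hB : ∀ z ∈ Q, |f z - f x| ≤ m)
    (hy : |fo - f y| ≤ m) {c2 : ℝ} (hc2 : 0 < c2) {y2 : Q → ℂ} (hy2 : ∀ i, ‖y2 i‖ ≤ L)
    (hcof : c2 * ‖(Mz (Bp A Q E ee) (fil Q W0 fun _ => -(L : ℂ) * Complex.I)).det‖ ≤
      ‖(Mz (Bp A Q E ee) (fil Q W0 y2)).adjugate x y‖)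
    {ε : ℕ → ℝ} (hε : ∀ k, 0 < ε k) (e : Q ≃ Fin Q.card) {V : Q → ℝ} (hV : ∀ i, |V i| ≤ L)
    (hJ : ∀ k < Q.card,
      V ∉ Jset e (detx (Bp A Q E ee) Q W0 L x) (fun _ => -(L : ℂ) * Complex.I) (ε k) k)
    (μ : Q → Measure ℝ) [∀ i, IsProbabilityMeasure (μ i)] {κ : ℝ≥0∞}
    (hμ : ∀ i, WinLaw (EuclideanSpace ℂ ι) κ L (μ i)) (hsupp : ∀ i, μ i {t | |t| ≤ L}ᶜ = 0) :
    κ ^ Q.card * ENNReal.ofReal (Nf A (Wc W0 Q E ee (cx V)) f x /
        (1 + ‖sg A (Wc W0 Q E ee (cx V)) x‖ ^ 2)) ≤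
      ENNReal.ofReal (8 * (1 + E ^ 2 + (L + ee x) ^ 2) *
        ((2 / (L * c2 * ∏ k ∈ Finset.range Q.card, ε k)) ^ 2 * 104976 ^ Q.card)) *
        ∫⁻ V', ENNReal.ofReal (Mf A (Wc W0 Q E ee (cx V')) f y +
          m ^ 2 * mm A (Wc W0 Q E ee (cx V')) y) ∂(Measure.pi μ) +
      κ ^ Q.card * ENNReal.ofReal (2 * m ^ 2 * (1 + ee x)) := by
  have hWn : ∀ (V' : Q → ℝ) (i : ι), (Wc W0 Q E ee (cx V') i).im < 0 := fun V' =>
    Wc_im_neg h0 he (fun i => by simp [cx])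
  have hdet : ∀ V' : Q → ℝ, (∀ i, |V' i| ≤ L) →
      (Mz (Bp A Q E ee) (fil Q W0 (cx V'))).det ≠ 0 := by
    intro V' _
    rw [Mz_Bp]
    have h1 := dissB_real hA (e := fun _ => 0) (fun _ => le_rfl) 0
    have h2 := det_ne_zero_of_im h1 (z := Wc W0 Q E ee (cx V')) (hWn V')
    have h3 : Mz (A.map (fun t : ℝ => (t : ℂ)) + Matrix.diagonal fun i : ι =>
        -((0 : ℝ) : ℂ) - Complex.I * ((0 : ℝ) : ℂ)) (Wc W0 Q E ee (cx V')) =
        Kmat A (Wc W0 Q E ee (cx V')) := by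
      ext i j
      by_cases hij : i = j
      · subst hij; simp [Mz, Kmat]; ring
      · simp [Mz, Kmat, hij]
    rwa [h3] at h2
  have hB' : DissB (Bp A Q E ee) := dissB_Bp hA Q E fun i hi => (he i hi).le
  have h1 := wch_graded hB' Q h0 hL x y hxy (Tfar W0 Q f fo) hc2 hy2 hcof hε e hV hJ μ hμ hsupp hdet
  have h2 := cost_le_GT hA h0 hL he x hx hB V (E := E) (fo := fo)
  set C1 : ℝ := 1 + E ^ 2 + (L + ee x) ^ 2 with hC1
  have hC1p : 0 < C1 := by positivity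
  set C2 : ℝ := (2 / (L * c2 * ∏ k ∈ Finset.range Q.card, ε k)) ^ 2 * 104976 ^ Q.card with hC2
  have hC2p : 0 ≤ C2 := by positivity
  set g : ℝ := ‖MAff.GT (Bp A Q E ee) (Tfar W0 Q f fo) x
        (fil Q W0 (update (cx V) x (-(L : ℂ) * Complex.I)))‖ with hg
  have hexx : 0 < ee x := he x x.2
  have h3 : ∫⁻ V', ‖MAff.GT (Bp A Q E ee) (Tfar W0 Q f fo) y (fil Q W0 (cx V'))‖ₑ ^ 2
        ∂(Measure.pi μ) ≤ 2 * ∫⁻ V', ENNReal.ofReal (Mf A (Wc W0 Q E ee (cx V')) f y +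
          m ^ 2 * mm A (Wc W0 Q E ee (cx V')) y) ∂(Measure.pi μ) := by
    rw [← lintegral_const_mul' _ _ (by norm_num)]
    refine lintegral_mono fun V' => ?_
    rw [← ofReal_norm, ← ENNReal.ofReal_pow (norm_nonneg _), norm_GT_sq hA h0,
      show (2 : ℝ≥0∞) = ENNReal.ofReal 2 by norm_num, ← ENNReal.ofReal_mul (by norm_num)]
    refine ENNReal.ofReal_le_ofReal ?_
    have := Mfar_le hA (hWn V') hy (B := Q)
    linarith
  calc κ ^ Q.card * ENNReal.ofReal (Nf A (Wc W0 Q E ee (cx V)) f x /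
        (1 + ‖sg A (Wc W0 Q E ee (cx V)) x‖ ^ 2))
      ≤ κ ^ Q.card * ENNReal.ofReal (4 * C1 * g ^ 2 + 2 * m ^ 2 * (1 + ee x)) := by
        gcongr
    _ = ENNReal.ofReal (4 * C1) * (κ ^ Q.card * ‖MAff.GT (Bp A Q E ee) (Tfar W0 Q f fo) x
        (fil Q W0 (update (cx V) x (-(L : ℂ) * Complex.I)))‖ₑ ^ 2) +
          κ ^ Q.card * ENNReal.ofReal (2 * m ^ 2 * (1 + ee x)) := by
        rw [ENNReal.ofReal_add (by positivity) (by positivity), ENNReal.ofReal_mul (by positivity),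
          mul_add, ← ofReal_norm, ← ENNReal.ofReal_pow (norm_nonneg _)]
        ring
    _ ≤ ENNReal.ofReal (4 * C1) * (ENNReal.ofReal C2 * (2 * ∫⁻ V', ENNReal.ofReal
          (Mf A (Wc W0 Q E ee (cx V')) f y +
          m ^ 2 * mm A (Wc W0 Q E ee (cx V')) y) ∂(Measure.pi μ))) +
          κ ^ Q.card * ENNReal.ofReal (2 * m ^ 2 * (1 + ee x)) := by
        refine add_le_add (mul_le_mul_of_nonneg_left ?_ zero_le) le_rfl
        exact h1.trans (mul_le_mul_of_nonneg_left h3 zero_le)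
    _ = _ := by
        congr 1
        rw [show ENNReal.ofReal (8 * C1 * C2) = ENNReal.ofReal (4 * C1) * ENNReal.ofReal C2 * 2 by
          rw [show (2 : ℝ≥0∞) = ENNReal.ofReal 2 by norm_num, ← ENNReal.ofReal_mul (by positivity),
            ← ENNReal.ofReal_mul (by positivity)]
          congr 1; ring]
        ring

end P365T1
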