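import Vale.Agent.P365.T1.WCH

/-!
# Graded crude Harnack inequality (thresholds `ε_l` depending on the site), P365 T1
-/

set_option autoImplicit false
set_option linter.unusedSectionVars false
set_option linter.unusedVariables false
set_option linter.dupNamespace false
set_option linter.style.header false
set_option linter.unusedSimpArgs false

open MeasureTheory Finset Function Matrix
open scoped ENNReal NNReal BigOperators

namespace P365T1.MAff

section
variable {ι : Type*} [DecidableEq ι] {n : ℕ} (e : ι ≃ Fin n)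
variable {F : Type*} [NormedAddCommGroup F] [NormedSpace ℂ F]

/-- off the graded exceptional events `‖f V‖ ≥ (∏ ε_k) ‖f z‖` -/
theorem le_norm_of_notMem' {f : (ι → ℂ) → F} {z : ι → ℂ} {ε : ℕ → ℝ} (h0 : ∀ k, 0 ≤ ε k)
    {V : ι → ℝ} (hV : ∀ k < n, V ∉ Jset e f z (ε k) k) :
    (∏ k ∈ Finset.range n, ε k) * ‖f z‖ ≤ ‖f (cx V)‖ := by
  have key : ∀ k ≤ n, (∏ j ∈ Finset.range k, ε j) * ‖f (hyb e k (cx V) z)‖ ≤ ‖f (cx V)‖ := by
    intro k hk
    induction k with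
    | zero => simp [hyb_zero]
    | succ k ih =>
      have h2 := hV k (by omega)
      simp only [Jset, Set.mem_ofPred_eq, not_lt] at h2
      have h3 := ih (by omega)
      have h4 : 0 ≤ ∏ j ∈ Finset.range k, ε j := Finset.prod_nonneg fun j _ => h0 j
      calc (∏ j ∈ Finset.range (k + 1), ε j) * ‖f (hyb e (k + 1) (cx V) z)‖
          = (∏ j ∈ Finset.range k, ε j) * (ε k * ‖f (hyb e (k + 1) (cx V) z)‖) := by
            rw [Finset.prod_range_succ]; ring
        _ ≤ (∏ j ∈ Finset.range k, ε j) * ‖f (hyb e k (cx V) z)‖ :=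
            mul_le_mul_of_nonneg_left h2 h4
        _ ≤ _ := h3
  have := key n le_rfl
  rwa [hyb_top] at this

end

variable {ι : Type*} [Fintype ι] [DecidableEq ι]
variable {F : Type*} [NormedAddCommGroup F] [NormedSpace ℂ F]

/-- **Crude Harnack inequality, one-sided form.**  If at a real configuration `V` of the patch the
determinant with `V_x` replaced by `-iL` is at least `q` times the determinant at `-iL` everywhere,
then the off-resonant far energy at `x` is bounded by the mean far energy at `y`. -/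
theorem wch_of_det [MeasurableSpace F] [BorelSpace F] {B : Matrix ι ι ℂ} (hB : DissB B)
    (Q : Finset ι) {z0 : ι → ℂ} (h0 : ∀ i ∉ Q, (z0 i).im < 0) {L : ℝ} (hL : 0 < L) (x y : Q)
    (hxy : x ≠ y) (T : (ι → ℂ) →ₗ[ℂ] F) {c2 : ℝ} (hc2 : 0 < c2) {y2 : Q → ℂ}
    (hy2 : ∀ i, ‖y2 i‖ ≤ L)
    (hcof : c2 * ‖(Mz B (fil Q z0 fun _ => -(L : ℂ) * Complex.I)).det‖ ≤
      ‖(Mz B (fil Q z0 y2)).adjugate x y‖)
    {q : ℝ} (hq : 0 < q) {V : Q → ℝ} (hV : ∀ i, |V i| ≤ L)
    (hdetV : q * ‖(Mz B (fil Q z0 fun _ => -(L : ℂ) * Complex.I)).det‖ ≤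
      ‖(Mz B (fil Q z0 (update (cx V) x (-(L : ℂ) * Complex.I)))).det‖)
    (μ : Q → Measure ℝ) [∀ i, IsProbabilityMeasure (μ i)] {κ : ℝ≥0∞}
    (hμ : ∀ i, WinLaw F κ L (μ i)) (hsupp : ∀ i, μ i {t | |t| ≤ L}ᶜ = 0)
    (hdet : ∀ V' : Q → ℝ, (∀ i, |V' i| ≤ L) → (Mz B (fil Q z0 (cx V'))).det ≠ 0) :
    κ ^ Q.card * ‖GT B T x (fil Q z0 (update (cx V) x (-(L : ℂ) * Complex.I)))‖ₑ ^ 2 ≤
      ENNReal.ofReal ((2 / (L * c2 * q)) ^ 2 * 104976 ^ Q.card) *
        ∫⁻ V', ‖GT B T y (fil Q z0 (cx V'))‖ₑ ^ 2 ∂(Measure.pi μ) := by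
  set n := Q.card with hn
  set D0 : ℝ := ‖(Mz B (fil Q z0 fun _ => -(L : ℂ) * Complex.I)).det‖ with hD0
  have hD0pos : 0 < D0 := norm_pos_iff.mpr (stable_det hB _ fun i => by
    by_cases h : i ∈ Q
    · simp [fil, h, hL]
    · simpa [fil, h] using h0 i h)
  -- a maximum point of `P_y` on the real cube
  have hcomp : IsCompact {V : Q → ℝ | ∀ i, |V i| ≤ L} := by
    have : {V : Q → ℝ | ∀ i, |V i| ≤ L} = Set.univ.pi fun _ => Set.Icc (-L) L := by
      ext V
      simp only [Set.mem_ofPred_eq, Set.mem_univ_pi, Set.mem_Icc]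
      exact forall_congr' fun i => abs_le
    rw [this]
    exact isCompact_univ_pi fun _ => isCompact_Icc
  have hPc : Continuous fun V : Q → ℝ => ‖Pv B T y (fil Q z0 (cx V))‖ :=
    ((continuous_Pv B T y).comp ((continuous_fil Q z0).comp continuous_cx)).norm
  obtain ⟨Vs, hVs, hmax⟩ := hcomp.exists_isMaxOn ⟨fun _ => 0, fun i => by simp [hL.le]⟩
    hPc.continuousOn
  set Sy : ℝ := ‖Pv B T y (fil Q z0 (cx Vs))‖ with hSy
  have h1 : c2 * ‖Pv B T x (fil Q z0 (cx V))‖ ≤ 2 / L * 162 ^ n * Sy := by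
    refine norm_Pv_le hB Q h0 hL x.2 y.2 (fun h => hxy (Subtype.ext h)) T hc2.le hy2 hcof
      (fun V' hV' => hmax hV') (fun i => ?_)
    simpa [cx] using hV i
  -- second moment
  have h2 : κ ^ n * ENNReal.ofReal Sy ^ 2 ≤ ∫⁻ V', ‖Pv B T y (fil Q z0 (cx V'))‖ₑ ^ 2
      ∂(Measure.pi μ) := by
    have h3 := lintegral_sq_ge_univ (f := fun z : Q → ℂ => Pv B T y (fil Q z0 z))
      (maff_fil (maff_Pv B T y) Q z0)
      ((continuous_Pv B T y).comp (continuous_fil Q z0)).measurable μ (L := L) (z := cx Vs)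
      (fun i => by simpa [cx] using hVs i) hμ
    rw [Fintype.card_coe] at h3
    rwa [hSy, ofReal_norm]
  -- the determinant on the cube
  have h4 : ∫⁻ V', ‖Pv B T y (fil Q z0 (cx V'))‖ₑ ^ 2 ∂(Measure.pi μ) ≤
      ENNReal.ofReal ((2 ^ n * D0) ^ 2) *
        ∫⁻ V', ‖GT B T y (fil Q z0 (cx V'))‖ₑ ^ 2 ∂(Measure.pi μ) := by
    rw [← lintegral_const_mul' _ _ ENNReal.ofReal_ne_top]
    refine lintegral_mono_ae ?_
    have hae : ∀ᵐ V' ∂(Measure.pi μ), ∀ i, |V' i| ≤ L := by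
      rw [ae_all_iff]
      intro i
      have h5 : ∀ᵐ t ∂(μ i), |t| ≤ L := by
        rw [ae_iff]; exact hsupp i
      exact (Measure.quasiMeasurePreserving_eval (μ := μ) i).ae h5
    filter_upwards [hae] with V' hV'
    have h6 := det_le hB Q h0 hL hV'
    have h7 : ‖Pv B T y (fil Q z0 (cx V'))‖ ≤
        (2 ^ n * D0) * ‖GT B T y (fil Q z0 (cx V'))‖ := by
      have h8 : Pv B T y (fil Q z0 (cx V')) =
          (Mz B (fil Q z0 (cx V'))).det • GT B T y (fil Q z0 (cx V')) := by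
        rw [GT_eq, smul_smul, mul_inv_cancel₀ (hdet V' hV'), one_smul]
      rw [h8, norm_smul]
      gcongr
    rw [← ofReal_norm, ← ofReal_norm, ← ENNReal.ofReal_pow (norm_nonneg _),
      ← ENNReal.ofReal_pow (norm_nonneg _), ← ENNReal.ofReal_mul (by positivity), ← mul_pow]
    exact ENNReal.ofReal_le_ofReal (pow_le_pow_left₀ (norm_nonneg _) h7 2)
  have h12 : ‖GT B T x (fil Q z0 (update (cx V) x (-(L : ℂ) * Complex.I)))‖ ≤
      ‖Pv B T x (fil Q z0 (cx V))‖ / (q * D0) := by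
    rw [GT_eq, norm_smul, norm_inv, fil_update, Pv_update_self, ← fil_update, div_eq_inv_mul]
    gcongr
  set X : ℝ := ‖Pv B T x (fil Q z0 (cx V))‖ with hX
  have hSy0 : 0 ≤ Sy := norm_nonneg _
  have h13 : ‖GT B T x (fil Q z0 (update (cx V) x (-(L : ℂ) * Complex.I)))‖ ≤
      (2 / (L * c2 * q) * 162 ^ n / D0) * Sy := by
    refine h12.trans ?_
    have h14 : X ≤ 2 / (L * c2) * 162 ^ n * Sy := by
      have : X * c2 ≤ (2 / (L * c2) * 162 ^ n * Sy) * c2 := by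
        calc X * c2 = c2 * X := mul_comm _ _
          _ ≤ 2 / L * 162 ^ n * Sy := h1
          _ = (2 / (L * c2) * 162 ^ n * Sy) * c2 := by field_simp
      exact le_of_mul_le_mul_right this hc2
    calc X / (q * D0) ≤ (2 / (L * c2) * 162 ^ n * Sy) / (q * D0) := by gcongr
      _ = (2 / (L * c2 * q) * 162 ^ n / D0) * Sy := by field_simp
  set Y : ℝ≥0∞ := ∫⁻ V', ‖GT B T y (fil Q z0 (cx V'))‖ₑ ^ 2 ∂(Measure.pi μ) with hY
  calc κ ^ n * ‖GT B T x (fil Q z0 (update (cx V) x (-(L : ℂ) * Complex.I)))‖ₑ ^ 2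
      ≤ κ ^ n * ENNReal.ofReal ((2 / (L * c2 * q) * 162 ^ n / D0) * Sy) ^ 2 := by
        gcongr
        rw [← ofReal_norm]
        exact ENNReal.ofReal_le_ofReal h13
    _ = ENNReal.ofReal (2 / (L * c2 * q) * 162 ^ n / D0) ^ 2 * (κ ^ n * ENNReal.ofReal Sy ^ 2) := by
        rw [ENNReal.ofReal_mul (by positivity), mul_pow]; ring
    _ ≤ ENNReal.ofReal (2 / (L * c2 * q) * 162 ^ n / D0) ^ 2 *
          (ENNReal.ofReal ((2 ^ n * D0) ^ 2) * Y) :=
        mul_le_mul_of_nonneg_left (h2.trans h4) zero_le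
    _ = ENNReal.ofReal ((2 / (L * c2 * q)) ^ 2 * 104976 ^ n) * Y := by
        rw [← mul_assoc, ← ENNReal.ofReal_pow (by positivity), ← ENNReal.ofReal_mul (by positivity)]
        congr 2
        have h15 : (104976 : ℝ) ^ n = (162 ^ n) ^ 2 * (2 ^ n) ^ 2 := by
          rw [← pow_mul, ← pow_mul, mul_comm n 2, pow_mul, pow_mul, ← mul_pow]
          congr 1
          norm_num
        rw [h15]
        field_simp

/-- **Graded version**: off the exceptional events with thresholds `ε_k`. -/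
theorem wch_graded [MeasurableSpace F] [BorelSpace F] {B : Matrix ι ι ℂ} (hB : DissB B)
    (Q : Finset ι) {z0 : ι → ℂ} (h0 : ∀ i ∉ Q, (z0 i).im < 0) {L : ℝ} (hL : 0 < L) (x y : Q)
    (hxy : x ≠ y) (T : (ι → ℂ) →ₗ[ℂ] F) {c2 : ℝ} (hc2 : 0 < c2) {y2 : Q → ℂ}
    (hy2 : ∀ i, ‖y2 i‖ ≤ L)
    (hcof : c2 * ‖(Mz B (fil Q z0 fun _ => -(L : ℂ) * Complex.I)).det‖ ≤
      ‖(Mz B (fil Q z0 y2)).adjugate x y‖)
    {ε : ℕ → ℝ} (hε : ∀ k, 0 < ε k) (e : Q ≃ Fin Q.card) {V : Q → ℝ} (hV : ∀ i, |V i| ≤ L)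
    (hJ : ∀ k < Q.card, V ∉ Jset e (detx B Q z0 L x) (fun _ => -(L : ℂ) * Complex.I) (ε k) k)
    (μ : Q → Measure ℝ) [∀ i, IsProbabilityMeasure (μ i)] {κ : ℝ≥0∞}
    (hμ : ∀ i, WinLaw F κ L (μ i)) (hsupp : ∀ i, μ i {t | |t| ≤ L}ᶜ = 0)
    (hdet : ∀ V' : Q → ℝ, (∀ i, |V' i| ≤ L) → (Mz B (fil Q z0 (cx V'))).det ≠ 0) :
    κ ^ Q.card * ‖GT B T x (fil Q z0 (update (cx V) x (-(L : ℂ) * Complex.I)))‖ₑ ^ 2 ≤
      ENNReal.ofReal ((2 / (L * c2 * ∏ k ∈ Finset.range Q.card, ε k)) ^ 2 * 104976 ^ Q.card) *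
        ∫⁻ V', ‖GT B T y (fil Q z0 (cx V'))‖ₑ ^ 2 ∂(Measure.pi μ) := by
  refine wch_of_det hB Q h0 hL x y hxy T hc2 hy2 hcof (Finset.prod_pos fun k _ => hε k) hV ?_ μ hμ
    hsupp hdet
  have h10 := le_norm_of_notMem' e (fun k => (hε k).le) hJ
  have h11 : detx B Q z0 L x (fun _ => -(L : ℂ) * Complex.I) =
      (Mz B (fil Q z0 fun _ => -(L : ℂ) * Complex.I)).det := by
    unfold detx
    congr 3
    ext i
    by_cases hi : i = x
    · subst hi; simp
    · simp [hi]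
  rw [h11] at h10
  exact h10

/-! ### dissipative matrices -/

/-- strict dissipativity on vectors that do not vanish: all the determinants on the real cube are
nonzero -/
theorem det_ne_zero_of_im {B : Matrix ι ι ℂ} (hB : DissB B) {z : ι → ℂ} (hz : ∀ i, (z i).im < 0) :
    (Mz B z).det ≠ 0 := stable_det hB z hz

/-- `A - E - i diag(e)` with `A` real symmetric and `e ≥ 0` -/
theorem dissB_real {A : Matrix ι ι ℝ} (hA : A.IsSymm) {e : ι → ℝ} (he : ∀ i, 0 ≤ e i) (E : ℝ) :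
    DissB (A.map (fun t : ℝ => (t : ℂ)) + Matrix.diagonal fun i => -(E : ℂ) - Complex.I * e i) := by
  intro v
  have h1 : (star v ⬝ᵥ ((A.map (fun t : ℝ => (t : ℂ))) *ᵥ v)).im = 0 := by
    have h0 : star v ⬝ᵥ ((A.map (fun t : ℝ => (t : ℂ))) *ᵥ v) =
        ∑ i, ∑ j, (starRingEnd ℂ) (v i) * ((A i j : ℂ) * v j) := by
      simp only [dotProduct, mulVec, Pi.star_apply, Matrix.map_apply, Finset.mul_sum,
        Complex.star_def]
    have h2 : (starRingEnd ℂ) (star v ⬝ᵥ ((A.map (fun t : ℝ => (t : ℂ))) *ᵥ v)) =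
        star v ⬝ᵥ ((A.map (fun t : ℝ => (t : ℂ))) *ᵥ v) := by
      rw [h0, map_sum, Finset.sum_comm]
      simp only [map_sum]
      rw [Finset.sum_comm]
      conv_rhs => rw [Finset.sum_comm]
      refine Finset.sum_congr rfl fun i _ => Finset.sum_congr rfl fun j _ => ?_
      simp only [map_mul, Complex.conj_conj, Complex.conj_ofReal]
      rw [hA.apply]
      ring
    exact Complex.conj_eq_iff_im.mp h2
  rw [add_mulVec, dotProduct_add, Complex.add_im, h1, zero_add]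
  simp only [dotProduct, mulVec_diagonal, Pi.star_apply, Complex.im_sum]
  refine Finset.sum_nonpos fun i _ => ?_
  have : star (v i) * ((-(E : ℂ) - Complex.I * e i) * v i) =
      (-(E : ℂ) - Complex.I * e i) * (star (v i) * v i) := by ring
  rw [this, Complex.star_def, ← Complex.normSq_eq_conj_mul_self]
  simp only [Complex.mul_im, Complex.sub_re, Complex.neg_re, Complex.ofReal_re, Complex.ofReal_im,
    Complex.sub_im, Complex.neg_im, Complex.mul_re, Complex.I_re, Complex.I_im]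
  nlinarith [mul_nonneg (he i) (Complex.normSq_nonneg (v i))]

end P365T1.MAff
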